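import Vale.Agent.Lib.P095E.Defs

/-!
# P095 stage 2 (amenable groups): common definitions of the tracial part

See `PROOF2.md` (same folder).
-/

open scoped ENNReal Topology

namespace P095F

universe u v

section PTr

variable {E : Type u} [CStarAlgebra E]

/-- positive tracial functional -/
structure PTr (ψ : E →ₗ[ℂ] ℂ) : Prop where
  nonneg : ∀ x : E, 0 ≤ (ψ (star x * x)).re
  im_eq : ∀ x : E, (ψ (star x * x)).im = 0
  comm : ∀ x y : E, ψ (x * y) = ψ (y * x)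

/-- the square of the 2-seminorm, `ψ(x* x)` -/
noncomputable def sq2 (ψ : E →ₗ[ℂ] ℂ) (x : E) : ℝ := (ψ (star x * x)).re

end PTr

/-- Følner's condition: for every finite `K₀` and `ε > 0` there is a finite nonempty `K` with
`|h K \ K| ≤ ε |K|` for all `h ∈ K₀` (for countable discrete groups this is amenability). -/
def FolnerGroup (G : Type v) [Group G] : Prop :=
  ∀ (K₀ : Finset G) (ε : ℝ), 0 < ε → ∃ K : Finset G, K.Nonempty ∧
    ∀ h ∈ K₀, (Nat.card {g : G // g ∉ K ∧ h⁻¹ * g ∈ K} : ℝ) ≤ ε * K.card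

section Sys

variable {G : Type v} [Group G] {M : Type u} [CStarAlgebra M]

/-- an invariant set of tracial states -/
structure TrSys (α : G →* (M ≃⋆ₐ[ℂ] M)) (T : Set (M →ₗ[ℂ] ℂ)) : Prop where
  ptr : ∀ τ ∈ T, PTr τ
  one : ∀ τ ∈ T, τ 1 = 1
  inv : ∀ τ ∈ T, ∀ g : G, ∃ τ' ∈ T, ∀ x, τ' x = τ (α g x)

/-- closed separable invariant *-subalgebras -/
structure Adm (α : G →* (M ≃⋆ₐ[ℂ] M)) (B : StarSubalgebra ℂ M) : Prop where
  closed : IsClosed (B : Set M)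
  sep : TopologicalSpace.IsSeparable (B : Set M)
  inv : ∀ g, ∀ b ∈ B, α g b ∈ B

/-- all matrix algebras embed unitally into the relative commutants of the admissible `B` -/
def HasMat (α : G →* (M ≃⋆ₐ[ℂ] M)) : Prop :=
  ∀ B : StarSubalgebra ℂ M, Adm α B → ∀ k : ℕ, 1 ≤ k →
    ∃ j : Matrix (Fin k) (Fin k) ℂ →⋆ₐ[ℂ] M, ∀ x, ∀ b ∈ B, Commute (j x) b

/-- approximate equivariant property Gamma -/
def GammaApprox (α : G →* (M ≃⋆ₐ[ℂ] M)) (T : Set (M →ₗ[ℂ] ℂ)) : Prop :=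
  ∀ (K₀ : Finset G) (η : ℝ), 0 < η → ∀ B : StarSubalgebra ℂ M, Adm α B →
    ∃ m : M, star m = m ∧ ‖m‖ ≤ 1 ∧ (∀ b ∈ B, Commute m b) ∧ (∀ τ ∈ T, ∀ b ∈ B, τ (b * m) = 0) ∧
      (∀ τ ∈ T, (τ (1 - m * m)).re ≤ η) ∧ ∀ τ ∈ T, ∀ h ∈ K₀, sq2 τ (α h m - m) ≤ η

/-- exact equivariant property Gamma -/
def GammaExact (α : G →* (M ≃⋆ₐ[ℂ] M)) (T : Set (M →ₗ[ℂ] ℂ)) : Prop :=
  ∀ B : StarSubalgebra ℂ M, Adm α B →
    ∃ m : M, star m = m ∧ m * m = 1 ∧ (∀ g, α g m = m) ∧ (∀ b ∈ B, Commute m b) ∧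
      ∀ τ ∈ T, ∀ b ∈ B, τ (b * m) = 0

/-- the data of one round (`PROOF2.md`, part T2): small almost invariant nilpotents -/
def RoundData (α : G →* (M ≃⋆ₐ[ℂ] M)) (T : Set (M →ₗ[ℂ] ℂ)) (K₀ : Finset G) (ρ t : ℝ) : Prop :=
  ∀ B : StarSubalgebra ℂ M, Adm α B → ∃ v k : M,
    (∀ b ∈ B, Commute v b ∧ Commute (star v) b ∧ Commute k b) ∧
    star k = k ∧ ‖k‖ ≤ 1 ∧ ‖1 - k‖ ≤ 1 ∧ ‖v‖ ≤ 1 ∧ k * v = v ∧ v * k = v ∧
    ∀ τ ∈ T, ∀ z ∈ B,
      -- mean zero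
      τ (z * v) = 0 ∧
      -- size of the support
      sq2 τ z * t ≤ (τ (star z * z * (1 - (1 - k) * (1 - k)))).re ∧
      (τ (star z * z * k)).re ≤ 32 * t * sq2 τ z ∧
      -- `v² = 0` up to a small relative error
      (τ (star z * z * (star (v * v) * (v * v)))).re ≤ ρ * t * sq2 τ z ∧
      -- `v* v + v v* = 1 - (1 - k)²` up to a small relative error, in mean and in 2-norm
      ‖τ (z * (star v * v + v * star v - (1 - (1 - k) * (1 - k))))‖ ≤ ρ * t * √(sq2 τ z) ∧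
      sq2 τ (z * (star v * v + v * star v - (1 - (1 - k) * (1 - k)))) ≤ ρ * t * sq2 τ z ∧
      -- almost invariance up to a small relative error
      ∀ h ∈ K₀, sq2 τ (z * (α h v - v)) ≤ ρ * t * sq2 τ z ∧
        sq2 τ (z * (α h k - k)) ≤ ρ * t * sq2 τ z ∧
        ‖τ (z * (α h k - k))‖ ≤ ρ * t * √(sq2 τ z)

/-- the output of the tracial part: approximately invariant approximate `2 × 2` matrix units -/
def MatApprox (α : G →* (M ≃⋆ₐ[ℂ] M)) (T : Set (M →ₗ[ℂ] ℂ)) : Prop :=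
  ∀ (K₀ : Finset G) (η : ℝ), 0 < η → ∃ v : M, ‖v‖ ≤ 1 ∧ ∀ τ ∈ T, sq2 τ (v * v) ≤ η ∧
    sq2 τ (star v * v + v * star v - 1) ≤ η ∧ ∀ h ∈ K₀, sq2 τ (α h v - v) ≤ η

end Sys

end P095F
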