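import Vale.Agent.Lib.P101.Corestrict
import Vale.Agent.Lib.P095F.Defs

/-!
# P095F: admissible subalgebras (generation)
-/

open scoped Topology
open TopologicalSpace

namespace P095F

universe u v

variable {G : Type v} [Group G] {M : Type u} [CStarAlgebra M]

theorem aut_isometry (s : M ≃⋆ₐ[ℂ] M) : Isometry s :=
  AddMonoidHomClass.isometry_of_norm s
    fun x => NonUnitalStarAlgHom.norm_map (s : M →⋆ₐ[ℂ] M) s.injective x

theorem aut_norm (s : M ≃⋆ₐ[ℂ] M) (x : M) : ‖s x‖ = ‖x‖ :=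
  NonUnitalStarAlgHom.norm_map (s : M →⋆ₐ[ℂ] M) s.injective x

/-- the scalars are admissible -/
theorem adm_bot (α : G →* (M ≃⋆ₐ[ℂ] M)) : Adm α (⊥ : StarSubalgebra ℂ M) := by
  have hcoe : ((⊥ : StarSubalgebra ℂ M) : Set M) = Set.range (algebraMap ℂ M) := by
    ext x
    exact StarSubalgebra.mem_bot
  refine ⟨?_, ?_, ?_⟩
  · have h : ((⊥ : StarSubalgebra ℂ M) : Set M) = ((Submodule.span ℂ {(1 : M)} : Submodule ℂ M) :
        Set M) := by
      rw [hcoe]
      ext x
      simp only [Set.mem_range, SetLike.mem_coe, Submodule.mem_span_singleton,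
        Algebra.algebraMap_eq_smul_one]
    rw [h]
    exact Submodule.closed_of_finiteDimensional _
  · rw [hcoe]
    have hc : Continuous (algebraMap ℂ M) := continuous_algebraMap ℂ M
    exact TopologicalSpace.isSeparable_range hc
  · intro g b hb
    obtain ⟨c, rfl⟩ := StarSubalgebra.mem_bot.1 hb
    refine StarSubalgebra.mem_bot.2 ⟨c, ?_⟩
    rw [Algebra.algebraMap_eq_smul_one, map_smul, map_one]

/-- the admissible algebra generated by an admissible one and a countable invariant set -/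
theorem exists_adm_of_inv {α : G →* (M ≃⋆ₐ[ℂ] M)} {B : StarSubalgebra ℂ M} (hB : Adm α B)
    (S : Set M) (hS : S.Countable) (hinv : ∀ g, ∀ x ∈ S, α g x ∈ S) :
    ∃ B' : StarSubalgebra ℂ M, Adm α B' ∧ B ≤ B' ∧ S ⊆ (B' : Set M) := by
  obtain ⟨D0, hD0B, hD0c, hD0d⟩ : ∃ t ⊆ (B : Set M), t.Countable ∧ (B : Set M) ⊆ closure t := by
    have h := hB.sep
    obtain ⟨t, ht1, ht2, ht3⟩ := h.exists_countable_dense_subset
    exact ⟨t, ht1, ht2, ht3⟩
  set D : StarSubalgebra ℂ M := (StarAlgebra.adjoin ℂ (D0 ∪ S)).topologicalClosure with hD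
  have hsub : (D0 ∪ S) ⊆ (D : Set M) :=
    (StarAlgebra.subset_adjoin ℂ _).trans (StarSubalgebra.le_topologicalClosure _)
  have hDcl : IsClosed (D : Set M) := StarSubalgebra.isClosed_topologicalClosure _
  have hBD : B ≤ D := by
    intro x hx
    have h1 : x ∈ closure D0 := hD0d hx
    have h2 : closure D0 ⊆ (D : Set M) :=
      closure_minimal (Set.subset_union_left.trans hsub) hDcl
    exact h2 h1
  refine ⟨D, ⟨hDcl, ?_, ?_⟩, hBD, Set.subset_union_right.trans hsub⟩
  · rw [hD, StarSubalgebra.topologicalClosure_coe]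
    apply TopologicalSpace.IsSeparable.closure
    have h : ((StarAlgebra.adjoin ℂ (D0 ∪ S) : StarSubalgebra ℂ M) : Set M) =
        (Submodule.span ℂ (Submonoid.closure ((D0 ∪ S) ∪ star (D0 ∪ S)) : Set M) : Set M) := by
      rw [← Algebra.adjoin_eq_span]
      rfl
    rw [h]
    apply TopologicalSpace.IsSeparable.span
    apply Set.Countable.isSeparable
    apply P101.corestrict_countable_closure
    have hc2 : (D0 ∪ S).Countable := hD0c.union hS
    exact hc2.union (by simpa using hc2.image star)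
  · intro g b hb
    have h1 : StarAlgebra.adjoin ℂ (D0 ∪ S) ≤ D.comap (α g : M →⋆ₐ[ℂ] M) := by
      rw [StarAlgebra.adjoin_le_iff]
      rintro x (hx | hx)
      · exact hBD (hB.inv g x (hD0B hx))
      · exact hsub (Or.inr (hinv g x hx))
    have h2 : IsClosed ((D.comap (α g : M →⋆ₐ[ℂ] M) : StarSubalgebra ℂ M) : Set M) :=
      hDcl.preimage (aut_isometry (α g)).continuous
    exact StarSubalgebra.topologicalClosure_minimal h1 h2 hb

/-- the admissible algebra generated by an admissible one and a countable set, `G` countable -/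
theorem exists_adm [Countable G] {α : G →* (M ≃⋆ₐ[ℂ] M)} {B : StarSubalgebra ℂ M} (hB : Adm α B)
    (S : Set M) (hS : S.Countable) :
    ∃ B' : StarSubalgebra ℂ M, Adm α B' ∧ B ≤ B' ∧ S ⊆ (B' : Set M) := by
  obtain ⟨B', h1, h2, h3⟩ := exists_adm_of_inv hB (⋃ g : G, (α g) '' S)
    (Set.countable_iUnion fun g => hS.image _) (by
      intro g x hx
      obtain ⟨g', hg'⟩ := Set.mem_iUnion.1 hx
      obtain ⟨y, hy, rfl⟩ := hg'
      refine Set.mem_iUnion.2 ⟨g * g', y, hy, ?_⟩
      rw [map_mul]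
      rfl)
  refine ⟨B', h1, h2, fun x hx => h3 (Set.mem_iUnion.2 ⟨1, x, hx, ?_⟩)⟩
  rw [map_one]
  rfl

/-- same, for one or two elements -/
theorem exists_adm_two [Countable G] {α : G →* (M ≃⋆ₐ[ℂ] M)} {B : StarSubalgebra ℂ M}
    (hB : Adm α B) (x y : M) :
    ∃ B' : StarSubalgebra ℂ M, Adm α B' ∧ B ≤ B' ∧ x ∈ B' ∧ y ∈ B' := by
  obtain ⟨B', h1, h2, h3⟩ := exists_adm hB ({x, y} : Set M) ((Set.finite_singleton y).insert x).countable
  exact ⟨B', h1, h2, h3 (Set.mem_insert _ _), h3 (Set.mem_insert_of_mem _ rfl)⟩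

end P095F
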