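import Vale.Agent.Lib.P095F.CADual

/-!
# P095F, part CA, module CAApx: completely positive maps are approximated by one state

`V` = the real finite dimensional space `S → Fin k → Fin k → ℂ` (`S` a `Finset A`, index type
`{a // a ∈ S}`).  The set `C` of all `v` with `v a p q = ∑ j, ψ (star (d j p) * a * d j q)` for some
`n`, `d : Fin n → Fin k → A` is a convex cone (`Fin.append` for sums, `√t • d` for multiples `t ≥ 0`,
`n = 0` for `0`).  If the point `w a p q = φ a p q` is not in the closure of `C`, there are a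
real-linear functional `L` and `u` with `L w < u < L v` for all `v ∈ closure C`
(`geometric_hahn_banach_point_closed`); since `C` is a cone, `L w < 0 ≤ L v` for `v ∈ C`.
`L v = (∑ a, ∑ p, ∑ q, y a p q * v a p q).re` with `y a p q = L (e) - I * L (I e)`, `e` the
corresponding unit vector.  `x p q = ∑ a, y a p q • a`: the hypothesis of `cp_dual` holds (one tuple
`d`, `n = 1`), so `0 ≤ (∑ p, ∑ q, φ (x p q) p q).re = L w < 0`.  Contradiction, so `w` is in the
closure of `C`: there is `v ∈ C` with `‖v - w‖ < ε` (sup norm).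
-/

open scoped Topology

namespace P095F

universe u

variable {A : Type u} [CStarAlgebra A]

/-- the index type -/
abbrev caapx_I (S : Finset A) (k : ℕ) : Type u := {a // a ∈ S} × Fin k × Fin k

/-- the cone -/
def caapx_C (ψ : A →ₗ[ℂ] ℂ) (S : Finset A) (k : ℕ) : Set (caapx_I S k → ℂ) :=
  {v | ∃ (n : ℕ) (d : Fin n → Fin k → A), ∀ i, v i =
    ∑ j, ψ (star (d j i.2.1) * (i.1 : A) * d j i.2.2)}

theorem caapx_smul {ψ : A →ₗ[ℂ] ℂ} {S : Finset A} {k : ℕ} {v : caapx_I S k → ℂ}
    (hv : v ∈ caapx_C ψ S k) {t : ℝ} (ht : 0 ≤ t) : t • v ∈ caapx_C ψ S k := by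
  obtain ⟨n, d, hd⟩ := hv
  refine ⟨n, fun j p => ((Real.sqrt t : ℝ) : ℂ) • d j p, fun i => ?_⟩
  rw [Pi.smul_apply, hd, Finset.smul_sum]
  refine Finset.sum_congr rfl fun j _ => ?_
  rw [star_smul, smul_mul_assoc, smul_mul_assoc, mul_smul_comm, smul_smul, map_smul]
  have h1 : star ((Real.sqrt t : ℝ) : ℂ) = ((Real.sqrt t : ℝ) : ℂ) := Complex.conj_ofReal _
  rw [h1, ← Complex.ofReal_mul, Real.mul_self_sqrt ht, Complex.coe_smul]

theorem caapx_add {ψ : A →ₗ[ℂ] ℂ} {S : Finset A} {k : ℕ} {v w : caapx_I S k → ℂ}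
    (hv : v ∈ caapx_C ψ S k) (hw : w ∈ caapx_C ψ S k) : v + w ∈ caapx_C ψ S k := by
  obtain ⟨n, d, hd⟩ := hv
  obtain ⟨m, e, he⟩ := hw
  refine ⟨n + m, Fin.append d e, fun i => ?_⟩
  rw [Pi.add_apply, hd, he, Fin.sum_univ_add]
  congr 1
  · refine Finset.sum_congr rfl fun j _ => ?_
    rw [Fin.append_left]
  · refine Finset.sum_congr rfl fun j _ => ?_
    rw [Fin.append_right]

theorem caapx_zero {ψ : A →ₗ[ℂ] ℂ} {S : Finset A} {k : ℕ} :
    (0 : caapx_I S k → ℂ) ∈ caapx_C ψ S k :=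
  ⟨0, Fin.elim0, fun i => by simp⟩

theorem caapx_convex (ψ : A →ₗ[ℂ] ℂ) (S : Finset A) (k : ℕ) : Convex ℝ (caapx_C ψ S k) := by
  intro v hv w hw s t hs ht _
  exact caapx_add (caapx_smul hv hs) (caapx_smul hw ht)

theorem cp_approx [IsSimpleRing A] {k : ℕ} (φ : A →ₗ[ℂ] Matrix (Fin k) (Fin k) ℂ) (hφ : CPos φ)
    (ψ : A →ₗ[ℂ] ℂ) (hψ : IsSt ψ) (S : Finset A) {ε : ℝ} (hε : 0 < ε) :
    ∃ (n : ℕ) (d : Fin n → Fin k → A), ∀ a ∈ S, ∀ p q,
      ‖φ a p q - ∑ j, ψ (star (d j p) * a * d j q)‖ < ε := by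
  classical
  set w : caapx_I S k → ℂ := fun i => φ (i.1 : A) i.2.1 i.2.2 with hw
  have hmem : w ∈ closure (caapx_C ψ S k) := by
    by_contra hcon
    obtain ⟨f, u, h1, h2⟩ := RCLike.geometric_hahn_banach_point_closed (𝕜 := ℂ)
      (caapx_convex ψ S k).closure isClosed_closure hcon
    have h1' : (f w).re < u := h1
    have h2' : ∀ v ∈ caapx_C ψ S k, u < (f v).re := fun v hv => h2 v (subset_closure hv)
    have hu : u < 0 := by
      have h3 := h2' 0 caapx_zero
      rw [map_zero, Complex.zero_re] at h3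
      exact h3
    have hpos : ∀ v ∈ caapx_C ψ S k, 0 ≤ (f v).re := by
      intro v hv
      by_contra hneg
      push Not at hneg
      have h3 := h2' ((u / (f v).re) • v) (caapx_smul hv (div_nonneg_of_nonpos hu.le hneg.le))
      have h4 : (f ((u / (f v).re) • v)).re = (u / (f v).re) * (f v).re := by
        rw [← Complex.coe_smul, map_smul, smul_eq_mul, Complex.re_ofReal_mul]
      rw [h4, div_mul_cancel₀ _ hneg.ne] at h3
      exact lt_irrefl _ h3
    -- coordinates of `f`
    set y : caapx_I S k → ℂ := fun i => f (fun j => if i = j then 1 else 0) with hy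
    have hf : ∀ v : caapx_I S k → ℂ, f v = ∑ i, v i * y i := by
      intro v
      have h3 := LinearMap.pi_apply_eq_sum_univ (f : (caapx_I S k → ℂ) →ₗ[ℂ] ℂ) v
      exact h3
    set x : Fin k → Fin k → A := fun p q => ∑ a : {a // a ∈ S}, y (a, p, q) • (a : A) with hx
    have hsum : ∀ v : caapx_I S k → ℂ, f v = ∑ p, ∑ q, ∑ a, v (a, p, q) * y (a, p, q) := by
      intro v
      rw [hf, Fintype.sum_prod_type, Finset.sum_comm]
      rw [Fintype.sum_prod_type]
    have hdual := cp_dual φ hφ ψ hψ x (by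
      intro d
      have h3 : (∑ p, ∑ q, ψ (star (d p) * x p q * d q)) =
          f (fun i => ψ (star (d i.2.1) * (i.1 : A) * d i.2.2)) := by
        rw [hsum]
        refine Finset.sum_congr rfl fun p _ => Finset.sum_congr rfl fun q _ => ?_
        simp only [hx]
        rw [Finset.mul_sum, Finset.sum_mul, map_sum]
        refine Finset.sum_congr rfl fun a _ => ?_
        rw [mul_smul_comm, smul_mul_assoc, map_smul, smul_eq_mul, mul_comm]
      rw [h3]
      apply hpos
      refine ⟨1, fun _ => d, fun i => ?_⟩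
      simp)
    have h3 : (∑ p, ∑ q, φ (x p q) p q) = f w := by
      rw [hsum]
      refine Finset.sum_congr rfl fun p _ => Finset.sum_congr rfl fun q _ => ?_
      simp only [hx, hw]
      rw [map_sum, Matrix.sum_apply]
      refine Finset.sum_congr rfl fun a _ => ?_
      rw [map_smul, Matrix.smul_apply, smul_eq_mul, mul_comm]
    rw [h3] at hdual
    linarith
  obtain ⟨v, ⟨n, d, hd⟩, hv⟩ := Metric.mem_closure_iff.1 hmem ε hε
  refine ⟨n, d, fun a ha p q => ?_⟩
  have h4 := (dist_pi_lt_iff hε).1 hv (⟨a, ha⟩, p, q)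
  rw [dist_eq_norm, hd] at h4
  exact h4

end P095F
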