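import Vale.Agent.Lib.P095F.CAMat

/-!
# P095F, part CA, module CACP: completely positive maps on matrix algebras

`T p q = θ (e_pq)` (`Matrix.single p q 1`), `e_pq = star (e_0p) * e_0q` (if `k = 0` everything is
trivial).  `CPos` with `a p = e_0p`: for all `b`: `∑ p, ∑ q, star (b p) * T p q * b q = star c * c` for
some `c`.  `star (T p q) = T q p`: the sums `Φ(b) = ∑ p, ∑ q, star (b p) * T p q * b q` are self-adjoint;
take `b = Pi.single p 1 + z • Pi.single q 1` for `z = 1` and `z = I`.
The second alternative of `mat_alt` (with `a = 1`) gives `star c * c + star y * y = 0`, so `y = 0`.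
`θ m = ∑ p, ∑ q, m p q • T p q` (`Matrix.matrix_eq_sum_single`).
-/

open scoped Topology

namespace P095F

universe u

variable {A : Type u} [CStarAlgebra A]

private theorem cacp_eq_zero {c y : A} (h : star c * c = -(star y * y)) : y = 0 := by
  letI := CStarAlgebra.spectralOrder A
  haveI := CStarAlgebra.spectralOrderedRing A
  have h1 : 0 ≤ star c * c := star_mul_self_nonneg c
  have h2 : 0 ≤ star y * y := star_mul_self_nonneg y
  have h3 : star y * y ≤ 0 := by
    rw [h] at h1
    exact neg_nonneg.1 h1
  exact CStarRing.star_mul_self_eq_zero_iff y |>.1 (le_antisymm h3 h2)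

private theorem cacp_single {k : ℕ} (p q : Fin (k + 1)) :
    star (Matrix.single 0 p (1 : ℂ) : Matrix (Fin (k + 1)) (Fin (k + 1)) ℂ) *
      Matrix.single 0 q (1 : ℂ) = Matrix.single p q (1 : ℂ) := by
  rw [Matrix.star_eq_conjTranspose, Matrix.conjTranspose_single, Matrix.single_mul_single_same]
  simp

private theorem cacp_pol (X Y P Q : A)
    (h : ∀ z : ℂ, star (P + z • X + star z • Y + (star z * z) • Q) =
      P + z • X + star z • Y + (star z * z) • Q) : star X = Y := by
  have h1 := h 1
  have h2 := h (-1)
  have h3 := h Complex.I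
  have h4 := h (-Complex.I)
  simp only [star_add, star_smul, star_one, star_neg, one_smul, star_mul, star_star,
    Complex.star_def, Complex.conj_I, neg_smul, neg_neg, mul_neg, neg_mul, Complex.I_mul_I,
    one_mul, mul_one] at h1 h2 h3 h4
  have h5 : star X + star Y = X + Y := by
    have h6 : (2 : ℂ) • (star X + star Y) = (2 : ℂ) • (X + Y) := by
      have e1 : (2 : ℂ) • (star X + star Y) = (star P + star X + star Y + star Q) -
        (star P + -star X + -star Y + star Q) := by module
      rw [e1, h1, h2]
      module
    exact smul_right_injective A (two_ne_zero' ℂ) h6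
  have h7 : Complex.I • (star Y - star X) = Complex.I • (X - Y) := by
    have h6 : (2 : ℂ) • (Complex.I • (star Y - star X)) = (2 : ℂ) • (Complex.I • (X - Y)) := by
      have e1 : (2 : ℂ) • (Complex.I • (star Y - star X)) =
        (star P + -(Complex.I • star X) + Complex.I • star Y + star Q) -
        (star P + Complex.I • star X + -(Complex.I • star Y) + star Q) := by module
      rw [e1, h3, h4]
      module
    exact smul_right_injective A (two_ne_zero' ℂ) h6
  have h8 : star Y - star X = X - Y := smul_right_injective A Complex.I_ne_zero h7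
  have h9 : (2 : ℂ) • star X = (2 : ℂ) • Y := by
    have e1 : (2 : ℂ) • star X = (star X + star Y) - (star Y - star X) := by module
    rw [e1, h5, h8]
    module
  exact smul_right_injective A (two_ne_zero' ℂ) h9

theorem cp_kraus {k : ℕ} (θ : Matrix (Fin k) (Fin k) ℂ →ₗ[ℂ] A) (h : CPos θ) :
    ∃ c : Fin k → Fin k → A, ∀ m : Matrix (Fin k) (Fin k) ℂ,
      θ m = ∑ p, ∑ q, m p q • ∑ l, star (c l p) * c l q := by
  obtain _ | k := k
  · refine ⟨fun _ _ => 0, fun m => ?_⟩
    have h1 : m = 0 := Subsingleton.elim _ _
    rw [h1, map_zero]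
    simp
  set T : Fin (k + 1) → Fin (k + 1) → A := fun p q => θ (Matrix.single p q 1) with hT
  have hpos : ∀ (n : ℕ) (r : Fin n → Fin (k + 1)) (b : Fin n → A),
      ∃ c : A, ∑ i, ∑ j, star (b i) * T (r i) (r j) * b j = star c * c := by
    intro n r b
    obtain ⟨c, hc⟩ := h n (fun i => Matrix.single 0 (r i) 1) b
    refine ⟨c, ?_⟩
    rw [← hc]
    simp only [cacp_single]
    rfl
  have hstar : ∀ p q, star (T p q) = T q p := by
    intro p q
    apply cacp_pol (T p q) (T q p) (T p p) (T q q)
    intro z
    obtain ⟨c, hc⟩ := hpos 2 ![p, q] ![1, z • 1]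
    have h1 : T p p + z • T p q + star z • T q p + (star z * z) • T q q = star c * c := by
      rw [← hc]
      simp only [Fin.sum_univ_two, Matrix.cons_val_zero, Matrix.cons_val_one, star_one, one_mul,
        mul_one, star_smul, mul_smul_comm, smul_mul_assoc, smul_smul]
      rw [mul_comm z (star z)]
      abel
    rw [h1, star_mul, star_star]
  rcases mat_alt T hstar with ⟨C, hC⟩ | ⟨y, b, hy, hb⟩
  · refine ⟨C, fun m => ?_⟩
    conv_lhs => rw [Matrix.matrix_eq_sum_single m]
    rw [map_sum]
    refine Finset.sum_congr rfl fun p _ => ?_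
    rw [map_sum]
    refine Finset.sum_congr rfl fun q _ => ?_
    rw [← hC p q, hT]
    simp only
    rw [← map_smul, Matrix.smul_single, smul_eq_mul, mul_one]
  · exfalso
    apply hy
    obtain ⟨c, hc⟩ := hpos (k + 1) id b
    have h1 := hb 1
    simp only [mul_one, star_one, one_mul] at h1
    simp only [id] at hc
    rw [hc] at h1
    exact cacp_eq_zero h1

end P095F
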