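import Vale.Agent.Lib.P095F.CASt

/-!
# P095F, part CA, module CAComp: compactness of the state space

`isCompact_stSet`: `StSet A` is a closed subset of the compact set of all `g : A → ℂ` with
`g a ∈ closedBall 0 ‖a‖` for all `a` (`isCompact_univ_pi`, `isCompact_closedBall`): the conditions
`g (a + b) = g a + g b`, `g (c • a) = c * g a`, `0 ≤ (g (star x * x)).re`, `(g (star x * x)).im = 0`,
`g 1 = 1` are closed; `IsSt.norm_le` (use the spectral order of `A` inside the proof:
`let _ := CStarAlgebra.spectralOrder A`, `let _ := CStarAlgebra.spectralOrderedRing A`).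

`st_cover`: open cover of `StSet A` by the sets `{g | F d g < ε}`, `IsCompact.elim_finite_subcover`.
-/

open scoped Topology ComplexConjugate

namespace P095F

universe u v

variable (A : Type u) [CStarAlgebra A]

/-- the closed conditions -/
private theorem cacomp_closed : IsClosed {g : A → ℂ | (∀ a b, g (a + b) = g a + g b) ∧
    (∀ (c : ℂ) a, g (c • a) = c * g a) ∧ (∀ x, 0 ≤ (g (star x * x)).re) ∧
    (∀ x, (g (star x * x)).im = 0) ∧ g 1 = 1} := by
  have h1 : IsClosed {g : A → ℂ | ∀ a b, g (a + b) = g a + g b} := by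
    simp only [Set.ofPred_forall]
    exact isClosed_iInter fun a => isClosed_iInter fun b =>
      isClosed_eq (continuous_apply (a + b)) ((continuous_apply a).add (continuous_apply b))
  have h2 : IsClosed {g : A → ℂ | ∀ (c : ℂ) a, g (c • a) = c * g a} := by
    simp only [Set.ofPred_forall]
    exact isClosed_iInter fun c => isClosed_iInter fun a =>
      isClosed_eq (continuous_apply _) (continuous_const.mul (continuous_apply _))
  have h3 : IsClosed {g : A → ℂ | ∀ x, 0 ≤ (g (star x * x)).re} := by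
    simp only [Set.ofPred_forall]
    exact isClosed_iInter fun x =>
      isClosed_le continuous_const (Complex.continuous_re.comp (continuous_apply _))
  have h4 : IsClosed {g : A → ℂ | ∀ x, (g (star x * x)).im = 0} := by
    simp only [Set.ofPred_forall]
    exact isClosed_iInter fun x =>
      isClosed_eq (Complex.continuous_im.comp (continuous_apply _)) continuous_const
  have h5 : IsClosed {g : A → ℂ | g 1 = 1} := isClosed_eq (continuous_apply _) continuous_const
  exact h1.inter (h2.inter (h3.inter (h4.inter h5)))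

theorem isCompact_stSet : IsCompact (StSet A) := by
  let _ := CStarAlgebra.spectralOrder A
  let _ := CStarAlgebra.spectralOrderedRing A
  have hK : IsCompact (Set.pi Set.univ fun a : A => Metric.closedBall (0 : ℂ) ‖a‖) :=
    isCompact_univ_pi fun a => isCompact_closedBall _ _
  have hset : StSet A = (Set.pi Set.univ fun a : A => Metric.closedBall (0 : ℂ) ‖a‖) ∩
      {g : A → ℂ | (∀ a b, g (a + b) = g a + g b) ∧ (∀ (c : ℂ) a, g (c • a) = c * g a) ∧
        (∀ x, 0 ≤ (g (star x * x)).re) ∧ (∀ x, (g (star x * x)).im = 0) ∧ g 1 = 1} := by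
    ext g
    constructor
    · rintro ⟨ψ, hψ, hg⟩
      refine ⟨fun a _ => ?_, fun a b => ?_, fun c a => ?_, fun x => ?_, fun x => ?_, ?_⟩
      · rw [hg, mem_closedBall_zero_iff]
        exact hψ.norm_le a
      · rw [hg, hg, hg, map_add]
      · rw [hg, hg, map_smul, smul_eq_mul]
      · rw [hg]
        exact hψ.nonneg x
      · rw [hg]
        exact hψ.im_eq x
      · rw [hg]
        exact hψ.one
    · rintro ⟨-, h1, h2, h3, h4, h5⟩
      exact ⟨{ toFun := g, map_add' := h1, map_smul' := h2 }, ⟨h3, h4, h5⟩, fun _ => rfl⟩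
  rw [hset]
  exact hK.inter_right (cacomp_closed A)

variable {A}

theorem st_cover {D : Type v} (F : D → (A → ℂ) → ℝ) (hF : ∀ d, Continuous (F d)) (ε : ℝ)
    (h : ∀ ψ : A →ₗ[ℂ] ℂ, IsSt ψ → ∃ d, F d (fun a => ψ a) < ε) :
    ∃ DD : Finset D, ∀ ψ : A →ₗ[ℂ] ℂ, IsSt ψ → ∃ d ∈ DD, F d (fun a => ψ a) < ε := by
  obtain ⟨DD, hDD⟩ := (isCompact_stSet A).elim_finite_subcover (fun d => {g | F d g < ε})
    (fun d => isOpen_lt (hF d) continuous_const) (by
      rintro g ⟨ψ, hψ, hg⟩
      obtain ⟨d, hd⟩ := h ψ hψ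
      rw [Set.mem_iUnion]
      refine ⟨d, ?_⟩
      have hg' : g = fun a => ψ a := funext hg
      rw [hg']
      exact hd)
  refine ⟨DD, fun ψ hψ => ?_⟩
  have h1 := hDD ⟨ψ, hψ, fun _ => rfl⟩
  simp only [Set.mem_iUnion] at h1
  obtain ⟨d, hd, hlt⟩ := h1
  exact ⟨d, hd, hlt⟩

end P095F
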