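import Vale.Agent.Lib.P095F.CDefs

/-!
# P095F, part CA: definitions and the statement of the main theorem of part CA

Part CA works inside `A` (unital simple, infinite dimensional, CPAP, very weak comparison) and proves
`si_local` (file CAFinal.lean), a local form of property (SI) with large central sequences `f`.
-/

open scoped Topology ComplexConjugate

namespace P095F

universe u

/-- states -/
structure IsSt {A : Type u} [CStarAlgebra A] (ψ : A →ₗ[ℂ] ℂ) : Prop where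
  nonneg : ∀ x : A, 0 ≤ (ψ (star x * x)).re
  im_eq : ∀ x : A, (ψ (star x * x)).im = 0
  one : ψ 1 = 1

/-- the state space as a set of functions on `A` (pointwise topology) -/
def StSet (A : Type u) [CStarAlgebra A] : Set (A → ℂ) :=
  {g | ∃ ψ : A →ₗ[ℂ] ℂ, IsSt ψ ∧ ∀ a, g a = ψ a}

/-- the conclusion of part CA -/
def SILocal (A : Type u) [CStarAlgebra A] : Prop :=
  ∀ (S : Finset A) (ε : ℝ), 0 < ε → ∃ (S' : Finset A) (δ : ℝ), 0 < δ ∧
    ∀ f : A, (∃ c, f = star c * c) → ‖f‖ = 1 → (∀ a ∈ S', ‖f * a - a * f‖ ≤ δ) →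
      ∃ η : ℝ, 0 < η ∧ ∀ e : A, (∃ c, e = star c * c) → ‖e‖ ≤ 1 →
        (∀ a ∈ S', ‖e * a - a * e‖ ≤ δ) → (∀ τ ∈ TState A, (τ e).re ≤ η) →
          ∃ s : A, ‖star s * s - e‖ ≤ ε ∧ (∀ a ∈ S, ‖star s * a * s - a * e‖ ≤ ε) ∧
            ‖f * s - s‖ ≤ ε

end P095F
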