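import Vale.Agent.Lib.P095F.CADefs

/-!
# P095F, part CA, module CAFull: fullness of positive elements in a simple C*-algebra

The two-sided ideal generated by `y` is everything: `1 = ∑ a_i * y * b_i` (finite sum,
`TwoSidedIdeal.mem_span_iff_exists_fin` or similar, `IsSimpleRing`).  The same for `h = star y * y ≠ 0`
(`CStarRing.star_mul_self_eq_zero_iff`): `1 = ∑ a_i * h * b_i`.  So
`2 = ∑ (a_i h b_i + star b_i h star a_i) ≤ ∑ (a_i h star a_i + star b_i h b_i) =: z` because
`(star a_i - b_i)^* h (star a_i - b_i) ≥ 0`.  `z ≥ 2` is invertible, `z^{-1/2} z z^{-1/2} = 1`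
(functional calculus, `t ↦ t^{-1/2}` on `[2, ∞)`), so the elements `star a_i * z^{-1/2}`,
`b_i * z^{-1/2}` do it.
-/

open scoped Topology

namespace P095F

universe u

variable {A : Type u} [CStarAlgebra A]

private theorem cafull_list [IsSimpleRing A] {h : A} (hh : h ≠ 0) :
    ∃ l : List (A × A), (l.map fun q => q.1 * h * q.2).sum = 1 := by
  have h1 : (1 : A) ∈ TwoSidedIdeal.span {h} :=
    IsSimpleRing.one_mem_of_ne_zero_mem _ hh (TwoSidedIdeal.subset_span rfl)
  refine TwoSidedIdeal.span_induction
    (p := fun x _ => ∃ l : List (A × A), (l.map fun q => q.1 * h * q.2).sum = x)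
    ?_ ?_ ?_ ?_ ?_ ?_ h1
  · rintro x hx
    rw [Set.mem_singleton_iff] at hx
    exact ⟨[(1, 1)], by simp [hx]⟩
  · exact ⟨[], rfl⟩
  · rintro x y _ _ ⟨l, hl⟩ ⟨m, hm⟩
    exact ⟨l ++ m, by rw [List.map_append, List.sum_append, hl, hm]⟩
  · rintro x _ ⟨l, hl⟩
    refine ⟨l.map fun q => (-q.1, q.2), ?_⟩
    rw [List.map_map, ← hl, ← neg_one_mul (List.sum _), ← List.sum_map_mul_left]
    congr 1
    refine List.map_congr_left fun q _ => ?_
    simp only [Function.comp_apply, neg_mul, one_mul]
  · rintro a x _ ⟨l, hl⟩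
    refine ⟨l.map fun q => (a * q.1, q.2), ?_⟩
    rw [List.map_map, ← hl, ← List.sum_map_mul_left]
    congr 1
    refine List.map_congr_left fun q _ => ?_
    simp only [Function.comp_apply, mul_assoc]
  · rintro b x _ ⟨l, hl⟩
    refine ⟨l.map fun q => (q.1, q.2 * b), ?_⟩
    rw [List.map_map, ← hl, ← List.sum_map_mul_right]
    congr 1
    refine List.map_congr_left fun q _ => ?_
    simp only [Function.comp_apply, mul_assoc]

theorem exists_sum_eq_one [IsSimpleRing A] {y : A} (hy : y ≠ 0) :
    ∃ (n : ℕ) (r : Fin n → A), ∑ i, star (r i) * (star y * y) * r i = 1 := by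
  letI := CStarAlgebra.spectralOrder A
  haveI := CStarAlgebra.spectralOrderedRing A
  set h : A := star y * y with hdef
  have hh : h ≠ 0 := fun h0 => hy ((CStarRing.star_mul_self_eq_zero_iff y).1 h0)
  have hs : star h = h := by rw [hdef, star_mul, star_star]
  obtain ⟨l, hl⟩ := cafull_list hh
  set z : A := (l.map fun q => q.1 * h * star q.1 + star q.2 * h * q.2).sum with hz
  -- `z ≥ 2`
  have hpos : ∀ m : List (A × A),
      0 ≤ (m.map fun q => q.1 * h * star q.1 + star q.2 * h * q.2).sum
        - (m.map fun q => q.1 * h * q.2).sum - star ((m.map fun q => q.1 * h * q.2).sum) := by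
    intro m
    induction m with
    | nil => simp
    | cons q m ih =>
      simp only [List.map_cons, List.sum_cons, star_add, star_mul, hs]
      have h1 : 0 ≤ star (y * (star q.1 - q.2)) * (y * (star q.1 - q.2)) :=
        star_mul_self_nonneg _
      have h2 : star (y * (star q.1 - q.2)) * (y * (star q.1 - q.2)) =
          q.1 * h * star q.1 + star q.2 * h * q.2 - q.1 * h * q.2 - star q.2 * (h * star q.1) := by
        rw [star_mul, star_sub, star_star, hdef]
        noncomm_ring
      rw [h2] at h1
      have h3 := add_nonneg h1 ih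
      refine h3.trans (le_of_eq ?_)
      abel
  have hz2 : algebraMap ℝ A 2 ≤ z := by
    have h1 := hpos l
    rw [hl, star_one, sub_sub, sub_nonneg] at h1
    have h2 : algebraMap ℝ A 2 = 1 + 1 := by
      rw [show (2 : ℝ) = 1 + 1 by norm_num, map_add, map_one]
    rw [h2]
    exact h1
  have hzs : IsSelfAdjoint z := by
    have h1 : IsSelfAdjoint (algebraMap ℝ A 2) := IsSelfAdjoint.algebraMap A (star_trivial _)
    have h2 : IsSelfAdjoint (z - algebraMap ℝ A 2) := (sub_nonneg.2 hz2).isSelfAdjoint
    have h3 := h1.add h2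
    rwa [add_sub_cancel] at h3
  have hsp : ∀ t ∈ spectrum ℝ z, (2 : ℝ) ≤ t := (algebraMap_le_iff_le_spectrum (a := z) hzs).1 hz2
  have hcont : ContinuousOn (fun t : ℝ => (Real.sqrt t)⁻¹) (spectrum ℝ z) := by
    refine ContinuousOn.inv₀ Real.continuous_sqrt.continuousOn fun t ht => ?_
    have := hsp t ht
    exact (Real.sqrt_pos.2 (by linarith)).ne'
  set w : A := cfc (fun t : ℝ => (Real.sqrt t)⁻¹) z with hw
  have hws : star w = w := (cfc_predicate (fun t : ℝ => (Real.sqrt t)⁻¹) z)
  have hwzw : w * z * w = 1 := by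
    have h1 : w * z = cfc (fun t : ℝ => (Real.sqrt t)⁻¹ * t) z := by
      rw [cfc_mul (fun t : ℝ => (Real.sqrt t)⁻¹) (fun t : ℝ => t) z hcont continuousOn_id,
        cfc_id' ℝ z]
    rw [h1, hw, ← cfc_mul (fun t : ℝ => (Real.sqrt t)⁻¹ * t) (fun t : ℝ => (Real.sqrt t)⁻¹) z
      (hcont.mul continuousOn_id) hcont]
    rw [← cfc_one ℝ z]
    refine cfc_congr fun t ht => ?_
    have ht2 := hsp t ht
    have h3 : 0 < Real.sqrt t := Real.sqrt_pos.2 (by linarith)
    have h4 : Real.sqrt t * Real.sqrt t = t := Real.mul_self_sqrt (by linarith)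
    show (Real.sqrt t)⁻¹ * t * (Real.sqrt t)⁻¹ = 1
    nth_rewrite 2 [← h4]
    field_simp
  -- the elements
  set rs : List A := (l.map fun q => star q.1 * w) ++ (l.map fun q => q.2 * w) with hrs
  have hsum : (rs.map fun r => star r * h * r).sum = 1 := by
    rw [hrs, List.map_append, List.sum_append, List.map_map, List.map_map, ← hwzw, hz]
    have h5 : ∀ m : List (A × A),
        (m.map ((fun r => star r * h * r) ∘ fun q => star q.1 * w)).sum +
          (m.map ((fun r => star r * h * r) ∘ fun q => q.2 * w)).sum =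
        w * (m.map fun q => q.1 * h * star q.1 + star q.2 * h * q.2).sum * w := by
      intro m
      induction m with
      | nil => simp
      | cons q m ih =>
        simp only [List.map_cons, List.sum_cons, Function.comp_apply] at ih ⊢
        rw [mul_add, add_mul, ← ih]
        simp only [star_mul, star_star, hws]
        noncomm_ring
    exact h5 l
  refine ⟨rs.length, fun i => rs[i.1], ?_⟩
  rw [← hsum]
  exact Fin.sum_univ_fun_getElem rs (fun r => star r * h * r)

end P095F
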