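import Vale.Agent.Lib.P095F.CADefs

/-!
# P095F, part CA, module CASt: elementary facts on states
-/

open scoped Topology ComplexConjugate

namespace P095F

universe u

section Basic

variable {A : Type u} [CStarAlgebra A] {ψ : A →ₗ[ℂ] ℂ}

theorem IsSt.star_map (h : IsSt ψ) (x : A) : ψ (star x) = conj (ψ x) := by
  have h1 := h.im_eq (1 + x)
  have h2 := h.im_eq (1 + Complex.I • x)
  have hx := h.im_eq x
  have h0 : (ψ 1).im = 0 := by rw [h.one]; rfl
  have e1 : star (1 + x) * (1 + x) = 1 + x + star x + star x * x := by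
    rw [star_add, star_one, add_mul, mul_add, mul_add, one_mul, mul_one, one_mul]
    abel
  have e2 : star (1 + Complex.I • x) * (1 + Complex.I • x) =
      1 + Complex.I • x - Complex.I • star x + star x * x := by
    rw [star_add, star_one, star_smul, add_mul, mul_add, mul_add, one_mul, mul_one, one_mul,
      smul_mul_smul_comm]
    simp only [RCLike.star_def, Complex.conj_I, neg_mul, Complex.I_mul_I, neg_neg, one_smul,
      neg_smul]
    abel
  rw [e1, map_add, map_add, map_add, Complex.add_im, Complex.add_im, Complex.add_im, h0, hx] at h1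
  rw [e2, map_add, map_sub, map_add, map_smul, map_smul, Complex.add_im, Complex.sub_im,
    Complex.add_im, h0, hx] at h2
  simp only [smul_eq_mul, Complex.mul_im, Complex.I_re, Complex.I_im, zero_mul, one_mul,
    zero_add, add_zero] at h1 h2
  apply Complex.ext
  · rw [Complex.conj_re]
    linarith
  · rw [Complex.conj_im]
    linarith

/-- the semi-inner product `ψ(x* y)` -/
@[instance_reducible]
noncomputable def IsSt.core (h : IsSt ψ) : PreInnerProductSpace.Core ℂ A where
  inner x y := ψ (star x * y)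
  conj_inner_symm x y := by
    rw [← h.star_map, star_mul, star_star]
  re_inner_nonneg x := h.nonneg x
  add_left x y z := by
    rw [star_add, add_mul, map_add]
  smul_left x y r := by
    rw [star_smul, smul_mul_assoc, map_smul]
    rfl

/-- Cauchy-Schwarz -/
theorem IsSt.cs_sq (h : IsSt ψ) (x y : A) :
    ‖ψ (star x * y)‖ ^ 2 ≤ (ψ (star x * x)).re * (ψ (star y * y)).re := by
  have h1 := @InnerProductSpace.Core.inner_mul_inner_self_le ℂ A _ _ _ h.core x y
  have h2 : ‖ψ (star y * x)‖ = ‖ψ (star x * y)‖ := by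
    have : star y * x = star (star x * y) := by rw [star_mul, star_star]
    rw [this, h.star_map, Complex.norm_conj]
  have h3 : ‖ψ (star x * y)‖ * ‖ψ (star y * x)‖ ≤ (ψ (star x * x)).re * (ψ (star y * y)).re := h1
  rw [h2] at h3
  rw [pow_two]
  exact h3

theorem IsSt.im_eq_zero (h : IsSt ψ) {x : A} (hx : IsSelfAdjoint x) : (ψ x).im = 0 := by
  have h1 := h.star_map x
  rw [hx.star_eq] at h1
  have h2 := congrArg Complex.im h1
  rw [Complex.conj_im] at h2
  linarith

end Basic

section Order

variable {A : Type u} [CStarAlgebra A] [PartialOrder A] [StarOrderedRing A] {ψ : A →ₗ[ℂ] ℂ}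

theorem IsSt.re_nonneg (h : IsSt ψ) {x : A} (hx : 0 ≤ x) : 0 ≤ (ψ x).re := by
  obtain ⟨y, rfl⟩ := CStarAlgebra.nonneg_iff_eq_star_mul_self.1 hx
  exact h.nonneg y

theorem IsSt.mono (h : IsSt ψ) {x y : A} (hxy : x ≤ y) : (ψ x).re ≤ (ψ y).re := by
  have h1 := h.re_nonneg (sub_nonneg.2 hxy)
  rw [map_sub, Complex.sub_re] at h1
  linarith

omit [PartialOrder A] [StarOrderedRing A] in
theorem IsSt.map_algebraMap (h : IsSt ψ) (r : ℝ) : ψ (algebraMap ℝ A r) = (r : ℂ) := by
  rw [Algebra.algebraMap_eq_smul_one, ← Complex.coe_smul, map_smul, h.one, smul_eq_mul, mul_one]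

theorem IsSt.norm_le (h : IsSt ψ) (x : A) : ‖ψ x‖ ≤ ‖x‖ := by
  have h1 := h.cs_sq 1 x
  rw [star_one, one_mul, one_mul, h.one, Complex.one_re, one_mul] at h1
  have h2 : star x * x ≤ algebraMap ℝ A (‖x‖ ^ 2) := by
    have h3 := IsSelfAdjoint.le_algebraMap_norm_self (IsSelfAdjoint.star_mul_self x)
    rwa [CStarRing.norm_star_mul_self, ← pow_two] at h3
  have h4 := h.mono h2
  rw [h.map_algebraMap, Complex.ofReal_re] at h4
  exact (pow_le_pow_iff_left₀ (norm_nonneg _) (norm_nonneg _) two_ne_zero).1 (h1.trans h4)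

end Order

end P095F
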