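import Vale.Agent.Lib.P095F.CAMat
import Vale.Agent.Lib.P095F.CAFull
import Vale.Agent.Lib.P095F.CASt

/-!
# P095F, part CA, module CADual: the dual cone

`T p q = (1/2) • (x p q + star (x q p))` is hermitian.  For a state `ψ` (`ψ (star z) = conj (ψ z)`):
`(∑ p, ∑ q, ψ (star (d p) * x p q * d q)).re = (∑ p, ∑ q, ψ (star (d p) * T p q * d q)).re`.
`φ (star z) = (φ z)ᴴ` (a completely positive map is self-adjoint: `φ (star z * z)` is positive by
`CPos` with `n = 1`, so hermitian; polarize), so
`(∑ p, ∑ q, φ (x p q) p q).re = (∑ p, ∑ q, φ (T p q) p q).re`.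
`mat_alt` for `T`:
* `T p q = ∑ l, star (C l p) * C l q`: for each `l`, `0 ≤ (∑ p, ∑ q, φ (star (C l p) * C l q) p q).re`, from
  `CPos` with `a p = C l p`, `b p = Matrix.single p p₀ 1` for a fixed `p₀` (`k = 0` is trivial): the
  `(p₀, p₀)` entry of `∑ p, ∑ q, star (b p) * φ (star (a p) * a q) * b q = star c * c`.
* second alternative: with `d p = b p * a`: `0 ≤ -(ψ (star a * (star y * y) * a)).re` for all `a`; sum over
  the `r i` of `exists_sum_eq_one`: `0 ≤ -(ψ 1).re = -1`, a contradiction.
-/

open scoped Topology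

namespace P095F

universe u

variable {A : Type u} [CStarAlgebra A]

private theorem cadual_herm {k : ℕ} {φ : A →ₗ[ℂ] Matrix (Fin k) (Fin k) ℂ} (hφ : CPos φ) (z : A) :
    star (φ (star z * z)) = φ (star z * z) := by
  obtain ⟨c, hc⟩ := hφ 1 (fun _ => z) (fun _ => 1)
  simp only [Finset.univ_unique, Finset.sum_singleton, star_one, one_mul, mul_one] at hc
  rw [hc, star_mul, star_star]

private theorem cadual_star {k : ℕ} {φ : A →ₗ[ℂ] Matrix (Fin k) (Fin k) ℂ} (hφ : CPos φ) (z : A) :
    φ (star z) = star (φ z) := by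
  have h1 := cadual_herm hφ (1 + z)
  have h2 := cadual_herm hφ (1 + Complex.I • z)
  have hz := cadual_herm hφ z
  have h0 : star (φ 1) = φ 1 := by
    have := cadual_herm hφ 1
    rwa [star_one, one_mul] at this
  have e1 : star (1 + z) * (1 + z) = 1 + z + star z + star z * z := by
    rw [star_add, star_one, add_mul, mul_add, mul_add, one_mul, mul_one, one_mul]
    abel
  have e2 : star (1 + Complex.I • z) * (1 + Complex.I • z) =
      1 + Complex.I • z - Complex.I • star z + star z * z := by
    rw [star_add, star_one, star_smul, add_mul, mul_add, mul_add, one_mul, mul_one, one_mul,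
      smul_mul_smul_comm]
    simp only [RCLike.star_def, Complex.conj_I, neg_mul, Complex.I_mul_I, neg_neg, one_smul,
      neg_smul]
    abel
  rw [e1, map_add, map_add, map_add, star_add, star_add, star_add, h0, hz] at h1
  rw [e2, map_add, map_sub, map_add, map_smul, map_smul, star_add, star_sub, star_add, h0, hz,
    star_smul, star_smul] at h2
  have h3 : star (φ z) + star (φ (star z)) = φ z + φ (star z) := by
    have h4 := congrArg (fun t => t - φ 1 - φ (star z * z)) h1
    calc star (φ z) + star (φ (star z)) =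
        φ 1 + star (φ z) + star (φ (star z)) + φ (star z * z) - φ 1 - φ (star z * z) := by abel
      _ = φ 1 + φ z + φ (star z) + φ (star z * z) - φ 1 - φ (star z * z) := h4
      _ = _ := by abel
  have h5 : -(star (φ z) - star (φ (star z))) = φ z - φ (star z) := by
    have hI : star Complex.I = -Complex.I := by
      rw [RCLike.star_def, Complex.conj_I]
    rw [hI] at h2
    have h4 := congrArg (fun t => (-Complex.I) • (t - φ 1 - φ (star z * z))) h2
    have e3 : (-Complex.I) • (φ 1 + (-Complex.I) • star (φ z) - (-Complex.I) • star (φ (star z)) +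
        φ (star z * z) - φ 1 - φ (star z * z)) = -(star (φ z) - star (φ (star z))) := by
      have e4 : φ 1 + (-Complex.I) • star (φ z) - (-Complex.I) • star (φ (star z)) +
          φ (star z * z) - φ 1 - φ (star z * z) =
          (-Complex.I) • (star (φ z) - star (φ (star z))) := by
        rw [smul_sub]
        abel
      rw [e4, smul_smul, neg_mul_neg, Complex.I_mul_I, neg_one_smul]
    have e5 : (-Complex.I) • (φ 1 + Complex.I • φ z - Complex.I • φ (star z) +
        φ (star z * z) - φ 1 - φ (star z * z)) = φ z - φ (star z) := by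
      have e4 : φ 1 + Complex.I • φ z - Complex.I • φ (star z) +
          φ (star z * z) - φ 1 - φ (star z * z) = Complex.I • (φ z - φ (star z)) := by
        rw [smul_sub]
        abel
      rw [e4, smul_smul, neg_mul, Complex.I_mul_I, neg_neg, one_smul]
    rw [e3, e5] at h4
    exact h4
  have h6 : (2 : ℂ) • φ (star z) = (2 : ℂ) • star (φ z) := by
    rw [two_smul, two_smul]
    calc φ (star z) + φ (star z) = (φ z + φ (star z)) - (φ z - φ (star z)) := by abel
      _ = (star (φ z) + star (φ (star z))) - -(star (φ z) - star (φ (star z))) := by rw [h3, h5]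
      _ = star (φ z) + star (φ z) := by abel
  exact smul_right_injective _ (two_ne_zero : (2 : ℂ) ≠ 0) h6

private theorem cadual_pos {k : ℕ} {φ : A →ₗ[ℂ] Matrix (Fin k) (Fin k) ℂ} (hφ : CPos φ)
    (c : Fin k → A) : 0 ≤ (∑ p, ∑ q, φ (star (c p) * c q) p q).re := by
  rcases Nat.eq_zero_or_pos k with rfl | hk
  · simp
  · have p0 : Fin k := ⟨0, hk⟩
    obtain ⟨w, hw⟩ := hφ k c (fun p => Matrix.single p p0 1)
    have h1 : ∀ p q : Fin k, star (Matrix.single p p0 (1 : ℂ)) * φ (star (c p) * c q) *
        Matrix.single q p0 1 = Matrix.single p0 p0 (φ (star (c p) * c q) p q) := by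
      intro p q
      rw [Matrix.star_eq_conjTranspose, Matrix.conjTranspose_single, star_one,
        Matrix.single_mul_mul_single, one_mul, mul_one]
    simp only [h1] at hw
    have h2 : (∑ p, ∑ q, φ (star (c p) * c q) p q) = (star w * w) p0 p0 := by
      rw [← hw, Matrix.sum_apply]
      refine Finset.sum_congr rfl fun p _ => ?_
      rw [Matrix.sum_apply]
      refine Finset.sum_congr rfl fun q _ => ?_
      rw [Matrix.single_apply_same]
    rw [h2, Matrix.mul_apply, Complex.re_sum]
    refine Finset.sum_nonneg fun i _ => ?_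
    rw [Matrix.star_apply]
    have h3 : star (w i p0) * w i p0 = ((Complex.normSq (w i p0) : ℝ) : ℂ) := by
      rw [mul_comm]
      exact Complex.mul_conj _
    rw [h3, Complex.ofReal_re]
    exact Complex.normSq_nonneg _

theorem cp_dual [IsSimpleRing A] {k : ℕ} (φ : A →ₗ[ℂ] Matrix (Fin k) (Fin k) ℂ) (hφ : CPos φ)
    (ψ : A →ₗ[ℂ] ℂ) (hψ : IsSt ψ) (x : Fin k → Fin k → A)
    (hx : ∀ d : Fin k → A, 0 ≤ (∑ p, ∑ q, ψ (star (d p) * x p q * d q)).re) :
    0 ≤ (∑ p, ∑ q, φ (x p q) p q).re := by
  obtain ⟨T, hTdef⟩ : ∃ T : Fin k → Fin k → A, ∀ p q,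
    T p q = (1 / 2 : ℂ) • (x p q + star (x q p)) := ⟨_, fun _ _ => rfl⟩
  have hT : ∀ p q, star (T p q) = T q p := by
    intro p q
    rw [hTdef, hTdef, star_smul, star_add, star_star, add_comm]
    congr 1
    simp
  have hswap : ∀ g : Fin k → Fin k → ℝ, ∑ p, ∑ q, g q p = ∑ p, ∑ q, g p q := fun g =>
    Finset.sum_comm
  have hA : ∀ d : Fin k → A, (∑ p, ∑ q, ψ (star (d p) * x p q * d q)).re =
      (∑ p, ∑ q, ψ (star (d p) * T p q * d q)).re := by
    intro d
    have h1 : ∀ p q, (ψ (star (d p) * T p q * d q)).re = 1 / 2 *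
        ((ψ (star (d p) * x p q * d q)).re + (ψ (star (d q) * x q p * d p)).re) := by
      intro p q
      have h2 : star (d p) * T p q * d q = (1 / 2 : ℂ) • (star (d p) * x p q * d q +
          star (star (d q) * x q p * d p)) := by
        rw [hTdef, mul_smul_comm, smul_mul_assoc, mul_add, add_mul, star_mul, star_mul, star_star,
          mul_assoc (star (d p)) (star (x q p))]
      rw [h2, map_smul, map_add, hψ.star_map, smul_eq_mul]
      have h3 : (1 / 2 : ℂ) = ((1 / 2 : ℝ) : ℂ) := by norm_num
      rw [h3, Complex.re_ofReal_mul, Complex.add_re, Complex.conj_re]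
    simp only [Complex.re_sum]
    simp only [h1, ← Finset.mul_sum, Finset.sum_add_distrib]
    rw [hswap fun p q => (ψ (star (d p) * x p q * d q)).re]
    ring
  have hB : (∑ p, ∑ q, φ (x p q) p q).re = (∑ p, ∑ q, φ (T p q) p q).re := by
    have h1 : ∀ p q, (φ (T p q) p q).re = 1 / 2 *
        ((φ (x p q) p q).re + (φ (x q p) q p).re) := by
      intro p q
      rw [hTdef, map_smul, map_add, cadual_star hφ, Matrix.smul_apply, Matrix.add_apply,
        Matrix.star_apply, smul_eq_mul]
      have h3 : (1 / 2 : ℂ) = ((1 / 2 : ℝ) : ℂ) := by norm_num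
      rw [h3, Complex.re_ofReal_mul, Complex.add_re]
      rfl
    simp only [Complex.re_sum]
    simp only [h1, ← Finset.mul_sum, Finset.sum_add_distrib]
    rw [hswap fun p q => (φ (x p q) p q).re]
    ring
  rw [hB]
  rcases mat_alt T hT with ⟨C, hC⟩ | ⟨y, b, hy, hb⟩
  · have h1 : (∑ p, ∑ q, φ (T p q) p q) = ∑ l, ∑ p, ∑ q, φ (star (C l p) * C l q) p q := by
      have h2 : ∀ p q, φ (T p q) p q = ∑ l, φ (star (C l p) * C l q) p q := by
        intro p q
        rw [hC, map_sum, Matrix.sum_apply]
      simp only [h2]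
      rw [Finset.sum_congr rfl fun p _ => Finset.sum_comm, Finset.sum_comm]
    rw [h1, Complex.re_sum]
    exact Finset.sum_nonneg fun l _ => cadual_pos hφ (C l)
  · exfalso
    obtain ⟨n, r, hr⟩ := exists_sum_eq_one hy
    have h1 : ∀ a : A, (ψ (star a * (star y * y) * a)).re ≤ 0 := by
      intro a
      have h2 := hx fun p => b p * a
      rw [hA] at h2
      have h3 : (∑ p, ∑ q, ψ (star (b p * a) * T p q * (b q * a))) =
          -ψ (star a * (star y * y) * a) := by
        rw [← map_neg, ← hb a, map_sum]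
        refine Finset.sum_congr rfl fun p _ => ?_
        rw [map_sum]
      rw [h3, Complex.neg_re] at h2
      linarith
    have h2 : (ψ 1).re ≤ 0 := by
      rw [← hr, map_sum, Complex.re_sum]
      exact Finset.sum_nonpos fun i _ => h1 (r i)
    rw [hψ.one, Complex.one_re] at h2
    linarith

end P095F
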