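import Vale.Agent.Lib.P095F.CADefs

/-!
# P095F, part CA, module CAEst: the estimates of the assembly (CA10)

`s = ∑ j, ∑ l, ∑ p, d j p * x * r j l * c l p` (`ca_s`).  `‖r j l‖ ≤ 2` from `‖star r * r‖ ≤ ‖e‖ + ε₃ ≤ 2`.
`ca_est_f`: `f d x r c - d x r c = (f d - d f) x r c + d (f x - x) r c`.
`ca_est_a`: expand `star s * a * s` as a sixfold sum of
`star (c l p) * star (r j l) * (x * (star (d j p) * a * d j' q) * x) * r j' l' * c l' q`; replace the
bracket by `w j p j' q • (x * x)` (error `≤ 4 C^2 ε₂` for each of the `n² k⁴` terms); `x * x * r j' l' =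
r j' l'` and `star (r j l) * r j' l' = 0` unless `j = j'`, `l = l'`, so the new sum is
`∑ j, ∑ l, ∑ p, ∑ q, w j p j q • (star (c l p) * (star (r j l) * r j l) * c l q)`; replace `star r * r` by `e`
(error `C^5 ε₃` for each of the `n k³` terms) and `e * c l q` by `c l q * e` (error `C^4 δ`).
-/

open scoped Topology

namespace P095F

universe u

variable {A : Type u} [CStarAlgebra A]

/-- the element `s` -/
noncomputable def ca_s {n k : ℕ} (d : Fin n → Fin k → A) (c : Fin k → Fin k → A) (x : A)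
    (r : Fin n → Fin k → A) : A := ∑ j, ∑ l, ∑ p, d j p * x * r j l * c l p

theorem ca_norm_r {n k : ℕ} {r : Fin n → Fin k → A} {e : A} {ε₃ : ℝ} (he : ‖e‖ ≤ 1)
    (h3 : ε₃ ≤ 1) (hr : ∀ j l, ‖star (r j l) * r j l - e‖ ≤ ε₃) (j : Fin n) (l : Fin k) :
    ‖r j l‖ ≤ 2 := by
  have h1 : ‖r j l‖ * ‖r j l‖ = ‖star (r j l) * r j l‖ := (CStarRing.norm_star_mul_self).symm
  have h2 : ‖star (r j l) * r j l‖ ≤ ‖star (r j l) * r j l - e‖ + ‖e‖ := by
    have h3 : star (r j l) * r j l = (star (r j l) * r j l - e) + e := by abel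
    conv_lhs => rw [h3]
    exact norm_add_le _ _
  have h4 := hr j l
  nlinarith [norm_nonneg (r j l)]

private theorem caest_sum {ι : Type*} [Fintype ι] (F : ι → A) {B : ℝ} (h : ∀ i, ‖F i‖ ≤ B) :
    ‖∑ i, F i‖ ≤ Fintype.card ι * B := by
  refine (norm_sum_le _ _).trans ((Finset.sum_le_sum fun i _ => h i).trans ?_)
  rw [Finset.sum_const, Finset.card_univ, nsmul_eq_mul]

/-- the terms -/
private noncomputable def caest_T {n k : ℕ} (d : Fin n → Fin k → A) (c : Fin k → Fin k → A) (x : A)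
    (r : Fin n → Fin k → A) (i : Fin n × Fin k × Fin k) : A :=
  d i.1 i.2.2 * x * r i.1 i.2.1 * c i.2.1 i.2.2

private theorem caest_s {n k : ℕ} (d : Fin n → Fin k → A) (c : Fin k → Fin k → A) (x : A)
    (r : Fin n → Fin k → A) : ca_s d c x r = ∑ i, caest_T d c x r i := by
  rw [Fintype.sum_prod_type]
  unfold ca_s
  refine Finset.sum_congr rfl fun j _ => ?_
  rw [Fintype.sum_prod_type]
  rfl

private theorem caest_card (n k : ℕ) :
    (Fintype.card (Fin n × Fin k × Fin k) : ℝ) = n * k ^ 2 := by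
  rw [Fintype.card_prod, Fintype.card_prod, Fintype.card_fin, Fintype.card_fin]
  push_cast
  ring

theorem ca_est_f {n k : ℕ} (d : Fin n → Fin k → A) (c : Fin k → Fin k → A) (x f : A)
    (r : Fin n → Fin k → A) {C δ ε₂ : ℝ} (hC : 1 ≤ C) (hd : ∀ j p, ‖d j p‖ ≤ C)
    (hc : ∀ l p, ‖c l p‖ ≤ C) (hr : ∀ j l, ‖r j l‖ ≤ 2) (hx : ‖x‖ ≤ 1)
    (hfd : ∀ j p, ‖f * d j p - d j p * f‖ ≤ δ) (hfx : ‖f * x - x‖ ≤ ε₂) :
    ‖f * ca_s d c x r - ca_s d c x r‖ ≤ n * k ^ 2 * (2 * C ^ 2 * (δ + ε₂)) := by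
  have h1 : f * ca_s d c x r - ca_s d c x r =
      ∑ i : Fin n × Fin k × Fin k, (f * caest_T d c x r i - caest_T d c x r i) := by
    rw [caest_s, Finset.mul_sum, Finset.sum_sub_distrib]
  rw [h1, ← caest_card]
  refine caest_sum _ fun i => ?_
  have hC0 : 0 ≤ C := by linarith
  have h2 : f * caest_T d c x r i - caest_T d c x r i =
      (f * d i.1 i.2.2 - d i.1 i.2.2 * f) * x * r i.1 i.2.1 * c i.2.1 i.2.2 +
        d i.1 i.2.2 * (f * x - x) * r i.1 i.2.1 * c i.2.1 i.2.2 := by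
    unfold caest_T
    simp only [sub_mul, mul_sub, mul_assoc]
    abel
  rw [h2]
  have hδ : 0 ≤ δ := (norm_nonneg _).trans (hfd i.1 i.2.2)
  have hε : 0 ≤ ε₂ := (norm_nonneg _).trans hfx
  have h3 : ‖(f * d i.1 i.2.2 - d i.1 i.2.2 * f) * x * r i.1 i.2.1 * c i.2.1 i.2.2‖ ≤
      δ * 1 * 2 * C := by
    refine (norm_mul_le _ _).trans (mul_le_mul ?_ (hc _ _) (norm_nonneg _) (by positivity))
    refine (norm_mul_le _ _).trans (mul_le_mul ?_ (hr _ _) (norm_nonneg _) (by positivity))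
    exact (norm_mul_le _ _).trans (mul_le_mul (hfd _ _) hx (norm_nonneg _) hδ)
  have h4 : ‖d i.1 i.2.2 * (f * x - x) * r i.1 i.2.1 * c i.2.1 i.2.2‖ ≤ C * ε₂ * 2 * C := by
    refine (norm_mul_le _ _).trans (mul_le_mul ?_ (hc _ _) (norm_nonneg _) (by positivity))
    refine (norm_mul_le _ _).trans (mul_le_mul ?_ (hr _ _) (norm_nonneg _) (by positivity))
    exact (norm_mul_le _ _).trans (mul_le_mul (hd _ _) hfx (norm_nonneg _) hC0)
  refine (norm_add_le _ _).trans ((add_le_add h3 h4).trans ?_)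
  have h5 : C ≤ C ^ 2 := by nlinarith
  have h6 : C * δ ≤ C ^ 2 * δ := mul_le_mul_of_nonneg_right h5 hδ
  nlinarith

theorem ca_est_a {n k : ℕ} (d : Fin n → Fin k → A) (c : Fin k → Fin k → A) (x e a : A)
    (r : Fin n → Fin k → A) (w : Fin n → Fin k → Fin n → Fin k → ℂ) {C δ ε₂ ε₃ : ℝ} (hC : 1 ≤ C)
    (h2 : 0 ≤ ε₂) (h3 : 0 ≤ ε₃) (hδ : 0 ≤ δ)
    (hd : ∀ j p, ‖d j p‖ ≤ C) (hc : ∀ l p, ‖c l p‖ ≤ C) (hr2 : ∀ j l, ‖r j l‖ ≤ 2)
    (hxs : star x = x) (hxr : ∀ j l, x * r j l = r j l)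
    (ho : ∀ j l j' l', ¬ (j = j' ∧ l = l') → star (r j l) * r j' l' = 0)
    (hr : ∀ j l, ‖star (r j l) * r j l - e‖ ≤ ε₃)
    (hec : ∀ l p, ‖e * c l p - c l p * e‖ ≤ δ) (hw : ∀ j p j' q, ‖w j p j' q‖ ≤ C ^ 3)
    (hex : ∀ j p j' q, ‖x * (star (d j p) * a * d j' q) * x - w j p j' q • (x * x)‖ ≤ ε₂) :
    ‖star (ca_s d c x r) * a * ca_s d c x r -
      ∑ p, ∑ q, (∑ j, w j p j q) • ((∑ l, star (c l p) * c l q) * e)‖ ≤
      n ^ 2 * k ^ 4 * (4 * C ^ 2 * ε₂) + n * k ^ 3 * (C ^ 5 * ε₃ + C ^ 4 * δ) := by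
  have hC0 : 0 ≤ C := by linarith
  let I := Fin n × Fin k × Fin k
  -- the two approximations
  let X : I → I → A := fun i i' => star (caest_T d c x r i) * a * caest_T d c x r i'
  let U : I → I → A := fun i i' => w i.1 i.2.2 i'.1 i'.2.2 •
    (star (c i.2.1 i.2.2) * (star (r i.1 i.2.1) * r i'.1 i'.2.1) * c i'.2.1 i'.2.2)
  let V : I → Fin k → A := fun i q => w i.1 i.2.2 i.1 q •
    (star (c i.2.1 i.2.2) * (star (r i.1 i.2.1) * r i.1 i.2.1) * c i.2.1 q)
  let V' : I → Fin k → A := fun i q => w i.1 i.2.2 i.1 q •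
    (star (c i.2.1 i.2.2) * c i.2.1 q * e)
  have hX : star (ca_s d c x r) * a * ca_s d c x r = ∑ i, ∑ i', X i i' := by
    rw [caest_s, star_sum, Finset.sum_mul, Finset.sum_mul_sum]
  have hXU : ∀ i i', ‖X i i' - U i i'‖ ≤ 4 * C ^ 2 * ε₂ := by
    intro i i'
    have h1 : X i i' - U i i' = star (c i.2.1 i.2.2) * star (r i.1 i.2.1) *
        (x * (star (d i.1 i.2.2) * a * d i'.1 i'.2.2) * x -
          w i.1 i.2.2 i'.1 i'.2.2 • (x * x)) * r i'.1 i'.2.1 * c i'.2.1 i'.2.2 := by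
      have h2 : X i i' = star (c i.2.1 i.2.2) * star (r i.1 i.2.1) *
          (x * (star (d i.1 i.2.2) * a * d i'.1 i'.2.2) * x) * r i'.1 i'.2.1 *
            c i'.2.1 i'.2.2 := by
        change star (d i.1 i.2.2 * x * r i.1 i.2.1 * c i.2.1 i.2.2) * a *
          (d i'.1 i'.2.2 * x * r i'.1 i'.2.1 * c i'.2.1 i'.2.2) = _
        rw [star_mul, star_mul, star_mul, hxs]
        simp only [mul_assoc]
      have h3 : U i i' = star (c i.2.1 i.2.2) * star (r i.1 i.2.1) *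
          (w i.1 i.2.2 i'.1 i'.2.2 • (x * x)) * r i'.1 i'.2.1 * c i'.2.1 i'.2.2 := by
        have h4 : x * x * r i'.1 i'.2.1 = r i'.1 i'.2.1 := by rw [mul_assoc, hxr, hxr]
        change w i.1 i.2.2 i'.1 i'.2.2 • (star (c i.2.1 i.2.2) *
          (star (r i.1 i.2.1) * r i'.1 i'.2.1) * c i'.2.1 i'.2.2) = _
        conv_lhs => rw [← h4]
        simp only [mul_smul_comm, smul_mul_assoc, mul_assoc]
      rw [h2, h3]
      simp only [mul_sub, sub_mul]
    rw [h1]
    calc _ ≤ C * 2 * ε₂ * 2 * C := by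
          refine (norm_mul_le _ _).trans (mul_le_mul ?_ (hc _ _) (norm_nonneg _) (by positivity))
          refine (norm_mul_le _ _).trans (mul_le_mul ?_ (hr2 _ _) (norm_nonneg _) (by positivity))
          refine (norm_mul_le _ _).trans (mul_le_mul ?_ (hex _ _ _ _) (norm_nonneg _)
            (by positivity))
          refine (norm_mul_le _ _).trans (mul_le_mul ?_ ?_ (norm_nonneg _) hC0)
          · rw [norm_star]
            exact hc _ _
          · rw [norm_star]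
            exact hr2 _ _
      _ = 4 * C ^ 2 * ε₂ := by ring
  have hU : ∀ i, ∑ i', U i i' = ∑ q, V i q := by
    intro i
    rw [Fintype.sum_prod_type, Finset.sum_eq_single i.1]
    · rw [Fintype.sum_prod_type, Finset.sum_eq_single i.2.1]
      · intro l' _ hl'
        refine Finset.sum_eq_zero fun q _ => ?_
        have h1 : star (r i.1 i.2.1) * r i.1 l' = 0 := ho _ _ _ _ fun h => hl' h.2.symm
        change w i.1 i.2.2 i.1 q • (star (c i.2.1 i.2.2) * (star (r i.1 i.2.1) * r i.1 l') *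
          c l' q) = 0
        rw [h1, mul_zero, zero_mul, smul_zero]
      · intro h
        exact absurd (Finset.mem_univ _) h
    · intro j' _ hj'
      refine Finset.sum_eq_zero fun i' _ => ?_
      have h1 : star (r i.1 i.2.1) * r j' i'.1 = 0 := ho _ _ _ _ fun h => hj' h.1.symm
      change w i.1 i.2.2 j' i'.2 • (star (c i.2.1 i.2.2) * (star (r i.1 i.2.1) * r j' i'.1) *
        c i'.1 i'.2) = 0
      rw [h1, mul_zero, zero_mul, smul_zero]
    · intro h
      exact absurd (Finset.mem_univ _) h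
  have hVV : ∀ i q, ‖V i q - V' i q‖ ≤ C ^ 5 * ε₃ + C ^ 4 * δ := by
    intro i q
    have h1 : V i q - V' i q = w i.1 i.2.2 i.1 q •
        (star (c i.2.1 i.2.2) * (star (r i.1 i.2.1) * r i.1 i.2.1 - e) * c i.2.1 q +
          star (c i.2.1 i.2.2) * (e * c i.2.1 q - c i.2.1 q * e)) := by
      change w i.1 i.2.2 i.1 q • _ - w i.1 i.2.2 i.1 q • _ = _
      rw [← smul_sub]
      congr 1
      simp only [mul_sub, sub_mul, mul_assoc]
      abel
    rw [h1, norm_smul]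
    have h2 : ‖star (c i.2.1 i.2.2) * (star (r i.1 i.2.1) * r i.1 i.2.1 - e) * c i.2.1 q‖ ≤
        C * ε₃ * C := by
      refine (norm_mul_le _ _).trans (mul_le_mul ?_ (hc _ _) (norm_nonneg _) (by positivity))
      refine (norm_mul_le _ _).trans (mul_le_mul ?_ (hr _ _) (norm_nonneg _) hC0)
      rw [norm_star]
      exact hc _ _
    have h3 : ‖star (c i.2.1 i.2.2) * (e * c i.2.1 q - c i.2.1 q * e)‖ ≤ C * δ := by
      refine (norm_mul_le _ _).trans (mul_le_mul ?_ (hec _ _) (norm_nonneg _) hC0)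
      rw [norm_star]
      exact hc _ _
    calc _ ≤ C ^ 3 * (C * ε₃ * C + C * δ) :=
          mul_le_mul (hw _ _ _ _) ((norm_add_le _ _).trans (add_le_add h2 h3)) (norm_nonneg _)
            (by positivity)
      _ = C ^ 5 * ε₃ + C ^ 4 * δ := by ring
  have hV' : ∑ p, ∑ q, (∑ j, w j p j q) • ((∑ l, star (c l p) * c l q) * e) =
      ∑ i, ∑ q, V' i q := by
    rw [Fintype.sum_prod_type]
    have h1 : ∀ j : Fin n, ∑ i : Fin k × Fin k, ∑ q, V' (j, i) q =
        ∑ p, ∑ q, ∑ l, w j p j q • (star (c l p) * c l q * e) := by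
      intro j
      rw [Fintype.sum_prod_type]
      refine Finset.sum_comm.trans (Finset.sum_congr rfl fun p _ => ?_)
      exact Finset.sum_comm
    have h2 : ∑ j : Fin n, ∑ i : Fin k × Fin k, ∑ q, V' (j, i) q =
        ∑ p, ∑ q, ∑ j : Fin n, ∑ l, w j p j q • (star (c l p) * c l q * e) := by
      refine (Finset.sum_congr rfl fun j _ => h1 j).trans ?_
      refine Finset.sum_comm.trans (Finset.sum_congr rfl fun p _ => ?_)
      exact Finset.sum_comm
    refine Eq.trans ?_ h2.symm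
    refine Finset.sum_congr rfl fun p _ => Finset.sum_congr rfl fun q _ => ?_
    rw [Finset.sum_smul]
    refine Finset.sum_congr rfl fun j _ => ?_
    rw [Finset.sum_mul, Finset.smul_sum]
  rw [hX, hV']
  have h1 : ∑ i, ∑ i', X i i' - ∑ i, ∑ q, V' i q =
      ∑ i, ∑ i', (X i i' - U i i') + ∑ i, ∑ q, (V i q - V' i q) := by
    simp only [Finset.sum_sub_distrib, hU]
    abel
  rw [h1]
  refine (norm_add_le _ _).trans (add_le_add ?_ ?_)
  · refine (caest_sum _ fun i => caest_sum _ fun i' => hXU i i').trans (le_of_eq ?_)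
    rw [caest_card]
    ring
  · refine (caest_sum _ fun i => caest_sum _ fun q => hVV i q).trans (le_of_eq ?_)
    rw [caest_card, Fintype.card_fin]
    ring

end P095F
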