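import Vale.Agent.Lib.P095F.CAExcA

/-!
# P095F, part CA, module CAExc: excision

Apply `excision_sa` to `f` and the finite set of the real and imaginary parts (`realPart`,
`imaginaryPart`) of the elements of `S`, tolerance `ε' = min (ε / 2) (ε ^ 2)`.
`lam0 = 1`: `(ρ f).re ≤ ‖f‖ = 1` gives `lam0 ≤ 1`; if `lam0 < 1` then `|(ρ f).re| ≤ max lam0 0 < 1` for all
states and `‖f‖ < 1` by `norm_le_of_st`.
`‖x * (1 - f) * x‖ ≤ ε'` and `0 ≤ 1 - f ≤ 1`: `‖(1 - f) x‖ ^ 2 = ‖x (1 - f)^2 x‖ ≤ ‖x (1 - f) x‖ ≤ ε ^ 2`.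
-/

open scoped Topology ComplexConjugate

namespace P095F

universe u

variable {A : Type u} [CStarAlgebra A] [PartialOrder A] [StarOrderedRing A]

/-- `f^2 ≤ f` for `0 ≤ f ≤ 1`, in the form `(1 - f)^2 ≤ 1 - f` -/
private theorem caexc_sq {f : A} (h0 : 0 ≤ f) (h1 : f ≤ 1) : (1 - f) * (1 - f) ≤ 1 - f := by
  have hs : star f = f := (IsSelfAdjoint.of_nonneg h0).star_eq
  have h2 : 0 ≤ 1 - f := sub_nonneg.2 h1
  rw [← sub_nonneg]
  have e : 1 - f - (1 - f) * (1 - f) = star f * (1 - f) * f + star (1 - f) * f * (1 - f) := by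
    rw [star_sub, star_one, hs]
    noncomm_ring
  rw [e]
  exact add_nonneg (star_left_conjugate_nonneg h2 f) (star_left_conjugate_nonneg h0 (1 - f))

theorem excision (f : A) (hf : 0 ≤ f) (hf1 : ‖f‖ = 1) (S : Finset A) {ε : ℝ} (hε : 0 < ε) :
    ∃ (ψ : A →ₗ[ℂ] ℂ) (x h : A), IsSt ψ ∧ 0 ≤ x ∧ ‖x‖ ≤ 1 ∧ 0 ≤ h ∧ h ≠ 0 ∧ x * h = h ∧
      ‖f * x - x‖ ≤ ε ∧ ∀ a ∈ S, ‖x * a * x - ψ a • (x * x)‖ ≤ ε := by
  classical
  have hne : f ≠ 0 := by
    intro h
    rw [h, norm_zero] at hf1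
    exact zero_ne_one hf1
  have hnt : Nontrivial A := ⟨f, 0, hne⟩
  have hε' : 0 < min (ε / 2) (ε ^ 2) := lt_min (by linarith) (pow_pos hε 2)
  have hsa : ∀ a ∈ S.image (fun a => ((realPart a : selfAdjoint A) : A)) ∪
      S.image (fun a => ((imaginaryPart a : selfAdjoint A) : A)), IsSelfAdjoint a := by
    intro a ha
    rcases Finset.mem_union.1 ha with ha | ha
    · obtain ⟨b, _, rfl⟩ := Finset.mem_image.1 ha
      exact (realPart b).2
    · obtain ⟨b, _, rfl⟩ := Finset.mem_image.1 ha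
      exact (imaginaryPart b).2
  obtain ⟨lam0, ψ, x, h, hle, ⟨ρ, hρ, hρ0⟩, hψ, hx, hx1, hh, hh0, hxh, hfx, hS⟩ :=
    excision_sa f (IsSelfAdjoint.of_nonneg hf) _ hsa hε'
  have hlam0 : 0 ≤ lam0 := hρ0 ▸ hρ.re_nonneg hf
  have hlam : lam0 = 1 := by
    refine le_antisymm ?_ ?_
    · rw [← hρ0, ← hf1]
      exact (Complex.re_le_norm _).trans (hρ.norm_le f)
    · rw [← hf1]
      refine norm_le_of_st (IsSelfAdjoint.of_nonneg hf) hlam0 fun φ hφ => ?_
      rw [abs_of_nonneg (hφ.re_nonneg hf)]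
      exact hle φ hφ
  rw [hlam, Complex.ofReal_one, one_smul] at hfx
  have hxs : star x = x := (IsSelfAdjoint.of_nonneg hx).star_eq
  have hfs : star f = f := (IsSelfAdjoint.of_nonneg hf).star_eq
  have hfle : f ≤ 1 := (CStarAlgebra.norm_le_one_iff_of_nonneg f hf).1 hf1.le
  refine ⟨ψ, x, h, hψ, hx, hx1, hh, hh0, hxh, ?_, fun a ha => ?_⟩
  · have h1 : star x * ((1 - f) * (1 - f)) * x ≤ star x * (1 - f) * x :=
      star_left_conjugate_le_conjugate (caexc_sq hf hfle) x
    have h2 : star ((1 - f) * x) * ((1 - f) * x) = star x * ((1 - f) * (1 - f)) * x := by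
      rw [star_mul, star_sub, star_one, hfs]
      noncomm_ring
    have h3 : ‖star x * ((1 - f) * (1 - f)) * x‖ ≤ ‖star x * (1 - f) * x‖ :=
      CStarAlgebra.norm_le_norm_of_nonneg_of_le (by rw [← h2]; exact star_mul_self_nonneg _) h1
    have h4 : star x * (1 - f) * x = -(x * f * x - x * x) := by
      rw [hxs]
      noncomm_ring
    rw [← h2, CStarRing.norm_star_mul_self, h4, norm_neg] at h3
    have h5 : ‖(1 - f) * x‖ * ‖(1 - f) * x‖ ≤ ε ^ 2 := (h3.trans hfx).trans (min_le_right _ _)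
    have h6 : ‖f * x - x‖ = ‖(1 - f) * x‖ := by
      rw [← norm_neg]
      congr 1
      noncomm_ring
    rw [h6]
    have h7 := norm_nonneg ((1 - f) * x)
    exact abs_le_of_sq_le_sq' (by rw [pow_two]; exact h5) hε.le |>.2
  · have hre := hS _ (Finset.mem_union_left _ (Finset.mem_image_of_mem
      (fun a => ((realPart a : selfAdjoint A) : A)) ha))
    have him := hS _ (Finset.mem_union_right _ (Finset.mem_image_of_mem
      (fun a => ((imaginaryPart a : selfAdjoint A) : A)) ha))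
    set r : A := ((realPart a : selfAdjoint A) : A) with hr
    set s : A := ((imaginaryPart a : selfAdjoint A) : A) with hs
    have hdec : a = r + Complex.I • s := (realPart_add_I_smul_imaginaryPart a).symm
    have e : x * a * x - ψ a • (x * x) = (x * r * x - ψ r • (x * x)) +
        Complex.I • (x * s * x - ψ s • (x * x)) := by
      rw [hdec, map_add, map_smul, mul_add, add_mul, mul_smul_comm, smul_mul_assoc, smul_eq_mul,
        add_smul, smul_sub, smul_smul]
      abel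
    rw [e]
    refine (norm_add_le _ _).trans ?_
    rw [norm_smul, Complex.norm_I, one_mul]
    have h1 := hre.trans (min_le_left _ _)
    have h2 := him.trans (min_le_left _ _)
    linarith

end P095F
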