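import Mathlib.Algebra.CharP.Defs
import Mathlib.Algebra.Order.Ring.Star
import Mathlib.Analysis.Normed.Order.Lattice
import Mathlib.Tactic.Positivity

/-!
# P095F, part CA, module CALex: lexicographic maximization on a compact space

Induction on `s` (for all `S`, `g0`).  `lam0 = max g0` on `S`.
* `s = ∅`: `K0 = 1`, `δ = ε / 2`: `lam0 - δ ≤ m - δ ≤ g0 x ≤ lam0`.
* `insert i s`: `S' = S ∩ {g0 = lam0}`, compact and nonempty; induction hypothesis for `S'`, `g i`
  in the place of `g0`, and `s`: `lam0', lam'`; put `lam i = lam0'`, `lam j = lam' j` for `j ∈ s`.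
  Given `ε`: `K0', K', δ'` from the induction hypothesis, `G x = K0' * g i x + ∑ j ∈ s, K' j * g j x`,
  `m'` = maximum of `G` on `S'`.  `Bad = {x ∈ S : ε ≤ |g0 x - lam0| or ε ≤ |g j x - lam j| for some j in
  insert i s}` is compact.  For every `x ∈ Bad` there is a natural number `N` with
  `G x - m' + δ' < N * (lam0 - g0 x)`: clear if `g0 x < lam0`; if `g0 x = lam0` then `x ∈ S'` is bad, so
  by the induction hypothesis (with `m = m'`) `G x < m' - δ'`.  The sets
  `U_N = {x | G x - m' + δ' < N * (lam0 - g0 x)}` are open and increasing on `S` (`lam0 - g0 ≥ 0`), so one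
  `N ≥ 1` works for all of `Bad`.  `K0 = N`, `K i = K0'`, `K j = K' j`, `δ = δ'`: if `m` is an upper
  bound then `m ≥ N * lam0 + m'` (value at a maximum point of `G` in `S'`), so
  `m - δ' ≤ N * g0 x + G x` gives `N * (lam0 - g0 x) ≤ G x - m' + δ'`, hence `x` is not in `Bad`.
-/

open scoped Topology

namespace P095F

theorem lex_max {X : Type*} [TopologicalSpace X] {ι : Type*} [DecidableEq ι] (s : Finset ι) :
    ∀ (S : Set X), IsCompact S → S.Nonempty → ∀ (g0 : X → ℝ) (g : ι → X → ℝ), Continuous g0 →
      (∀ j, Continuous (g j)) → ∃ (lam0 : ℝ) (lam : ι → ℝ), (∀ x ∈ S, g0 x ≤ lam0) ∧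
        (∃ x ∈ S, g0 x = lam0) ∧ ∀ ε : ℝ, 0 < ε → ∃ (K0 : ℝ) (K : ι → ℝ) (δ : ℝ), 0 < K0 ∧ 0 < δ ∧
          ∀ m : ℝ, (∀ x ∈ S, K0 * g0 x + ∑ j ∈ s, K j * g j x ≤ m) →
            ∀ x ∈ S, m - δ ≤ K0 * g0 x + ∑ j ∈ s, K j * g j x →
              |g0 x - lam0| < ε ∧ ∀ j ∈ s, |g j x - lam j| < ε := by
  induction s using Finset.induction_on with
  | empty =>
    intro S hS hne g0 g hg0 hg
    obtain ⟨x0, hx0, hmax⟩ := hS.exists_isMaxOn hne hg0.continuousOn
    refine ⟨g0 x0, fun _ => 0, fun x hx => hmax hx, ⟨x0, hx0, rfl⟩, fun ε hε => ?_⟩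
    refine ⟨1, fun _ => 0, ε / 2, one_pos, half_pos hε, fun m hm x hx h => ?_⟩
    simp only [one_mul, Finset.sum_empty, add_zero] at hm h
    have h1 := hm x0 hx0
    have h2 : g0 x ≤ g0 x0 := hmax hx
    refine ⟨?_, fun j hj => absurd hj (Finset.notMem_empty j)⟩
    rw [abs_lt]
    constructor <;> linarith
  | insert i s hi ih =>
    intro S hS hne g0 g hg0 hg
    obtain ⟨x0, hx0, hmax⟩ := hS.exists_isMaxOn hne hg0.continuousOn
    set lam0 := g0 x0 with hlam0
    have hS' : IsCompact (S ∩ {x | g0 x = lam0}) :=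
      hS.inter_right (isClosed_eq hg0 continuous_const)
    have hne' : (S ∩ {x | g0 x = lam0}).Nonempty := ⟨x0, hx0, rfl⟩
    obtain ⟨lam1, lam', -, -, h3⟩ := ih _ hS' hne' (g i) g (hg i) hg
    set lam : ι → ℝ := Function.update lam' i lam1 with hlam
    have hli : lam i = lam1 := by rw [hlam, Function.update_self]
    have hlj : ∀ j ∈ s, lam j = lam' j := fun j hj => by
      have hji : j ≠ i := fun h => hi (by rwa [h] at hj)
      rw [hlam, Function.update_of_ne hji]
    refine ⟨lam0, lam, fun x hx => hmax hx, ⟨x0, hx0, rfl⟩, fun ε hε => ?_⟩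
    obtain ⟨K1, K', δ, hK1, hδ, h4⟩ := h3 ε hε
    set Gf : X → ℝ := fun x => K1 * g i x + ∑ j ∈ s, K' j * g j x with hGf
    have hGc : Continuous Gf := (continuous_const.mul (hg i)).add
      (continuous_finsetSum s fun j _ => continuous_const.mul (hg j))
    obtain ⟨x1, hx1, hmax1⟩ := hS'.exists_isMaxOn hne' hGc.continuousOn
    set m' := Gf x1 with hm'
    -- the bad set
    set F : Set X := {x | ε ≤ |g0 x - lam0|} ∪ ⋃ j ∈ insert i s, {x | ε ≤ |g j x - lam j|} with hF
    have hFc : IsClosed F := by
      refine IsClosed.union (isClosed_le continuous_const (hg0.sub continuous_const).abs) ?_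
      exact (insert i s).finite_toSet.isClosed_biUnion fun j _ =>
        isClosed_le continuous_const ((hg j).sub continuous_const).abs
    have hbad : IsCompact (S ∩ F) := hS.inter_right hFc
    obtain ⟨t, ht⟩ := hbad.elim_finite_subcover
      (fun N : ℕ => {x | Gf x - m' + δ < N * (lam0 - g0 x)})
      (fun N => isOpen_lt ((hGc.sub continuous_const).add continuous_const)
        (continuous_const.mul (continuous_const.sub hg0)))
      (by
        rintro x ⟨hxS, hxF⟩
        have hle : g0 x ≤ lam0 := hmax hxS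
        rw [Set.mem_iUnion]
        rcases hle.lt_or_eq with h | h
        · obtain ⟨N, hN⟩ := exists_nat_gt ((Gf x - m' + δ) / (lam0 - g0 x))
          refine ⟨N, ?_⟩
          rw [div_lt_iff₀ (sub_pos.2 h)] at hN
          exact hN
        · refine ⟨0, ?_⟩
          show Gf x - m' + δ < ((0 : ℕ) : ℝ) * (lam0 - g0 x)
          by_contra hcon
          push Not at hcon
          have h5 : ((0 : ℕ) : ℝ) * (lam0 - g0 x) = 0 := by simp
          rw [h5] at hcon
          have h6 := h4 m' (fun y hy => hmax1 hy) x ⟨hxS, h⟩ (by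
            show m' - δ ≤ Gf x
            linarith)
          rcases hxF with h7 | h7
          · have h7' : ε ≤ |g0 x - lam0| := h7
            rw [h, sub_self, abs_zero] at h7'
            linarith
          · simp only [Set.mem_iUnion] at h7
            obtain ⟨j, hj, h8⟩ := h7
            have h8' : ε ≤ |g j x - lam j| := h8
            rcases Finset.mem_insert.1 hj with rfl | hj'
            · rw [hli] at h8'
              linarith [h6.1]
            · rw [hlj j hj'] at h8'
              linarith [h6.2 j hj'])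
    set N : ℕ := t.sup id + 1 with hN
    have hcov : ∀ x ∈ S ∩ F, Gf x - m' + δ < N * (lam0 - g0 x) := by
      intro x hx
      have h5 := ht hx
      simp only [Set.mem_iUnion] at h5
      obtain ⟨N', hN', h6⟩ := h5
      have h6' : Gf x - m' + δ < N' * (lam0 - g0 x) := h6
      have hle : g0 x ≤ lam0 := hmax hx.1
      have h7 : (N' : ℝ) ≤ N := by
        have : N' ≤ t.sup id := Finset.le_sup (f := id) hN'
        exact_mod_cast this.trans (Nat.le_succ _)
      exact h6'.trans_le (mul_le_mul_of_nonneg_right h7 (sub_nonneg.2 hle))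
    set K : ι → ℝ := Function.update K' i K1 with hK
    have hsum : ∀ x, ∑ j ∈ insert i s, K j * g j x = Gf x := by
      intro x
      rw [Finset.sum_insert hi, hK, Function.update_self, hGf]
      congr 1
      refine Finset.sum_congr rfl fun j hj => ?_
      have hji : j ≠ i := fun h => hi (by rwa [h] at hj)
      rw [Function.update_of_ne hji]
    refine ⟨N, K, δ, by rw [hN]; positivity, hδ, fun m hm x hx h => ?_⟩
    simp only [hsum] at hm h
    have h5 := hm x1 hx1.1
    have h6 : g0 x1 = lam0 := hx1.2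
    rw [h6] at h5
    have h7 : x ∉ F := by
      intro hxF
      have h8 := hcov x ⟨hx, hxF⟩
      have h9 : (N : ℝ) * (lam0 - g0 x) = N * lam0 - N * g0 x := by ring
      rw [h9] at h8
      linarith
    constructor
    · by_contra hcon
      push Not at hcon
      exact h7 (Or.inl hcon)
    · intro j hj
      by_contra hcon
      push Not at hcon
      refine h7 (Or.inr ?_)
      simp only [Set.mem_iUnion]
      exact ⟨j, hj, hcon⟩

end P095F
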