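import Vale.Agent.Lib.P095F.CAStB
import Vale.Agent.Lib.P095F.CAComp
import Vale.Agent.Lib.P095F.CALex

/-!
# P095F, part CA, module CAExcA: simultaneous excision of self-adjoint elements

Lex maximization (`lex_max`) on the compact set `StSet A` (nonempty: `exists_st` for `x = 1`) with
`g0 φ = (φ f).re`, `g a φ = (φ a).re`, index set `S` (a `Finset A`), with tolerance `ε / 2`: `K0, K, δ`.
`b = K0 • f + ∑ a ∈ S, K a • a` self-adjoint, `ν` = the largest element of `spectrum ℝ b`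
(`spectrum ℝ b` compact and nonempty).  `b ≤ ν`, so `(ψ b).re ≤ ν` for all states.
`x = cfc χ b`, `χ s = max 0 (min 1 (2 * (s - ν + δ) / δ))` (0 for `s ≤ ν - δ`, 1 for `s ≥ ν - δ/2`);
`h = cfc κ b`, `κ s = max 0 (s - ν + δ / 2)`.  `χ κ = κ`, so `x * h = h`; `κ ν ≠ 0`, so `h ≠ 0`.
`x * b * x ≥ (ν - δ) • (x * x)` (functional calculus of `b`).
For a state `ρ`: if `ρ(x x) = 0` then `ρ(x a x) = 0` (Cauchy-Schwarz).  Otherwise `ρ' = ρ.cut` has
`ρ'(b) ≥ ν - δ`, so `|ρ'(a) - lam a| < ε / 2` and `|ρ(x (a - lam a) x)| ≤ ε / 2` (`ρ(x x) ≤ 1`).  By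
`norm_le_of_st`: `‖x * a * x - lam a • (x * x)‖ ≤ ε / 2`.  Same for `f`, `lam0`.
The state `ψ`: the cut of a state `ρ` with `ρ(x x) > 0` (`exists_st`): `|ψ a - lam a| < ε / 2`.
-/

open scoped Topology ComplexConjugate

namespace P095F

universe u

variable {A : Type u} [CStarAlgebra A] [PartialOrder A] [StarOrderedRing A]

section Caexca

omit [PartialOrder A] [StarOrderedRing A] in
theorem caexca_re_smul {ρ : A →ₗ[ℂ] ℂ} (r : ℝ) (a : A) : (ρ (r • a)).re = r * (ρ a).re := by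
  rw [← Complex.coe_smul, map_smul, smul_eq_mul, Complex.re_ofReal_mul]

omit [PartialOrder A] [StarOrderedRing A] in
theorem caexca_re_sum {ρ : A →ₗ[ℂ] ℂ} (K0 : ℝ) (K : A → ℝ) (f : A) (S : Finset A) :
    (ρ (K0 • f + ∑ a ∈ S, K a • a)).re = K0 * (ρ f).re + ∑ a ∈ S, K a * (ρ a).re := by
  rw [map_add, Complex.add_re, caexca_re_smul, map_sum, Complex.re_sum]
  congr 1
  refine Finset.sum_congr rfl fun a _ => ?_
  rw [caexca_re_smul]

/-- functional calculus of `b` -/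
theorem caexca_cfc [Nontrivial A] {b : A} (hb : IsSelfAdjoint b) {δ : ℝ} (hδ : 0 < δ) :
    ∃ (ν : ℝ) (x h : A), b ≤ algebraMap ℝ A ν ∧ 0 ≤ x ∧ ‖x‖ ≤ 1 ∧ 0 ≤ h ∧ h ≠ 0 ∧ x * h = h ∧
      (ν - δ) • (x * x) ≤ x * b * x := by
  have hc : IsCompact (spectrum ℝ b) := ContinuousFunctionalCalculus.isCompact_spectrum b
  have hne : (spectrum ℝ b).Nonempty := ContinuousFunctionalCalculus.spectrum_nonempty b hb
  obtain ⟨ν, hν, hmax⟩ := hc.exists_isGreatest hne
  set χ : ℝ → ℝ := fun s => max 0 (min 1 (2 * (s - ν + δ) / δ)) with hχ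
  set κ : ℝ → ℝ := fun s => max 0 (s - ν + δ / 2) with hκ
  have cχ : Continuous χ := by rw [hχ]; fun_prop
  have cκ : Continuous κ := by rw [hκ]; fun_prop
  have χ0 : ∀ s, 0 ≤ χ s := fun s => le_max_left _ _
  have κ0 : ∀ s, 0 ≤ κ s := fun s => le_max_left _ _
  have χ1 : ∀ s, χ s ≤ 1 := fun s => max_le zero_le_one (min_le_left _ _)
  have e1 : ∀ s, χ s * κ s = κ s := by
    intro s
    rcases le_or_gt (s - ν + δ / 2) 0 with h1 | h1
    · have h2 : κ s = 0 := max_eq_left h1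
      rw [h2, mul_zero]
    · have h2 : χ s = 1 := by
        have h3 : 1 ≤ 2 * (s - ν + δ) / δ := by
          rw [one_le_div hδ]
          linarith
        rw [hχ]
        simp only [min_eq_left h3]
        exact max_eq_right zero_le_one
      rw [h2, one_mul]
  have e2 : ∀ s, (ν - δ) * (χ s * χ s) ≤ χ s * s * χ s := by
    intro s
    rcases le_or_gt (s - ν + δ) 0 with h1 | h1
    · have h2 : χ s = 0 := by
        have h3 : 2 * (s - ν + δ) / δ ≤ 0 :=
          div_nonpos_of_nonpos_of_nonneg (by linarith) hδ.le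
        exact max_eq_left ((min_le_right _ _).trans h3)
      rw [h2]
      simp
    · have h2 : 0 ≤ χ s * χ s := mul_nonneg (χ0 s) (χ0 s)
      have h3 : (ν - δ) * (χ s * χ s) ≤ s * (χ s * χ s) :=
        mul_le_mul_of_nonneg_right (by linarith) h2
      linarith
  refine ⟨ν, cfc χ b, cfc κ b, ?_, ?_, ?_, ?_, ?_, ?_, ?_⟩
  · exact le_algebraMap_of_spectrum_le (fun s hs => hmax hs) hb
  · exact cfc_nonneg fun s _ => χ0 s
  · refine norm_cfc_le zero_le_one fun s _ => ?_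
    rw [Real.norm_of_nonneg (χ0 s)]
    exact χ1 s
  · exact cfc_nonneg fun s _ => κ0 s
  · intro h0
    have h1 : spectrum ℝ (cfc κ b) = κ '' spectrum ℝ b :=
      cfc_map_spectrum κ b hb cκ.continuousOn
    rw [h0, spectrum.zero_eq] at h1
    have h2 : κ ν ∈ ({0} : Set ℝ) := by
      rw [h1]
      exact ⟨ν, hν, rfl⟩
    have h3 : κ ν = 0 := h2
    have h4 : κ ν = δ / 2 := by
      rw [hκ]
      simp only [sub_self, zero_add]
      exact max_eq_right (by linarith)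
    rw [h4] at h3
    linarith
  · rw [← cfc_mul χ κ b cχ.continuousOn cκ.continuousOn]
    exact cfc_congr fun s _ => e1 s
  · have h1 : cfc χ b * b * cfc χ b = cfc (fun s => χ s * s * χ s) b := by
      rw [cfc_mul (fun s => χ s * s) χ b (by fun_prop) (by fun_prop),
        cfc_mul χ (fun s => s) b (by fun_prop) (by fun_prop), cfc_id' ℝ b hb]
    have h2 : (ν - δ) • (cfc χ b * cfc χ b) = cfc (fun s => (ν - δ) * (χ s * χ s)) b := by
      rw [← cfc_mul χ χ b (by fun_prop) (by fun_prop)]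
      exact (cfc_const_mul (ν - δ) (fun s => χ s * χ s) b (by fun_prop)).symm
    rw [h1, h2]
    exact cfc_mono (fun s _ => e2 s) (by fun_prop) (by fun_prop)

/-- estimate for the cut by `x` of an arbitrary state -/
theorem caexca_bd {x a : A} {l r : ℝ} (hx : 0 ≤ x) (hx1 : ‖x‖ ≤ 1) (ha : IsSelfAdjoint a)
    (hr : 0 ≤ r)
    (h : ∀ ρ : A →ₗ[ℂ] ℂ, IsSt ρ → ∀ ρ' : A →ₗ[ℂ] ℂ, IsSt ρ' → 0 < (ρ (x * x)).re →
      (∀ a, ρ (x * a * x) = ρ' a * ρ (x * x)) → |(ρ' a).re - l| ≤ r) :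
    ‖x * a * x - (l : ℂ) • (x * x)‖ ≤ r := by
  have hxs : star x = x := (IsSelfAdjoint.of_nonneg hx).star_eq
  have hxx : IsSelfAdjoint (x * x) := by
    rw [IsSelfAdjoint, star_mul, hxs]
  have hxax : IsSelfAdjoint (x * a * x) := by
    rw [IsSelfAdjoint, star_mul, star_mul, hxs, ha.star_eq, mul_assoc]
  have hsa : IsSelfAdjoint (x * a * x - (l : ℂ) • (x * x)) := by
    refine hxax.sub ?_
    rw [IsSelfAdjoint, star_smul, hxx.star_eq]
    simp
  refine norm_le_of_st hsa hr fun ρ hρ => ?_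
  have e1 : (ρ (x * a * x - (l : ℂ) • (x * x))).re = (ρ (x * a * x)).re - l * (ρ (x * x)).re := by
    rw [map_sub, Complex.sub_re, map_smul, smul_eq_mul, Complex.re_ofReal_mul]
  rw [e1]
  have h0 : 0 ≤ (ρ (x * x)).re := by
    have := hρ.nonneg x
    rwa [hxs] at this
  have h1 : (ρ (x * x)).re ≤ 1 := by
    refine (Complex.re_le_norm _).trans ((hρ.norm_le _).trans ((norm_mul_le _ _).trans ?_))
    exact mul_le_one₀ hx1 (norm_nonneg _) hx1
  rcases h0.eq_or_lt with h2 | h2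
  · have h3 := hρ.cs_sq x (a * x)
    rw [hxs, ← h2, zero_mul, ← mul_assoc] at h3
    have h4 : ‖ρ (x * a * x)‖ = 0 := by
      have := norm_nonneg (ρ (x * a * x))
      nlinarith
    rw [norm_eq_zero] at h4
    rw [h4, ← h2]
    simpa using hr
  · obtain ⟨ρ', hρ', hcut⟩ := hρ.cut (x := x) (by rw [hxs]; exact h2.ne')
    rw [hxs] at hcut
    have h3 := h ρ hρ ρ' hρ' h2 hcut
    have him : (ρ (x * x)).im = 0 := hρ.im_eq_zero hxx
    have h4 : (ρ (x * a * x)).re - l * (ρ (x * x)).re = ((ρ' a).re - l) * (ρ (x * x)).re := by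
      rw [hcut, Complex.mul_re, him]
      ring
    rw [h4, abs_mul, abs_of_pos h2]
    calc |(ρ' a).re - l| * (ρ (x * x)).re ≤ r * 1 :=
          mul_le_mul h3 h1 h2.le hr
      _ = r := mul_one r

end Caexca

theorem excision_sa [Nontrivial A] (f : A) (hf : IsSelfAdjoint f) (S : Finset A)
    (hS : ∀ a ∈ S, IsSelfAdjoint a) {ε : ℝ} (hε : 0 < ε) :
    ∃ (lam0 : ℝ) (ψ : A →ₗ[ℂ] ℂ) (x h : A), (∀ ρ : A →ₗ[ℂ] ℂ, IsSt ρ → (ρ f).re ≤ lam0) ∧
      (∃ ρ : A →ₗ[ℂ] ℂ, IsSt ρ ∧ (ρ f).re = lam0) ∧ IsSt ψ ∧ 0 ≤ x ∧ ‖x‖ ≤ 1 ∧ 0 ≤ h ∧ h ≠ 0 ∧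
      x * h = h ∧ ‖x * f * x - (lam0 : ℂ) • (x * x)‖ ≤ ε ∧
      ∀ a ∈ S, ‖x * a * x - ψ a • (x * x)‖ ≤ ε := by
  classical
  obtain ⟨φ0, hφ0, _⟩ := exists_st (A := A) (x := 1) zero_le_one one_ne_zero
  obtain ⟨lam0, lam, hub, hex, hlex⟩ := lex_max S (StSet A) (isCompact_stSet A)
    ⟨fun a => φ0 a, φ0, hφ0, fun _ => rfl⟩ (fun g => (g f).re) (fun a g => (g a).re)
    (Complex.continuous_re.comp (continuous_apply f))
    (fun a => Complex.continuous_re.comp (continuous_apply a))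
  obtain ⟨K0, K, δ, hK0, hδ, hlex'⟩ := hlex (ε / 2) (half_pos hε)
  set b : A := K0 • f + ∑ a ∈ S, K a • a with hb
  have hbs : IsSelfAdjoint b := by
    refine IsSelfAdjoint.add ?_ ?_
    · exact (IsSelfAdjoint.all K0).smul hf
    · exact isSelfAdjoint_sum S fun a ha => (IsSelfAdjoint.all (K a)).smul (hS a ha)
  obtain ⟨ν, x, h, hν, hx, hx1, hh, hh0, hxh, hxb⟩ := caexca_cfc hbs hδ
  have hxs : star x = x := (IsSelfAdjoint.of_nonneg hx).star_eq
  -- all states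
  have key : ∀ ρ : A →ₗ[ℂ] ℂ, IsSt ρ → ∀ ρ' : A →ₗ[ℂ] ℂ, IsSt ρ' → 0 < (ρ (x * x)).re →
      (∀ a, ρ (x * a * x) = ρ' a * ρ (x * x)) →
      |(ρ' f).re - lam0| < ε / 2 ∧ ∀ a ∈ S, |(ρ' a).re - lam a| < ε / 2 := by
    intro ρ hρ ρ' hρ' hpos hcut
    refine hlex' ν ?_ (fun a => ρ' a) ⟨ρ', hρ', fun _ => rfl⟩ ?_
    · rintro g ⟨φ, hφ, hg⟩
      have h1 := hφ.mono hν
      rw [hφ.map_algebraMap, Complex.ofReal_re, hb, caexca_re_sum] at h1
      simp only [hg]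
      exact h1
    · have h1 := hρ.mono hxb
      rw [caexca_re_smul, hcut b, Complex.mul_re] at h1
      have him : (ρ (x * x)).im = 0 := by
        refine hρ.im_eq_zero ?_
        rw [IsSelfAdjoint, star_mul, hxs]
      rw [him, mul_zero, sub_zero] at h1
      have h2 := le_of_mul_le_mul_right h1 hpos
      rw [hb, caexca_re_sum] at h2
      exact h2
  -- the state
  have hxx0 : x * x ≠ 0 := by
    intro h0
    apply hh0
    calc h = x * (x * h) := by rw [hxh, hxh]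
      _ = x * x * h := (mul_assoc _ _ _).symm
      _ = 0 := by rw [h0, zero_mul]
  have hxxn : 0 ≤ x * x := by
    have := star_mul_self_nonneg x
    rwa [hxs] at this
  obtain ⟨ρ0, hρ0, hρ0x⟩ := exists_st hxxn hxx0
  obtain ⟨ψ, hψ, hψc⟩ := hρ0.cut (x := x) (by rw [hxs]; exact hρ0x.ne')
  rw [hxs] at hψc
  have hψk := key ρ0 hρ0 ψ hψ hρ0x hψc
  refine ⟨lam0, ψ, x, h, ?_, ?_, hψ, hx, hx1, hh, hh0, hxh, ?_, ?_⟩
  · intro ρ hρ
    exact hub (fun a => ρ a) ⟨ρ, hρ, fun _ => rfl⟩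
  · obtain ⟨g, ⟨φ, hφ, hg⟩, hge⟩ := hex
    refine ⟨φ, hφ, ?_⟩
    rw [← hg]
    exact hge
  · refine (caexca_bd hx hx1 hf (half_pos hε).le ?_).trans (half_le_self hε.le)
    intro ρ hρ ρ' hρ' hpos hcut
    exact (key ρ hρ ρ' hρ' hpos hcut).1.le
  · intro a ha
    have h1 : ‖x * a * x - (lam a : ℂ) • (x * x)‖ ≤ ε / 2 := by
      refine caexca_bd hx hx1 (hS a ha) (half_pos hε).le ?_
      intro ρ hρ ρ' hρ' hpos hcut
      exact ((key ρ hρ ρ' hρ' hpos hcut).2 a ha).le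
    have h2 : ψ a = ((ψ a).re : ℂ) := by
      apply Complex.ext
      · rw [Complex.ofReal_re]
      · rw [Complex.ofReal_im]
        exact hψ.im_eq_zero (hS a ha)
    have h3 : ‖((lam a : ℂ) - ψ a) • (x * x)‖ ≤ ε / 2 := by
      rw [norm_smul, h2, ← Complex.ofReal_sub, Complex.norm_real, Real.norm_eq_abs, abs_sub_comm]
      calc |(ψ a).re - lam a| * ‖x * x‖ ≤ (ε / 2) * 1 := by
            refine mul_le_mul (hψk.2 a ha).le ?_ (norm_nonneg _) (half_pos hε).le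
            exact (norm_mul_le _ _).trans (mul_le_one₀ hx1 (norm_nonneg _) hx1)
        _ = ε / 2 := mul_one _
    have h4 : x * a * x - ψ a • (x * x) =
        (x * a * x - (lam a : ℂ) • (x * x)) + ((lam a : ℂ) - ψ a) • (x * x) := by
      rw [sub_smul]
      abel
    rw [h4]
    calc _ ≤ ε / 2 + ε / 2 := (norm_add_le _ _).trans (add_le_add h1 h3)
      _ = ε := add_halves ε

end P095F
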