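import Vale.Agent.Lib.P095F.CAFull

/-!
# P095F, part CA, module CASplitB: a simple algebra with a minimal projection is finite dimensional

`exists_sum_eq_one` with `y = p` (`star p * p = p`): `∑ i, star (r i) * p * r i = 1`, so
`a = 1 * a * 1 = ∑ i, ∑ j, star (r i) * (p * (r i * a * star (r j)) * p) * r j` is in the span of the
finitely many elements `star (r i) * p * r j`.
-/

open scoped Topology

namespace P095F

universe u

variable {A : Type u} [CStarAlgebra A]

theorem finite_of_corner [IsSimpleRing A] {p : A} (hp : star p = p) (hp2 : p * p = p)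
    (hp0 : p ≠ 0) (h : ∀ a, ∃ c : ℂ, p * a * p = c • p) : FiniteDimensional ℂ A := by
  obtain ⟨n, r, hr⟩ := exists_sum_eq_one hp0
  rw [hp, hp2] at hr
  choose c hc using h
  refine Module.finite_def.2 (Submodule.fg_def.2
    ⟨Set.range fun q : Fin n × Fin n => star (r q.1) * p * r q.2, Set.finite_range _, ?_⟩)
  refine eq_top_iff.2 fun a _ => ?_
  have h1 : a = ∑ i, ∑ j, c (r i * a * star (r j)) • (star (r i) * p * r j) := by
    calc a = 1 * a * 1 := by rw [one_mul, mul_one]
      _ = (∑ i, star (r i) * p * r i) * a * (∑ j, star (r j) * p * r j) := by rw [hr]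
      _ = ∑ i, ∑ j, c (r i * a * star (r j)) • (star (r i) * p * r j) := by
        rw [Finset.sum_mul, Finset.sum_mul]
        refine Finset.sum_congr rfl fun i _ => ?_
        rw [Finset.mul_sum]
        refine Finset.sum_congr rfl fun j _ => ?_
        have h2 : star (r i) * p * r i * a * (star (r j) * p * r j) =
            star (r i) * (p * (r i * a * star (r j)) * p) * r j := by
          simp only [mul_assoc]
        rw [h2, hc, mul_smul_comm, smul_mul_assoc]
  rw [h1]
  refine Submodule.sum_mem _ fun i _ => Submodule.sum_mem _ fun j _ =>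
    Submodule.smul_mem _ _ (Submodule.subset_span ⟨(i, j), rfl⟩)

end P095F
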