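import Vale.Agent.Lib.P095F.CASplitA
import Vale.Agent.Lib.P095F.CASplitB

/-!
# P095F, part CA, module CASplit: orthogonal positive elements in hereditary subalgebras (CA3)

`split_two`: suppose not.  Then for every self-adjoint `k` with (`∀ x, x * h = 0 → x * k = 0`) the
spectrum has at most one nonzero point (`orth_of_two_points`: `x * g₁ = x * k * c₁ = 0`), so
`k * k = c • k` (`sq_eq_smul`).  For `k = h`: `h * h = c • h`, `c > 0` (`h * h ≠ 0` is positive), `p = c⁻¹ • h` is
a nonzero projection.  For `b` self-adjoint let `t = ‖b‖ + 1`, `k = p * b * p + t • p`, `k * k = c' • k`;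
`p * b * p ≥ -‖b‖ • p`, so `k ≥ p`.  `z = k - c' • p` is self-adjoint, `p * z = z`, `k * z = 0`, so
`0 = star z * k * z ≥ star z * p * z = star z * z` and `z = 0`: `p * b * p = (c' - t) • p`.  For general `b`
use real and imaginary parts.  By `finite_of_corner` `A` is finite dimensional: contradiction.

`exists_orth`: induction on the number `L` of elements: `L = 0` trivial, `L = 1`: `h` itself; split
`h` into `g₁, g₂` and apply the induction hypothesis to `g₂` (`x * g₂ = 0 → x * g' = 0` gives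
`g₁ * g' = 0` and by adjoints `g' * g₁ = 0`).
-/

open scoped Topology

namespace P095F

universe u

variable {A : Type u} [CStarAlgebra A] [PartialOrder A] [StarOrderedRing A]

/-- a self-adjoint element below `h` satisfies a quadratic equation, if `h` cannot be split -/
private theorem casplit_sq {h : A} (H : ¬ ∃ g₁ g₂ : A, 0 ≤ g₁ ∧ 0 ≤ g₂ ∧ g₁ ≠ 0 ∧ g₂ ≠ 0 ∧
      g₁ * g₂ = 0 ∧ ∀ x, x * h = 0 → x * g₁ = 0 ∧ x * g₂ = 0) {k : A} (hk : IsSelfAdjoint k)
    (hkh : ∀ x, x * h = 0 → x * k = 0) : ∃ c : ℝ, k * k = c • k := by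
  refine sq_eq_smul hk fun s hs t ht hs0 ht0 => ?_
  by_contra hst
  obtain ⟨g₁, g₂, c₁, c₂, a1, a2, a3, a4, a5, a6, a7⟩ :=
    orth_of_two_points hk hs ht hs0 ht0 hst
  refine H ⟨g₁, g₂, a1, a2, a3, a4, a5, fun x hx => ⟨?_, ?_⟩⟩
  · rw [a6, ← mul_assoc, hkh x hx, zero_mul]
  · rw [a7, ← mul_assoc, hkh x hx, zero_mul]

private theorem casplit_corner {h p : A} {c : ℝ} (H : ¬ ∃ g₁ g₂ : A, 0 ≤ g₁ ∧ 0 ≤ g₂ ∧ g₁ ≠ 0 ∧
      g₂ ≠ 0 ∧ g₁ * g₂ = 0 ∧ ∀ x, x * h = 0 → x * g₁ = 0 ∧ x * g₂ = 0) (hp : star p = p)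
    (hp2 : p * p = p) (hc : p = c • h) {b : A} (hb : IsSelfAdjoint b) :
    ∃ e : ℝ, p * b * p = e • p := by
  have hps : IsSelfAdjoint p := hp
  have hxp : ∀ x, x * h = 0 → x * p = 0 := by
    intro x hx
    rw [hc, mul_smul_comm, hx, smul_zero]
  set t : ℝ := ‖b‖ + 1 with ht
  set k : A := p * b * p + t • p with hk
  have hbs : star b = b := hb
  have hpbp : star (p * b * p) = p * b * p := by
    rw [star_mul, star_mul, hbs, hp, mul_assoc]
  have hks : IsSelfAdjoint k := by
    show star k = k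
    rw [hk, star_add, hpbp, star_smul, hp, star_trivial]
  obtain ⟨c', hc'⟩ := casplit_sq H hks (by
    intro x hx
    rw [hk, mul_add, mul_smul_comm, ← mul_assoc, ← mul_assoc, hxp x hx]
    simp)
  have hpk : p * k = k := by
    rw [hk, mul_add, mul_smul_comm, hp2, ← mul_assoc, ← mul_assoc, hp2]
  have hkp : k * p = k := by
    rw [hk, add_mul, smul_mul_assoc, hp2, mul_assoc (p * b), hp2]
  -- `p ≤ k`
  have hle : p ≤ k := by
    have h1 : -(algebraMap ℝ A ‖b‖) ≤ b := hb.neg_algebraMap_norm_le_self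
    have h2 : star p * (-(algebraMap ℝ A ‖b‖)) * p ≤ star p * b * p :=
      star_left_conjugate_le_conjugate h1 p
    rw [hp] at h2
    have h3 : p * (-(algebraMap ℝ A ‖b‖)) * p = -(‖b‖ • p) := by
      rw [Algebra.algebraMap_eq_smul_one, mul_neg, neg_mul, mul_smul_comm, mul_one,
        smul_mul_assoc, hp2]
    rw [h3] at h2
    have h4 : k = (p * b * p + ‖b‖ • p) + p := by
      rw [hk, ht, add_smul, one_smul, add_assoc]
    rw [h4]
    have h5 : 0 ≤ p * b * p + ‖b‖ • p := by
      have := add_le_add_left h2 (‖b‖ • p)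
      simpa [add_comm] using this
    exact le_add_of_nonneg_left h5
  set z : A := k - c' • p with hz
  have hzs : star z = z := by
    have hk' : star k = k := hks
    rw [hz, star_sub, hk', star_smul, hp, star_trivial]
  have hpz : p * z = z := by
    rw [hz, mul_sub, hpk, mul_smul_comm, hp2]
  have hkz : k * z = 0 := by
    rw [hz, mul_sub, mul_smul_comm, hkp, hc', sub_self]
  have h6 : star z * p * z ≤ star z * k * z := star_left_conjugate_le_conjugate hle z
  rw [mul_assoc, mul_assoc, hpz, hkz, mul_zero] at h6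
  have h7 : star z * z = 0 := le_antisymm h6 (star_mul_self_nonneg z)
  have h8 : z = 0 := CStarRing.star_mul_self_eq_zero_iff z |>.1 h7
  refine ⟨c' - t, ?_⟩
  have h9 : k = c' • p := sub_eq_zero.1 h8
  rw [sub_smul, ← h9, hk, add_sub_cancel_right]

theorem split_two [IsSimpleRing A] (hinf : ¬ FiniteDimensional ℂ A) {h : A} (hh : 0 ≤ h)
    (h0 : h ≠ 0) : ∃ g₁ g₂ : A, 0 ≤ g₁ ∧ 0 ≤ g₂ ∧ g₁ ≠ 0 ∧ g₂ ≠ 0 ∧ g₁ * g₂ = 0 ∧
      ∀ x, x * h = 0 → x * g₁ = 0 ∧ x * g₂ = 0 := by
  by_contra H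
  have hs : IsSelfAdjoint h := IsSelfAdjoint.of_nonneg hh
  have hss : star h = h := hs
  obtain ⟨c, hc⟩ := casplit_sq H hs (fun x hx => hx)
  have hhh : h * h ≠ 0 := by
    intro h1
    apply h0
    rw [← CStarRing.star_mul_self_eq_zero_iff, hss]
    exact h1
  have hpos : 0 ≤ h * h := by
    have := star_mul_self_nonneg h
    rwa [hss] at this
  have hcp : 0 < c := by
    by_contra hcn
    push Not at hcn
    have h1 : c • h ≤ 0 := by
      have := smul_nonneg (neg_nonneg.2 hcn) hh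
      rw [neg_smul] at this
      exact neg_nonneg.1 this
    rw [← hc] at h1
    exact hhh (le_antisymm h1 hpos)
  set p : A := c⁻¹ • h with hp
  have hps : star p = p := by rw [hp, star_smul, hss, star_trivial]
  have hp2 : p * p = p := by
    rw [hp, smul_mul_smul_comm, hc, smul_smul]
    congr 1
    field_simp
  have hp0 : p ≠ 0 := smul_ne_zero (inv_ne_zero hcp.ne') h0
  refine hinf (finite_of_corner hps hp2 hp0 fun a => ?_)
  obtain ⟨e1, he1⟩ := casplit_corner H hps hp2 hp (b := (realPart a : A)) (realPart a).2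
  obtain ⟨e2, he2⟩ := casplit_corner H hps hp2 hp (b := (imaginaryPart a : A)) (imaginaryPart a).2
  refine ⟨(e1 : ℂ) + Complex.I * (e2 : ℂ), ?_⟩
  have h1 : a = (realPart a : A) + Complex.I • (imaginaryPart a : A) :=
    (realPart_add_I_smul_imaginaryPart a).symm
  have h2 : p * a * p = p * (realPart a : A) * p + Complex.I • (p * (imaginaryPart a : A) * p) := by
    have h3 : p * (Complex.I • (imaginaryPart a : A)) = Complex.I • (p * (imaginaryPart a : A)) :=
      mul_smul_comm _ _ _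
    have h4 : (Complex.I • (p * (imaginaryPart a : A))) * p =
        Complex.I • (p * (imaginaryPart a : A) * p) := smul_mul_assoc _ _ _
    conv_lhs => rw [h1]
    rw [mul_add, add_mul, h3, h4]
  rw [h2, he1, he2, add_smul, mul_smul]
  simp only [Complex.coe_smul]

theorem exists_orth [IsSimpleRing A] (hinf : ¬ FiniteDimensional ℂ A) {h : A} (hh : 0 ≤ h)
    (h0 : h ≠ 0) (L : ℕ) : ∃ g : Fin L → A, (∀ i, 0 ≤ g i ∧ g i ≠ 0 ∧
      ∀ x, x * h = 0 → x * g i = 0) ∧ ∀ i j, i ≠ j → g i * g j = 0 := by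
  induction L generalizing h with
  | zero => exact ⟨fun i => i.elim0, fun i => i.elim0, fun i => i.elim0⟩
  | succ L ih =>
    obtain ⟨g₁, g₂, a1, a2, a3, a4, a5, a6⟩ := split_two hinf hh h0
    obtain ⟨g', b1, b2⟩ := ih a2 a4
    have k1 : ∀ i, g₁ * g' i = 0 := fun i => (b1 i).2.2 g₁ a5
    have k2 : ∀ i, g' i * g₁ = 0 := by
      intro i
      have h1 : star (g₁ * g' i) = 0 := by rw [k1 i, star_zero]
      have s1 : star g₁ = g₁ := IsSelfAdjoint.of_nonneg a1
      have s2 : star (g' i) = g' i := IsSelfAdjoint.of_nonneg (b1 i).1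
      rwa [star_mul, s1, s2] at h1
    refine ⟨Fin.cons g₁ g', fun i => ?_, fun i j hij => ?_⟩
    · refine Fin.cases ?_ (fun i => ?_) i
      · rw [Fin.cons_zero]
        exact ⟨a1, a3, fun x hx => (a6 x hx).1⟩
      · rw [Fin.cons_succ]
        exact ⟨(b1 i).1, (b1 i).2.1, fun x hx => (b1 i).2.2 x (a6 x hx).2⟩
    · revert hij
      refine Fin.cases ?_ (fun i => ?_) i <;> refine Fin.cases ?_ (fun j => ?_) j
      · intro h
        exact absurd rfl h
      · intro _
        rw [Fin.cons_zero, Fin.cons_succ]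
        exact k1 j
      · intro _
        rw [Fin.cons_zero, Fin.cons_succ]
        exact k2 i
      · intro h
        rw [Fin.cons_succ, Fin.cons_succ]
        exact b2 i j fun h' => h (by rw [h'])

end P095F
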