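import Vale.Agent.Lib.P095F.CAExc
import Vale.Agent.Lib.P095F.CACP
import Vale.Agent.Lib.P095F.CAFin
import Vale.Agent.Lib.P095F.CASplit
import Vale.Agent.Lib.P095F.CAEst

/-!
# P095F, part CA, final file: `si_local` (assembly, CA10 of `PROOF2.md`)
-/

open scoped Topology

namespace P095F

universe u

variable {A : Type u} [CStarAlgebra A]

private theorem cafinal_bound (T : Finset A) : ∃ C : ℝ, 1 ≤ C ∧ ∀ a ∈ T, ‖a‖ ≤ C := by
  refine ⟨1 + ∑ a ∈ T, ‖a‖, ?_, fun a ha => ?_⟩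
  · have : 0 ≤ ∑ a ∈ T, ‖a‖ := Finset.sum_nonneg fun a _ => norm_nonneg a
    linarith
  · have := Finset.single_le_sum (f := fun a : A => ‖a‖) (fun a _ => norm_nonneg a) ha
    linarith

private theorem cafinal_min {m : ℕ} (η : Fin m → ℝ) (h : ∀ i, 0 < η i) :
    ∃ t : ℝ, 0 < t ∧ ∀ i, t ≤ η i := by
  rcases isEmpty_or_nonempty (Fin m) with hm | hm
  · exact ⟨1, one_pos, fun i => (hm.false i).elim⟩
  · obtain ⟨i, hi⟩ := Finite.exists_min η
    exact ⟨η i, h i, hi⟩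

/-- the second half of the estimate -/
private theorem cafinal_half {k : ℕ} (c : Fin k → Fin k → A) (e a : A) (F : Matrix (Fin k) (Fin k) ℂ)
    (v : Fin k → Fin k → ℂ) {C₁ ε₁ ε₀ : ℝ} (hC : 0 ≤ C₁) (hε₁ : 0 ≤ ε₁)
    (hc : ∀ l p, ‖c l p‖ ≤ C₁) (he : ‖e‖ ≤ 1) (hv : ∀ p q, ‖F p q - v p q‖ ≤ ε₁)
    (hF : ‖(∑ p, ∑ q, F p q • ∑ l, star (c l p) * c l q) - a‖ ≤ ε₀) :
    ‖(∑ p, ∑ q, v p q • ((∑ l, star (c l p) * c l q) * e)) - a * e‖ ≤
      k ^ 3 * C₁ ^ 2 * ε₁ + ε₀ := by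
  have h1 : (∑ p, ∑ q, v p q • ((∑ l, star (c l p) * c l q) * e)) - a * e =
      ((∑ p, ∑ q, F p q • ∑ l, star (c l p) * c l q) - a) * e -
        ∑ p, ∑ q, (F p q - v p q) • ((∑ l, star (c l p) * c l q) * e) := by
    simp only [sub_smul, Finset.sum_sub_distrib, sub_mul, Finset.sum_mul, smul_mul_assoc]
    abel
  rw [h1]
  have h2 : ∀ p q, ‖∑ l, star (c l p) * c l q‖ ≤ k * C₁ ^ 2 := by
    intro p q
    refine (norm_sum_le _ _).trans ?_
    have h3 : ∀ l ∈ (Finset.univ : Finset (Fin k)), ‖star (c l p) * c l q‖ ≤ C₁ ^ 2 := by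
      intro l _
      refine (norm_mul_le _ _).trans ?_
      rw [norm_star, pow_two]
      exact mul_le_mul (hc l p) (hc l q) (norm_nonneg _) hC
    refine (Finset.sum_le_sum h3).trans ?_
    rw [Finset.sum_const, Finset.card_univ, Fintype.card_fin, nsmul_eq_mul]
  have h4 : ∀ p q, ‖(F p q - v p q) • ((∑ l, star (c l p) * c l q) * e)‖ ≤
      ε₁ * (k * C₁ ^ 2) := by
    intro p q
    rw [norm_smul]
    refine mul_le_mul (hv p q) ?_ (norm_nonneg _) hε₁
    refine (norm_mul_le _ _).trans ?_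
    calc ‖∑ l, star (c l p) * c l q‖ * ‖e‖ ≤ (k * C₁ ^ 2) * 1 :=
          mul_le_mul (h2 p q) he (norm_nonneg _) (by positivity)
      _ = k * C₁ ^ 2 := mul_one _
  have h5 : ‖∑ p, ∑ q, (F p q - v p q) • ((∑ l, star (c l p) * c l q) * e)‖ ≤
      k ^ 3 * C₁ ^ 2 * ε₁ := by
    refine (norm_sum_le _ _).trans ?_
    have h6 : ∀ p ∈ (Finset.univ : Finset (Fin k)),
        ‖∑ q, (F p q - v p q) • ((∑ l, star (c l p) * c l q) * e)‖ ≤
          k * (ε₁ * (k * C₁ ^ 2)) := by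
      intro p _
      refine (norm_sum_le _ _).trans ?_
      refine (Finset.sum_le_sum fun q _ => h4 p q).trans ?_
      rw [Finset.sum_const, Finset.card_univ, Fintype.card_fin, nsmul_eq_mul]
    refine (Finset.sum_le_sum h6).trans ?_
    rw [Finset.sum_const, Finset.card_univ, Fintype.card_fin, nsmul_eq_mul]
    exact le_of_eq (by ring)
  refine (norm_sub_le _ _).trans ?_
  have h7 : ‖((∑ p, ∑ q, F p q • ∑ l, star (c l p) * c l q) - a) * e‖ ≤ ε₀ := by
    refine (norm_mul_le _ _).trans ?_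
    calc _ ≤ ε₀ * 1 := mul_le_mul hF he (norm_nonneg _) ((norm_nonneg _).trans hF)
      _ = ε₀ := mul_one _
  linarith

/-- main theorem of part CA -/
theorem si_local (A : Type u) [CStarAlgebra A] [IsSimpleRing A]
    (hinf : ¬ FiniteDimensional ℂ A) (hcp : CPAP A) (hvw : VeryWeakComparison A) : SILocal A := by
  classical
  let _ := CStarAlgebra.spectralOrder A
  have _ := CStarAlgebra.spectralOrderedRing A
  intro S ε hε
  obtain ⟨k, φ, θ, hφ, hθ, hφθ⟩ := hcp (insert 1 S) (ε / 5) (by positivity)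
  obtain ⟨c, hc⟩ := cp_kraus θ hθ
  obtain ⟨C₁, hC₁, hc1⟩ := cafinal_bound
    (Finset.univ.image (fun q : Fin k × Fin k => c q.1 q.2))
  have hc1' : ∀ l p, ‖c l p‖ ≤ C₁ := fun l p =>
    hc1 _ (Finset.mem_image.2 ⟨(l, p), Finset.mem_univ _, rfl⟩)
  have hM : (0 : ℝ) < k ^ 3 * C₁ ^ 2 + 1 := by positivity
  obtain ⟨n, DD, hDD, hcov⟩ := cp_approx_finite φ hφ (insert 1 S)
    (ε := ε / (5 * (k ^ 3 * C₁ ^ 2 + 1))) (by positivity)
  -- the finite set
  let S' : Finset A := (Finset.univ.image (fun q : Fin k × Fin k => c q.1 q.2)) ∪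
    (hDD.toFinset.biUnion fun d => Finset.univ.image (fun q : Fin n × Fin k => d q.1 q.2)) ∪
      insert 1 S
  have hcS : ∀ l p, c l p ∈ S' := fun l p =>
    Finset.mem_union_left _ (Finset.mem_union_left _
      (Finset.mem_image.2 ⟨(l, p), Finset.mem_univ _, rfl⟩))
  have hdS : ∀ d ∈ DD, ∀ j p, d j p ∈ S' := fun d hd j p =>
    Finset.mem_union_left _ (Finset.mem_union_right _ (Finset.mem_biUnion.2
      ⟨d, hDD.mem_toFinset.2 hd, Finset.mem_image.2 ⟨(j, p), Finset.mem_univ _, rfl⟩⟩))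
  have haS : ∀ a ∈ insert 1 S, a ∈ S' := fun a ha => Finset.mem_union_right _ ha
  obtain ⟨C, hC, hCS⟩ := cafinal_bound S'
  -- the constant
  have hn0 : (0 : ℝ) ≤ n := Nat.cast_nonneg n
  have hk0 : (0 : ℝ) ≤ k := Nat.cast_nonneg k
  have hC0 : 0 ≤ C := by linarith
  set B : ℝ := n ^ 2 * k ^ 4 * (4 * C ^ 2) + n * k ^ 3 * (C ^ 5 + C ^ 4) +
    n * k ^ 2 * (2 * C ^ 2 * 2) + 1 with hB
  have hB1 : 0 < B := by positivity
  set t : ℝ := min 1 (ε / (5 * B)) with ht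
  have ht0 : 0 < t := lt_min one_pos (by positivity)
  have ht1 : t ≤ 1 := min_le_left _ _
  have htB : B * t ≤ ε / 5 := by
    calc B * t ≤ B * (ε / (5 * B)) := mul_le_mul_of_nonneg_left (min_le_right _ _) hB1.le
      _ = ε / 5 := by field_simp
  refine ⟨S', t, ht0, ?_⟩
  rintro f hfc hf1 hfS
  have hf0 : 0 ≤ f := CStarAlgebra.nonneg_iff_eq_star_mul_self.2 hfc
  obtain ⟨ψ, x, h, hψ, hx0, hx1, hh0, hhne, hxh, hfx, hex⟩ := excision f hf0 hf1
    ((hDD.toFinset ×ˢ (insert 1 S) ×ˢ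
      (Finset.univ : Finset ((Fin n × Fin k) × (Fin n × Fin k)))).image
        (fun q => star (q.1 q.2.2.1.1 q.2.2.1.2) * q.2.1 * q.1 q.2.2.2.1 q.2.2.2.2)) ht0
  obtain ⟨d, hd, hdψ⟩ := hcov ψ hψ
  obtain ⟨g, hg, hgo⟩ := exists_orth hinf hh0 hhne (n * k)
  choose η hη hcmp using fun i => hvw (g i) (hg i).2.1 t ht0
  obtain ⟨η₀, hη₀, hη₀'⟩ := cafinal_min η hη
  refine ⟨η₀, hη₀, ?_⟩
  rintro e ⟨z, rfl⟩ he1 heS heτ
  have hz1 : ‖z‖ ≤ 1 := by
    rw [CStarRing.norm_star_mul_self] at he1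
    nlinarith [norm_nonneg z]
  choose r' hr' using fun i => hcmp i z hz1 fun τ hτ => (heτ τ hτ).trans (hη₀' i)
  let r : Fin n → Fin k → A := fun j l =>
    g (finProdFinEquiv (j, l)) * r' (finProdFinEquiv (j, l))
  have hgs : ∀ i, star (g i) = g i := fun i => (IsSelfAdjoint.of_nonneg (hg i).1).star_eq
  have hxg : ∀ i, x * g i = g i := by
    intro i
    have h1 : (x - 1) * h = 0 := by rw [sub_mul, hxh, one_mul, sub_self]
    have h2 := (hg i).2.2 _ h1
    rwa [sub_mul, one_mul, sub_eq_zero] at h2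
  have hxr : ∀ j l, x * r j l = r j l := fun j l => by
    change x * (g _ * r' _) = _
    rw [← mul_assoc, hxg]
  have hrr : ∀ j l, ‖star (r j l) * r j l - star z * z‖ ≤ t := by
    intro j l
    have h1 := hr' (finProdFinEquiv (j, l))
    have h2 : star (r j l) * r j l = star (r' (finProdFinEquiv (j, l))) *
        (star (g (finProdFinEquiv (j, l))) * g (finProdFinEquiv (j, l))) *
          r' (finProdFinEquiv (j, l)) := by
      change star (g _ * r' _) * (g _ * r' _) = _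
      rw [star_mul]
      simp only [mul_assoc]
    rw [h2]
    exact h1
  have ho : ∀ j l j' l', ¬ (j = j' ∧ l = l') → star (r j l) * r j' l' = 0 := by
    intro j l j' l' hne
    have h1 : finProdFinEquiv (j, l) ≠ finProdFinEquiv (j', l') := by
      intro h2
      have h3 := finProdFinEquiv.injective h2
      exact hne (Prod.mk.inj h3)
    change star (g _ * r' _) * (g _ * r' _) = _
    rw [star_mul, hgs]
    calc _ = star (r' (finProdFinEquiv (j, l))) *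
          (g (finProdFinEquiv (j, l)) * g (finProdFinEquiv (j', l'))) *
            r' (finProdFinEquiv (j', l')) := by simp only [mul_assoc]
      _ = 0 := by rw [hgo _ _ h1, mul_zero, zero_mul]
  have hr2 : ∀ j l, ‖r j l‖ ≤ 2 := fun j l => ca_norm_r he1 ht1 hrr j l
  have hxs : star x = x := (IsSelfAdjoint.of_nonneg hx0).star_eq
  have hcC : ∀ l p, ‖c l p‖ ≤ C := fun l p => hCS _ (hcS l p)
  have hdC : ∀ j p, ‖d j p‖ ≤ C := fun j p => hCS _ (hdS d hd j p)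
  have hTB1 : (n : ℝ) ^ 2 * k ^ 4 * (4 * C ^ 2 * t) + n * k ^ 3 * (C ^ 5 * t + C ^ 4 * t) ≤
      ε / 5 := by
    refine le_trans ?_ htB
    have h1 : B * t - ((n : ℝ) ^ 2 * k ^ 4 * (4 * C ^ 2 * t) +
        n * k ^ 3 * (C ^ 5 * t + C ^ 4 * t)) = (n * k ^ 2 * (2 * C ^ 2 * 2) + 1) * t := by
      rw [hB]
      ring
    have h2 : 0 ≤ (n * k ^ 2 * (2 * C ^ 2 * 2) + 1) * t := by positivity
    linarith
  have hTB2 : (n : ℝ) * k ^ 2 * (2 * C ^ 2 * (t + t)) ≤ ε / 5 := by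
    refine le_trans ?_ htB
    have h1 : B * t - ((n : ℝ) * k ^ 2 * (2 * C ^ 2 * (t + t))) =
        (n ^ 2 * k ^ 4 * (4 * C ^ 2) + n * k ^ 3 * (C ^ 5 + C ^ 4) + 1) * t := by
      rw [hB]
      ring
    have h2 : 0 ≤ ((n : ℝ) ^ 2 * k ^ 4 * (4 * C ^ 2) + n * k ^ 3 * (C ^ 5 + C ^ 4) + 1) * t := by
      positivity
    linarith
  have key : ∀ a ∈ insert 1 S,
      ‖star (ca_s d c x r) * a * ca_s d c x r - a * (star z * z)‖ ≤ ε := by
    intro a ha
    have haC : ‖a‖ ≤ C := hCS _ (haS a ha)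
    have hw : ∀ j p j' q, ‖ψ (star (d j p) * a * d j' q)‖ ≤ C ^ 3 := by
      intro j p j' q
      refine (hψ.norm_le _).trans ?_
      calc ‖star (d j p) * a * d j' q‖ ≤ ‖star (d j p)‖ * ‖a‖ * ‖d j' q‖ :=
            (norm_mul_le _ _).trans (mul_le_mul_of_nonneg_right (norm_mul_le _ _) (norm_nonneg _))
        _ ≤ C * C * C := by
            rw [norm_star]
            exact mul_le_mul (mul_le_mul (hdC j p) haC (norm_nonneg _) hC0) (hdC j' q)
              (norm_nonneg _) (by positivity)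
        _ = C ^ 3 := by ring
    have h1 := ca_est_a d c x (star z * z) a r (fun j p j' q => ψ (star (d j p) * a * d j' q))
      hC ht0.le ht0.le ht0.le hdC hcC hr2 hxs hxr ho hrr (fun l p => heS _ (hcS l p)) hw
      (fun j p j' q => hex _ (Finset.mem_image.2 ⟨(d, a, (j, p), (j', q)), by
        simp only [Finset.mem_product, Finset.mem_univ, and_true]
        exact ⟨hDD.mem_toFinset.2 hd, ha⟩, rfl⟩))
    have h2 := cafinal_half c (star z * z) a (φ a)
      (fun p q => ∑ j, ψ (star (d j p) * a * d j q)) (C₁ := C₁)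
      (ε₁ := ε / (5 * (k ^ 3 * C₁ ^ 2 + 1))) (ε₀ := ε / 5) (by linarith) (by positivity) hc1' he1
      (fun p q => (hdψ a ha p q).le) (by
        rw [← hc]
        exact hφθ a ha)
    have h3 : (k : ℝ) ^ 3 * C₁ ^ 2 * (ε / (5 * (k ^ 3 * C₁ ^ 2 + 1))) ≤ ε / 5 := by
      have h4 : (k : ℝ) ^ 3 * C₁ ^ 2 * (ε / (5 * (k ^ 3 * C₁ ^ 2 + 1))) =
          ε / 5 * ((k ^ 3 * C₁ ^ 2) / (k ^ 3 * C₁ ^ 2 + 1)) := by
        field_simp
      rw [h4]
      have h5 : ((k : ℝ) ^ 3 * C₁ ^ 2) / (k ^ 3 * C₁ ^ 2 + 1) ≤ 1 := by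
        rw [div_le_one hM]
        linarith
      nlinarith
    calc _ ≤ ‖star (ca_s d c x r) * a * ca_s d c x r -
          ∑ p, ∑ q, (∑ j, ψ (star (d j p) * a * d j q)) •
            ((∑ l, star (c l p) * c l q) * (star z * z))‖ +
          ‖(∑ p, ∑ q, (∑ j, ψ (star (d j p) * a * d j q)) •
            ((∑ l, star (c l p) * c l q) * (star z * z))) - a * (star z * z)‖ :=
          norm_sub_le_norm_sub_add_norm_sub _ _ _
      _ ≤ ε := by linarith
  refine ⟨ca_s d c x r, ?_, fun a ha => key a (Finset.mem_insert_of_mem ha), ?_⟩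
  · have h1 := key 1 (Finset.mem_insert_self _ _)
    rwa [mul_one, one_mul] at h1
  · refine (ca_est_f d c x f r hC hdC hcC hr2 hx1 (fun j p => hfS _ (hdS d hd j p)) hfx).trans ?_
    linarith

end P095F
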