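import Vale.Agent.Lib.P095F.CADefs

/-!
# P095F, part CA, module CAMat: positive matrices over `A`

`M = CStarMatrix (Fin k) (Fin k) A` with the spectral order (`let _ := CStarAlgebra.spectralOrder _`).
`t : M` the matrix of `T`, self-adjoint.  If `0 ≤ t` then `t = star c * c`: first alternative.
Otherwise `n = t⁻ ≠ 0` (negative part; `t = t⁺ - t⁻`, `t⁺ * t⁻ = 0`), `n * t * n = -n ^ 3`,
`n ^ 3 = star w * w` with `w = CFC.sqrt n * n ≠ 0`.  Some entry `w q l ≠ 0`, so
`(n ^ 3) l l = ∑ q, star (w q l) * w q l ≥ 0` is nonzero, `= star y * y` with `y ≠ 0`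
(`CStarAlgebra.nonneg_iff_eq_star_mul_self`, spectral order on `A`).  `b p = n p l`:
`∑ p, ∑ q, star (n p l * a) * T p q * (n q l * a) = star a * (n * t * n) l l * a = -(star a * (star y * y) * a)`.
-/

open scoped Topology

namespace P095F

universe u

variable {A : Type u} [CStarAlgebra A]

section Neg

variable {M : Type u} [CStarAlgebra M] [PartialOrder M] [StarOrderedRing M]

/-- a self-adjoint element which is not positive has a nonzero negative part -/
private theorem camat_neg (t : M) (ht : IsSelfAdjoint t) (h0 : ¬ 0 ≤ t) :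
    ∃ n w : M, IsSelfAdjoint n ∧ w ≠ 0 ∧ n * t * n = -(star w * w) := by
  have hn : 0 ≤ t⁻ := CFC.negPart_nonneg t
  have hne : t⁻ ≠ 0 := by
    intro h
    exact h0 ((CFC.negPart_eq_zero_iff t ht).1 h)
  obtain ⟨c, hc⟩ := CStarAlgebra.nonneg_iff_eq_star_mul_self.1 hn
  have hns : IsSelfAdjoint (t⁻) := IsSelfAdjoint.of_nonneg hn
  have e1 : t * t⁻ = -(t⁻ * t⁻) := by
    have h1 : t⁺ - t⁻ = t := CFC.posPart_sub_negPart t ht
    have h2 : t⁺ * t⁻ = 0 := CFC.posPart_mul_negPart t
    calc t * t⁻ = (t⁺ - t⁻) * t⁻ := by rw [h1]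
      _ = -(t⁻ * t⁻) := by rw [sub_mul, h2, zero_sub]
  refine ⟨t⁻, c * t⁻, hns, ?_, ?_⟩
  · intro h
    apply hne
    have h3 : t⁻ * t⁻ = 0 := by
      calc t⁻ * t⁻ = star c * c * t⁻ := by rw [← hc]
        _ = star c * (c * t⁻) := by rw [mul_assoc]
        _ = 0 := by rw [h, mul_zero]
    have h4 : star (t⁻) * t⁻ = 0 := by rw [hns.star_eq, h3]
    exact CStarRing.star_mul_self_eq_zero_iff _ |>.1 h4
  · rw [star_mul, hns.star_eq, mul_assoc, e1, mul_neg]
    congr 1
    calc t⁻ * (t⁻ * t⁻) = t⁻ * ((star c * c) * t⁻) := by rw [← hc]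
      _ = t⁻ * star c * (c * t⁻) := by simp only [mul_assoc]

private theorem camat_pos (t : M) (h0 : 0 ≤ t) : ∃ c : M, t = star c * c :=
  CStarAlgebra.nonneg_iff_eq_star_mul_self.1 h0

end Neg

theorem mat_alt {k : ℕ} (T : Fin k → Fin k → A) (hT : ∀ p q, star (T p q) = T q p) :
    (∃ C : Fin k → Fin k → A, ∀ p q, T p q = ∑ l, star (C l p) * C l q) ∨
    (∃ (y : A) (b : Fin k → A), y ≠ 0 ∧ ∀ a : A,
      ∑ p, ∑ q, star (b p * a) * T p q * (b q * a) = -(star a * (star y * y) * a)) := by
  let _ := CStarAlgebra.spectralOrder A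
  let _ := CStarAlgebra.spectralOrderedRing A
  let _ := CStarAlgebra.spectralOrder (CStarMatrix (Fin k) (Fin k) A)
  let _ := CStarAlgebra.spectralOrderedRing (CStarMatrix (Fin k) (Fin k) A)
  let t : CStarMatrix (Fin k) (Fin k) A := CStarMatrix.ofMatrix (fun p q => T p q)
  have ht : ∀ p q, t p q = T p q := fun p q => rfl
  have hts : IsSelfAdjoint t := by
    refine CStarMatrix.ext fun p q => ?_
    rw [CStarMatrix.star_apply, ht, ht, hT]
  by_cases h0 : 0 ≤ t
  · left
    obtain ⟨c, hc⟩ := camat_pos t h0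
    refine ⟨fun l p => c l p, fun p q => ?_⟩
    rw [← ht p q, hc, CStarMatrix.mul_apply]
    refine Finset.sum_congr rfl fun l _ => ?_
    rw [CStarMatrix.star_apply]
  · right
    obtain ⟨n, w, hn, hw, hnt⟩ := camat_neg t hts h0
    obtain ⟨q₀, l, hql⟩ : ∃ q l, w q l ≠ 0 := by
      by_contra hcon
      push Not at hcon
      exact hw (CStarMatrix.ext fun p q => hcon p q)
    have hww : (star w * w) l l = ∑ q, star (w q l) * w q l := by
      rw [CStarMatrix.mul_apply]
      refine Finset.sum_congr rfl fun j _ => ?_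
      rw [CStarMatrix.star_apply]
    have hpos : ∀ q ∈ Finset.univ, 0 ≤ star (w q l) * w q l := fun q _ => star_mul_self_nonneg _
    have hnn : 0 ≤ (star w * w) l l := by
      rw [hww]
      exact Finset.sum_nonneg hpos
    obtain ⟨y, hy⟩ := CStarAlgebra.nonneg_iff_eq_star_mul_self.1 hnn
    refine ⟨y, fun p => n p l, ?_, fun a => ?_⟩
    · rintro rfl
      rw [mul_zero, hww, Finset.sum_eq_zero_iff_of_nonneg hpos] at hy
      exact hql (CStarRing.star_mul_self_eq_zero_iff _ |>.1 (hy q₀ (Finset.mem_univ _)))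
    · rw [← hy]
      have hns : ∀ p, star (n p l) = n l p := fun p => by
        rw [← CStarMatrix.star_apply, hn.star_eq]
      have e1 : (n * t * n) l l = ∑ p, ∑ q, n l p * T p q * n q l := by
        rw [CStarMatrix.mul_apply, Finset.sum_comm]
        refine Finset.sum_congr rfl fun q _ => ?_
        rw [CStarMatrix.mul_apply, Finset.sum_mul]
        rfl
      have e2 : -(star a * (star w * w) l l * a) = star a * (n * t * n) l l * a := by
        rw [hnt, CStarMatrix.neg_apply, mul_neg, neg_mul]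
      rw [e2, e1, Finset.mul_sum, Finset.sum_mul]
      refine Finset.sum_congr rfl fun p _ => ?_
      rw [Finset.mul_sum, Finset.sum_mul]
      refine Finset.sum_congr rfl fun q _ => ?_
      rw [star_mul, hns]
      simp only [mul_assoc]

end P095F
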