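import Vale.Agent.Lib.P095F.CADefs

/-!
# P095F, part CA, module CASplitA: two orthogonal elements from two points of the spectrum

`d = min |s| (min |t| |s - t|) / 3 > 0`.  `χ₁ r = max 0 (d - |r - s|)`, `χ₂ r = max 0 (d - |r - t|)` have
disjoint supports which do not contain `0`.  `g₁ = cfc χ₁ k`, `c₁ = cfc (fun r => χ₁ r / r) k`
(continuous: `χ₁ = 0` near `0`), `g₁ = k * c₁`; `χ₁ s = d ≠ 0`, so `g₁ ≠ 0`.
-/

open scoped Topology

namespace P095F

universe u

variable {A : Type u} [CStarAlgebra A] [PartialOrder A] [StarOrderedRing A]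

/-- the bump at `s` -/
private noncomputable def casplita_chi (d s r : ℝ) : ℝ := max 0 (d - |r - s|)

private theorem casplita_cont (d s : ℝ) : Continuous (casplita_chi d s) := by
  unfold casplita_chi
  fun_prop

omit [StarOrderedRing A] in
private theorem casplita_ne_zero [StarOrderedRing A] {k : A} (hk : IsSelfAdjoint k) {d s : ℝ}
    (hs : s ∈ spectrum ℝ k) (hd : 0 < d) : cfc (casplita_chi d s) k ≠ 0 := by
  intro h0
  have h1 : casplita_chi d s s ∈ spectrum ℝ (cfc (casplita_chi d s) k) := by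
    rw [cfc_map_spectrum (casplita_chi d s) k hk (casplita_cont d s).continuousOn]
    exact ⟨s, hs, rfl⟩
  rw [h0] at h1
  have hnt : Nontrivial A := by
    by_contra hcon
    rw [not_nontrivial_iff_subsingleton] at hcon
    rw [spectrum.of_subsingleton] at h1
    exact h1
  rw [spectrum.zero_eq] at h1
  have h2 : casplita_chi d s s = 0 := h1
  unfold casplita_chi at h2
  rw [sub_self, abs_zero, sub_zero, max_eq_right hd.le] at h2
  exact hd.ne' h2

omit [PartialOrder A] [StarOrderedRing A] in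
private theorem casplita_factor {k : A} (hk : IsSelfAdjoint k) {d s : ℝ}
    (hd : 0 < d) (hs : 3 * d ≤ |s|) : ∃ c : A, cfc (casplita_chi d s) k = k * c := by
  have hs0 : 0 < |s| := by linarith
  have hs1 : s ≠ 0 := abs_pos.1 hs0
  have hden : ∀ r : ℝ, 0 < max |r| (2 * d) := fun r => lt_of_lt_of_le (by linarith) (le_max_right _ _)
  have hc : Continuous (fun r : ℝ => casplita_chi d s r * ((s / |s|) / max |r| (2 * d))) := by
    refine (casplita_cont d s).mul (Continuous.div continuous_const (by fun_prop) fun r => ?_)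
    exact (hden r).ne'
  refine ⟨cfc (fun r : ℝ => casplita_chi d s r * ((s / |s|) / max |r| (2 * d))) k, ?_⟩
  have h1 : k * cfc (fun r : ℝ => casplita_chi d s r * ((s / |s|) / max |r| (2 * d))) k =
      cfc (fun r : ℝ => r * (casplita_chi d s r * ((s / |s|) / max |r| (2 * d)))) k := by
    rw [cfc_mul (fun r : ℝ => r)
      (fun r : ℝ => casplita_chi d s r * ((s / |s|) / max |r| (2 * d))) k
      (by fun_prop) hc.continuousOn, cfc_id' ℝ k hk]
  rw [h1]
  congr 1
  funext r
  by_cases hr : d ≤ |r - s|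
  · have h2 : casplita_chi d s r = 0 := by
      unfold casplita_chi
      exact max_eq_left (by linarith)
    rw [h2]
    ring
  · have hr' : |r - s| < d := not_le.1 hr
    have h3 := abs_lt.1 hr'
    rcases lt_or_gt_of_ne hs1 with hneg | hpos
    · have h4 : |s| = -s := abs_of_neg hneg
      have h5 : r < 0 := by linarith
      have h6 : |r| = -r := abs_of_neg h5
      have h7 : max |r| (2 * d) = -r := by
        rw [h6]
        exact max_eq_left (by linarith)
      have h8 : r ≠ 0 := h5.ne
      rw [h7, h4]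
      field_simp
    · have h4 : |s| = s := abs_of_pos hpos
      have h5 : 0 < r := by linarith
      have h6 : |r| = r := abs_of_pos h5
      have h7 : max |r| (2 * d) = r := by
        rw [h6]
        exact max_eq_left (by linarith)
      rw [h7, h4]
      field_simp

theorem orth_of_two_points {k : A} (hk : IsSelfAdjoint k) {s t : ℝ} (hs : s ∈ spectrum ℝ k)
    (ht : t ∈ spectrum ℝ k) (hs0 : s ≠ 0) (ht0 : t ≠ 0) (hst : s ≠ t) :
    ∃ g₁ g₂ c₁ c₂ : A, 0 ≤ g₁ ∧ 0 ≤ g₂ ∧ g₁ ≠ 0 ∧ g₂ ≠ 0 ∧ g₁ * g₂ = 0 ∧ g₁ = k * c₁ ∧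
      g₂ = k * c₂ := by
  obtain ⟨d, hd, h1, h2, h3⟩ : ∃ d : ℝ, 0 < d ∧ 3 * d ≤ |s| ∧ 3 * d ≤ |t| ∧ 3 * d ≤ |s - t| := by
    have a1 : 0 < |s| := abs_pos.2 hs0
    have a2 : 0 < |t| := abs_pos.2 ht0
    have a3 : 0 < |s - t| := abs_pos.2 (sub_ne_zero.2 hst)
    refine ⟨min |s| (min |t| |s - t|) / 3, by positivity, ?_, ?_, ?_⟩
    · have := min_le_left |s| (min |t| |s - t|)
      linarith
    · have := (min_le_right |s| (min |t| |s - t|)).trans (min_le_left |t| |s - t|)
      linarith
    · have := (min_le_right |s| (min |t| |s - t|)).trans (min_le_right |t| |s - t|)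
      linarith
  obtain ⟨c₁, hc₁⟩ := casplita_factor hk hd h1
  obtain ⟨c₂, hc₂⟩ := casplita_factor hk hd h2
  refine ⟨cfc (casplita_chi d s) k, cfc (casplita_chi d t) k, c₁, c₂, ?_, ?_,
    casplita_ne_zero hk hs hd, casplita_ne_zero hk ht hd, ?_, hc₁, hc₂⟩
  · exact cfc_nonneg fun x _ => le_max_left _ _
  · exact cfc_nonneg fun x _ => le_max_left _ _
  · rw [← cfc_mul (casplita_chi d s) (casplita_chi d t) k (casplita_cont d s).continuousOn
      (casplita_cont d t).continuousOn]
    have : (fun r : ℝ => casplita_chi d s r * casplita_chi d t r) = fun _ => (0 : ℝ) := by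
      funext r
      by_cases hr : d ≤ |r - s|
      · have h4 : casplita_chi d s r = 0 := by
          unfold casplita_chi
          exact max_eq_left (by linarith)
        rw [h4, zero_mul]
      · have h4 : casplita_chi d t r = 0 := by
          unfold casplita_chi
          refine max_eq_left ?_
          have h5 := abs_sub_le s r t
          rw [abs_sub_comm s r] at h5
          linarith [not_le.1 hr]
        rw [h4, mul_zero]
    rw [this, cfc_const_zero]

/-- if the spectrum has at most one nonzero point then `k ^ 2 = c k` -/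
theorem sq_eq_smul {k : A} (hk : IsSelfAdjoint k)
    (h : ∀ s ∈ spectrum ℝ k, ∀ t ∈ spectrum ℝ k, s ≠ 0 → t ≠ 0 → s = t) :
    ∃ c : ℝ, k * k = c • k := by
  obtain ⟨c, hc⟩ : ∃ c : ℝ, ∀ r ∈ spectrum ℝ k, r * r = c * r := by
    by_cases hex : ∃ c ∈ spectrum ℝ k, c ≠ 0
    · obtain ⟨c, hc, hc0⟩ := hex
      refine ⟨c, fun r hr => ?_⟩
      by_cases hr0 : r = 0
      · rw [hr0, mul_zero, mul_zero]
      · rw [h r hr c hc hr0 hc0]
    · push Not at hex
      exact ⟨0, fun r hr => by rw [hex r hr, mul_zero]⟩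
  refine ⟨c, ?_⟩
  calc k * k = cfc (fun r : ℝ => r * r) k := by
        rw [cfc_mul (fun r : ℝ => r) (fun r : ℝ => r) k (by fun_prop) (by fun_prop),
          cfc_id' ℝ k hk]
    _ = cfc (fun r : ℝ => c * r) k := cfc_congr hc
    _ = c • k := by
        rw [cfc_const_mul c (fun r : ℝ => r) k (by fun_prop), cfc_id' ℝ k hk]

end P095F
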