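import Vale.Agent.Lib.P095F.CASt

/-!
# P095F, part CA, module CAStB: existence of states and consequences

`exists_st`: a norm one functional `g` with `g 1 = 1` is a state: copy `States.im_eq_zero` and
`States.pos` from Vale/Agent/Lib/P083/States.lean (there for `Type`, the proofs work for `Type u`).
Let `‖x‖ = 1` (scale).  `exists_dual_vector`: `g x = ‖x‖ = 1 = ‖g‖`.  For every complex `z` with
`‖z‖ = 1`: `‖x + z • (1 - x)‖ ≤ 1` (functional calculus of `x`, `cfc` for functions `ℝ → ℝ` is not enough;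
use `star w * w = x^2 + (1-x)^2 + 2 re(z) x (1-x) ≤ (x + (1 - x))^2 = 1`, `w = x + z • (1 - x)`), so
`‖1 + z * g (1 - x)‖ ≤ 1` for all such `z` and `g (1 - x) = 0`, `g 1 = 1`.

`IsSt.cut`: `ψ' a = ψ (star x * a * x) / ψ (star x * x)`.

`nonneg_of_st`: if not, `n = x⁻ ≠ 0` (negative part, `x * n = - n * n`), take a state with
`ψ(n^3) > 0` (`n^3 ≥ 0`, `n^3 ≠ 0`); then `ψ(n^2) ≠ 0` by Cauchy-Schwarz and `ψ' = cut` by `n` has
`ψ'(x) = - ψ(n^3)/ψ(n^2) < 0`.

`norm_le_of_st`: `ε ± x ≥ 0`.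
-/

open scoped Topology ComplexConjugate

namespace P095F

universe u

variable {A : Type u} [CStarAlgebra A] [PartialOrder A] [StarOrderedRing A]

section castb

open Complex

omit [PartialOrder A] [StarOrderedRing A] in
private theorem castb_im_eq_zero [Nontrivial A] (g : StrongDual ℂ A) (hg : ‖g‖ = 1) (h1 : g 1 = 1)
    (a : A) (ha : IsSelfAdjoint a) : (g a).im = 0 := by
  have key : ∀ t : ℝ, (g a).re ^ 2 + ((g a).im + t) ^ 2 ≤ ‖a‖ ^ 2 + t ^ 2 := by
    intro t
    have h2 : ‖a + algebraMap ℂ A (t * I)‖ ^ 2 ≤ ‖a‖ ^ 2 + t ^ 2 := by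
      rw [sq, ← CStarRing.norm_star_mul_self]
      have h3 : star (a + algebraMap ℂ A (t * I)) * (a + algebraMap ℂ A (t * I)) =
          a * a + algebraMap ℂ A (t ^ 2) := by
        rw [star_add, ha.star_eq, ← algebraMap_star_comm]
        have h4 : star ((t : ℂ) * I) = -(t * I) := by
          simp
        rw [h4, map_neg]
        have h5 : algebraMap ℂ A ((t : ℂ) ^ 2) =
            -(algebraMap ℂ A (t * I) * algebraMap ℂ A (t * I)) := by
          rw [← map_mul, ← map_neg]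
          congr 1
          ring_nf
          rw [I_sq]
          ring
        rw [h5]
        have h6 := Algebra.commutes ((t : ℂ) * I) a
        rw [add_mul, mul_add, mul_add]
        simp only [neg_mul]
        rw [h6]
        abel
      rw [h3]
      refine (norm_add_le _ _).trans (add_le_add ?_ ?_)
      · rw [sq]; exact norm_mul_le a a
      · rw [norm_algebraMap']
        simp
    have h7 : ‖g (a + algebraMap ℂ A (t * I))‖ ≤ ‖a + algebraMap ℂ A (t * I)‖ := by
      have := g.le_opNorm (a + algebraMap ℂ A (t * I))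
      rwa [hg, one_mul] at this
    have h8 : g (a + algebraMap ℂ A (t * I)) = g a + t * I := by
      rw [map_add, Algebra.algebraMap_eq_smul_one, map_smul, h1, smul_eq_mul, mul_one]
    rw [h8] at h7
    have h9 : ‖g a + t * I‖ ^ 2 = (g a).re ^ 2 + ((g a).im + t) ^ 2 := by
      rw [← normSq_eq_norm_sq, normSq_apply]
      simp
      ring
    rw [← h9]
    exact (pow_le_pow_left₀ (norm_nonneg _) h7 2).trans h2
  by_contra hne
  have h := key ((‖a‖ ^ 2 + 1) / (2 * (g a).im))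
  have h2 : 2 * (g a).im * ((‖a‖ ^ 2 + 1) / (2 * (g a).im)) = ‖a‖ ^ 2 + 1 := by
    field_simp
  nlinarith [sq_nonneg (g a).re, sq_nonneg (g a).im]

private theorem castb_pos [Nontrivial A] (g : StrongDual ℂ A) (hg : ‖g‖ = 1) (h1 : g 1 = 1)
    (a : A) (ha : 0 ≤ a) : 0 ≤ (g a).re := by
  have hsa : IsSelfAdjoint a := IsSelfAdjoint.of_nonneg ha
  have h2 := hsa.le_algebraMap_norm_self
  have h3 : 0 ≤ algebraMap ℝ A ‖a‖ - a := sub_nonneg.2 h2
  have h4 : ‖algebraMap ℝ A ‖a‖ - a‖ ≤ ‖a‖ := by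
    have h5 : algebraMap ℝ A ‖a‖ - a ≤ algebraMap ℝ A ‖a‖ := sub_le_self _ ha
    have h6 := CStarAlgebra.norm_le_norm_of_nonneg_of_le h3 h5
    rwa [norm_algebraMap', Real.norm_of_nonneg (norm_nonneg a)] at h6
  have h7 : ‖g (algebraMap ℝ A ‖a‖ - a)‖ ≤ ‖a‖ := by
    have := g.le_opNorm (algebraMap ℝ A ‖a‖ - a)
    rw [hg, one_mul] at this
    exact this.trans h4
  have h8 : g (algebraMap ℝ A ‖a‖ - a) = ‖a‖ - g a := by
    have e1 : algebraMap ℝ A ‖a‖ = (‖a‖ : ℂ) • (1 : A) := by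
      rw [Algebra.algebraMap_eq_smul_one]
      exact (Complex.coe_smul _ _).symm
    rw [map_sub, e1, map_smul, h1, smul_eq_mul, mul_one]
  rw [h8] at h7
  have h9 : ‖a‖ - (g a).re ≤ ‖a‖ := by
    have := (Complex.re_le_norm ((‖a‖ : ℂ) - g a)).trans h7
    simpa using this
  linarith

private theorem castb_norm [Nontrivial A] {y : A} (hy : 0 ≤ y) (hy1 : ‖y‖ ≤ 1) {z : ℂ}
    (hz : ‖z‖ = 1) : ‖y + z • (1 - y)‖ ≤ 1 := by
  have hys : star y = y := (IsSelfAdjoint.of_nonneg hy).star_eq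
  have h1 : y ≤ 1 := (CStarAlgebra.norm_le_one_iff_of_nonneg y hy).1 hy1
  have h2 : 0 ≤ y * (1 - y) :=
    Commute.mul_nonneg hy (sub_nonneg.2 h1) ((Commute.one_right y).sub_right (Commute.refl y))
  have h3 : (2 - 2 * z.re : ℝ) • (y * (1 - y)) =
      1 - star (y + z • (1 - y)) * (y + z • (1 - y)) := by
    have e1 : star (y + z • (1 - y)) = y + (conj z) • (1 - y) := by
      rw [star_add, star_smul, star_sub, star_one, hys]
      rfl
    have e2 : (1 - y) * y = y * (1 - y) := by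
      rw [sub_mul, mul_sub, one_mul, mul_one]
    have e3 : conj z * z = 1 := by
      rw [mul_comm, Complex.mul_conj, Complex.normSq_eq_norm_sq, hz]
      simp
    have e4 : (y + (conj z) • (1 - y)) * (y + z • (1 - y)) =
        y * y + (1 - y) * (1 - y) + (z + conj z) • (y * (1 - y)) := by
      rw [add_mul, mul_add, mul_add, smul_mul_smul_comm, e3, one_smul, mul_smul_comm,
        smul_mul_assoc, e2, add_smul]
      abel
    have e5 : z + conj z = ((2 * z.re : ℝ) : ℂ) := Complex.add_conj z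
    have e6 : (1 : A) = y * y + (1 - y) * (1 - y) + (2 : ℝ) • (y * (1 - y)) := by
      rw [two_smul]
      have : (1 : A) = (y + (1 - y)) * (y + (1 - y)) := by
        rw [add_sub_cancel, one_mul]
      nth_rewrite 1 [this]
      rw [add_mul, mul_add, mul_add, e2]
      abel
    rw [e1, e4, e5, Complex.coe_smul, sub_smul]
    generalize y * (1 - y) = P at e6 ⊢
    generalize y * y + (1 - y) * (1 - y) = Q at e6 ⊢
    rw [e6]
    abel
  have h4 : 0 ≤ 1 - star (y + z • (1 - y)) * (y + z • (1 - y)) := by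
    rw [← h3]
    refine smul_nonneg ?_ h2
    have := Complex.re_le_norm z
    rw [hz] at this
    linarith
  have h5 : star (y + z • (1 - y)) * (y + z • (1 - y)) ≤ 1 := sub_nonneg.1 h4
  have h6 := (CStarAlgebra.norm_le_one_iff_of_nonneg _ (star_mul_self_nonneg _)).2 h5
  rw [CStarRing.norm_star_mul_self] at h6
  nlinarith [norm_nonneg (y + z • (1 - y))]

end castb

theorem exists_st {x : A} (hx : 0 ≤ x) (h0 : x ≠ 0) :
    ∃ ψ : A →ₗ[ℂ] ℂ, IsSt ψ ∧ 0 < (ψ x).re := by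
  have hnt : Nontrivial A := ⟨x, 0, h0⟩
  have hn : 0 < ‖x‖ := norm_pos_iff.2 h0
  obtain ⟨y, hy⟩ : ∃ y : A, y = (‖x‖⁻¹ : ℝ) • x := ⟨_, rfl⟩
  have hy0 : 0 ≤ y := by
    rw [hy]
    exact smul_nonneg (by positivity) hx
  have hyn : ‖y‖ = 1 := by
    rw [hy, norm_smul, norm_inv, norm_norm, inv_mul_cancel₀ hn.ne']
  have hyne : y ≠ 0 := by
    intro h
    rw [h, norm_zero] at hyn
    exact zero_ne_one hyn
  have hxy : x = ((‖x‖ : ℝ) : ℂ) • y := by
    rw [Complex.coe_smul, hy, smul_smul, mul_inv_cancel₀ hn.ne', one_smul]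
  obtain ⟨g, hg, h1⟩ := exists_dual_vector ℂ y (norm_ne_zero_iff.2 hyne)
  rw [hyn] at h1
  have h1' : g y = 1 := by simpa using h1
  have key : ∀ z : ℂ, ‖z‖ = 1 → ‖1 + z * g (1 - y)‖ ≤ 1 := by
    intro z hz
    have h2 := g.le_opNorm (y + z • (1 - y))
    rw [hg, one_mul, map_add, map_smul, h1', smul_eq_mul] at h2
    exact h2.trans (castb_norm hy0 hyn.le hz)
  have h3 : g (1 - y) = 0 := by
    by_contra hne
    have hw : 0 < ‖g (1 - y)‖ := norm_pos_iff.2 hne
    have h4 := key (conj (g (1 - y)) / (‖g (1 - y)‖ : ℂ)) (by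
      rw [norm_div, Complex.norm_conj, Complex.norm_real, norm_norm, div_self hw.ne'])
    have h5 : conj (g (1 - y)) / (‖g (1 - y)‖ : ℂ) * g (1 - y) = (‖g (1 - y)‖ : ℂ) := by
      have h6 : conj (g (1 - y)) * g (1 - y) = (‖g (1 - y)‖ : ℂ) ^ 2 := by
        rw [mul_comm, Complex.mul_conj, Complex.normSq_eq_norm_sq]
        push_cast
        rfl
      have h7 : (‖g (1 - y)‖ : ℂ) ≠ 0 := by exact_mod_cast hw.ne'
      rw [div_mul_eq_mul_div, h6]
      field_simp
    rw [h5] at h4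
    have h8 : (1 + (‖g (1 - y)‖ : ℂ)) = ((1 + ‖g (1 - y)‖ : ℝ) : ℂ) := by push_cast; rfl
    rw [h8, Complex.norm_real, Real.norm_of_nonneg (by positivity)] at h4
    linarith
  have h4 : g 1 = 1 := by
    rw [map_sub, h1', sub_eq_zero] at h3
    exact h3
  refine ⟨(g : A →ₗ[ℂ] ℂ), ⟨fun a => castb_pos g hg h4 _ (star_mul_self_nonneg a),
    fun a => castb_im_eq_zero g hg h4 _ (IsSelfAdjoint.star_mul_self a), h4⟩, ?_⟩
  have h5 : (g : A →ₗ[ℂ] ℂ) x = (‖x‖ : ℂ) := by
    change g x = _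
    nth_rewrite 1 [hxy]
    rw [map_smul, h1', smul_eq_mul, mul_one]
  rw [h5, Complex.ofReal_re]
  exact hn

omit [PartialOrder A] [StarOrderedRing A] in
theorem IsSt.cut {ψ : A →ₗ[ℂ] ℂ} (h : IsSt ψ) {x : A} (hx : (ψ (star x * x)).re ≠ 0) :
    ∃ ψ' : A →ₗ[ℂ] ℂ, IsSt ψ' ∧ ∀ a, ψ (star x * a * x) = ψ' a * ψ (star x * x) := by
  obtain ⟨r, hr⟩ : ∃ r : ℝ, r = (ψ (star x * x)).re := ⟨_, rfl⟩
  have hr1 : ψ (star x * x) = (r : ℂ) := by
    apply Complex.ext
    · rw [Complex.ofReal_re, hr]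
    · rw [Complex.ofReal_im, h.im_eq]
  have hr0 : 0 < r := lt_of_le_of_ne (hr ▸ h.nonneg x) (by rw [hr]; exact hx.symm)
  have hrc : (r : ℂ) ≠ 0 := by exact_mod_cast hr0.ne'
  have hpos : ∀ a : A, star x * (star a * a) * x = star (a * x) * (a * x) := by
    intro a
    rw [star_mul]
    simp only [mul_assoc]
  refine ⟨{ toFun := fun a => ψ (star x * a * x) * ((r⁻¹ : ℝ) : ℂ)
            map_add' := ?_
            map_smul' := ?_ }, ⟨?_, ?_, ?_⟩, ?_⟩
  · intro a b
    rw [mul_add, add_mul, map_add, add_mul]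
  · intro c a
    rw [mul_smul_comm, smul_mul_assoc, map_smul, RingHom.id_apply, smul_eq_mul, smul_eq_mul,
      mul_assoc]
  · intro a
    change 0 ≤ (ψ (star x * (star a * a) * x) * ((r⁻¹ : ℝ) : ℂ)).re
    rw [hpos, Complex.re_mul_ofReal]
    exact mul_nonneg (h.nonneg _) (inv_nonneg.2 hr0.le)
  · intro a
    change (ψ (star x * (star a * a) * x) * ((r⁻¹ : ℝ) : ℂ)).im = 0
    rw [hpos, Complex.im_mul_ofReal, h.im_eq, zero_mul]
  · change ψ (star x * 1 * x) * ((r⁻¹ : ℝ) : ℂ) = 1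
    rw [mul_one, hr1, ← Complex.ofReal_mul, mul_inv_cancel₀ hr0.ne', Complex.ofReal_one]
  · intro a
    change ψ (star x * a * x) = ψ (star x * a * x) * ((r⁻¹ : ℝ) : ℂ) * ψ (star x * x)
    rw [hr1, mul_assoc (ψ (star x * a * x)), ← Complex.ofReal_mul, inv_mul_cancel₀ hr0.ne', Complex.ofReal_one, mul_one]

theorem nonneg_of_st {x : A} (hx : IsSelfAdjoint x)
    (h : ∀ ψ : A →ₗ[ℂ] ℂ, IsSt ψ → 0 ≤ (ψ x).re) : 0 ≤ x := by
  have hdec := CFC.posPart_sub_negPart x hx
  have hn0 : 0 ≤ x⁻ := CFC.negPart_nonneg x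
  have hpn : x⁺ * x⁻ = 0 := CFC.posPart_mul_negPart x
  obtain ⟨m, hm⟩ : ∃ m : A, m = x⁻ := ⟨_, rfl⟩
  rw [← hm] at hdec hn0 hpn
  have hms : star m = m := (IsSelfAdjoint.of_nonneg hn0).star_eq
  by_cases hm0 : m = 0
  · rw [hm0, sub_zero] at hdec
    rw [← hdec]
    exact CFC.posPart_nonneg x
  · exfalso
    have hxm : x * m = -(m * m) := by
      nth_rewrite 1 [← hdec]
      rw [sub_mul, hpn, zero_sub]
    have h3 : 0 ≤ m * m * m := by
      have := star_left_conjugate_nonneg hn0 m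
      rwa [hms] at this
    have h2ne : m * m ≠ 0 := by
      intro h4
      have h5 := CStarRing.norm_star_mul_self (x := m)
      rw [hms, h4, norm_zero] at h5
      have h6 : 0 < ‖m‖ := norm_pos_iff.2 hm0
      nlinarith
    have h3ne : m * m * m ≠ 0 := by
      intro h4
      have h5 := CStarRing.norm_star_mul_self (x := m * m)
      have h7 : star (m * m) * (m * m) = m * m * m * m := by
        rw [star_mul, hms]
        simp only [mul_assoc]
      rw [h7, h4, zero_mul, norm_zero] at h5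
      have h6 : 0 < ‖m * m‖ := norm_pos_iff.2 h2ne
      nlinarith
    obtain ⟨ψ, hψ, hψ3⟩ := exists_st h3 h3ne
    have hcs := hψ.cs_sq m (m * m)
    have e1 : star m * (m * m) = m * m * m := by rw [hms, mul_assoc]
    rw [e1] at hcs
    have hne : (ψ (star m * m)).re ≠ 0 := by
      intro h4
      rw [h4, zero_mul] at hcs
      have h5 : 0 < ‖ψ (m * m * m)‖ := lt_of_lt_of_le hψ3 (Complex.re_le_norm _)
      nlinarith
    obtain ⟨ψ', hψ', hcut⟩ := hψ.cut hne
    have h4 := hcut x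
    have e2 : star m * x * m = -(m * m * m) := by
      rw [hms, mul_assoc, hxm, mul_neg, mul_assoc]
    rw [e2, map_neg] at h4
    have h5 := congrArg Complex.re h4
    rw [Complex.neg_re, Complex.mul_re, hψ.im_eq, mul_zero, sub_zero] at h5
    have h6 := h ψ' hψ'
    have h7 := hψ.nonneg m
    have h8 := mul_nonneg h6 h7
    linarith

theorem norm_le_of_st {x : A} (hx : IsSelfAdjoint x) {ε : ℝ} (hε : 0 ≤ ε)
    (h : ∀ ψ : A →ₗ[ℂ] ℂ, IsSt ψ → |(ψ x).re| ≤ ε) : ‖x‖ ≤ ε := by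
  rcases subsingleton_or_nontrivial A with hA | hA
  · rw [Subsingleton.elim x 0, norm_zero]
    exact hε
  have hsa : IsSelfAdjoint (algebraMap ℝ A ε) := IsSelfAdjoint.algebraMap A (by
    exact IsSelfAdjoint.all ε)
  have h1 : 0 ≤ algebraMap ℝ A ε - x := by
    refine nonneg_of_st (hsa.sub hx) fun ψ hψ => ?_
    rw [map_sub, hψ.map_algebraMap, Complex.sub_re, Complex.ofReal_re]
    have := (abs_le.1 (h ψ hψ)).2
    linarith
  have h2 : 0 ≤ algebraMap ℝ A ε + x := by
    refine nonneg_of_st (hsa.add hx) fun ψ hψ => ?_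
    rw [map_add, hψ.map_algebraMap, Complex.add_re, Complex.ofReal_re]
    have := (abs_le.1 (h ψ hψ)).1
    linarith
  have hc : Commute (algebraMap ℝ A ε) x := Algebra.commutes ε x
  have h3 : 0 ≤ (algebraMap ℝ A ε - x) * (algebraMap ℝ A ε + x) := by
    refine Commute.mul_nonneg h1 h2 ?_
    exact ((Commute.refl _).add_right hc).sub_left (hc.symm.add_right (Commute.refl _))
  have h4 : (algebraMap ℝ A ε - x) * (algebraMap ℝ A ε + x) =
      algebraMap ℝ A (ε ^ 2) - star x * x := by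
    rw [hx.star_eq, sub_mul, mul_add, mul_add, ← hc.eq, ← map_mul, ← sq]
    abel
  rw [h4] at h3
  have h5 : star x * x ≤ algebraMap ℝ A (ε ^ 2) := sub_nonneg.1 h3
  have h6 := CStarAlgebra.norm_le_norm_of_nonneg_of_le (star_mul_self_nonneg x) h5
  rw [CStarRing.norm_star_mul_self, norm_algebraMap', Real.norm_of_nonneg (sq_nonneg ε),
    ← sq] at h6
  exact (pow_le_pow_iff_left₀ (norm_nonneg _) hε two_ne_zero).1 h6

end P095F
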