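import Vale.Agent.Lib.P095F.CBDefs

/-!
# P095F, part CB, module Avg: averaging over a Følner set
-/

open scoped Topology

namespace P095F

universe u v

variable {F : Type u} [CStarAlgebra F]

private theorem cbavg_sqrt {a b : ℝ} (ha : 0 ≤ a) (hb : 0 ≤ b) : (√a - √b) ^ 2 ≤ |a - b| := by
  have h1 := Real.sq_sqrt ha
  have h2 := Real.sq_sqrt hb
  have h3 := Real.sqrt_nonneg a
  have h4 := Real.sqrt_nonneg b
  rcases le_total a b with h | h
  · have h5 := Real.sqrt_le_sqrt h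
    rw [abs_of_nonpos (by linarith)]
    nlinarith
  · have h5 := Real.sqrt_le_sqrt h
    rw [abs_of_nonneg (by linarith)]
    nlinarith

private theorem cbavg_count {G : Type v} {H : Type u} [DecidableEq G] [DecidableEq H] (f : G → H)
    (A B : Finset G) (hc : A.card = B.card) (Y : Finset H) :
    ∑ x ∈ Y, |(((A.filter fun g => f g = x).card : ℝ) - (B.filter fun g => f g = x).card)| ≤
      2 * ((A \ B).card : ℝ) := by
  have h1 : ∀ x ∈ Y, |(((A.filter fun g => f g = x).card : ℝ) -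
      (B.filter fun g => f g = x).card)| ≤ (((A \ B).filter fun g => f g = x).card : ℝ) +
        (((B \ A).filter fun g => f g = x).card : ℝ) := by
    intro x _
    have e1 : ((A.filter fun g => f g = x).card : ℝ) ≤ (B.filter fun g => f g = x).card +
        ((A \ B).filter fun g => f g = x).card := by
      have h2 : A.filter (fun g => f g = x) ⊆ B.filter (fun g => f g = x) ∪
          (A \ B).filter (fun g => f g = x) := by
        intro g hg
        simp only [Finset.mem_filter, Finset.mem_union, Finset.mem_sdiff] at hg ⊢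
        tauto
      exact_mod_cast (Finset.card_le_card h2).trans (Finset.card_union_le _ _)
    have e2 : ((B.filter fun g => f g = x).card : ℝ) ≤ (A.filter fun g => f g = x).card +
        ((B \ A).filter fun g => f g = x).card := by
      have h2 : B.filter (fun g => f g = x) ⊆ A.filter (fun g => f g = x) ∪
          (B \ A).filter (fun g => f g = x) := by
        intro g hg
        simp only [Finset.mem_filter, Finset.mem_union, Finset.mem_sdiff] at hg ⊢
        tauto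
      exact_mod_cast (Finset.card_le_card h2).trans (Finset.card_union_le _ _)
    have e3 : (0 : ℝ) ≤ ((A \ B).filter fun g => f g = x).card := Nat.cast_nonneg _
    have e4 : (0 : ℝ) ≤ ((B \ A).filter fun g => f g = x).card := Nat.cast_nonneg _
    rw [abs_le]
    constructor <;> linarith
  have h2 : ∀ C : Finset G, ∑ x ∈ Y, ((C.filter fun g => f g = x).card : ℝ) ≤ C.card := by
    intro C
    have h3 : ∑ x ∈ Y, (C.filter fun g => f g = x).card ≤ C.card := by
      rw [← Finset.card_biUnion]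
      · refine Finset.card_le_card fun g hg => ?_
        simp only [Finset.mem_biUnion, Finset.mem_filter] at hg
        obtain ⟨_, _, h4, _⟩ := hg
        exact h4
      · intro x _ y _ hxy
        rw [Function.onFun, Finset.disjoint_left]
        intro g hg hg'
        rw [Finset.mem_filter] at hg hg'
        exact hxy (hg.2.symm.trans hg'.2)
    exact_mod_cast h3
  refine (Finset.sum_le_sum h1).trans ?_
  rw [Finset.sum_add_distrib]
  have h3 := h2 (A \ B)
  have h4 := h2 (B \ A)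
  have h5 : (B \ A).card = (A \ B).card := Finset.card_sdiff_comm hc.symm
  rw [h5] at h4
  linarith

/-- Følner weights on a quotient: for a homomorphism `β` to a group `H` (here `Aut F`), `K₀` finite
and `ε > 0` there is `w : H → ℝ`, `w ≥ 0`, with finite support, `∑ w² = 1` and
`∑_x (w(β_h⁻¹ x) - w(x))² ≤ ε` for `h ∈ K₀`.

Proof.  `K` Følner for `K₀`, `ε/2`; `w x = √(p x)`, `p x = #{g ∈ K : β g = x} / #K`;
`p(β_h⁻¹ x) = #{g ∈ K : β (h g) = x}/#K`.  `(√a - √b)² ≤ |a - b|` and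
`∑_x |#{g ∈ K : β (h g) = x} - #{g ∈ K : β g = x}| ≤ #(hK \ K) + #(K \ hK) = 2 #(hK \ K) ≤ ε #K`
(`Nat.card {g // g ∉ K ∧ h⁻¹ g ∈ K} = #(hK \ K)`).  `Y` = union of `β(K)` and `β(h K)`, `h ∈ K₀`. -/
theorem exists_weights {G : Type v} [Group G] (hG : FolnerGroup G) {H : Type u} [Group H]
    (β : G →* H) (K₀ : Finset G) {ε : ℝ} (hε : 0 < ε) :
    ∃ (Y : Finset H) (w : H → ℝ), (∀ x ∈ Y, x ∈ β.range) ∧ (∀ x, 0 ≤ w x) ∧
      ∑ x ∈ Y, w x ^ 2 = 1 ∧ (∀ x, x ∉ Y → w x = 0) ∧ ∀ h ∈ K₀, (∀ x, x ∉ Y → w ((β h)⁻¹ * x) = 0) ∧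
        ∑ x ∈ Y, (w ((β h)⁻¹ * x) - w x) ^ 2 ≤ ε := by
  classical
  obtain ⟨K, hK, hF⟩ := hG K₀ (ε / 2) (by linarith)
  have hN : (0 : ℝ) < K.card := by exact_mod_cast hK.card_pos
  set c : H → ℕ := fun x => (K.filter fun g => β g = x).card with hc
  have hc0 : ∀ x, (∀ g ∈ K, β g ≠ x) → c x = 0 := by
    intro x hx
    rw [hc]
    simp only [Finset.card_eq_zero, Finset.filter_eq_empty_iff]
    exact fun g hg => hx g hg
  set Y : Finset H := K.image β ∪ K₀.biUnion (fun h => K.image fun g => β (h * g)) with hY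
  have hY1 : ∀ g ∈ K, β g ∈ Y := fun g hg =>
    Finset.mem_union_left _ (Finset.mem_image_of_mem _ hg)
  have hY2 : ∀ h ∈ K₀, ∀ g ∈ K, β (h * g) ∈ Y := fun h hh g hg =>
    Finset.mem_union_right _ (Finset.mem_biUnion.2 ⟨h, hh, Finset.mem_image_of_mem _ hg⟩)
  have hp0 : ∀ x, (0 : ℝ) ≤ c x / K.card := fun x => div_nonneg (Nat.cast_nonneg _) hN.le
  have hshift : ∀ h x, c ((β h)⁻¹ * x) = ((K.image fun g => h * g).filter fun g => β g = x).card := by
    intro h x
    have h1 : (K.filter fun g => β g = (β h)⁻¹ * x) = K.filter fun g => β (h * g) = x := by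
      refine Finset.filter_congr fun g _ => ?_
      rw [map_mul, eq_inv_mul_iff_mul_eq]
    rw [Finset.filter_image, Finset.card_image_of_injective _ (mul_right_injective h), ← h1]
  refine ⟨Y, fun x => √(c x / K.card), ?_, fun x => Real.sqrt_nonneg _, ?_, ?_, ?_⟩
  · intro x hx
    rw [hY, Finset.mem_union, Finset.mem_image, Finset.mem_biUnion] at hx
    rcases hx with ⟨g, _, rfl⟩ | ⟨h, _, hx⟩
    · exact ⟨g, rfl⟩
    · obtain ⟨g, _, rfl⟩ := Finset.mem_image.1 hx
      exact ⟨h * g, rfl⟩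
  · have h1 : ∀ x ∈ Y, √((c x : ℝ) / K.card) ^ 2 = (c x : ℝ) / K.card := fun x _ =>
      Real.sq_sqrt (hp0 x)
    rw [Finset.sum_congr rfl h1, ← Finset.sum_div, div_eq_one_iff_eq hN.ne']
    have h2 := Finset.card_eq_sum_card_fiberwise (f := β) (s := K) (t := Y) fun g hg => hY1 g hg
    rw [h2]
    push_cast
    rfl
  · intro x hx
    have h1 := hc0 x fun g hg h => hx (h ▸ hY1 g hg)
    simp only [h1, Nat.cast_zero, zero_div, Real.sqrt_zero]
  · intro h hh
    refine ⟨fun x hx => ?_, ?_⟩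
    · have h1 := hc0 ((β h)⁻¹ * x) fun g hg h' => hx (by
        have h2 := hY2 h hh g hg
        rw [map_mul, h', mul_inv_cancel_left] at h2
        exact h2)
      simp only [h1, Nat.cast_zero, zero_div, Real.sqrt_zero]
    · have h1 : ∀ x ∈ Y, (√((c ((β h)⁻¹ * x) : ℝ) / K.card) - √((c x : ℝ) / K.card)) ^ 2 ≤
          |((((K.image fun g => h * g).filter fun g => β g = x).card : ℝ) -
            (K.filter fun g => β g = x).card)| / K.card := by
        intro x _
        refine (cbavg_sqrt (hp0 _) (hp0 _)).trans ?_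
        rw [← sub_div, abs_div, abs_of_pos hN, hshift]
      refine (Finset.sum_le_sum h1).trans ?_
      rw [← Finset.sum_div, div_le_iff₀ hN]
      have hcard : (K.image fun g => h * g).card = K.card :=
        Finset.card_image_of_injective _ (mul_right_injective h)
      refine (cbavg_count β _ K hcard Y).trans ?_
      have h2 := hF h hh
      have h3 : Nat.card {g : G // g ∉ K ∧ h⁻¹ * g ∈ K} = ((K.image fun g => h * g) \ K).card := by
        rw [← Nat.card_eq_finsetCard]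
        refine Nat.card_congr (Equiv.subtypeEquivRight fun g => ?_)
        rw [Finset.mem_sdiff, Finset.mem_image]
        constructor
        · rintro ⟨h4, h5⟩
          exact ⟨⟨_, h5, by rw [mul_inv_cancel_left]⟩, h4⟩
        · rintro ⟨⟨g', h5, rfl⟩, h4⟩
          exact ⟨h4, by rwa [inv_mul_cancel_left]⟩
      rw [h3] at h2
      linarith

/-- Products of sums `S i c = ∑_{x ∈ Y} c x • x (s i)`: if `(x (s i))* y (s j) = 0` unless `x = y` and
`i = j`, and `(s i)* s i = e`, `x e = e`, then `(S i c)* (S j d) = δ_ij (∑ c x d x) e`.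
(`(x (s i))* y (s j) = x ((s i)* (x⁻¹ y) (s j))`.) -/
theorem sum_star_mul (Gb : Subgroup (F ≃⋆ₐ[ℂ] F)) (Y : Finset (F ≃⋆ₐ[ℂ] F))
    (hY : ∀ x ∈ Y, x ∈ Gb) {e : F} {s : Fin 2 → F} (hs : ∀ i, star (s i) * s i = e)
    (hR : ∀ x ∈ Gb, ∀ i j, ¬ (x = 1 ∧ i = j) → star (x (s i)) * s j = 0) (he : ∀ x ∈ Gb, x e = e)
    (c d : (F ≃⋆ₐ[ℂ] F) → ℝ) (i j : Fin 2) :
    star (∑ x ∈ Y, (c x : ℂ) • x (s i)) * (∑ x ∈ Y, (d x : ℂ) • x (s j)) =
      if i = j then ((∑ x ∈ Y, c x * d x : ℝ) : ℂ) • e else 0 := by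
  classical
  have key : ∀ x ∈ Y, ∀ y ∈ Y, star (x (s i)) * y (s j) = if x = y ∧ i = j then e else 0 := by
    intro x hx y hy
    have h1 : star (x (s i)) * y (s j) = y (star ((y⁻¹ * x) (s i)) * s j) := by
      have h2 : y ((y⁻¹ * x) (s i)) = x (s i) := by
        have h3 : (y * (y⁻¹ * x)) (s i) = x (s i) := by rw [mul_inv_cancel_left]
        exact h3
      rw [map_mul, map_star, h2]
    rw [h1]
    split_ifs with h
    · obtain ⟨rfl, rfl⟩ := h
      rw [inv_mul_cancel]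
      have h2 : (1 : F ≃⋆ₐ[ℂ] F) (s i) = s i := rfl
      rw [h2, hs, he x (hY x hx)]
    · rw [hR (y⁻¹ * x) (Gb.mul_mem (Gb.inv_mem (hY y hy)) (hY x hx)) i j, map_zero]
      rintro ⟨h2, h3⟩
      exact h ⟨(inv_mul_eq_one.1 h2).symm, h3⟩
  rw [star_sum, Finset.sum_mul_sum]
  have h1 : ∀ x ∈ Y, ∑ y ∈ Y, star ((c x : ℂ) • x (s i)) * ((d y : ℂ) • y (s j)) =
      if i = j then ((c x * d x : ℝ) : ℂ) • e else 0 := by
    intro x hx
    have h2 : ∀ y ∈ Y, star ((c x : ℂ) • x (s i)) * ((d y : ℂ) • y (s j)) =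
        if y = x then (if i = j then ((c x * d x : ℝ) : ℂ) • e else 0) else 0 := by
      intro y hy
      rw [star_smul, smul_mul_smul_comm, key x hx y hy]
      have h3 : star (c x : ℂ) = (c x : ℂ) := Complex.conj_ofReal _
      rw [h3]
      by_cases hxy : y = x
      · subst hxy
        by_cases hij : i = j
        · simp [hij]
        · simp [hij]
      · rw [if_neg hxy, if_neg (fun h => hxy h.1.symm), smul_zero]
    rw [Finset.sum_congr rfl h2, Finset.sum_ite_eq' Y x, if_pos hx]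
  rw [Finset.sum_congr rfl h1]
  split_ifs
  · rw [← Finset.sum_smul, Complex.ofReal_sum]
  · rw [Finset.sum_const_zero]

/-- **Approximate invariance by averaging.**

Proof.  `exists_weights` for `β` and `ε²`: `Y`, `w`.  `s' i = ∑_{x ∈ Y} w x • x (s i)`.
By `sum_star_mul` (`Gb = β.range`)
`(s' i)* s' j = δ_ij (∑ w²) e`.  `β_h (s' i) = ∑_x w x • (β_h x) (s i) = ∑_{x ∈ Y} w(β_h⁻¹ x) • x (s i)`
(both sides may be summed over all `x`, finite support), so `β_h (s' i) - s' i = ∑_{x ∈ Y} c x • x (s i)`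
with `c x = w(β_h⁻¹ x) - w x`, and `‖·‖² = ‖(∑ c²) e‖ ≤ ε²`. -/
theorem exists_avg {G : Type v} [Group G] (hG : FolnerGroup G) (β : G →* (F ≃⋆ₐ[ℂ] F))
    {e : F} (hen : ‖e‖ ≤ 1) (he : ∀ g, β g e = e) {s : Fin 2 → F}
    (hs : ∀ i, star (s i) * s i = e)
    (hR : ∀ g i j, ¬ (β g = 1 ∧ i = j) → star (β g (s i)) * s j = 0)
    (K₀ : Finset G) {ε : ℝ} (hε : 0 < ε) :
    ∃ s' : Fin 2 → F, (∀ i j, star (s' i) * s' j = if i = j then e else 0) ∧
      ∀ g ∈ K₀, ∀ i, ‖β g (s' i) - s' i‖ ≤ ε := by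
  classical
  obtain ⟨Y, w, hYr, _, hw1, hwY, hK⟩ := exists_weights hG β K₀ (pow_pos hε 2)
  have hs' : ∀ (c d : (F ≃⋆ₐ[ℂ] F) → ℝ) (i j : Fin 2),
      star (∑ x ∈ Y, (c x : ℂ) • x (s i)) * (∑ x ∈ Y, (d x : ℂ) • x (s j)) =
        if i = j then ((∑ x ∈ Y, c x * d x : ℝ) : ℂ) • e else 0 := by
    refine sum_star_mul β.range Y hYr hs ?_ ?_
    · rintro _ ⟨g, rfl⟩ i j h
      exact hR g i j h
    · rintro _ ⟨g, rfl⟩
      exact he g
  refine ⟨fun i => ∑ x ∈ Y, (w x : ℂ) • x (s i), fun i j => ?_, fun h hh i => ?_⟩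
  · rw [hs' w w i j]
    have h1 : ∑ x ∈ Y, w x * w x = 1 := by
      rw [← hw1]
      exact Finset.sum_congr rfl fun x _ => (sq (w x)).symm
    rw [h1, Complex.ofReal_one, one_smul]
  · obtain ⟨hk1, hk2⟩ := hK h hh
    have e1 : β h (∑ x ∈ Y, (w x : ℂ) • x (s i)) =
        ∑ x ∈ Y, (w ((β h)⁻¹ * x) : ℂ) • x (s i) := by
      have e2 : β h (∑ x ∈ Y, (w x : ℂ) • x (s i)) =
          ∑ y ∈ Y.image (fun x => β h * x), (w ((β h)⁻¹ * y) : ℂ) • y (s i) := by
        rw [map_sum, Finset.sum_image fun x _ y _ hxy => mul_left_cancel hxy]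
        refine Finset.sum_congr rfl fun x _ => ?_
        rw [inv_mul_cancel_left, map_smul]
        rfl
      rw [e2]
      have e3 : ∑ y ∈ Y.image (fun x => β h * x), (w ((β h)⁻¹ * y) : ℂ) • y (s i) =
          ∑ y ∈ Y.image (fun x => β h * x) ∪ Y, (w ((β h)⁻¹ * y) : ℂ) • y (s i) := by
        refine Finset.sum_subset Finset.subset_union_left fun y _ hy => ?_
        have h3 : (β h)⁻¹ * y ∉ Y := by
          intro h4
          exact hy (Finset.mem_image.2 ⟨_, h4, by rw [mul_inv_cancel_left]⟩)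
        rw [hwY _ h3, Complex.ofReal_zero, zero_smul]
      have e4 : ∑ y ∈ Y, (w ((β h)⁻¹ * y) : ℂ) • y (s i) =
          ∑ y ∈ Y.image (fun x => β h * x) ∪ Y, (w ((β h)⁻¹ * y) : ℂ) • y (s i) := by
        refine Finset.sum_subset Finset.subset_union_right fun y _ hy => ?_
        rw [hk1 y hy, Complex.ofReal_zero, zero_smul]
      rw [e3, e4]
    have e2 : β h (∑ x ∈ Y, (w x : ℂ) • x (s i)) - ∑ x ∈ Y, (w x : ℂ) • x (s i) =
        ∑ x ∈ Y, ((w ((β h)⁻¹ * x) - w x : ℝ) : ℂ) • x (s i) := by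
      rw [e1, ← Finset.sum_sub_distrib]
      refine Finset.sum_congr rfl fun x _ => ?_
      rw [Complex.ofReal_sub, sub_smul]
    have h3 : ‖∑ x ∈ Y, ((w ((β h)⁻¹ * x) - w x : ℝ) : ℂ) • x (s i)‖ *
        ‖∑ x ∈ Y, ((w ((β h)⁻¹ * x) - w x : ℝ) : ℂ) • x (s i)‖ ≤ ε * ε := by
      rw [← CStarRing.norm_star_mul_self,
        hs' (fun x => w ((β h)⁻¹ * x) - w x) (fun x => w ((β h)⁻¹ * x) - w x) i i, if_pos rfl,
        norm_smul, Complex.norm_real, Real.norm_eq_abs]
      have h4 : ∑ x ∈ Y, (w ((β h)⁻¹ * x) - w x) * (w ((β h)⁻¹ * x) - w x) ≤ ε * ε := by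
        rw [← sq ε]
        refine le_trans (le_of_eq ?_) hk2
        exact Finset.sum_congr rfl fun x _ => (sq _).symm
      have h5 : 0 ≤ ∑ x ∈ Y, (w ((β h)⁻¹ * x) - w x) * (w ((β h)⁻¹ * x) - w x) :=
        Finset.sum_nonneg fun x _ => mul_self_nonneg _
      rw [abs_of_nonneg h5]
      calc _ ≤ (ε * ε) * 1 := mul_le_mul h4 hen (norm_nonneg _) (by positivity)
        _ = ε * ε := mul_one _
    change ‖β h (∑ x ∈ Y, (w x : ℂ) • x (s i)) - ∑ x ∈ Y, (w x : ℂ) • x (s i)‖ ≤ ε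
    rw [e2]
    exact abs_le_of_sq_le_sq' (by nlinarith) hε.le |>.2

end P095F
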