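import Vale.Agent.Lib.P095F.CBHom
import Vale.Agent.Lib.P095F.AdmBasic

/-!
# P095F, part CB, module Copies: independent equivariant copies in `F_ω(A)`
-/

open scoped ENNReal Topology
open Filter P101 P095E

namespace P095F

universe u

/-- `F_ω(A)` is nontrivial -/
theorem cbcop_nontrivial (ω : Ultrafilter ℕ) (A : Type u) [CStarAlgebra A] [Nontrivial A] :
    Nontrivial (FOmega ω A) := by
  refine ⟨⟨0, 1, fun h01 => ?_⟩⟩
  have h1 : toUltrapower ω A 1 = 0 := by
    rw [map_one]
    exact (congrArg (fun x : FOmega ω A => (x : Ultrapower ω A)) h01).symm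
  have h2 : (1 : lp (fun _ : ℕ => A) ∞) ∈ cNull ω A := by
    exact (quotMk_eq_zero_iff (cNull ω A) _).1 h1
  rw [mem_cNull] at h2
  have h3 : Tendsto (fun _ : ℕ => (1 : ℝ)) (ω : Filter ℕ) (𝓝 0) := by
    refine h2.congr fun m => ?_
    have : (1 : lp (fun _ : ℕ => A) ∞) m = (1 : A) := rfl
    rw [this, norm_one]
  exact one_ne_zero (tendsto_nhds_unique tendsto_const_nhds h3)

/-- the closed separable *-subalgebra generated by a closed separable one and a separable set -/
theorem cbcop_gen {F : Type u} [CStarAlgebra F] (C : StarSubalgebra ℂ F)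
    (hC : TopologicalSpace.IsSeparable (C : Set F)) (R : Set F)
    (hR : TopologicalSpace.IsSeparable R) :
    ∃ D : StarSubalgebra ℂ F, IsClosed (D : Set F) ∧
      TopologicalSpace.IsSeparable (D : Set F) ∧ C ≤ D ∧ R ⊆ (D : Set F) := by
  obtain ⟨t, ht1, ht2, ht3⟩ := hC.exists_countable_dense_subset
  obtain ⟨r, hr1, hr2, hr3⟩ := hR.exists_countable_dense_subset
  obtain ⟨D, hD, hDs, hT⟩ := exists_closed_separable (t ∪ r) (ht2.union hr2)
  refine ⟨D, hD, hDs, ?_, ?_⟩
  · intro x hx
    exact closure_minimal (Set.subset_union_left.trans hT) hD (ht3 hx)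
  · intro x hx
    exact closure_minimal (Set.subset_union_right.trans hT) hD (hr3 hx)

/-- `F_ω(A)` has independent equivariant copies.

Proof.  As in `P095E.hasEquivCopies_FOmega` write `S` as the range of `b : κ → Aut(F)`, `κ` in
`Type` countable, induced by `α : κ → Aut(A)`.  Recursion: `C_0` = a closed separable *-subalgebra
(e.g. the scalars), `θ_n : D → F` from `exists_hom_indep` for the set `C_n`, `C_{n+1}` a closed
separable *-subalgebra containing `C_n` and the range of `θ_n` (the closed *-subalgebra generated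
by countable dense subsets of both: `P101.exists_closed_separable`).  (State of the recursion: the
subalgebra with its properties; `Nat.rec` on a subtype and `Classical.choose`.)  Since
`range θ_i ⊆ C_j` for `i < j`, `θ_j` commutes with `θ_i`; and by induction on `n`,
`P_n = θ_0(d_0) ⋯ θ_{n-1}(d_{n-1}) ∈ C_n` and `‖P_{n+1}‖ = ‖P_n θ_n(d_n)‖ = ‖θ_n(d_n) P_n‖ =
‖d_n‖ ‖P_n‖` (`List.range_succ`, `List.prod_append`). -/
theorem hasIndepCopies_FOmega (ω : Ultrafilter ℕ) (hω : (ω : Filter ℕ) ≤ Filter.cofinite)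
    (A : Type u) [CStarAlgebra A] [Nontrivial A] [IsSimpleRing A]
    [TopologicalSpace.SeparableSpace A]
    (S : Set (FOmega ω A ≃⋆ₐ[ℂ] FOmega ω A)) (hS : S.Countable)
    (h : ∀ b ∈ S, ∃ a : A ≃⋆ₐ[ℂ] A, Induces ω a b) : HasIndepCopies S := by
  have hnt : Nontrivial (FOmega ω A) := cbcop_nontrivial ω A
  obtain ⟨κ, hκ, b, hb⟩ : ∃ (κ : Type) (_ : Countable κ)
      (b : κ → (FOmega ω A ≃⋆ₐ[ℂ] FOmega ω A)), Set.range b = S := by
    rcases S.eq_empty_or_nonempty with h0 | h1
    · refine ⟨Empty, inferInstance, fun e => e.elim, ?_⟩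
      rw [h0, Set.range_eq_empty]
    · obtain ⟨f, hf⟩ := hS.exists_eq_range h1
      exact ⟨ℕ, inferInstance, f, hf.symm⟩
  have h' : ∀ i : κ, ∃ a : A ≃⋆ₐ[ℂ] A, Induces ω a (b i) := fun i => by
    apply h
    rw [← hb]
    exact Set.mem_range_self i
  choose α hα using h'
  intro D hcl hsep
  have hclD : IsClosed (D : Set (FOmega ω A)) := hcl
  have hsepD : TopologicalSpace.SeparableSpace D := hsep.separableSpace
  have hcont : ∀ θ : D →⋆ₐ[ℂ] FOmega ω A, Continuous θ := fun θ =>
    AddMonoidHomClass.continuous_of_bound θ 1 fun a => by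
      rw [one_mul]
      exact NonUnitalStarAlgHom.norm_apply_le θ a
  -- one step of the recursion
  have hstep : ∀ C : {C : StarSubalgebra ℂ (FOmega ω A) //
      TopologicalSpace.IsSeparable (C : Set (FOmega ω A))},
      ∃ (θ : D →⋆ₐ[ℂ] FOmega ω A) (C' : {C : StarSubalgebra ℂ (FOmega ω A) //
        TopologicalSpace.IsSeparable (C : Set (FOmega ω A))}),
        C.1 ≤ C'.1 ∧ (∀ d, θ d ∈ C'.1) ∧ (∀ (d : D), ∀ c ∈ C.1, Commute (θ d) c) ∧
        (∀ (i : κ) (d e : D), b i (d : FOmega ω A) = (e : FOmega ω A) → b i (θ d) = θ e) ∧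
        ∀ (d : D), ∀ c ∈ C.1, ‖θ d * c‖ = ‖d‖ * ‖c‖ := by
    rintro ⟨C, hC⟩
    obtain ⟨θ, h1, h2, h3⟩ := exists_hom_indep ω hω A α b hα D hcl hsep (C : Set (FOmega ω A)) hC
    obtain ⟨C', -, hC's, hle, hR⟩ := cbcop_gen C hC (Set.range θ)
      (TopologicalSpace.isSeparable_range (hcont θ))
    exact ⟨θ, ⟨C', hC's⟩, hle, fun d => hR ⟨d, rfl⟩, h1, h2, h3⟩
  choose th nx hle hmem hcomm hequi hnorm using hstep
  obtain ⟨C0, -, hC0s, -⟩ := exists_closed_separable (F := FOmega ω A) ∅ Set.countable_empty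
  let sq : ℕ → {C : StarSubalgebra ℂ (FOmega ω A) //
      TopologicalSpace.IsSeparable (C : Set (FOmega ω A))} :=
    fun n => Nat.rec ⟨C0, hC0s⟩ (fun _ C => nx C) n
  have hsq : ∀ n, sq (n + 1) = nx (sq n) := fun n => rfl
  have hmono : Monotone fun n => (sq n).1 := by
    refine monotone_nat_of_le_succ fun n => ?_
    rw [hsq n]
    exact hle (sq n)
  have hin : ∀ n d, th (sq n) d ∈ (sq (n + 1)).1 := by
    intro n d
    rw [hsq n]
    exact hmem (sq n) d
  have hlt : ∀ i j, i < j → ∀ d e : D, Commute (th (sq i) d) (th (sq j) e) := by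
    intro i j hij d e
    exact (hcomm (sq j) e _ (hmono (Nat.succ_le_of_lt hij) (hin i d))).symm
  refine ⟨fun n => th (sq n), ?_, ?_, ?_⟩
  · intro i j hij d e
    rcases lt_or_gt_of_ne hij with h1 | h1
    · exact hlt i j h1 d e
    · exact (hlt j i h1 e d).symm
  · intro j s hs d e hde
    rw [← hb] at hs
    obtain ⟨i, rfl⟩ := hs
    exact hequi (sq j) i d e hde
  · intro n d
    have hP : ∀ n, ((List.range n).map fun j => th (sq j) (d j)).prod ∈ (sq n).1 := by
      intro n
      induction n with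
      | zero =>
        rw [List.range_zero, List.map_nil, List.prod_nil]
        exact one_mem _
      | succ n ih =>
        rw [List.range_succ, List.map_append, List.prod_append, List.map_singleton,
          List.prod_singleton]
        exact mul_mem (hmono n.le_succ ih) (hin n (d n))
    induction n with
    | zero =>
      rw [List.range_zero, List.map_nil, List.prod_nil, Finset.range_zero, Finset.prod_empty,
        norm_one]
    | succ n ih =>
      rw [List.range_succ, List.map_append, List.prod_append, List.map_singleton,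
        List.prod_singleton, ← (hcomm (sq n) (d n) _ (hP n)).eq, hnorm (sq n) (d n) _ (hP n), ih,
        Finset.prod_range_succ, mul_comm]

end P095F
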