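import Vale.Agent.Lib.P095F.CBSeq

/-!
# P095F, part CB, module Inv: exact invariance by the epsilon test
-/

open scoped ENNReal Topology
open Filter P101 P095E

namespace P095F

universe u v

/-- **Exact invariance.**

Proof.  `ye` a representing sequence of `e` (`exists_rep`).  `eps_test` (in `CDefs.lean`) with
`B = {s : Fin 2 → A // ∀ i, ‖s i‖ ≤ 2}` and, for a dense sequence `a` of `A` and an enumeration `g k`
of `G`, the functions (coded by `ℕ` in any way)
`∑ i j, ‖star (s i) * s j - (if i = j then ye n else 0)‖`, `∑ i, ‖s i * a k - a k * s i‖`,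
`∑ i, ‖α (g k) (s i) - s i‖`.  Hypothesis of `eps_test`: `h` for the finite set `{g 0, …, g m}` and a
small `ε`; `‖s' i‖ ≤ 1`; representing sequences `y i` of `s' i` (`exists_rep`) have `‖y i n‖ ≤ 2` for
`ω`-many `n` (for the others put `0`); `rep_comm`, `rep_dist` (the sequence `lpMap (α g) (y i)`
represents `β g (s' i)`).  The resulting sequences define `s i` by `exists_of_seq`, and `eq_of_rep`
gives the relations. -/
theorem exists_inv (ω : Ultrafilter ℕ) (hω : (ω : Filter ℕ) ≤ Filter.cofinite)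
    {A : Type u} [CStarAlgebra A] [Nontrivial A] [TopologicalSpace.SeparableSpace A]
    {G : Type v} [Group G] [Countable G] (α : G →* (A ≃⋆ₐ[ℂ] A))
    (β : G →* (FOmega ω A ≃⋆ₐ[ℂ] FOmega ω A)) (hβ : ∀ g, Induces ω (α g) (β g))
    {e : FOmega ω A} (hen : ‖e‖ ≤ 1)
    (h : ∀ (K₀ : Finset G) (ε : ℝ), 0 < ε → ∃ s : Fin 2 → FOmega ω A,
      (∀ i j, star (s i) * s j = if i = j then e else 0) ∧ ∀ g ∈ K₀, ∀ i, ‖β g (s i) - s i‖ ≤ ε) :
    ∃ s : Fin 2 → FOmega ω A, (∀ i g, β g (s i) = s i) ∧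
      ∀ i j, star (s i) * s j = if i = j then e else 0 := by
  classical
  obtain ⟨ye, hye⟩ := exists_rep ω e
  let a : ℕ → A := TopologicalSpace.denseSeq A
  have hda : DenseRange a := TopologicalSpace.denseRange_denseSeq A
  obtain ⟨g, hg⟩ := exists_surjective_nat G
  let de : Fin 2 → Fin 2 → lp (fun _ : ℕ => A) ∞ := fun i j => if i = j then ye else 0
  have hde : ∀ i j, toUltrapower ω A (de i j) =
      ((if i = j then e else 0 : FOmega ω A) : Ultrapower ω A) := by
    intro i j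
    by_cases hij : i = j
    · simp only [de, if_pos hij]
      exact hye
    · simp only [de, if_neg hij, map_zero]
      rfl
  let B : Type u := {s : Fin 2 → A // ∀ i, ‖s i‖ ≤ 2}
  let f : ℕ → ℕ → B → ℝ := fun k n s =>
    (∑ i, ∑ j, ‖star (s.1 i) * s.1 j - de i j n‖) + (∑ i, ‖s.1 i * a k - a k * s.1 i‖) +
      ∑ i, ‖α (g k) (s.1 i) - s.1 i‖
  obtain ⟨s, hs⟩ := eps_test hω f (by
    intro m ε hε
    have hε8 : 0 < ε / 16 := by positivity
    obtain ⟨x, hx1, hx2⟩ := h ((Finset.range (m + 1)).image g) (ε / 32) (by positivity)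
    choose y hy using fun i => exists_rep ω (x i)
    have hxn : ∀ i, ‖x i‖ < 2 := by
      intro i
      have h1 : ‖x i‖ * ‖x i‖ ≤ 1 := by
        rw [← CStarRing.norm_star_mul_self, hx1 i i, if_pos rfl]
        exact hen
      nlinarith [norm_nonneg (x i)]
    have hyn : ∀ᶠ n in (ω : Filter ℕ), ∀ i, ‖y i n‖ ≤ 2 := by
      rw [Filter.eventually_all]
      intro i
      have h1 : ‖toUltrapower ω A (y i)‖ < 2 := by
        rw [hy i]
        exact hxn i
      filter_upwards [eventually_norm_lt ω A _ h1] with n hn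
      exact hn.le
    have hyp : ∀ᶠ n in (ω : Filter ℕ), ∀ i j, ‖star (y i n) * y j n - de i j n‖ ≤ ε / 16 := by
      rw [Filter.eventually_all]
      intro i
      rw [Filter.eventually_all]
      intro j
      have h1 : ‖toUltrapower ω A (star (y i) * y j - de i j)‖ < ε / 16 := by
        rw [map_sub, map_mul, map_star, hy, hy, hde, ← hx1 i j]
        have : (star (x i : Ultrapower ω A) * (x j : Ultrapower ω A) -
            ((star (x i) * x j : FOmega ω A) : Ultrapower ω A)) = 0 := sub_self _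
        rw [this, norm_zero]
        exact hε8
      filter_upwards [eventually_norm_lt ω A _ h1] with n hn
      exact hn.le
    have hya : ∀ᶠ n in (ω : Filter ℕ), ∀ k ∈ Finset.range (m + 1), ∀ i,
        ‖y i n * a k - a k * y i n‖ ≤ ε / 16 := by
      rw [Filter.eventually_all_finset]
      intro k _
      rw [Filter.eventually_all]
      intro i
      exact rep_comm ω (hy i) (a k) hε8
    have hyg : ∀ᶠ n in (ω : Filter ℕ), ∀ k ∈ Finset.range (m + 1), ∀ i,
        ‖α (g k) (y i n) - y i n‖ ≤ ε / 16 := by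
      rw [Filter.eventually_all_finset]
      intro k hk
      rw [Filter.eventually_all]
      intro i
      have h1 : ‖β (g k) (x i) - x i‖ < ε / 16 :=
        lt_of_le_of_lt (hx2 (g k) (Finset.mem_image_of_mem g hk) i) (by linarith)
      filter_upwards [rep_dist ω (hβ (g k) (x i) (y i) (hy i)).symm (hy i) h1] with n hn
      exact hn.le
    let s0 : B := ⟨fun _ => 0, fun _ => by simp⟩
    let s : ℕ → B := fun n => if h : ∀ i, ‖y i n‖ ≤ 2 then ⟨fun i => y i n, h⟩ else s0
    refine ⟨s, fun k hk => ?_⟩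
    filter_upwards [hyn, hyp, hya, hyg] with n hn1 hn2 hn3 hn4
    have hsn : s n = ⟨fun i => y i n, hn1⟩ := by
      simp only [s]
      rw [dif_pos hn1]
    have hkm : k ∈ Finset.range (m + 1) := Finset.mem_range.2 (by omega)
    rw [hsn]
    change (∑ i, ∑ j, ‖star (y i n) * y j n - de i j n‖) + (∑ i, ‖y i n * a k - a k * y i n‖) +
      ∑ i, ‖α (g k) (y i n) - y i n‖ < ε
    simp only [Fin.sum_univ_two]
    have c1 := hn2 0 0
    have c2 := hn2 0 1
    have c3 := hn2 1 0
    have c4 := hn2 1 1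
    have c5 := hn3 k hkm 0
    have c6 := hn3 k hkm 1
    have c7 := hn4 k hkm 0
    have c8 := hn4 k hkm 1
    linarith)
  -- consequences of the epsilon test
  have hpos1 : ∀ n, 0 ≤ ∑ i, ∑ j, ‖star ((s n).1 i) * (s n).1 j - de i j n‖ := fun n =>
    Finset.sum_nonneg fun _ _ => Finset.sum_nonneg fun _ _ => norm_nonneg _
  have hpos2 : ∀ n k, 0 ≤ ∑ i, ‖(s n).1 i * a k - a k * (s n).1 i‖ := fun n k =>
    Finset.sum_nonneg fun _ _ => norm_nonneg _
  have hpos3 : ∀ n k, 0 ≤ ∑ i, ‖α (g k) ((s n).1 i) - (s n).1 i‖ := fun n k =>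
    Finset.sum_nonneg fun _ _ => norm_nonneg _
  have hA : ∀ (i j : Fin 2) (ε : ℝ), 0 < ε → ∀ᶠ n in (ω : Filter ℕ),
      ‖star ((s n).1 i) * (s n).1 j - de i j n‖ ≤ ε := by
    intro i j ε hε
    filter_upwards [hs 0 ε hε] with n hn
    have h1 : ‖star ((s n).1 i) * (s n).1 j - de i j n‖ ≤
        ∑ j, ‖star ((s n).1 i) * (s n).1 j - de i j n‖ :=
      Finset.single_le_sum (f := fun j => ‖star ((s n).1 i) * (s n).1 j - de i j n‖)
        (fun _ _ => norm_nonneg _) (Finset.mem_univ j)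
    have h2 : (∑ j, ‖star ((s n).1 i) * (s n).1 j - de i j n‖) ≤
        ∑ i, ∑ j, ‖star ((s n).1 i) * (s n).1 j - de i j n‖ :=
      Finset.single_le_sum (f := fun i => ∑ j, ‖star ((s n).1 i) * (s n).1 j - de i j n‖)
        (fun _ _ => Finset.sum_nonneg fun _ _ => norm_nonneg _) (Finset.mem_univ i)
    have h3 := hpos2 n 0
    have h4 := hpos3 n 0
    change (∑ i, ∑ j, ‖star ((s n).1 i) * (s n).1 j - de i j n‖) +
      (∑ i, ‖(s n).1 i * a 0 - a 0 * (s n).1 i‖) + ∑ i, ‖α (g 0) ((s n).1 i) - (s n).1 i‖ < ε at hn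
    linarith
  have hB : ∀ (i : Fin 2) (k : ℕ) (ε : ℝ), 0 < ε → ∀ᶠ n in (ω : Filter ℕ),
      ‖(s n).1 i * a k - a k * (s n).1 i‖ ≤ ε := by
    intro i k ε hε
    filter_upwards [hs k ε hε] with n hn
    have h1 : ‖(s n).1 i * a k - a k * (s n).1 i‖ ≤
        ∑ i, ‖(s n).1 i * a k - a k * (s n).1 i‖ :=
      Finset.single_le_sum (f := fun i => ‖(s n).1 i * a k - a k * (s n).1 i‖)
        (fun _ _ => norm_nonneg _) (Finset.mem_univ i)
    have h3 := hpos1 n
    have h4 := hpos3 n k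
    change (∑ i, ∑ j, ‖star ((s n).1 i) * (s n).1 j - de i j n‖) +
      (∑ i, ‖(s n).1 i * a k - a k * (s n).1 i‖) + ∑ i, ‖α (g k) ((s n).1 i) - (s n).1 i‖ < ε at hn
    linarith
  have hD : ∀ (i : Fin 2) (k : ℕ) (ε : ℝ), 0 < ε → ∀ᶠ n in (ω : Filter ℕ),
      ‖α (g k) ((s n).1 i) - (s n).1 i‖ ≤ ε := by
    intro i k ε hε
    filter_upwards [hs k ε hε] with n hn
    have h1 : ‖α (g k) ((s n).1 i) - (s n).1 i‖ ≤
        ∑ i, ‖α (g k) ((s n).1 i) - (s n).1 i‖ :=
      Finset.single_le_sum (f := fun i => ‖α (g k) ((s n).1 i) - (s n).1 i‖)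
        (fun _ _ => norm_nonneg _) (Finset.mem_univ i)
    have h3 := hpos1 n
    have h4 := hpos2 n k
    change (∑ i, ∑ j, ‖star ((s n).1 i) * (s n).1 j - de i j n‖) +
      (∑ i, ‖(s n).1 i * a k - a k * (s n).1 i‖) + ∑ i, ‖α (g k) ((s n).1 i) - (s n).1 i‖ < ε at hn
    linarith
  choose x y hy hx using fun i : Fin 2 => exists_of_seq ω hda (fun n => (s n).1 i) (C := 2)
    (fun n => (s n).2 i) (hB i)
  refine ⟨x, fun i g' => ?_, fun i j => ?_⟩
  · obtain ⟨k, rfl⟩ := hg g'
    refine eq_of_rep ω (hβ (g k) (x i) (y i) (hx i)).symm (hx i) ?_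
    intro ε hε
    filter_upwards [hD i k ε hε] with n hn
    have h1 : (lpMap (α (g k) : A →⋆ₐ[ℂ] A) (y i)) n = α (g k) ((s n).1 i) := by
      have h2 : (lpMap (α (g k) : A →⋆ₐ[ℂ] A) (y i)) n = α (g k) (y i n) := rfl
      rw [h2, hy]
    rw [h1, hy]
    exact hn
  · refine eq_of_rep ω (y := star (y i) * y j) (y' := de i j) ?_ (hde i j) ?_
    · rw [map_mul, map_star, hx, hx]
      rfl
    · intro ε hε
      filter_upwards [hA i j ε hε] with n hn
      have h1 : (star (y i) * y j) n = star ((s n).1 i) * (s n).1 j := by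
        have h2 : (star (y i) * y j) n = star (y i n) * y j n := rfl
        rw [h2, hy, hy]
      rw [h1]
      exact hn

end P095F
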