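import Vale.Agent.Lib.P095F.CBDefs

/-!
# P095F, part CB, module SiA: two norm estimates in a C*-algebra
-/

namespace P095F

universe u

variable {A : Type u} [CStarAlgebra A]

/-- `(s a - a s)* (s a - a s) = a* s* s a - a* (s* a s) - (s* a* s) a + s* a* a s`, which is within
`(1 + ‖a‖)² ε` of `a* e a - a* a e - a* e a + a* a e = 0`. -/
theorem si_comm {a s e : A} {ε : ℝ} (h0 : ‖star s * s - e‖ ≤ ε)
    (h1 : ‖star s * a * s - a * e‖ ≤ ε) (h2 : ‖star s * star a * s - star a * e‖ ≤ ε)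
    (h3 : ‖star s * (star a * a) * s - star a * a * e‖ ≤ ε) :
    ‖s * a - a * s‖ ^ 2 ≤ (1 + ‖a‖) ^ 2 * ε := by
  have hε : 0 ≤ ε := (norm_nonneg _).trans h0
  have e0 : star (s * a - a * s) * (s * a - a * s) =
      star a * (star s * s - e) * a - star a * (star s * a * s - a * e)
        - (star s * star a * s - star a * e) * a
        + (star s * (star a * a) * s - star a * a * e) := by
    rw [star_sub, star_mul, star_mul]
    noncomm_ring
  have n1 : ‖star a * (star s * s - e) * a‖ ≤ ‖a‖ * ε * ‖a‖ := by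
    refine (norm_mul_le _ _).trans ?_
    gcongr
    refine (norm_mul_le _ _).trans ?_
    rw [norm_star]
    gcongr
  have n2 : ‖star a * (star s * a * s - a * e)‖ ≤ ‖a‖ * ε := by
    refine (norm_mul_le _ _).trans ?_
    rw [norm_star]
    gcongr
  have n3 : ‖(star s * star a * s - star a * e) * a‖ ≤ ε * ‖a‖ := by
    refine (norm_mul_le _ _).trans ?_
    gcongr
  have n4 : ‖star (s * a - a * s) * (s * a - a * s)‖ ≤
      ‖a‖ * ε * ‖a‖ + ‖a‖ * ε + ε * ‖a‖ + ε := by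
    rw [e0]
    refine (norm_add_le _ _).trans (add_le_add ?_ h3)
    refine (norm_sub_le _ _).trans (add_le_add ?_ n3)
    exact (norm_sub_le _ _).trans (add_le_add n1 n2)
  rw [CStarRing.norm_star_mul_self] at n4
  calc ‖s * a - a * s‖ ^ 2 = ‖s * a - a * s‖ * ‖s * a - a * s‖ := sq _
    _ ≤ ‖a‖ * ε * ‖a‖ + ‖a‖ * ε + ε * ‖a‖ + ε := n4
    _ = (1 + ‖a‖) ^ 2 * ε := by ring

private theorem cbsia_norm_le (α : A ≃⋆ₐ[ℂ] A) (x : A) : ‖α x‖ ≤ ‖x‖ :=
  NonUnitalStarAlgHom.norm_apply_le (α : A ≃⋆ₐ[ℂ] A) x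

/-- `s ≈ f s`, `s' ≈ f' s'`, so `(α s)* s' ≈ (α s)* (α f) f' s'` (`f` self-adjoint):
`(α s)* s' = (α (s - f s))* s' + (α s)* (α f) (s' - f' s') + (α s)* ((α f) f') s'`, norms
`≤ 2 ε + 2 ε + 4 δ`. -/
theorem si_orth (α : A ≃⋆ₐ[ℂ] A) {f f' s s' : A} {ε δ : ℝ} (hf : star f = f) (hf1 : ‖f‖ ≤ 1)
    (h : ‖f * s - s‖ ≤ ε) (h' : ‖f' * s' - s'‖ ≤ ε) (hff : ‖α f * f'‖ ≤ δ) (hs : ‖s‖ ≤ 2)
    (hs' : ‖s'‖ ≤ 2) : ‖star (α s) * s'‖ ≤ 4 * ε + 4 * δ := by
  have hε : 0 ≤ ε := (norm_nonneg _).trans h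
  have hδ : 0 ≤ δ := (norm_nonneg _).trans hff
  have e0 : star (α s) * s' = star (α s) * (α f * f') * s' - star (α s) * α f * (f' * s' - s')
      - star (α (f * s - s)) * s' := by
    rw [map_sub, map_mul, star_sub, star_mul, ← map_star α f, hf]
    noncomm_ring
  have m1 : ‖star (α s)‖ ≤ 2 := by
    rw [norm_star]
    exact (cbsia_norm_le α s).trans hs
  have m2 : ‖α f‖ ≤ 1 := (cbsia_norm_le α f).trans hf1
  have n1 : ‖star (α s) * (α f * f') * s'‖ ≤ 2 * δ * 2 := by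
    refine (norm_mul_le _ _).trans ?_
    gcongr
    refine (norm_mul_le _ _).trans ?_
    gcongr
  have n2 : ‖star (α s) * α f * (f' * s' - s')‖ ≤ 2 * 1 * ε := by
    refine (norm_mul_le _ _).trans ?_
    gcongr
    refine (norm_mul_le _ _).trans ?_
    gcongr
  have n3 : ‖star (α (f * s - s)) * s'‖ ≤ ε * 2 := by
    refine (norm_mul_le _ _).trans ?_
    rw [norm_star]
    gcongr
    exact (cbsia_norm_le α _).trans h
  rw [e0]
  calc ‖star (α s) * (α f * f') * s' - star (α s) * α f * (f' * s' - s')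
        - star (α (f * s - s)) * s'‖
      ≤ ‖star (α s) * (α f * f') * s' - star (α s) * α f * (f' * s' - s')‖
        + ‖star (α (f * s - s)) * s'‖ := norm_sub_le _ _
    _ ≤ (‖star (α s) * (α f * f') * s'‖ + ‖star (α s) * α f * (f' * s' - s')‖)
        + ‖star (α (f * s - s)) * s'‖ := by gcongr; exact norm_sub_le _ _
    _ ≤ 4 * ε + 4 * δ := by linarith

/-- `‖s‖ ≤ 2` if `‖s* s - e‖ ≤ 1`, `‖e‖ ≤ 1` (C*-identity) -/
theorem si_norm_le {s e : A} (h : ‖star s * s - e‖ ≤ 1) (he : ‖e‖ ≤ 1) : ‖s‖ ≤ 2 := by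
  have h1 : ‖star s * s‖ ≤ 2 := by
    calc ‖star s * s‖ = ‖(star s * s - e) + e‖ := by rw [sub_add_cancel]
      _ ≤ ‖star s * s - e‖ + ‖e‖ := norm_add_le _ _
      _ ≤ 2 := by linarith
  rw [CStarRing.norm_star_mul_self] at h1
  nlinarith [norm_nonneg s]

end P095F
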