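import Vale.Agent.Lib.P095F.CBSeq
import Vale.Agent.Lib.P095F.CBSiA

/-!
# P095F, part CB, module Si: orthogonal isometries from property (SI)
-/

open scoped ENNReal Topology
open Filter P101 P095E

namespace P095F

universe u v

/-- **Local step.**  For finitely many elements `S` of `A`, finitely many triples `X` and `ε > 0`
there are, for `ω`-many `n`, elements `s i` of `A` with the required properties up to `ε`.

Proof.  Let `ε₁ ≤ 1`, `16 ε₁ ≤ ε`, `(1 + ‖a‖)² ε₁ ≤ ε²` for `a ∈ S` (so `ε₁ ≤ ε` too).  Apply `hSI`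
to the finite set `S ∪ S* ∪ {a* a : a ∈ S}` and `ε₁`: `S'`, `δ`.  Let `f` be given by `hf` for `X`,
`ε₁`; representing sequences `yf i` of `f i` from `exists_rep_one`.  For `ω`-many `n`:
`‖[yf i n, a]‖ ≤ δ` (`a ∈ S'`, `rep_comm`) and `‖α g (yf i n) yf j n‖ < 2 ε₁` (`(g, i, j) ∈ X`; the
sequence `lpMap (α g) (yf i) * yf j` represents `β g (f i) * f j`, `P101.eventually_norm_lt`).
Fix ONE such `n₀` and put `f' i = yf i n₀ ∈ A`.  `hSI` gives `η i > 0` for `f' i`.  For `ω`-many `n`: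
`‖[ye n, a]‖ ≤ δ` (`a ∈ S'`) and `τ(ye n) ≤ min (η 0) (η 1)` for all `τ`; for these `n` we get `s i`;
`si_norm_le`, `si_comm`, `si_orth` (with `δ := 2 ε₁`: `4 ε₁ + 8 ε₁ ≤ ε`) give the claims. -/
theorem si_step (ω : Ultrafilter ℕ)
    {A : Type u} [CStarAlgebra A] [Nontrivial A] (hSI : SILocal A)
    {G : Type v} [Group G] (α : G →* (A ≃⋆ₐ[ℂ] A))
    (β : G →* (FOmega ω A ≃⋆ₐ[ℂ] FOmega ω A)) (hβ : ∀ g, Induces ω (α g) (β g))
    {e : FOmega ω A} {ye : lp (fun _ : ℕ => A) ∞}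
    (hye : toUltrapower ω A ye = (e : Ultrapower ω A)) (he : InJ ω e)
    (hep : ∀ n, ∃ c : A, ye n = star c * c) (hen : ∀ n, ‖ye n‖ ≤ 1)
    (X : Finset (G × Fin 2 × Fin 2))
    (hf : ∀ ε : ℝ, 0 < ε →
      ∃ f : Fin 2 → FOmega ω A, (∀ i, ∃ c, f i = star c * c) ∧ (∀ i, ‖f i‖ = 1) ∧
        ∀ p ∈ X, ‖β p.1 (f p.2.1) * f p.2.2‖ ≤ ε)
    (S : Finset A) {ε : ℝ} (hε : 0 < ε) :
    ∀ᶠ n in (ω : Filter ℕ), ∃ s : Fin 2 → A, (∀ i, ‖s i‖ ≤ 2) ∧
      (∀ i, ‖star (s i) * s i - ye n‖ ≤ ε) ∧ (∀ i, ∀ a ∈ S, ‖s i * a - a * s i‖ ≤ ε) ∧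
      ∀ p ∈ X, ‖star (α p.1 (s p.2.1)) * s p.2.2‖ ≤ ε := by
  classical
  obtain ⟨C, hC0, hC⟩ : ∃ C : ℝ, 0 < C ∧ ∀ a ∈ S, (1 + ‖a‖) ^ 2 ≤ C := by
    refine ⟨1 + ∑ a ∈ S, (1 + ‖a‖) ^ 2, by positivity, fun a ha => ?_⟩
    have h1 := Finset.single_le_sum (f := fun a : A => (1 + ‖a‖) ^ 2)
      (fun a _ => by positivity) ha
    linarith
  obtain ⟨ε₁, h0, e1, e2, e3⟩ : ∃ ε₁ : ℝ, 0 < ε₁ ∧ ε₁ ≤ 1 ∧ 16 * ε₁ ≤ ε ∧ C * ε₁ ≤ ε ^ 2 := by
    refine ⟨min (min 1 (ε / 16)) (ε ^ 2 / C), by positivity, ?_, ?_, ?_⟩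
    · exact (min_le_left _ _).trans (min_le_left _ _)
    · have h1 : min (min 1 (ε / 16)) (ε ^ 2 / C) ≤ ε / 16 :=
        (min_le_left _ _).trans (min_le_right _ _)
      linarith
    · have h1 : min (min 1 (ε / 16)) (ε ^ 2 / C) ≤ ε ^ 2 / C := min_le_right _ _
      calc C * min (min 1 (ε / 16)) (ε ^ 2 / C) ≤ C * (ε ^ 2 / C) :=
            mul_le_mul_of_nonneg_left h1 hC0.le
        _ = ε ^ 2 := by field_simp
  obtain ⟨S', δ, hδ, hS'⟩ := hSI (S ∪ S.image star ∪ S.image (fun a => star a * a)) ε₁ h0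
  obtain ⟨f, hf1, hf2, hf3⟩ := hf ε₁ h0
  choose yf hyf using fun i => exists_rep_one ω (hf1 i) (hf2 i)
  have hn0 : ∀ᶠ n in (ω : Filter ℕ), (∀ i, ∀ a ∈ S', ‖yf i n * a - a * yf i n‖ ≤ δ) ∧
      ∀ p ∈ X, ‖α p.1 (yf p.2.1 n) * yf p.2.2 n‖ ≤ 2 * ε₁ := by
    refine Filter.Eventually.and ?_ ?_
    · rw [Filter.eventually_all]
      intro i
      rw [Filter.eventually_all_finset]
      intro a _
      exact rep_comm ω (hyf i).1 a hδ
    · rw [Filter.eventually_all_finset]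
      intro p hp
      have h1 : ‖toUltrapower ω A (lpMap (α p.1 : A →⋆ₐ[ℂ] A) (yf p.2.1) * yf p.2.2)‖ <
          2 * ε₁ := by
        rw [map_mul, ← hβ p.1 (f p.2.1) (yf p.2.1) (hyf _).1, (hyf p.2.2).1]
        exact lt_of_le_of_lt (hf3 p hp) (by linarith)
      filter_upwards [eventually_norm_lt ω A _ h1] with n hn
      exact hn.le
  obtain ⟨n₀, hn₀, hn₀'⟩ := hn0.exists
  choose η hη0 hη using fun i => hS' (yf i n₀) ((hyf i).2.1 n₀) ((hyf i).2.2 n₀) (hn₀ i)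
  have hev1 : ∀ᶠ n in (ω : Filter ℕ), ∀ a ∈ S', ‖ye n * a - a * ye n‖ ≤ δ := by
    rw [Filter.eventually_all_finset]
    intro a _
    exact rep_comm ω hye a hδ
  have hev2 : ∀ᶠ n in (ω : Filter ℕ), ∀ i, ∀ τ ∈ TState A, (τ (ye n)).re ≤ η i := by
    rw [Filter.eventually_all]
    intro i
    exact InJ.eventually_tr ω he hye (hη0 i)
  filter_upwards [hev1, hev2] with n h1 h2
  choose s hs1 hs2 hs3 using fun i => hη i (ye n) (hep n) (hen n) h1 (h2 i)
  have hsn : ∀ i, ‖s i‖ ≤ 2 := fun i => si_norm_le ((hs1 i).trans e1) (hen n)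
  have hε₁ : ε₁ ≤ ε := by linarith
  refine ⟨s, hsn, fun i => (hs1 i).trans hε₁, fun i a ha => ?_, fun p hp => ?_⟩
  · have ha1 : a ∈ S ∪ S.image star ∪ S.image (fun a => star a * a) :=
      Finset.mem_union_left _ (Finset.mem_union_left _ ha)
    have ha2 : star a ∈ S ∪ S.image star ∪ S.image (fun a => star a * a) :=
      Finset.mem_union_left _ (Finset.mem_union_right _ (Finset.mem_image_of_mem _ ha))
    have ha3 : star a * a ∈ S ∪ S.image star ∪ S.image (fun a => star a * a) :=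
      Finset.mem_union_right _ (Finset.mem_image.2 ⟨a, ha, rfl⟩)
    have h3 := si_comm (hs1 i) (hs2 i a ha1) (hs2 i (star a) ha2) (hs2 i _ ha3)
    have h4 : (1 + ‖a‖) ^ 2 * ε₁ ≤ C * ε₁ := mul_le_mul_of_nonneg_right (hC a ha) h0.le
    have h5 : ‖s i * a - a * s i‖ ^ 2 ≤ ε ^ 2 := h3.trans (h4.trans e3)
    exact (abs_le_of_sq_le_sq' h5 hε.le).2
  · have hfs : ∀ i, star (yf i n₀) = yf i n₀ := by
      intro i
      obtain ⟨c, hc⟩ := (hyf i).2.1 n₀
      rw [hc, star_mul, star_star]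
    have h3 := si_orth (α p.1) (hfs p.2.1) ((hyf p.2.1).2.2 n₀).le (hs3 p.2.1) (hs3 p.2.2)
      (hn₀' p hp) (hsn p.2.1) (hsn p.2.2)
    linarith

/-- **Orthogonal isometries.**

Proof.  `ye` from `exists_rep_pos`.  `eps_test` (in `CDefs.lean`) with
`B = {s : Fin 2 → A // ∀ i, ‖s i‖ ≤ 2}` and the functions, for a dense sequence `a` of `A` and an
enumeration `p k` of the countable set `R` (or `k ↦ (0, …)` conditions dropped if `R` is empty):
`f (3 k) n s = ∑ i, ‖star (s i) * s i - ye n‖`, `f (3 k + 1) n s = ∑ i, ‖s i * a k - a k * s i‖`,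
`f (3 k + 2) n s = ‖star (α (p k).1 (s (p k).2.1)) * s (p k).2.2‖`; (any other coding by `ℕ` is fine).
The hypothesis of `eps_test` follows from `si_step` with finite `S`, `X` and `ε / 4`.  The resulting
sequence `s n` defines `s i : FOmega ω A` by `exists_of_seq`; the relations by `eq_of_rep`
(`β g (s i)` is represented by `lpMap (α g)` of the sequence: `hβ`). -/
theorem exists_s (ω : Ultrafilter ℕ) (hω : (ω : Filter ℕ) ≤ Filter.cofinite)
    {A : Type u} [CStarAlgebra A] [Nontrivial A] [TopologicalSpace.SeparableSpace A]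
    (hSI : SILocal A) {G : Type v} [Group G] [Countable G] (α : G →* (A ≃⋆ₐ[ℂ] A))
    (β : G →* (FOmega ω A ≃⋆ₐ[ℂ] FOmega ω A)) (hβ : ∀ g, Induces ω (α g) (β g))
    {e : FOmega ω A} (he : InJ ω e) (hep : ∃ c, e = star c * c) (hen : ‖e‖ ≤ 1)
    (R : Set (G × Fin 2 × Fin 2))
    (hf : ∀ X : Finset (G × Fin 2 × Fin 2), (X : Set (G × Fin 2 × Fin 2)) ⊆ R → ∀ ε : ℝ, 0 < ε →
      ∃ f : Fin 2 → FOmega ω A, (∀ i, ∃ c, f i = star c * c) ∧ (∀ i, ‖f i‖ = 1) ∧
        ∀ p ∈ X, ‖β p.1 (f p.2.1) * f p.2.2‖ ≤ ε) :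
    ∃ s : Fin 2 → FOmega ω A, (∀ i, star (s i) * s i = e) ∧
      ∀ p ∈ R, star (β p.1 (s p.2.1)) * s p.2.2 = 0 := by
  classical
  obtain ⟨ye, hye, hyp, hyn⟩ := exists_rep_pos ω hep hen
  let a : ℕ → A := TopologicalSpace.denseSeq A
  have hda : DenseRange a := TopologicalSpace.denseRange_denseSeq A
  -- coding of the triples
  obtain ⟨pi, hpi⟩ : ∃ pi : (G × Fin 2 × Fin 2) → ℕ, Function.Injective pi :=
    exists_injective_nat _
  -- the conditions
  let dec : ℕ → Option (G × Fin 2 × Fin 2) := fun k =>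
    if h : ∃ p ∈ R, pi p = k then some h.choose else none
  have hdec1 : ∀ p ∈ R, dec (pi p) = some p := by
    intro p hp
    have h : ∃ q ∈ R, pi q = pi p := ⟨p, hp, rfl⟩
    simp only [dec, dif_pos h]
    exact congrArg some (hpi h.choose_spec.2)
  have hdec2 : ∀ k p, dec k = some p → p ∈ R := by
    intro k p hk
    by_cases h : ∃ q ∈ R, pi q = k
    · simp only [dec, dif_pos h, Option.some.injEq] at hk
      rw [← hk]
      exact h.choose_spec.1
    · simp only [dec] at hk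
      rw [dif_neg h] at hk
      cases hk
  let B : Type u := {s : Fin 2 → A // ∀ i, ‖s i‖ ≤ 2}
  let cR : ℕ → B → ℝ := fun k s =>
    match dec k with
    | some p => ‖star (α p.1 (s.1 p.2.1)) * s.1 p.2.2‖
    | none => 0
  let f : ℕ → ℕ → B → ℝ := fun k n s =>
    (∑ i, ‖star (s.1 i) * s.1 i - ye n‖) + (∑ i, ‖s.1 i * a k - a k * s.1 i‖) + cR k s
  have hcR0 : ∀ k s, 0 ≤ cR k s := by
    intro k s
    simp only [cR]
    split
    · exact norm_nonneg _
    · exact le_rfl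
  obtain ⟨s, hs⟩ := eps_test hω f (by
    intro m ε hε
    -- finite data
    let S : Finset A := (Finset.range (m + 1)).image a
    let X : Finset (G × Fin 2 × Fin 2) := ((Finset.range (m + 1)).image dec).eraseNone
    have hX : (X : Set (G × Fin 2 × Fin 2)) ⊆ R := by
      intro p hp
      have h1 : some p ∈ (Finset.range (m + 1)).image dec := Finset.mem_eraseNone.1 hp
      obtain ⟨k, _, hk⟩ := Finset.mem_image.1 h1
      exact hdec2 k p hk
    have hε8 : 0 < ε / 8 := by positivity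
    have h1 := si_step ω hSI α β hβ hye he hyp hyn X (hf X hX) S hε8
    let s0 : B := ⟨fun _ => 0, fun _ => by simp⟩
    let s : ℕ → B := fun n => if h : ∃ s : Fin 2 → A, (∀ i, ‖s i‖ ≤ 2) ∧
      (∀ i, ‖star (s i) * s i - ye n‖ ≤ ε / 8) ∧ (∀ i, ∀ a ∈ S, ‖s i * a - a * s i‖ ≤ ε / 8) ∧
      ∀ p ∈ X, ‖star (α p.1 (s p.2.1)) * s p.2.2‖ ≤ ε / 8 then ⟨h.choose, h.choose_spec.1⟩ else s0
    refine ⟨s, fun k hk => ?_⟩
    filter_upwards [h1] with n hn
    have hsn : s n = ⟨hn.choose, hn.choose_spec.1⟩ := by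
      simp only [s]
      rw [dif_pos hn]
    have h2 := hn.choose_spec
    rw [hsn]
    have b1 : (∑ i, ‖star (hn.choose i) * hn.choose i - ye n‖) ≤ ε / 8 + ε / 8 := by
      rw [Fin.sum_univ_two]
      exact add_le_add (h2.2.1 0) (h2.2.1 1)
    have hkS : a k ∈ S := Finset.mem_image_of_mem a (Finset.mem_range.2 (by omega))
    have b2 : (∑ i, ‖hn.choose i * a k - a k * hn.choose i‖) ≤ ε / 8 + ε / 8 := by
      rw [Fin.sum_univ_two]
      exact add_le_add (h2.2.2.1 0 _ hkS) (h2.2.2.1 1 _ hkS)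
    have b3 : cR k ⟨hn.choose, hn.choose_spec.1⟩ ≤ ε / 8 := by
      simp only [cR]
      split
      · rename_i p hp
        refine h2.2.2.2 p (Finset.mem_eraseNone.2 ?_)
        rw [← hp]
        exact Finset.mem_image_of_mem dec (Finset.mem_range.2 (by omega))
      · exact hε8.le
    change (∑ i, ‖star (hn.choose i) * hn.choose i - ye n‖) +
      (∑ i, ‖hn.choose i * a k - a k * hn.choose i‖) + cR k ⟨hn.choose, hn.choose_spec.1⟩ < ε
    linarith)
  -- consequences of the epsilon test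
  have hA : ∀ (i : Fin 2) (ε : ℝ), 0 < ε → ∀ᶠ n in (ω : Filter ℕ),
      ‖star ((s n).1 i) * (s n).1 i - ye n‖ ≤ ε := by
    intro i ε hε
    filter_upwards [hs 0 ε hε] with n hn
    have h1 : ‖star ((s n).1 i) * (s n).1 i - ye n‖ ≤
        ∑ i, ‖star ((s n).1 i) * (s n).1 i - ye n‖ :=
      Finset.single_le_sum (f := fun i => ‖star ((s n).1 i) * (s n).1 i - ye n‖)
        (fun _ _ => norm_nonneg _) (Finset.mem_univ i)
    have h2 : 0 ≤ ∑ i, ‖(s n).1 i * a 0 - a 0 * (s n).1 i‖ :=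
      Finset.sum_nonneg fun _ _ => norm_nonneg _
    have h3 := hcR0 0 (s n)
    change (∑ i, ‖star ((s n).1 i) * (s n).1 i - ye n‖) +
      (∑ i, ‖(s n).1 i * a 0 - a 0 * (s n).1 i‖) + cR 0 (s n) < ε at hn
    linarith
  have hB : ∀ (i : Fin 2) (k : ℕ) (ε : ℝ), 0 < ε → ∀ᶠ n in (ω : Filter ℕ),
      ‖(s n).1 i * a k - a k * (s n).1 i‖ ≤ ε := by
    intro i k ε hε
    filter_upwards [hs k ε hε] with n hn
    have h1 : ‖(s n).1 i * a k - a k * (s n).1 i‖ ≤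
        ∑ i, ‖(s n).1 i * a k - a k * (s n).1 i‖ :=
      Finset.single_le_sum (f := fun i => ‖(s n).1 i * a k - a k * (s n).1 i‖)
        (fun _ _ => norm_nonneg _) (Finset.mem_univ i)
    have h2 : 0 ≤ ∑ i, ‖star ((s n).1 i) * (s n).1 i - ye n‖ :=
      Finset.sum_nonneg fun _ _ => norm_nonneg _
    have h3 := hcR0 k (s n)
    change (∑ i, ‖star ((s n).1 i) * (s n).1 i - ye n‖) +
      (∑ i, ‖(s n).1 i * a k - a k * (s n).1 i‖) + cR k (s n) < ε at hn
    linarith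
  have hD : ∀ p ∈ R, ∀ (ε : ℝ), 0 < ε → ∀ᶠ n in (ω : Filter ℕ),
      ‖star (α p.1 ((s n).1 p.2.1)) * (s n).1 p.2.2‖ ≤ ε := by
    intro p hp ε hε
    filter_upwards [hs (pi p) ε hε] with n hn
    have h1 : 0 ≤ ∑ i, ‖(s n).1 i * a (pi p) - a (pi p) * (s n).1 i‖ :=
      Finset.sum_nonneg fun _ _ => norm_nonneg _
    have h2 : 0 ≤ ∑ i, ‖star ((s n).1 i) * (s n).1 i - ye n‖ :=
      Finset.sum_nonneg fun _ _ => norm_nonneg _
    have h3 : cR (pi p) (s n) = ‖star (α p.1 ((s n).1 p.2.1)) * (s n).1 p.2.2‖ := by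
      simp only [cR, hdec1 p hp]
    change (∑ i, ‖star ((s n).1 i) * (s n).1 i - ye n‖) +
      (∑ i, ‖(s n).1 i * a (pi p) - a (pi p) * (s n).1 i‖) + cR (pi p) (s n) < ε at hn
    rw [h3] at hn
    linarith
  choose x y hy hx using fun i : Fin 2 => exists_of_seq ω hda (fun n => (s n).1 i) (C := 2)
    (fun n => (s n).2 i) (hB i)
  refine ⟨x, fun i => ?_, fun p hp => ?_⟩
  · refine eq_of_rep ω (y := star (y i) * y i) (y' := ye) ?_ hye ?_
    · rw [map_mul, map_star, hx]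
      rfl
    · intro ε hε
      filter_upwards [hA i ε hε] with n hn
      have h1 : (star (y i) * y i) n = star ((s n).1 i) * (s n).1 i := by
        have h2 : (star (y i) * y i) n = star (y i n) * y i n := rfl
        rw [h2, hy]
      rw [h1]
      exact hn
  · refine eq_of_rep ω (y := star (lpMap (α p.1 : A →⋆ₐ[ℂ] A) (y p.2.1)) * y p.2.2) (y' := 0)
      ?_ ?_ ?_
    · rw [map_mul, map_star, ← hβ p.1 (x p.2.1) (y p.2.1) (hx _), hx]
      rfl
    · rw [map_zero]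
      rfl
    · intro ε hε
      filter_upwards [hD p hp ε hε] with n hn
      have h1 : (star (lpMap (α p.1 : A →⋆ₐ[ℂ] A) (y p.2.1)) * y p.2.2) n =
          star (α p.1 ((s n).1 p.2.1)) * (s n).1 p.2.2 := by
        have h2 : (star (lpMap (α p.1 : A →⋆ₐ[ℂ] A) (y p.2.1)) * y p.2.2) n =
            star (α p.1 (y p.2.1 n)) * y p.2.2 n := rfl
        rw [h2, hy, hy]
      have h3 : (0 : lp (fun _ : ℕ => A) ∞) n = 0 := rfl
      rw [h1, h3, sub_zero]
      exact hn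

end P095F
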