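import Mathlib.Analysis.CStarAlgebra.ContinuousFunctionalCalculus.Order

/-!
# P095F, part CB, module pp: the maximum of the spectrum of a self-adjoint element

`pp b = max spec b = inf {r : b ≤ r}`; we take the formula `‖b + ‖b‖‖ - ‖b‖`.
-/

namespace P095F

universe u

variable {F : Type u} [CStarAlgebra F]

/-- the maximum of the spectrum of the self-adjoint element `b` -/
noncomputable def pp (b : F) : ℝ := ‖b + algebraMap ℝ F ‖b‖‖ - ‖b‖

/-- the functional `pp` is invariant under automorphisms (automorphisms are isometric and fix the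
real scalars) -/
theorem pp_aut (x : F ≃⋆ₐ[ℂ] F) (b : F) : pp (x b) = pp b := by
  have h1 : ‖x b‖ = ‖b‖ := StarAlgEquiv.norm_map x b
  have h2 : x (algebraMap ℝ F ‖b‖) = algebraMap ℝ F ‖b‖ := by
    have e1 : algebraMap ℝ F ‖b‖ = algebraMap ℂ F ((‖b‖ : ℝ) : ℂ) := by
      rw [Algebra.algebraMap_eq_smul_one, Algebra.algebraMap_eq_smul_one]
      exact (Complex.coe_smul _ _).symm
    rw [e1]
    rw [Algebra.algebraMap_eq_smul_one, map_smul, map_one]
  have h3 : ‖x b + algebraMap ℝ F ‖b‖‖ = ‖b + algebraMap ℝ F ‖b‖‖ := by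
    rw [← h2, ← map_add, StarAlgEquiv.norm_map x, h2]
  unfold pp
  rw [h1, h3]

section Order

variable [PartialOrder F] [StarOrderedRing F]

/-- `b ≤ pp b`: `b + ‖b‖ ≤ ‖b + ‖b‖‖` (`IsSelfAdjoint.le_algebraMap_norm_self`). -/
theorem le_pp {b : F} (hb : IsSelfAdjoint b) : b ≤ algebraMap ℝ F (pp b) := by
  have h1 : IsSelfAdjoint (b + algebraMap ℝ F ‖b‖) := hb.add (IsSelfAdjoint.algebraMap F
    (IsSelfAdjoint.all _))
  have h2 := h1.le_algebraMap_norm_self
  unfold pp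
  rw [map_sub]
  exact le_sub_iff_add_le.2 h2

/-- monotonicity of the real scalars -/
theorem cbpp_mono {r s : ℝ} (h : r ≤ s) : algebraMap ℝ F r ≤ algebraMap ℝ F s := by
  have h1 : (0 : F) ≤ algebraMap ℝ F (s - r) := algebraMap_nonneg F (sub_nonneg.2 h)
  rw [map_sub] at h1
  exact sub_nonneg.1 h1

theorem cbpp_add_norm_nonneg {b : F} (hb : IsSelfAdjoint b) : 0 ≤ b + algebraMap ℝ F ‖b‖ := by
  have h := hb.neg_algebraMap_norm_le_self
  exact neg_le_iff_add_nonneg.1 h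

variable [Nontrivial F]

/-- `b ≤ r` implies `pp b ≤ r`: `0 ≤ b + ‖b‖ ≤ r + ‖b‖`, so `‖b + ‖b‖‖ ≤ ‖r + ‖b‖‖ = |r + ‖b‖|`
(`CStarAlgebra.norm_le_norm_of_nonneg_of_le`), and `r + ‖b‖ ≥ 0` because the element `r + ‖b‖` is
`≥ 0` and `F` is nontrivial (otherwise `-1 ≥ 0` up to a positive factor, i.e. `1 = 0`). -/
theorem pp_le {b : F} (hb : IsSelfAdjoint b) {r : ℝ} (h : b ≤ algebraMap ℝ F r) : pp b ≤ r := by
  have h0 := cbpp_add_norm_nonneg hb
  have h1 : b + algebraMap ℝ F ‖b‖ ≤ algebraMap ℝ F (r + ‖b‖) := by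
    rw [map_add]
    exact add_le_add_left h _
  have h2 : 0 ≤ r + ‖b‖ := by
    by_contra hneg
    push Not at hneg
    have h3 : (0 : F) ≤ algebraMap ℝ F (r + ‖b‖) := h0.trans h1
    have h4 : algebraMap ℝ F (r + ‖b‖) ≤ 0 := by
      have := cbpp_mono (F := F) hneg.le
      rwa [map_zero] at this
    have h5 : algebraMap ℝ F (r + ‖b‖) = 0 := le_antisymm h4 h3
    exact hneg.ne ((map_eq_zero_iff _ (algebraMap ℝ F).injective).1 h5)
  have h3 : ‖b + algebraMap ℝ F ‖b‖‖ ≤ r + ‖b‖ :=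
    (CStarAlgebra.norm_le_iff_le_algebraMap _ h2 h0).2 h1
  unfold pp
  linarith

/-- subadditivity: from `le_pp` and `pp_le` -/
theorem pp_add_le {a b : F} (ha : IsSelfAdjoint a) (hb : IsSelfAdjoint b) :
    pp (a + b) ≤ pp a + pp b := by
  refine pp_le (ha.add hb) ?_
  rw [map_add]
  exact add_le_add (le_pp ha) (le_pp hb)

/-- positive homogeneity -/
theorem pp_smul {b : F} (hb : IsSelfAdjoint b) {t : ℝ} (ht : 0 ≤ t) : pp (t • b) = t * pp b := by
  have h1 : ‖t • b‖ = t * ‖b‖ := by rw [norm_smul, Real.norm_of_nonneg ht]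
  have h2 : ‖t • b + algebraMap ℝ F (t * ‖b‖)‖ = t * ‖b + algebraMap ℝ F ‖b‖‖ := by
    have : t • b + algebraMap ℝ F (t * ‖b‖) = t • (b + algebraMap ℝ F ‖b‖) := by
      rw [smul_add, map_mul, Algebra.smul_def t (algebraMap ℝ F ‖b‖)]
    rw [this, norm_smul, Real.norm_of_nonneg ht]
  unfold pp
  rw [h1, h2]
  ring

/-- `-‖b‖ ≤ pp b` (`pp b ≥ -‖b‖` by definition, as a norm is `≥ 0`) -/
theorem neg_norm_le_pp (b : F) : -‖b‖ ≤ pp b := by
  unfold pp
  have := norm_nonneg (b + algebraMap ℝ F ‖b‖)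
  linarith

/-- `pp b ≤ ‖b‖` -/
theorem pp_le_norm {b : F} (hb : IsSelfAdjoint b) : pp b ≤ ‖b‖ :=
  pp_le hb hb.le_algebraMap_norm_self

/-- translation by a scalar -/
theorem pp_add_algebraMap {b : F} (hb : IsSelfAdjoint b) (r : ℝ) :
    pp (b + algebraMap ℝ F r) = pp b + r := by
  have hr : ∀ s : ℝ, IsSelfAdjoint (algebraMap ℝ F s) := fun s =>
    IsSelfAdjoint.algebraMap F (IsSelfAdjoint.all _)
  apply le_antisymm
  · refine pp_le (hb.add (hr r)) ?_
    rw [map_add]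
    exact add_le_add_left (le_pp hb) _
  · have h1 : b ≤ algebraMap ℝ F (pp (b + algebraMap ℝ F r) - r) := by
      rw [map_sub]
      exact le_sub_iff_add_le.2 (le_pp (hb.add (hr r)))
    have := pp_le hb h1
    linarith

/-- for nonnegative elements `pp` is the norm: `b ≤ pp b` gives `‖b‖ ≤ |pp b|`, and `pp b ≥ 0`. -/
theorem norm_eq_pp {b : F} (hb : 0 ≤ b) : ‖b‖ = pp b := by
  have hs : IsSelfAdjoint b := IsSelfAdjoint.of_nonneg hb
  apply le_antisymm
  · have h1 : (0 : F) ≤ algebraMap ℝ F (pp b) := hb.trans (le_pp hs)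
    have h2 : 0 ≤ pp b := by
      by_contra hneg
      push Not at hneg
      have h4 : algebraMap ℝ F (pp b) ≤ 0 := by
        have := cbpp_mono (F := F) hneg.le
        rwa [map_zero] at this
      have h5 : algebraMap ℝ F (pp b) = 0 := le_antisymm h4 h1
      exact hneg.ne ((map_eq_zero_iff _ (algebraMap ℝ F).injective).1 h5)
    exact (CStarAlgebra.norm_le_iff_le_algebraMap _ h2 hb).2 (le_pp hs)
  · exact pp_le_norm hs

/-- `pp b ≤ 0` means `b ≤ 0` -/
theorem le_zero_of_pp_le {b : F} (hb : IsSelfAdjoint b) (h : pp b ≤ 0) : b ≤ 0 := by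
  have h1 := cbpp_mono (F := F) h
  rw [map_zero] at h1
  exact (le_pp hb).trans h1

end Order

end P095F
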