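import Mathlib.Analysis.CStarAlgebra.PositiveLinearMap
import Mathlib.Topology.Order.Hom.Esakia
import Vale.Agent.Lib.P095F.CBpp

/-!
# P095F, part CB, module Aut: a nontrivial automorphism moves some positive element away

For an automorphism `x ≠ id` of a C*-algebra there is `c ≥ 0`, `‖c‖ = 1` with `‖c x(c)‖ < 1`.
-/

namespace P095F

universe u

variable {F : Type u} [CStarAlgebra F]

theorem cbaut_smul (x : F ≃⋆ₐ[ℂ] F) (r : ℝ) (y : F) : x (r • y) = r • x y := by
  have h : ∀ z : F, r • z = (r : ℂ) • z := fun z => (Complex.coe_smul r z).symm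
  rw [h, h, map_smul]

theorem cbaut_alg (x : F ≃⋆ₐ[ℂ] F) (r : ℝ) : x (algebraMap ℝ F r) = algebraMap ℝ F r := by
  rw [Algebra.algebraMap_eq_smul_one, cbaut_smul, map_one]

theorem cbaut_mono [PartialOrder F] [StarOrderedRing F] (x : F ≃⋆ₐ[ℂ] F) {a b : F} (h : a ≤ b) :
    x a ≤ x b := by
  have h1 : 0 ≤ b - a := sub_nonneg.mpr h
  rw [CStarAlgebra.nonneg_iff_eq_star_mul_self] at h1
  obtain ⟨c, hc⟩ := h1
  have h2 : 0 ≤ x b - x a := by
    rw [← map_sub, hc, map_mul, map_star]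
    exact star_mul_self_nonneg _
  exact sub_nonneg.mp h2

/-- a self-adjoint element that is moved -/
theorem cbaut_exists_sa (x : F ≃⋆ₐ[ℂ] F) (hx : ∃ y, x y ≠ y) :
    ∃ y : F, IsSelfAdjoint y ∧ x y ≠ y := by
  by_contra hcon
  push Not at hcon
  obtain ⟨y, hy⟩ := hx
  apply hy
  have h1 := realPart_add_I_smul_imaginaryPart y
  have h2 := hcon _ (realPart y).2
  have h3 := hcon _ (imaginaryPart y).2
  calc x y = x ((realPart y : F) + Complex.I • (imaginaryPart y : F)) := by rw [h1]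
    _ = (realPart y : F) + Complex.I • (imaginaryPart y : F) := by
      rw [map_add, map_smul, h2, h3]
    _ = y := h1

/-- a self-adjoint element moved upwards somewhere -/
theorem cbaut_exists_pos [Nontrivial F] [PartialOrder F] [StarOrderedRing F] (x : F ≃⋆ₐ[ℂ] F)
    (hx : ∃ y, x y ≠ y) : ∃ y : F, IsSelfAdjoint y ∧ 0 < pp (x y - y) := by
  obtain ⟨y, hy, hne⟩ := cbaut_exists_sa x hx
  by_contra hcon
  push Not at hcon
  have hxy : IsSelfAdjoint (x y) := by
    rw [IsSelfAdjoint, ← map_star, hy.star_eq]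
  have h1 := le_zero_of_pp_le (hxy.sub hy) (hcon y hy)
  have h2 := hcon (-y) hy.neg
  rw [map_neg] at h2
  have h3 := le_zero_of_pp_le (hxy.neg.sub hy.neg) h2
  have h4 : x y ≤ y := sub_nonpos.mp h1
  have h5 : y ≤ x y := by
    have h6 : -x y ≤ -y := sub_nonpos.mp h3
    exact neg_le_neg_iff.mp h6
  exact hne (le_antisymm h4 h5)

/-- There is a self-adjoint `b` with `pp (b + x b) < 2 pp b`.

Proof.  Some self-adjoint `y` has `x y ≠ y` (real or imaginary part).  Put `d = x y - y ≠ 0`,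
self-adjoint.  Replacing `y` by `-y` (then `d` by `-d`) we may assume `μ := pp d > 0`
(`le_zero_of_pp_le`: otherwise `d ≤ 0` and `-d ≤ 0`, so `d = 0`).  For `K ≥ 0` put
`lam K = pp (y + K d) - K μ`.  Then `lam` is nonincreasing (`pp_add_le`) and `lam K ≥ -‖y‖`:
`K μ = pp (K d) ≤ pp (y + K d) + pp (-y) ≤ pp (y + K d) + ‖y‖`.  So for some `j` the number
`K' = 2 ^ j`, `K = 2 K'` satisfies `lam K' - lam K < μ / 2` (otherwise `lam (2 ^ j) ≤ lam 1 - j μ/2`
for all `j`).  Put `b = y + K d`.  Since `x y = y + d`,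
`b + x b = y + K d + x y + K x d = 2 (x y + K' x d) + (K - 1) d = 2 x (y + K' d) + (K - 1) d`, so
`pp (b + x b) ≤ 2 pp (y + K' d) + (K - 1) μ = 2 (K' μ + lam K') + (K - 1) μ
= 2 K μ - μ + 2 lam K' < 2 K μ + 2 lam K = 2 pp b`. -/
theorem exists_pp_lt [Nontrivial F] [PartialOrder F] [StarOrderedRing F] (x : F ≃⋆ₐ[ℂ] F)
    (hx : ∃ y, x y ≠ y) : ∃ b : F, IsSelfAdjoint b ∧ pp (b + x b) < 2 * pp b := by
  obtain ⟨y, hy, hμ⟩ := cbaut_exists_pos x hx
  set d := x y - y with hd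
  set μ := pp d with hμd
  have hxy : IsSelfAdjoint (x y) := by
    rw [IsSelfAdjoint, ← map_star, hy.star_eq]
  have hdsa : IsSelfAdjoint d := hxy.sub hy
  have hsm : ∀ K : ℝ, IsSelfAdjoint (K • d) := fun K => (IsSelfAdjoint.all K).smul hdsa
  have hlow : ∀ K : ℝ, 0 ≤ K → -‖y‖ ≤ pp (y + K • d) - K * μ := by
    intro K hK
    have h1 : K • d = (y + K • d) + (-y) := by abel
    have h2 := pp_add_le (hy.add (hsm K)) hy.neg
    rw [← h1, pp_smul hdsa hK] at h2
    have h3 := pp_le_norm hy.neg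
    rw [norm_neg] at h3
    linarith
  obtain ⟨j, hj⟩ : ∃ j : ℕ, (pp (y + (2 ^ j : ℝ) • d) - 2 ^ j * μ) -
      (pp (y + (2 ^ (j + 1) : ℝ) • d) - 2 ^ (j + 1) * μ) < μ / 2 := by
    by_contra hcon
    push Not at hcon
    have h1 : ∀ j : ℕ, pp (y + (2 ^ j : ℝ) • d) - 2 ^ j * μ ≤
        (pp (y + (2 ^ 0 : ℝ) • d) - 2 ^ 0 * μ) - j * (μ / 2) := by
      intro j
      induction j with
      | zero => simp
      | succ j ih =>
        have h2 := hcon j
        push_cast
        linarith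
    obtain ⟨n, hn⟩ := exists_nat_gt (((pp (y + (2 ^ 0 : ℝ) • d) - 2 ^ 0 * μ) + ‖y‖) / (μ / 2))
    rw [div_lt_iff₀ (by positivity)] at hn
    have h3 := h1 n
    have h4 := hlow (2 ^ n) (by positivity)
    linarith
  set K' : ℝ := 2 ^ j with hK'
  have hK'1 : 1 ≤ K' := one_le_pow₀ (by norm_num)
  have hK2 : (2 : ℝ) ^ (j + 1) = 2 * K' := by rw [pow_succ, hK']; ring
  rw [hK2] at hj
  refine ⟨y + (2 * K') • d, hy.add (hsm _), ?_⟩
  have hb : y + (2 * K') • d + x (y + (2 * K') • d) =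
      (2 : ℝ) • x (y + K' • d) + (2 * K' - 1) • d := by
    have h1 : x y = y + d := by rw [hd]; abel
    rw [map_add, map_add, cbaut_smul, cbaut_smul, h1]
    module
  have hsa1 : IsSelfAdjoint (y + K' • d) := hy.add (hsm _)
  have hsa2 : IsSelfAdjoint (x (y + K' • d)) := by
    rw [IsSelfAdjoint, ← map_star, hsa1.star_eq]
  have h5 := pp_add_le ((IsSelfAdjoint.all (2 : ℝ)).smul hsa2) (hsm (2 * K' - 1))
  rw [← hb, pp_smul hsa2 (by norm_num), pp_smul hdsa (by linarith), pp_aut] at h5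
  have h6 : pp (y + (2 * K') • d) - 2 * K' * μ > pp (y + K' • d) - K' * μ - μ / 2 := by linarith
  have h7 : (2 * K' - 1) * pp d = (2 * K' - 1) * μ := rfl
  rw [h7] at h5
  nlinarith [h5, h6]

/-- There is `c = y* y` with `‖c‖ = 1` and `‖c x(c)‖ < 1`.

Proof.  `b` from `exists_pp_lt`, `m = pp b`, `κ = 2 m - pp (b + x b) > 0`, `C = ‖m - b‖`.  For
`s > 0` with `2 s C ≤ 1` and `s C² < κ` put `c = 1 - s (m - b)`: as `0 ≤ m - b ≤ C`, `c ≥ 1/2 ≥ 0`, and
`‖c‖ = pp c = 1 - s m + s m = 1`.  `c x(c) = 1 + s (b + x b - 2 m) + s² (m - b) (m - x b)`.  The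
element `1 + s (b + x b - 2 m)` is `≥ 1 - 2 s C ≥ 0`, with norm `pp = 1 - s κ`; and
`‖s² (m - b) (m - x b)‖ ≤ s² C²` (`‖m - x b‖ = ‖x (m - b)‖ = C`).  So `‖c x(c)‖ ≤ 1 - s κ + s² C² < 1`.
Finally `c = y* y` by `CStarAlgebra.nonneg_iff_eq_star_mul_self`.  (No order in the statement: use
`let _ := CStarAlgebra.spectralOrder F; have := CStarAlgebra.spectralOrderedRing F`.) -/
theorem exists_norm_mul_lt [Nontrivial F] (x : F ≃⋆ₐ[ℂ] F) (hx : ∃ y, x y ≠ y) :
    ∃ y : F, ‖star y * y‖ = 1 ∧ ‖star y * y * x (star y * y)‖ < 1 := by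
  let _ : PartialOrder F := CStarAlgebra.spectralOrder F
  have : StarOrderedRing F := CStarAlgebra.spectralOrderedRing F
  obtain ⟨b, hb, hlt⟩ := exists_pp_lt x hx
  have hxb : IsSelfAdjoint (x b) := by
    rw [IsSelfAdjoint, ← map_star, hb.star_eq]
  set m := pp b with hm
  set κ := 2 * m - pp (b + x b) with hκ
  have hκ0 : 0 < κ := by rw [hκ]; linarith
  set e := algebraMap ℝ F m - b with he
  have he0 : 0 ≤ e := sub_nonneg.mpr (le_pp hb)
  have hesa : IsSelfAdjoint e := he0.isSelfAdjoint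
  set C := ‖e‖ with hC
  have hC0 : 0 ≤ C := norm_nonneg _
  have heC : e ≤ algebraMap ℝ F C := hesa.le_algebraMap_norm_self
  have hxe0 : 0 ≤ x e := by
    have := cbaut_mono x he0
    rwa [map_zero] at this
  have hxesa : IsSelfAdjoint (x e) := hxe0.isSelfAdjoint
  have hxeC : x e ≤ algebraMap ℝ F C := by
    have := cbaut_mono x heC
    rwa [cbaut_alg] at this
  obtain ⟨s, hs0, hs1, hs2⟩ : ∃ s : ℝ, 0 < s ∧ 2 * s * C ≤ 1 ∧ s * C ^ 2 < κ := by
    refine ⟨min (1 / (2 * (C + 1))) (κ / (C ^ 2 + 1)), by positivity, ?_, ?_⟩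
    · have h1 : min (1 / (2 * (C + 1))) (κ / (C ^ 2 + 1)) ≤ 1 / (2 * (C + 1)) := min_le_left _ _
      have h2 : 2 * (1 / (2 * (C + 1))) * C ≤ 1 := by
        rw [show 2 * (1 / (2 * (C + 1))) * C = C / (C + 1) by field_simp]
        rw [div_le_one (by positivity)]
        linarith
      refine le_trans ?_ h2
      exact mul_le_mul_of_nonneg_right (by linarith) hC0
    · have h1 : min (1 / (2 * (C + 1))) (κ / (C ^ 2 + 1)) ≤ κ / (C ^ 2 + 1) := min_le_right _ _
      have h2 : κ / (C ^ 2 + 1) * C ^ 2 < κ := by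
        rw [div_mul_eq_mul_div, div_lt_iff₀ (by positivity)]
        nlinarith
      refine lt_of_le_of_lt ?_ h2
      exact mul_le_mul_of_nonneg_right h1 (by positivity)
  set c := 1 - s • e with hc
  have hse : ∀ z : F, z ≤ algebraMap ℝ F C → s • z ≤ algebraMap ℝ F (s * C) := by
    intro z hz
    have h1 := smul_le_smul_of_nonneg_left hz hs0.le
    rwa [Algebra.algebraMap_eq_smul_one, smul_smul, ← Algebra.algebraMap_eq_smul_one] at h1
  have hc0 : 0 ≤ c := by
    have h1 := hse e heC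
    have h2 : algebraMap ℝ F (s * C) ≤ 1 := by
      rw [← map_one (algebraMap ℝ F)]
      exact algebraMap_mono F (by linarith)
    exact sub_nonneg.mpr (h1.trans h2)
  have hcn : ‖c‖ = 1 := by
    rw [norm_eq_pp hc0]
    have h1 : c = s • b + algebraMap ℝ F (1 - s * m) := by
      rw [hc, he, map_sub, map_one, smul_sub, Algebra.algebraMap_eq_smul_one,
        Algebra.algebraMap_eq_smul_one, smul_smul]
      abel
    rw [h1, pp_add_algebraMap ((IsSelfAdjoint.all s).smul hb), pp_smul hb hs0.le]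
    ring
  have hxc : x c = 1 - s • x e := by
    rw [hc, map_sub, map_one, cbaut_smul]
  have hprod : c * x c = (1 - s • (e + x e)) + (s * s) • (e * x e) := by
    rw [hxc, hc]
    simp only [sub_mul, mul_sub, one_mul, mul_one, smul_add, mul_smul_comm, smul_mul_assoc]
    module
  have hxe : x e = algebraMap ℝ F m - x b := by rw [he, map_sub, cbaut_alg]
  have hfst : ‖1 - s • (e + x e)‖ = 1 - s * κ := by
    have h0 : 0 ≤ 1 - s • (e + x e) := by
      have h1 := add_le_add (hse e heC) (hse (x e) hxeC)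
      rw [← smul_add, ← map_add] at h1
      have h2 : algebraMap ℝ F (s * C + s * C) ≤ 1 := by
        rw [← map_one (algebraMap ℝ F)]
        exact algebraMap_mono F (by linarith)
      exact sub_nonneg.mpr (h1.trans h2)
    rw [norm_eq_pp h0]
    have h1 : 1 - s • (e + x e) = s • (b + x b) + algebraMap ℝ F (1 - 2 * s * m) := by
      rw [hxe, he]
      simp only [map_sub, map_one, Algebra.algebraMap_eq_smul_one]
      module
    rw [h1, pp_add_algebraMap ((IsSelfAdjoint.all s).smul (hb.add hxb)),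
      pp_smul (hb.add hxb) hs0.le, hκ]
    ring
  have hsnd : ‖(s * s) • (e * x e)‖ ≤ s * s * C ^ 2 := by
    rw [norm_smul, Real.norm_of_nonneg (by positivity)]
    refine mul_le_mul_of_nonneg_left ?_ (by positivity)
    refine (norm_mul_le _ _).trans ?_
    have h1 : ‖x e‖ = C := StarAlgEquiv.norm_map x e
    rw [h1, ← hC, sq]
  have hc1 := hc0
  rw [CStarAlgebra.nonneg_iff_eq_star_mul_self] at hc1
  obtain ⟨y, hy⟩ := hc1
  refine ⟨y, by rw [← hy]; exact hcn, ?_⟩
  rw [← hy, hprod]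
  refine lt_of_le_of_lt (norm_add_le _ _) ?_
  rw [hfst]
  have h1 : s * (s * C ^ 2) < s * κ := mul_lt_mul_of_pos_left hs2 hs0
  nlinarith [hsnd, h1]

end P095F
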