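import Vale.Agent.Lib.P101.Chars

/-!
# P095F, part CB, module Orth: two orthogonal positive elements
-/

namespace P095F

universe u

variable {F : Type u} [CStarAlgebra F]

/-- normalised orthogonal self-adjoint elements -/
private theorem cborth_of_mul_eq_zero {p q : F} (hp : IsSelfAdjoint p) (hq : IsSelfAdjoint q)
    (hp0 : p ≠ 0) (hq0 : q ≠ 0) (hpq : p * q = 0) :
    ∃ z : Fin 2 → F, (∀ i, ‖star (z i) * z i‖ = 1) ∧
      ∀ i j, i ≠ j → star (z i) * z i * (star (z j) * z j) = 0 := by
  have hqp : q * p = 0 := by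
    have h1 := congrArg star hpq
    rwa [star_mul, hp.star_eq, hq.star_eq, star_zero] at h1
  have hn : ∀ x : F, x ≠ 0 → ‖(((‖x‖⁻¹ : ℝ) : ℂ)) • x‖ = 1 := by
    intro x hx
    rw [norm_smul, Complex.norm_real, norm_inv, norm_norm,
      inv_mul_cancel₀ (norm_ne_zero_iff.2 hx)]
  refine ⟨![(((‖p‖⁻¹ : ℝ) : ℂ)) • p, (((‖q‖⁻¹ : ℝ) : ℂ)) • q], fun i => ?_, fun i j hij => ?_⟩
  · rw [CStarRing.norm_star_mul_self]
    fin_cases i
    · change ‖(((‖p‖⁻¹ : ℝ) : ℂ)) • p‖ * ‖(((‖p‖⁻¹ : ℝ) : ℂ)) • p‖ = 1
      rw [hn p hp0, one_mul]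
    · change ‖(((‖q‖⁻¹ : ℝ) : ℂ)) • q‖ * ‖(((‖q‖⁻¹ : ℝ) : ℂ)) • q‖ = 1
      rw [hn q hq0, one_mul]
  · have key : ∀ (x y : F) (a b : ℂ), IsSelfAdjoint y → x * y = 0 →
        star (a • x) * (a • x) * (star (b • y) * (b • y)) = 0 := by
      intro x y a b hy hxy
      rw [star_smul, star_smul, hy.star_eq]
      simp only [smul_mul_assoc, mul_smul_comm]
      have h1 : star x * x * (y * y) = star x * (x * y) * y := by noncomm_ring
      rw [h1, hxy, mul_zero, zero_mul]
      simp
    fin_cases i <;> fin_cases j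
    · exact absurd rfl hij
    · exact key p q _ _ hq hpq
    · exact key q p _ _ hp hqp
    · exact absurd rfl hij

/-- If `F` has no characters then there are two orthogonal positive elements of norm `1`.

Proof.  If for every self-adjoint `h` and every real `t` the positive or the negative part of
`h - t` vanishes then every self-adjoint element is a real scalar (`P101.chars_scalar`,
`Lib/P101/Chars.lean`), hence every element is a complex scalar (end of the proof of
`P101.inIdeal_one_of_no_characters` in the same file), `algebraMap ℂ F` is bijective and its inverse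
is a character: contradiction.  So there are `h`, `t` such that `p = cfc (fun s => max (s - t) 0) h`
and `q = cfc (fun s => max (t - s) 0) h` are both nonzero; `p q = 0 = q p`, `p, q ≥ 0`.  With
`p = c* c`, `z 0 = ‖c‖⁻¹ c` etc.: `(z 0)* z 0 = ‖p‖⁻¹ p`. -/
theorem cb_exists_orth [Nontrivial F] (h : IsEmpty (F →⋆ₐ[ℂ] ℂ)) :
    ∃ z : Fin 2 → F, (∀ i, ‖star (z i) * z i‖ = 1) ∧
      ∀ i j, i ≠ j → star (z i) * z i * (star (z j) * z j) = 0 := by
  by_contra hcon
  have hsa : ∀ a : F, IsSelfAdjoint a → ∃ t : ℝ, a = algebraMap ℝ F t := by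
    intro a ha
    refine P101.chars_scalar ha fun t => ?_
    by_contra hne
    push Not at hne
    have hpq : cfc (fun s : ℝ => max (s - t) 0) a * cfc (fun s : ℝ => max (t - s) 0) a = 0 := by
      rw [← cfc_mul (fun s : ℝ => max (s - t) 0) (fun s : ℝ => max (t - s) 0) a
        (by fun_prop) (by fun_prop)]
      have : (fun s : ℝ => max (s - t) 0 * max (t - s) 0) = fun _ => (0 : ℝ) := by
        funext s
        rcases le_total s t with hst | hst
        · rw [max_eq_right (by linarith : s - t ≤ 0), zero_mul]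
        · rw [max_eq_right (by linarith : t - s ≤ 0), mul_zero]
      rw [this, cfc_const_zero]
    exact hcon (cborth_of_mul_eq_zero (cfc_predicate _ a) (cfc_predicate _ a) hne.1 hne.2 hpq)
  -- every element is a complex scalar
  have hscal : Function.Surjective (algebraMap ℂ F) := by
    intro a
    obtain ⟨t, ht⟩ := hsa _ (realPart a).2
    obtain ⟨s, hs⟩ := hsa _ (imaginaryPart a).2
    refine ⟨(t : ℂ) + Complex.I * (s : ℂ), ?_⟩
    have h1 := realPart_add_I_smul_imaginaryPart a
    rw [ht, hs] at h1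
    rw [← h1, map_add, map_mul, Algebra.smul_def]
    rfl
  have hinj : Function.Injective (algebraMap ℂ F) := (algebraMap ℂ F).injective
  let e0 : ℂ →⋆ₐ[ℂ] F :=
    { Algebra.ofId ℂ F with
      map_star' := fun z => by
        change algebraMap ℂ F (star z) = star (algebraMap ℂ F z)
        exact algebraMap_star_comm z }
  have hbij : Function.Bijective e0 := ⟨hinj, hscal⟩
  let e : ℂ ≃⋆ₐ[ℂ] F := StarAlgEquiv.ofBijective e0 hbij
  exact h.false (e.symm : F ≃⋆ₐ[ℂ] ℂ).toStarAlgHom

end P095F
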