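import Vale.Agent.Lib.P095F.CBProd
import Vale.Agent.Lib.P095F.CBAut
import Vale.Agent.Lib.P095F.CBOrth
import Vale.Agent.Lib.P095F.AdmBasic

/-!
# P095F, part CB, module f: almost orthogonal positive elements
-/

open scoped Topology

namespace P095F

universe u v

variable {F : Type u} [CStarAlgebra F]

private theorem cbf_prod_list {G : Type v} (φ : G → ℝ) (x₀ : G) (ls : List G) :
    ∏ j ∈ Finset.range ls.length, φ (ls.getD j x₀) = (ls.map φ).prod := by
  induction ls with
  | nil => simp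
  | cons a ls ih =>
    rw [List.length_cons, Finset.prod_range_succ', List.map_cons, List.prod_cons, mul_comm]
    congr 1

private theorem cbf_prod_replicate {G : Type v} (φ : G → ℝ) (l : List G) (N : ℕ) :
    (((List.replicate N l).flatten).map φ).prod = ((l.map φ).prod) ^ N := by
  induction N with
  | zero => simp
  | succ N ih =>
    rw [List.replicate_succ, List.flatten_cons, List.map_append, List.prod_append, ih, pow_succ,
      mul_comm]

private theorem cbf_exists_r {G : Type v} (X : Finset G) (p : G → Prop) (q : G → ℝ)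
    (h : ∀ g, p g → q g < 1) : ∃ r : ℝ, 0 ≤ r ∧ r < 1 ∧ ∀ g ∈ X, p g → q g ≤ r := by
  classical
  induction X using Finset.induction_on with
  | empty => exact ⟨0, le_rfl, zero_lt_one, fun g hg => absurd hg (Finset.notMem_empty g)⟩
  | insert a s _ ih =>
    obtain ⟨r, h0, h1, h2⟩ := ih
    by_cases ha : p a
    · refine ⟨max r (q a), h0.trans (le_max_left _ _), max_lt h1 (h a ha), fun g hg hp => ?_⟩
      rcases Finset.mem_insert.1 hg with rfl | hg
      · exact le_max_right _ _
      · exact (h2 g hg hp).trans (le_max_left _ _)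
    · refine ⟨r, h0, h1, fun g hg hp => ?_⟩
      rcases Finset.mem_insert.1 hg with rfl | hg
      · exact absurd hp ha
      · exact h2 g hg hp

private theorem cbf_exists_y [Nontrivial F] {G : Type v} [Group G] (β : G →* (F ≃⋆ₐ[ℂ] F)) :
    ∃ y : G → F, ∀ g, ‖star (y g) * y g‖ = 1 ∧
      (β g ≠ 1 → ‖star (y g) * y g * β g (star (y g) * y g)‖ < 1) := by
  have h : ∀ g : G, ∃ y : F, ‖star y * y‖ = 1 ∧
      (β g ≠ 1 → ‖star y * y * β g (star y * y)‖ < 1) := by
    intro g
    by_cases hg : β g = 1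
    · refine ⟨1, ?_, fun h => absurd hg h⟩
      rw [star_one, one_mul, CStarRing.norm_one]
    · have h1 : ∃ y, β g y ≠ y := by
        by_contra hcon
        push Not at hcon
        exact hg (StarAlgEquiv.ext hcon)
      obtain ⟨y, hy1, hy2⟩ := exists_norm_mul_lt (β g) h1
      exact ⟨y, hy1, fun _ => hy2⟩
  choose y hy using h
  exact ⟨y, hy⟩

/-- **Almost orthogonal elements.**

Proof.  `z 0, z 1` from `cb_exists_orth`.  For `g ∈ X` with `β g ≠ 1` let `y_g` be given by
`exists_norm_mul_lt` for the automorphism `β g`, `c_g = y_g* y_g`, `r_g = ‖c_g β_g(c_g)‖ < 1`; for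
`β g = 1` put `y_g = 1`.  Let `r < 1`, `r ≥ 0`, be an upper bound of all `r_g` (`g ∈ X`, `β g ≠ 1`;
finite set), and `N` with `r ^ N ≤ ε`.  `D` = closed separable *-subalgebra of `F`, invariant under
all `β g`, containing `z 0, z 1` and all `y_g`, `g ∈ X` (`exists_adm` in `AdmBasic.lean` with
`B = ⊥`, `adm_bot`).  `θ_j` from `hc` for `D`.  Let `x_0, …, x_{L-1}` be a list of the elements of
`X` with each element repeated `N` times (`L = N |X|`; e.g. `x_k = X`-enumeration at `k / N`), and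
for `i : Fin 2` let `Y^i : ℕ → D`, `Y^i_0 = z i`, `Y^i_{j+1} = y_{x_j}` for `j < L`, `1` otherwise;
`f i = star (P Y^i) * P Y^i` with `P = pmap θ (L + 1)`.  By `pmap_mul`, `pmap_star`,
`f i = P (fun j => (Y^i_j)* Y^i_j)`, with norm `∏ ‖(Y^i_j)* Y^i_j‖ = 1` (independence).
`β_g (f i) f j = P (fun l => β_g((Y^i_l)* Y^i_l) (Y^j_l)* Y^j_l)` (`pmap_aut`, `pmap_mul`), with norm
the product of the norms, all `≤ 1`.  If `β g ≠ 1`, `g ∈ X`: the `N` factors belonging to `g` are
`‖β_g(c_g) c_g‖ = ‖(c_g β_g(c_g))*‖ ≤ r`, so the norm is `≤ r ^ N ≤ ε`.  If `β g = 1` and `i ≠ j`: the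
factor with index `0` is `(z i)* z i (z j)* z j = 0`. -/
theorem exists_f_approx [Nontrivial F] {G : Type v} [Group G] [Countable G]
    (β : G →* (F ≃⋆ₐ[ℂ] F)) (hc : HasIndepCopies (Set.range β)) (hchar : IsEmpty (F →⋆ₐ[ℂ] ℂ))
    (X : Finset G) {ε : ℝ} (hε : 0 < ε) :
    ∃ f : Fin 2 → F, (∀ i, ∃ c, f i = star c * c) ∧ (∀ i, ‖f i‖ = 1) ∧
      ∀ g ∈ X, ∀ i j, ¬ (β g = 1 ∧ i = j) → ‖β g (f i) * f j‖ ≤ ε := by
  classical
  obtain ⟨z, hz1, hz2⟩ := cb_exists_orth hchar
  obtain ⟨y, hy⟩ := cbf_exists_y β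
  obtain ⟨r, hr0, hr1, hr⟩ := cbf_exists_r X (fun g => β g ≠ 1)
    (fun g => ‖star (y g) * y g * β g (star (y g) * y g)‖) fun g hg => (hy g).2 hg
  obtain ⟨N, hN⟩ := exists_pow_lt_of_lt_one hε hr1
  obtain ⟨D, hD, _, hSD⟩ := exists_adm (adm_bot β) (Set.range z ∪ Set.range y)
    ((Set.countable_range z).union (Set.countable_range y))
  have hzD : ∀ i, z i ∈ D := fun i => hSD (Or.inl ⟨i, rfl⟩)
  have hyD : ∀ g, y g ∈ D := fun g => hSD (Or.inr ⟨g, rfl⟩)
  obtain ⟨θ, hθ1, hθ2, hθ3⟩ := hc D hD.closed hD.sep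
  set ls : List G := (List.replicate N X.toList).flatten with hls
  -- the elements
  let Y : Fin 2 → ℕ → D := fun i n => match n with
    | 0 => ⟨z i, hzD i⟩
    | n + 1 => ⟨y (ls.getD n 1), hyD _⟩
  let c : Fin 2 → ℕ → D := fun i n => star (Y i n) * Y i n
  have hc0 : ∀ i, ((c i 0 : D) : F) = star (z i) * z i := fun i => rfl
  have hc1 : ∀ i n, ((c i (n + 1) : D) : F) = star (y (ls.getD n 1)) * y (ls.getD n 1) :=
    fun i n => rfl
  have hcn : ∀ i n, ‖((c i n : D) : F)‖ = 1 := by
    intro i n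
    cases n with
    | zero => rw [hc0]; exact hz1 i
    | succ n => rw [hc1 i n]; exact (hy _).1
  have hnorm : ∀ (n : ℕ) (d : ℕ → D), ‖pmap θ n d‖ = ∏ j ∈ Finset.range n, ‖((d j : D) : F)‖ :=
    fun n d => hθ3 n d
  have hf : ∀ i, star (pmap θ (ls.length + 1) (Y i)) * pmap θ (ls.length + 1) (Y i) =
      pmap θ (ls.length + 1) (c i) := by
    intro i
    rw [pmap_star θ hθ1, pmap_mul θ hθ1]
  refine ⟨fun i => pmap θ (ls.length + 1) (c i), fun i => ⟨_, (hf i).symm⟩, fun i => ?_,
    fun g hg i i' hii => ?_⟩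
  · rw [hnorm]
    exact Finset.prod_eq_one fun j _ => hcn i j
  · let e : ℕ → D := fun n => ⟨β g (c i n : F), hD.inv g _ (c i n).2⟩
    have he : β g (pmap θ (ls.length + 1) (c i)) = pmap θ (ls.length + 1) e :=
      pmap_aut θ (β g) (fun j d e' hde => hθ2 j (β g) ⟨g, rfl⟩ d e' hde) _ _ _ fun j => rfl
    change ‖β g (pmap θ (ls.length + 1) (c i)) * pmap θ (ls.length + 1) (c i')‖ ≤ ε
    rw [he, pmap_mul θ hθ1, hnorm]
    by_cases hg1 : β g = 1
    · have hne : i ≠ i' := fun h => hii ⟨hg1, h⟩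
      have h0 : ∏ j ∈ Finset.range (ls.length + 1), ‖((e j * c i' j : D) : F)‖ = 0 := by
        refine Finset.prod_eq_zero (i := 0) (Finset.mem_range.2 (Nat.succ_pos _)) ?_
        have h1 : ((e 0 * c i' 0 : D) : F) = star (z i) * z i * (star (z i') * z i') := by
          change β g ((c i 0 : D) : F) * ((c i' 0 : D) : F) = _
          rw [hg1, hc0, hc0]
          rfl
        rw [h1, hz2 i i' hne, norm_zero]
      rw [h0]
      exact hε.le
    · -- the factors
      have hfac : ∀ n, ‖((e (n + 1) * c i' (n + 1) : D) : F)‖ =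
          (fun x => ‖β g (star (y x) * y x) * (star (y x) * y x)‖) (ls.getD n 1) := by
        intro n
        rfl
      have hle1 : ∀ x, ‖β g (star (y x) * y x) * (star (y x) * y x)‖ ≤ 1 := by
        intro x
        refine (norm_mul_le _ _).trans ?_
        rw [aut_norm, (hy x).1, one_mul]
      rw [Finset.prod_range_succ', Finset.prod_congr rfl fun n _ => hfac n,
        cbf_prod_list (fun x => ‖β g (star (y x) * y x) * (star (y x) * y x)‖) 1 ls, hls,
        cbf_prod_replicate, Finset.prod_map_toList]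
      have h1 : ∏ x ∈ X, ‖β g (star (y x) * y x) * (star (y x) * y x)‖ ≤ r := by
        rw [← Finset.mul_prod_erase X _ hg]
        have h2 : ‖β g (star (y g) * y g) * (star (y g) * y g)‖ ≤ r := by
          have h3 : star (β g (star (y g) * y g) * (star (y g) * y g)) =
              star (y g) * y g * β g (star (y g) * y g) := by
            rw [star_mul, ← map_star, star_mul, star_star]
          rw [← norm_star, h3]
          exact hr g hg hg1
        have h4 : ∏ x ∈ X.erase g, ‖β g (star (y x) * y x) * (star (y x) * y x)‖ ≤ 1 :=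
          Finset.prod_le_one (fun x _ => norm_nonneg _) fun x _ => hle1 x
        calc _ ≤ r * 1 := mul_le_mul h2 h4
              (Finset.prod_nonneg fun x _ => norm_nonneg _) hr0
          _ = r := mul_one r
      have h5 : ‖((e 0 * c i' 0 : D) : F)‖ ≤ 1 := by
        refine (norm_mul_le _ _).trans ?_
        change ‖β g ((c i 0 : D) : F)‖ * ‖((c i' 0 : D) : F)‖ ≤ 1
        rw [aut_norm]
        have h7 := hcn i 0
        have h8 := hcn i' 0
        rw [h7, h8, one_mul]
      have h6 : 0 ≤ ∏ x ∈ X, ‖β g (star (y x) * y x) * (star (y x) * y x)‖ :=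
        Finset.prod_nonneg fun x _ => norm_nonneg _
      calc _ ≤ r ^ N * 1 := mul_le_mul (pow_le_pow_left₀ h6 h1 N) h5 (norm_nonneg _)
            (pow_nonneg hr0 N)
        _ = r ^ N := mul_one _
        _ ≤ ε := hN.le

end P095F
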