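import Mathlib
import Vale.Agent.Lib.P095F.CBf
import Vale.Agent.Lib.P095F.CBCopies
import Vale.Agent.Lib.P095F.CBSi
import Vale.Agent.Lib.P095F.CBAvg
import Vale.Agent.Lib.P095F.CBInv

/-!
# P095F, part CB: invariant isometries on the trace kernel ideal
-/

open scoped ENNReal Topology
open Filter P101 P095E

namespace P095F

universe u v

/-- **Part CB** -/
theorem exists_isometries_of_local (ω : Ultrafilter ℕ) (hω : (ω : Filter ℕ) ≤ Filter.cofinite)
    {A : Type u} [CStarAlgebra A] [Nontrivial A] [TopologicalSpace.SeparableSpace A]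
    [IsSimpleRing A] (hSI : SILocal A) {G : Type v} [Group G] [Countable G] (hG : FolnerGroup G)
    (α : G →* (A ≃⋆ₐ[ℂ] A)) (β : G →* (FOmega ω A ≃⋆ₐ[ℂ] FOmega ω A))
    (hβ : ∀ g, Induces ω (α g) (β g)) (hchar : IsEmpty (FOmega ω A →⋆ₐ[ℂ] ℂ))
    (e : FOmega ω A) (he : InJ ω e) (hep : ∃ c, e = star c * c) (hen : ‖e‖ ≤ 1)
    (hei : ∀ g, β g e = e) :
    ∃ s : Fin 2 → FOmega ω A, (∀ i g, β g (s i) = s i) ∧
      ∀ i j, star (s i) * s j = if i = j then e else 0 := by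
  have hc : HasIndepCopies (Set.range β) := by
    refine hasIndepCopies_FOmega ω hω A _ (Set.countable_range β) ?_
    rintro _ ⟨g, rfl⟩
    exact ⟨α g, hβ g⟩
  obtain ⟨s, hs1, hs2⟩ := exists_s ω hω hSI α β hβ he hep hen
    {p : G × Fin 2 × Fin 2 | ¬ (β p.1 = 1 ∧ p.2.1 = p.2.2)} (by
      classical
      intro X hX ε hε
      obtain ⟨f, hf1, hf2, hf3⟩ := exists_f_approx β hc hchar (X.image Prod.fst) hε
      exact ⟨f, hf1, hf2, fun p hp => hf3 p.1 (Finset.mem_image_of_mem _ hp) _ _ (hX hp)⟩)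
  refine exists_inv ω hω α β hβ hen fun K₀ ε hε => ?_
  exact exists_avg hG β hen hei hs1 (fun g i j h => hs2 (g, i, j) h) K₀ hε

end P095F
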