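import Vale.Agent.Lib.P095F.CADefs

/-!
# P095F, part CB: definitions

Part CB: `exists_isometries` (in `F = F_ω(A)`) from the local property `SILocal A` (part CA).
-/

open scoped ENNReal Topology
open Filter P101 P095E

namespace P095F

universe u v

/-- Equivariant commuting copies that are independent: norms of products are products of norms. -/
def HasIndepCopies {F : Type u} [CStarAlgebra F] (S : Set (F ≃⋆ₐ[ℂ] F)) : Prop :=
  ∀ D : StarSubalgebra ℂ F, IsClosed (D : Set F) → TopologicalSpace.IsSeparable (D : Set F) →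
    ∃ θ : ℕ → (D →⋆ₐ[ℂ] F), (∀ i j, i ≠ j → ∀ d e : D, Commute (θ i d) (θ j e)) ∧
      (∀ j, ∀ s ∈ S, ∀ d e : D, s (d : F) = (e : F) → s (θ j d) = θ j e) ∧
      ∀ (n : ℕ) (d : ℕ → D),
        ‖((List.range n).map fun j => θ j (d j)).prod‖ = ∏ j ∈ Finset.range n, ‖d j‖

end P095F
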