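import Vale.Agent.Lib.P095F.CBDefs
import Vale.Agent.Lib.P101.Transfer

/-!
# P095F, part CB, module Ind: `A` and `F_ω(A)` are independent (`A` simple)
-/

open scoped ENNReal Topology
open Filter P101 P095E

namespace P095F

universe u

/-- `p h(p) ≥ (1 - ε) h(p)` for `h = max (t - (1 - ε)) 0`. -/
private theorem cbind_bump_le {E : Type u} [CStarAlgebra E] [PartialOrder E] [StarOrderedRing E]
    {p : E} (hp : 0 ≤ p) (ε : ℝ) :
    (1 - ε) • cfc (fun t : ℝ => max (t - (1 - ε)) 0) p ≤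
      p * cfc (fun t : ℝ => max (t - (1 - ε)) 0) p := by
  have hsa : IsSelfAdjoint p := hp.isSelfAdjoint
  have h1 : p * cfc (fun t : ℝ => max (t - (1 - ε)) 0) p =
      cfc (fun t : ℝ => t * max (t - (1 - ε)) 0) p := by
    rw [cfc_mul (fun t : ℝ => t) (fun t : ℝ => max (t - (1 - ε)) 0) p (by fun_prop)
      (by fun_prop), cfc_id' ℝ p]
  have h2 : (1 - ε) • cfc (fun t : ℝ => max (t - (1 - ε)) 0) p =
      cfc (fun t : ℝ => (1 - ε) • max (t - (1 - ε)) 0) p := by
    rw [cfc_smul (1 - ε) (fun t : ℝ => max (t - (1 - ε)) 0) p (by fun_prop)]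
  rw [h1, h2]
  refine cfc_mono (fun t _ => ?_) (by fun_prop) (by fun_prop)
  simp only [smul_eq_mul]
  rcases le_total (t - (1 - ε)) 0 with h | h
  · rw [max_eq_right h, mul_zero, mul_zero]
  · rw [max_eq_left h]
    nlinarith

/-- If `p, q` are commuting nonnegative elements of norm `1` such that
`h_ε(p) h_ε(q) ≠ 0` for all `ε ∈ (0, 1)`, where `h_ε(t) = max (t - (1 - ε)) 0`, then `‖p q‖ = 1`.

Proof.  `‖p q‖ ≤ 1`.  The elements `h_ε(p)`, `h_ε(q)`, `p`, `q` commute and are nonnegative,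
`p h_ε(p) ≥ (1 - ε) h_ε(p)` (as functions on the spectrum), so
`(p q) (h_ε(p) h_ε(q)) ≥ (1 - ε)² h_ε(p) h_ε(q) ≥ 0` and `‖p q‖ ‖h_ε(p) h_ε(q)‖ ≥
(1 - ε)² ‖h_ε(p) h_ε(q)‖`; divide. -/
theorem norm_mul_of_bumps {E : Type u} [CStarAlgebra E] [PartialOrder E] [StarOrderedRing E]
    {p q : E} (hp : 0 ≤ p) (hq : 0 ≤ q) (hpq : Commute p q) (hp1 : ‖p‖ = 1) (hq1 : ‖q‖ = 1)
    (h : ∀ ε : ℝ, 0 < ε → ε < 1 →
      cfc (fun t : ℝ => max (t - (1 - ε)) 0) p * cfc (fun t : ℝ => max (t - (1 - ε)) 0) q ≠ 0) :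
    ‖p * q‖ = 1 := by
  have key : ∀ ε : ℝ, 0 < ε → ε < 1 → (1 - ε) ^ 2 ≤ ‖p * q‖ := by
    intro ε hε0 hε1
    have hne := h ε hε0 hε1
    have hpa := cbind_bump_le hp ε
    have hqb := cbind_bump_le hq ε
    have cap : Commute (cfc (fun t : ℝ => max (t - (1 - ε)) 0) p) p :=
      (Commute.refl p).cfc_real _
    have caq : Commute (cfc (fun t : ℝ => max (t - (1 - ε)) 0) p) q := hpq.cfc_real _
    have cbq : Commute (cfc (fun t : ℝ => max (t - (1 - ε)) 0) q) q :=
      (Commute.refl q).cfc_real _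
    have cbp : Commute (cfc (fun t : ℝ => max (t - (1 - ε)) 0) q) p := hpq.symm.cfc_real _
    have cab : Commute (cfc (fun t : ℝ => max (t - (1 - ε)) 0) p)
      (cfc (fun t : ℝ => max (t - (1 - ε)) 0) q) := cbp.symm.cfc_real _
    have ha0 : 0 ≤ cfc (fun t : ℝ => max (t - (1 - ε)) 0) p :=
      cfc_nonneg fun t _ => le_max_right _ _
    have hb0 : 0 ≤ cfc (fun t : ℝ => max (t - (1 - ε)) 0) q :=
      cfc_nonneg fun t _ => le_max_right _ _
    generalize cfc (fun t : ℝ => max (t - (1 - ε)) 0) p = a at *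
    generalize cfc (fun t : ℝ => max (t - (1 - ε)) 0) q = b at *
    have he : (0 : ℝ) ≤ 1 - ε := by linarith
    have hY0 : 0 ≤ (1 - ε) • a := smul_nonneg he ha0
    have hZ0 : 0 ≤ q * b := Commute.mul_nonneg hq hb0 cbq.symm
    have c1 : Commute (p * a - (1 - ε) • a) (q * b) := by
      have e1 : Commute (p * a) (q * b) :=
        ((hpq.mul_right cbp.symm).mul_left (caq.mul_right cab))
      have e2 : Commute ((1 - ε) • a) (q * b) := (caq.mul_right cab).smul_left _
      exact e1.sub_left e2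
    have c2 : Commute ((1 - ε) • a) (q * b - (1 - ε) • b) :=
      ((caq.mul_right cab).sub_right (cab.smul_right _)).smul_left _
    have hge : ((1 - ε) • a) * ((1 - ε) • b) ≤ (p * a) * (q * b) := by
      rw [← sub_nonneg]
      have e : (p * a) * (q * b) - ((1 - ε) • a) * ((1 - ε) • b) =
          (p * a - (1 - ε) • a) * (q * b) + ((1 - ε) • a) * (q * b - (1 - ε) • b) := by
        rw [sub_mul, mul_sub]
        abel
      rw [e]
      exact add_nonneg (Commute.mul_nonneg (sub_nonneg.2 hpa) hZ0 c1)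
        (Commute.mul_nonneg hY0 (sub_nonneg.2 hqb) c2)
    have h0 : 0 ≤ ((1 - ε) • a) * ((1 - ε) • b) :=
      Commute.mul_nonneg hY0 (smul_nonneg he hb0) ((cab.smul_right _).smul_left _)
    have hn := CStarAlgebra.norm_le_norm_of_nonneg_of_le h0 hge
    have e1 : ((1 - ε) • a) * ((1 - ε) • b) = ((1 - ε) ^ 2) • (a * b) := by
      rw [smul_mul_smul_comm, sq]
    have e2 : (p * a) * (q * b) = (p * q) * (a * b) := by
      rw [mul_assoc, mul_assoc, ← mul_assoc a q b, caq.eq, mul_assoc q a b]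
    rw [e1, e2, norm_smul, Real.norm_eq_abs, abs_of_nonneg (sq_nonneg _)] at hn
    have hpos : 0 < ‖a * b‖ := norm_pos_iff.2 hne
    exact le_of_mul_le_mul_right (hn.trans (norm_mul_le _ _)) hpos
  refine le_antisymm ?_ ?_
  · calc ‖p * q‖ ≤ ‖p‖ * ‖q‖ := norm_mul_le _ _
      _ = 1 := by rw [hp1, hq1, one_mul]
  · by_contra hlt
    rw [not_le] at hlt
    have h0 : 0 ≤ ‖p * q‖ := norm_nonneg _
    have h1 := key ((1 - ‖p * q‖) / 2) (by linarith) (by linarith)
    nlinarith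

/-- The only element of `A_ω` in `F_ω(A)` annihilated by a nonzero constant is `0`:
`{a : A | const a * x = 0}` is a two-sided ideal of `A` (as `x` commutes with constants), it does
not contain `1` if `x ≠ 0`, so it is `0` (`A` is simple). -/
theorem const_mul_ne_zero (ω : Ultrafilter ℕ) {A : Type u} [CStarAlgebra A] [Nontrivial A]
    [IsSimpleRing A] {a : A} (ha : a ≠ 0) {x : Ultrapower ω A} (hx : x ∈ centralSeq ω A)
    (hx0 : x ≠ 0) : toUltrapower ω A (constSeq A a) * x ≠ 0 := by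
  have hc : ∀ b : A, ultraConst ω A b * x = x * ultraConst ω A b := mem_centralSeq.1 hx
  let I : TwoSidedIdeal A := TwoSidedIdeal.mk' {b : A | ultraConst ω A b * x = 0}
    (by simp)
    (by
      intro b c hb hc
      simp only [Set.mem_ofPred_eq] at hb hc ⊢
      rw [map_add, add_mul, hb, hc, add_zero])
    (by
      intro b hb
      simp only [Set.mem_ofPred_eq] at hb ⊢
      rw [map_neg, neg_mul, hb, neg_zero])
    (by
      intro b c hc
      simp only [Set.mem_ofPred_eq] at hc ⊢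
      rw [map_mul, mul_assoc, hc, mul_zero])
    (by
      intro b c hb
      simp only [Set.mem_ofPred_eq] at hb ⊢
      rw [map_mul, mul_assoc, hc c, ← mul_assoc, hb, zero_mul])
  have hI : ∀ b : A, b ∈ I ↔ ultraConst ω A b * x = 0 := fun b => by
    simp [I, TwoSidedIdeal.mem_mk']
  intro h0
  have haI : a ∈ I := (hI a).2 h0
  rcases eq_bot_or_eq_top I with h | h
  · rw [h] at haI
    exact ha (by simpa using haI)
  · have h1 : (1 : A) ∈ I := by
      rw [h]
      trivial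
    have h2 := (hI 1).1 h1
    rw [map_one, one_mul] at h2
    exact hx0 h2

private theorem cbind_norm_ultraConst (ω : Ultrafilter ℕ) {A : Type u} [CStarAlgebra A]
    [Nontrivial A] [IsSimpleRing A] (a : A) : ‖ultraConst ω A a‖ = ‖a‖ := by
  refine NonUnitalStarAlgHom.norm_map (ultraConst ω A) ?_ a
  rw [injective_iff_map_eq_zero]
  intro b hb
  by_contra hb0
  have h1 : (1 : Ultrapower ω A) ≠ 0 := by
    intro h
    have h2 := (toUltrapower_eq_zero_iff ω A 1).1 (by rw [map_one, h])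
    have h3 : (fun n : ℕ => ‖(1 : lp (fun _ : ℕ => A) ∞) n‖) = fun _ => ‖(1 : A)‖ := rfl
    rw [h3] at h2
    have h4 := tendsto_nhds_unique h2 tendsto_const_nhds
    simp at h4
  refine const_mul_ne_zero ω hb0 (one_mem (centralSeq ω A)) h1 ?_
  rw [mul_one]
  exact hb

private theorem cbind_bump_ne_zero {E : Type u} [CStarAlgebra E] [PartialOrder E]
    [StarOrderedRing E] {p : E} (hp : 0 ≤ p) (hp1 : ‖p‖ = 1) {ε : ℝ} (hε : 0 < ε) :
    cfc (fun t : ℝ => max (t - (1 - ε)) 0) p ≠ 0 := by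
  intro h0
  have hnt : Nontrivial E := ⟨p, 0, fun h => by rw [h, norm_zero] at hp1; exact zero_ne_one hp1⟩
  have h1 : ‖p‖ ∈ spectrum ℝ p := CStarAlgebra.norm_mem_spectrum_of_nonneg hp
  rw [hp1] at h1
  have h2 := cfc_map_spectrum (fun t : ℝ => max (t - (1 - ε)) 0) p hp.isSelfAdjoint
    (by fun_prop)
  rw [h0, spectrum.zero_eq] at h2
  have h3 : max ((1 : ℝ) - (1 - ε)) 0 ∈ ({0} : Set ℝ) := by
    rw [h2]
    exact ⟨1, h1, rfl⟩
  rw [Set.mem_singleton_iff] at h3
  have h4 : (1 : ℝ) - (1 - ε) ≤ 0 := by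
    rw [← h3]
    exact le_max_left _ _
  linarith

/-- **Independence**: `‖a x‖ = ‖a‖ ‖x‖` for `a ∈ A`, `x ∈ F_ω(A)`.

Proof.  `ι a = toUltrapower ω A (constSeq A a)` is an isometric unital *-homomorphism commuting with
`x`, `x*`.  `‖ι(a) x‖² = ‖(ι(a) x)* (ι(a) x)‖ = ‖ι(a* a) x* x‖`; both `a* a`, `x* x` may be assumed
nonzero, divide by norms: `p = ι(a* a)/‖a‖²`, `q = x* x/‖x‖²`.  Apply `norm_mul_of_bumps`:
`h_ε(p) = ι(h_ε(a* a/‖a‖²))`, where `h_ε(a* a/‖a‖²) ≠ 0` as `1` is in the spectrum, `h_ε(q) ≠ 0`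
similarly and `h_ε(q) ∈ centralSeq ω A` (closed *-subalgebra); now `const_mul_ne_zero`. -/
theorem norm_const_mul (ω : Ultrafilter ℕ) {A : Type u} [CStarAlgebra A] [Nontrivial A]
    [IsSimpleRing A] (a : A) {x : Ultrapower ω A} (hx : x ∈ centralSeq ω A) :
    ‖toUltrapower ω A (constSeq A a) * x‖ = ‖a‖ * ‖x‖ := by
  let := CStarAlgebra.spectralOrder A
  let := CStarAlgebra.spectralOrderedRing A
  let := CStarAlgebra.spectralOrder (Ultrapower ω A)
  let := CStarAlgebra.spectralOrderedRing (Ultrapower ω A)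
  change ‖ultraConst ω A a * x‖ = ‖a‖ * ‖x‖
  rcases eq_or_ne a 0 with rfl | ha
  · rw [map_zero, zero_mul, norm_zero, norm_zero, zero_mul]
  rcases eq_or_ne x 0 with rfl | hx0
  · rw [mul_zero, norm_zero, mul_zero]
  have hna : 0 < ‖a‖ := norm_pos_iff.2 ha
  have hnx : 0 < ‖x‖ := norm_pos_iff.2 hx0
  have hc : ∀ b : A, Commute (ultraConst ω A b) x := mem_centralSeq.1 hx
  have hc' : ∀ b : A, Commute (ultraConst ω A b) (star x) :=
    mem_centralSeq.1 (star_mem hx)
  -- the normalised positive elements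
  obtain ⟨p0, hp0⟩ : ∃ p0 : A, p0 = ((‖a‖ * ‖a‖)⁻¹ : ℝ) • (star a * a) := ⟨_, rfl⟩
  obtain ⟨q, hq⟩ : ∃ q : Ultrapower ω A, q = ((‖x‖ * ‖x‖)⁻¹ : ℝ) • (star x * x) := ⟨_, rfl⟩
  have hp0n : 0 ≤ p0 := by
    rw [hp0]
    exact smul_nonneg (by positivity) (star_mul_self_nonneg a)
  have hqn : 0 ≤ q := by
    rw [hq]
    exact smul_nonneg (by positivity) (star_mul_self_nonneg x)
  have hp01 : ‖p0‖ = 1 := by
    rw [hp0, norm_smul, CStarRing.norm_star_mul_self, Real.norm_eq_abs,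
      abs_of_nonneg (by positivity)]
    field_simp
  have hq1 : ‖q‖ = 1 := by
    rw [hq, norm_smul, CStarRing.norm_star_mul_self, Real.norm_eq_abs,
      abs_of_nonneg (by positivity)]
    field_simp
  have hcq : ∀ b : A, Commute (ultraConst ω A b) q := fun b => by
    rw [hq]
    exact ((hc' b).mul_right (hc b)).smul_right _
  have hpn : 0 ≤ ultraConst ω A p0 := map_nonneg (ultraConst ω A) hp0n
  have hp1 : ‖ultraConst ω A p0‖ = 1 := by rw [cbind_norm_ultraConst, hp01]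
  have hmain : ‖ultraConst ω A p0 * q‖ = 1 := by
    refine norm_mul_of_bumps hpn hqn (hcq p0) hp1 hq1 fun ε hε0 _ => ?_
    have h1 : cfc (fun t : ℝ => max (t - (1 - ε)) 0) (ultraConst ω A p0) =
        ultraConst ω A (cfc (fun t : ℝ => max (t - (1 - ε)) 0) p0) := by
      refine (StarAlgHomClass.map_cfc (ultraConst ω A) (fun t : ℝ => max (t - (1 - ε)) 0) p0
        (by fun_prop) ?_ hp0n.isSelfAdjoint hpn.isSelfAdjoint).symm
      exact (AddMonoidHomClass.isometry_of_norm (ultraConst ω A)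
        (cbind_norm_ultraConst ω)).continuous
    rw [h1]
    refine const_mul_ne_zero ω (cbind_bump_ne_zero hp0n hp01 hε0) ?_
      (cbind_bump_ne_zero hqn hq1 hε0)
    rw [mem_centralSeq]
    intro b
    exact ((hcq b).symm.cfc_real _).symm
  have hsq : ‖ultraConst ω A a * x‖ * ‖ultraConst ω A a * x‖ = (‖a‖ * ‖x‖) * (‖a‖ * ‖x‖) := by
    rw [← CStarRing.norm_star_mul_self]
    have e1 : star (ultraConst ω A a * x) * (ultraConst ω A a * x) =
        ultraConst ω A (star a * a) * (star x * x) := by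
      rw [star_mul, map_mul, map_star]
      have h1 : Commute (star (ultraConst ω A a)) (star x) := by
        rw [← map_star]
        exact hc' _
      rw [← h1.eq, mul_assoc, mul_assoc, ← mul_assoc (star x), ← (hc' a).eq, mul_assoc]
    have e2 : ultraConst ω A (star a * a) * (star x * x) =
        ((‖a‖ * ‖a‖) * (‖x‖ * ‖x‖) : ℝ) • (ultraConst ω A p0 * q) := by
      have h1 : star a * a = (‖a‖ * ‖a‖ : ℝ) • p0 := by
        rw [hp0, smul_smul, mul_inv_cancel₀ (by positivity), one_smul]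
      have h2 : star x * x = (‖x‖ * ‖x‖ : ℝ) • q := by
        rw [hq, smul_smul, mul_inv_cancel₀ (by positivity), one_smul]
      have h3 : ultraConst ω A ((‖a‖ * ‖a‖ : ℝ) • p0) =
          (‖a‖ * ‖a‖ : ℝ) • ultraConst ω A p0 := by
        rw [← Complex.coe_smul, map_smul, Complex.coe_smul]
      rw [h1, h2, h3, smul_mul_smul_comm]
    rw [e1, e2, norm_smul, hmain, mul_one, Real.norm_eq_abs, abs_of_nonneg (by positivity)]
    ring
  exact (mul_self_inj_of_nonneg (norm_nonneg _) (by positivity)).1 hsq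

end P095F
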