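import Vale.Agent.Lib.P095F.CBDefs

/-!
# P095F, part CB, module Prod: products of commuting copies
-/

open scoped Topology

namespace P095F

universe u

variable {F : Type u} [CStarAlgebra F] {D : StarSubalgebra ℂ F}

/-- the product `θ_0(d_0) ⋯ θ_{n-1}(d_{n-1})` -/
noncomputable def pmap (θ : ℕ → (D →⋆ₐ[ℂ] F)) (n : ℕ) (d : ℕ → D) : F :=
  ((List.range n).map fun j => θ j (d j)).prod

theorem pmap_zero (θ : ℕ → (D →⋆ₐ[ℂ] F)) (d : ℕ → D) : pmap θ 0 d = 1 := by
  simp [pmap]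

theorem pmap_succ (θ : ℕ → (D →⋆ₐ[ℂ] F)) (n : ℕ) (d : ℕ → D) :
    pmap θ (n + 1) d = pmap θ n d * θ n (d n) := by
  simp [pmap, List.range_succ]

/-- commutation of a product with a later factor -/
theorem pmap_commute (θ : ℕ → (D →⋆ₐ[ℂ] F))
    (hθ : ∀ i j, i ≠ j → ∀ d e : D, Commute (θ i d) (θ j e)) (n : ℕ) (d : ℕ → D) {m : ℕ}
    (hm : n ≤ m) (e : D) : Commute (pmap θ n d) (θ m e) := by
  induction n with
  | zero =>
    rw [pmap_zero]
    exact Commute.one_left _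
  | succ n ih =>
    rw [pmap_succ]
    exact (ih (by omega)).mul_left (hθ n m (by omega) _ _)

theorem pmap_mul (θ : ℕ → (D →⋆ₐ[ℂ] F))
    (hθ : ∀ i j, i ≠ j → ∀ d e : D, Commute (θ i d) (θ j e)) (n : ℕ) (d e : ℕ → D) :
    pmap θ n d * pmap θ n e = pmap θ n (fun j => d j * e j) := by
  induction n with
  | zero => simp [pmap_zero]
  | succ n ih =>
    rw [pmap_succ, pmap_succ, pmap_succ, ← ih, map_mul]
    have h := pmap_commute θ hθ n e le_rfl (d n)
    calc pmap θ n d * (θ n) (d n) * (pmap θ n e * (θ n) (e n))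
        = pmap θ n d * ((θ n) (d n) * pmap θ n e) * (θ n) (e n) := by simp only [mul_assoc]
      _ = pmap θ n d * (pmap θ n e * (θ n) (d n)) * (θ n) (e n) := by rw [h.eq]
      _ = _ := by simp only [mul_assoc]

theorem pmap_star (θ : ℕ → (D →⋆ₐ[ℂ] F))
    (hθ : ∀ i j, i ≠ j → ∀ d e : D, Commute (θ i d) (θ j e)) (n : ℕ) (d : ℕ → D) :
    star (pmap θ n d) = pmap θ n (fun j => star (d j)) := by
  induction n with
  | zero => simp [pmap_zero]
  | succ n ih =>
    rw [pmap_succ, pmap_succ, star_mul, ih, map_star]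
    have h := pmap_commute θ hθ n (fun j => star (d j)) le_rfl (star (d n))
    rw [map_star] at h
    exact h.eq.symm

theorem pmap_aut (θ : ℕ → (D →⋆ₐ[ℂ] F)) (s : F ≃⋆ₐ[ℂ] F)
    (hs : ∀ j, ∀ d e : D, s (d : F) = (e : F) → s (θ j d) = θ j e) (n : ℕ) (d e : ℕ → D)
    (h : ∀ j, s (d j : F) = (e j : F)) : s (pmap θ n d) = pmap θ n e := by
  induction n with
  | zero => simp [pmap_zero]
  | succ n ih =>
    rw [pmap_succ, pmap_succ, map_mul, ih, hs n _ _ (h n)]

/-- if one factor vanishes the product vanishes -/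
theorem pmap_eq_zero (θ : ℕ → (D →⋆ₐ[ℂ] F)) {n : ℕ} {d : ℕ → D} {j : ℕ} (hj : j < n)
    (h : d j = 0) : pmap θ n d = 0 := by
  induction n with
  | zero => omega
  | succ n ih =>
    rw [pmap_succ]
    rcases Nat.lt_succ_iff_lt_or_eq.1 hj with h1 | h1
    · rw [ih h1, zero_mul]
    · subst h1
      rw [h, map_zero, mul_zero]

end P095F
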