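import Vale.Agent.Lib.P095F.CBInd
import Vale.Agent.Lib.P101.CopiesA

/-!
# P095F, part CB, module Re: the reindexing lemma with independence
-/

open scoped ENNReal Topology
open Filter P101 P095E

namespace P095F

universe u

/-- if `r < ‖[x]‖` then `r < ‖x n‖` for `ω`-many `n` (`ω` is an ultrafilter: otherwise `‖x n‖ ≤ r`
along `ω`, and then `‖[x]‖ ≤ max r 0`, `P101.norm_toUltrapower_le`; for `r < 0` trivial). -/
theorem eventually_norm_gt (ω : Ultrafilter ℕ) {A : Type u} [CStarAlgebra A] [Nontrivial A]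
    (x : lp (fun _ : ℕ => A) ∞) {r : ℝ} (hr : r < ‖toUltrapower ω A x‖) :
    ∀ᶠ n in (ω : Filter ℕ), r < ‖x n‖ := by
  by_contra hcon
  have h1 : ∀ᶠ n in (ω : Filter ℕ), ‖x n‖ ≤ r := by
    have h2 := Ultrafilter.eventually_not.2 hcon
    filter_upwards [h2] with n hn
    exact not_lt.1 hn
  by_cases hr0 : 0 ≤ r
  · have h3 : ‖toUltrapower ω A x‖ ≤ r := norm_toUltrapower_le ω A x hr0 fun ε hε => by
      filter_upwards [h1] with n hn
      linarith
    linarith
  · obtain ⟨n, hn⟩ := h1.exists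
    have := norm_nonneg (x n)
    linarith

/-- if `r ≤ ‖x n‖ + ε` along `ω` for all `ε > 0` then `r ≤ ‖[x]‖` (`P101.eventually_norm_lt`) -/
theorem le_norm_toUltrapower (ω : Ultrafilter ℕ) {A : Type u} [CStarAlgebra A] [Nontrivial A]
    (x : lp (fun _ : ℕ => A) ∞) {r : ℝ} (h : ∀ ε > 0, ∀ᶠ n in (ω : Filter ℕ), r ≤ ‖x n‖ + ε) :
    r ≤ ‖toUltrapower ω A x‖ := by
  by_contra hcon
  push Not at hcon
  have h1 := eventually_norm_lt ω A x
    (show ‖toUltrapower ω A x‖ < ‖toUltrapower ω A x‖ + (r - ‖toUltrapower ω A x‖) / 3 by linarith)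
  have h2 := h ((r - ‖toUltrapower ω A x‖) / 3) (by linarith)
  obtain ⟨n, hn1, hn2⟩ := (h1.and h2).exists
  linarith

/-- **Reindexing lemma with independence.**  Same statement as `P101.exists_reindex`
(`Lib/P101/CopiesA.lean`, copy the proof) with one more conclusion.  In the choice of `m n` require
in addition `‖[Y k]‖ ‖C l n‖ - 1/(n+1) < ‖Y k j * C l n‖` for `k, l ≤ n`: by
`norm_const_mul` (and commutation) `‖[Y k] * [const (C l n)]‖ = ‖[Y k]‖ ‖C l n‖`, so this holds for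
`ω`-many `j` (`eventually_norm_gt`).  Then `‖[R (Y k)] [C l]‖ ≥ lim ‖Y k (m n) * C l n‖ ≥
‖[Y k]‖ lim ‖C l n‖ = ‖[Y k]‖ ‖[C l]‖` (`le_norm_toUltrapower`, `eventually_norm_gt` for `C l`). -/
theorem exists_reindexI (ω : Ultrafilter ℕ) (A : Type u) [CStarAlgebra A] [Nontrivial A]
    [IsSimpleRing A] (hω : (ω : Filter ℕ) ≤ Filter.cofinite)
    [TopologicalSpace.SeparableSpace A] {ι κ μ : Type} [Countable ι] [Countable κ] [Countable μ]
    (X : ι → lp (fun _ : ℕ => A) ∞) (Y : κ → lp (fun _ : ℕ => A) ∞)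
    (C : μ → lp (fun _ : ℕ => A) ∞) (hY : ∀ k, toUltrapower ω A (Y k) ∈ centralSeq ω A) :
    ∃ m : ℕ → ℕ,
      (∀ k, ‖toUltrapower ω A (reindex A m (X k))‖ ≤ ‖toUltrapower ω A (X k)‖) ∧
      (∀ k, toUltrapower ω A (reindex A m (Y k)) ∈ centralSeq ω A) ∧
      (∀ k l, Commute (toUltrapower ω A (reindex A m (Y k))) (toUltrapower ω A (C l))) ∧
      (∀ k l, ‖toUltrapower ω A (Y k)‖ * ‖toUltrapower ω A (C l)‖ ≤
        ‖toUltrapower ω A (reindex A m (Y k)) * toUltrapower ω A (C l)‖) := by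
  classical
  obtain ⟨f, hf⟩ := exists_injective_nat ι
  obtain ⟨g, hg⟩ := exists_injective_nat κ
  obtain ⟨e, he⟩ := exists_injective_nat μ
  have hfin : ∀ {α : Type} (φ : α → ℕ), Function.Injective φ → ∀ n, {k | φ k ≤ n}.Finite := by
    intro α φ hφ n
    exact (Set.finite_Iic n).preimage hφ.injOn
  let a : ℕ → A := TopologicalSpace.denseSeq A
  have hpos : ∀ n : ℕ, (0 : ℝ) < 1 / ((n : ℝ) + 1) := fun n => by positivity
  have key : ∀ n : ℕ, ∃ j : ℕ,
      (∀ k, f k ≤ n → ‖X k j‖ < ‖toUltrapower ω A (X k)‖ + 1 / ((n : ℝ) + 1)) ∧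
      (∀ k, g k ≤ n → ∀ i, i ≤ n → ‖Y k j * a i - a i * Y k j‖ < 1 / ((n : ℝ) + 1)) ∧
      (∀ k, g k ≤ n → ∀ l, e l ≤ n → ‖Y k j * C l n - C l n * Y k j‖ < 1 / ((n : ℝ) + 1)) ∧
      (∀ k, g k ≤ n → ∀ l, e l ≤ n →
        ‖toUltrapower ω A (Y k)‖ * ‖C l n‖ - 1 / ((n : ℝ) + 1) < ‖Y k j * C l n‖) := by
    intro n
    have h1 : ∀ᶠ j in (ω : Filter ℕ), ∀ k ∈ {k | f k ≤ n},
        ‖X k j‖ < ‖toUltrapower ω A (X k)‖ + 1 / ((n : ℝ) + 1) :=
      (Filter.eventually_all_finite (hfin f hf n)).2 fun k _ =>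
        eventually_norm_lt ω A (X k) (lt_add_of_pos_right _ (hpos n))
    have h2 : ∀ᶠ j in (ω : Filter ℕ), ∀ k ∈ {k | g k ≤ n}, ∀ i ∈ {i : ℕ | i ≤ n},
        ‖Y k j * a i - a i * Y k j‖ < 1 / ((n : ℝ) + 1) :=
      (Filter.eventually_all_finite (hfin g hg n)).2 fun k _ =>
        (Filter.eventually_all_finite (Set.finite_Iic n)).2 fun i _ =>
          eventually_comm_lt ω A (hY k) (a i) (hpos n)
    have h3 : ∀ᶠ j in (ω : Filter ℕ), ∀ k ∈ {k | g k ≤ n}, ∀ l ∈ {l | e l ≤ n},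
        ‖Y k j * C l n - C l n * Y k j‖ < 1 / ((n : ℝ) + 1) :=
      (Filter.eventually_all_finite (hfin g hg n)).2 fun k _ =>
        (Filter.eventually_all_finite (hfin e he n)).2 fun l _ =>
          eventually_comm_lt ω A (hY k) (C l n) (hpos n)
    have h4 : ∀ᶠ j in (ω : Filter ℕ), ∀ k ∈ {k | g k ≤ n}, ∀ l ∈ {l | e l ≤ n},
        ‖toUltrapower ω A (Y k)‖ * ‖C l n‖ - 1 / ((n : ℝ) + 1) < ‖Y k j * C l n‖ :=
      (Filter.eventually_all_finite (hfin g hg n)).2 fun k _ =>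
        (Filter.eventually_all_finite (hfin e he n)).2 fun l _ => by
          have h5 : toUltrapower ω A (constSeq A (C l n)) * toUltrapower ω A (Y k) =
              toUltrapower ω A (Y k) * toUltrapower ω A (constSeq A (C l n)) :=
            ((StarSubalgebra.mem_centralizer_iff ℂ).1 (hY k) _ ⟨C l n, rfl⟩).1
          have h6 : ‖toUltrapower ω A (Y k * constSeq A (C l n))‖ =
              ‖toUltrapower ω A (Y k)‖ * ‖C l n‖ := by
            rw [map_mul, ← h5, norm_const_mul ω (C l n) (hY k), mul_comm]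
          have h7 := eventually_norm_gt ω (Y k * constSeq A (C l n))
            (r := ‖toUltrapower ω A (Y k)‖ * ‖C l n‖ - 1 / ((n : ℝ) + 1))
            (by rw [h6]; linarith [hpos n])
          filter_upwards [h7] with j hj
          exact hj
    obtain ⟨j, hj1, hj2, hj3, hj4⟩ := (h1.and (h2.and (h3.and h4))).exists
    exact ⟨j, fun k hk => hj1 k hk, fun k hk i hi => hj2 k hk i hi,
      fun k hk l hl => hj3 k hk l hl, fun k hk l hl => hj4 k hk l hl⟩
  choose m hm1 hm2 hm3 hm4 using key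
  have hlarge : ∀ N : ℕ, ∀ᶠ n in (ω : Filter ℕ), N ≤ n := by
    intro N
    refine hω ?_
    rw [Nat.cofinite_eq_atTop]
    exact eventually_ge_atTop N
  have hsmall : ∀ ε > (0 : ℝ), ∀ᶠ n : ℕ in (ω : Filter ℕ), 1 / ((n : ℝ) + 1) < ε := by
    intro ε hε
    obtain ⟨N, hN⟩ := exists_nat_one_div_lt hε
    filter_upwards [hlarge N] with n hn
    refine lt_of_le_of_lt ?_ hN
    apply one_div_le_one_div_of_le (by positivity)
    have : (N : ℝ) ≤ n := by exact_mod_cast hn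
    linarith
  have hre : ∀ (x : lp (fun _ : ℕ => A) ∞) (n : ℕ), reindex A m x n = x (m n) := fun x n => rfl
  refine ⟨m, ?_, ?_, ?_, ?_⟩
  · intro k
    refine norm_toUltrapower_le ω A _ (norm_nonneg _) fun ε hε => ?_
    filter_upwards [hlarge (f k), hsmall ε hε] with n hn1 hn2
    rw [hre]
    exact (hm1 n k hn1).le.trans (by linarith)
  · intro k
    refine mem_centralSeq_of_commute ω A fun b => commute_of_eventually ω A fun ε hε => ?_
    set M : ℝ := ‖Y k‖ + 1 with hM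
    have hM0 : 0 < M := by positivity
    obtain ⟨i, hi⟩ := (TopologicalSpace.denseRange_denseSeq A).exists_dist_lt b
      (show (0 : ℝ) < ε / (4 * M) by positivity)
    have hi' : ‖b - a i‖ < ε / (4 * M) := by
      rw [← dist_eq_norm]; exact hi
    filter_upwards [hlarge (g k), hlarge i, hsmall (ε / 2) (by positivity)] with n hn1 hn2 hn3
    rw [hre]
    change ‖Y k (m n) * b - b * Y k (m n)‖ < ε
    have h1 := hm2 n k hn1 i hn2
    have h2 : ‖Y k (m n)‖ ≤ M := (lp.norm_apply_le_norm (by simp) (Y k) (m n)).trans (by linarith)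
    have h3 : Y k (m n) * b - b * Y k (m n) =
        (Y k (m n) * a i - a i * Y k (m n)) + (Y k (m n) * (b - a i) - (b - a i) * Y k (m n)) := by
      noncomm_ring
    rw [h3]
    have h4 : ‖Y k (m n) * (b - a i)‖ ≤ M * (ε / (4 * M)) :=
      (norm_mul_le _ _).trans (mul_le_mul h2 hi'.le (norm_nonneg _) hM0.le)
    have h5 : ‖(b - a i) * Y k (m n)‖ ≤ (ε / (4 * M)) * M :=
      (norm_mul_le _ _).trans (mul_le_mul hi'.le h2 (norm_nonneg _) (by positivity))
    have h6 : M * (ε / (4 * M)) = ε / 4 := by field_simp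
    have h7 : (ε / (4 * M)) * M = ε / 4 := by field_simp
    calc _ ≤ ‖Y k (m n) * a i - a i * Y k (m n)‖ +
          ‖Y k (m n) * (b - a i) - (b - a i) * Y k (m n)‖ := norm_add_le _ _
      _ ≤ ‖Y k (m n) * a i - a i * Y k (m n)‖ +
          (‖Y k (m n) * (b - a i)‖ + ‖(b - a i) * Y k (m n)‖) := by
          gcongr
          exact norm_sub_le _ _
      _ < ε := by
          rw [h6] at h4; rw [h7] at h5
          linarith
  · intro k l
    refine commute_of_eventually ω A fun ε hε => ?_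
    filter_upwards [hlarge (g k), hlarge (e l), hsmall ε hε] with n hn1 hn2 hn3
    rw [hre]
    exact (hm3 n k hn1 l hn2).trans hn3
  · intro k l
    rw [← map_mul]
    refine le_norm_toUltrapower ω _ fun ε hε => ?_
    obtain ⟨a0, ha0⟩ : ∃ a0, a0 = ‖toUltrapower ω A (Y k)‖ := ⟨_, rfl⟩
    obtain ⟨b0, hb0⟩ : ∃ b0, b0 = ‖toUltrapower ω A (C l)‖ := ⟨_, rfl⟩
    have ha : 0 ≤ a0 := ha0 ▸ norm_nonneg _
    have hδ : 0 < ε / (2 * (a0 + 1)) := by positivity
    have h8 := eventually_norm_gt ω (C l) (r := b0 - ε / (2 * (a0 + 1)))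
      (by rw [← hb0]; linarith)
    filter_upwards [hlarge (g k), hlarge (e l), hsmall (ε / 2) (by positivity), h8]
      with n hn1 hn2 hn3 hn4
    have h9 := hm4 n k hn1 l hn2
    rw [← ha0] at h9 ⊢
    rw [← hb0]
    change a0 * b0 ≤ ‖Y k (m n) * C l n‖ + ε
    have h10 : a0 * (b0 - ε / (2 * (a0 + 1))) ≤ a0 * ‖C l n‖ :=
      mul_le_mul_of_nonneg_left hn4.le ha
    have h11 : a0 * (ε / (2 * (a0 + 1))) ≤ ε / 2 := by
      rw [mul_div_assoc', div_le_div_iff₀ (by positivity) (by norm_num)]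
      nlinarith
    have h12 : a0 * (b0 - ε / (2 * (a0 + 1))) = a0 * b0 - a0 * (ε / (2 * (a0 + 1))) := by ring
    linarith

end P095F
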