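import Vale.Agent.Lib.P095F.Defs

/-!
# P095F: elementary facts on positive tracial functionals (facts F1, F2 of `PROOF2.md`)
-/

open scoped Topology ComplexConjugate

namespace P095F

universe u v

section Basic

variable {E : Type u} [CStarAlgebra E] {ψ : E →ₗ[ℂ] ℂ}

theorem PTr.sq2_nonneg (h : PTr ψ) (x : E) : 0 ≤ sq2 ψ x := h.nonneg x

theorem PTr.star_mul_self_eq (h : PTr ψ) (x : E) : ψ (star x * x) = (sq2 ψ x : ℂ) := by
  apply Complex.ext
  · simp [sq2]
  · simp [h.im_eq x]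

theorem PTr.sq2_star (h : PTr ψ) (x : E) : sq2 ψ (star x) = sq2 ψ x := by
  unfold sq2
  rw [star_star, h.comm]

theorem PTr.one_im (h : PTr ψ) : (ψ 1).im = 0 := by
  have := h.im_eq 1
  simpa using this

theorem PTr.one_re (h : PTr ψ) : 0 ≤ (ψ 1).re := by
  have := h.nonneg 1
  simpa using this

theorem PTr.star_map (h : PTr ψ) (x : E) : ψ (star x) = conj (ψ x) := by
  have h1 := h.im_eq (1 + x)
  have h2 := h.im_eq (1 + Complex.I • x)
  have hx := h.im_eq x
  have h0 := h.one_im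
  have e1 : star (1 + x) * (1 + x) = 1 + x + star x + star x * x := by
    rw [star_add, star_one, add_mul, mul_add, mul_add, one_mul, mul_one, one_mul]
    abel
  have e2 : star (1 + Complex.I • x) * (1 + Complex.I • x) =
      1 + Complex.I • x - Complex.I • star x + star x * x := by
    rw [star_add, star_one, star_smul, add_mul, mul_add, mul_add, one_mul, mul_one, one_mul,
      smul_mul_smul_comm]
    simp only [RCLike.star_def, Complex.conj_I, neg_mul, Complex.I_mul_I, neg_neg, one_smul,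
      neg_smul]
    abel
  rw [e1, map_add, map_add, map_add, Complex.add_im, Complex.add_im, Complex.add_im, h0, hx] at h1
  rw [e2, map_add, map_sub, map_add, map_smul, map_smul, Complex.add_im, Complex.sub_im,
    Complex.add_im, h0, hx] at h2
  simp only [smul_eq_mul, Complex.mul_im, Complex.I_re, Complex.I_im, zero_mul, one_mul,
    zero_add, add_zero] at h1 h2
  apply Complex.ext
  · rw [Complex.conj_re]
    linarith
  · rw [Complex.conj_im]
    linarith

/-- the semi-inner product `ψ(x* y)` -/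
@[instance_reducible]
noncomputable def PTr.core (h : PTr ψ) : PreInnerProductSpace.Core ℂ E where
  inner x y := ψ (star x * y)
  conj_inner_symm x y := by
    rw [← h.star_map, star_mul, star_star]
  re_inner_nonneg x := h.nonneg x
  add_left x y z := by
    rw [star_add, add_mul, map_add]
  smul_left x y r := by
    rw [star_smul, smul_mul_assoc, map_smul]
    rfl

/-- Cauchy-Schwarz -/
theorem PTr.cs_sq (h : PTr ψ) (x y : E) : ‖ψ (star x * y)‖ ^ 2 ≤ sq2 ψ x * sq2 ψ y := by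
  have h1 := @InnerProductSpace.Core.inner_mul_inner_self_le ℂ E _ _ _ h.core x y
  have h2 : ‖ψ (star y * x)‖ = ‖ψ (star x * y)‖ := by
    have : star y * x = star (star x * y) := by rw [star_mul, star_star]
    rw [this, h.star_map, Complex.norm_conj]
  have h3 : ‖ψ (star x * y)‖ * ‖ψ (star y * x)‖ ≤ sq2 ψ x * sq2 ψ y := h1
  rw [h2] at h3
  rw [pow_two]
  exact h3

/-- Cauchy-Schwarz -/
theorem PTr.cs (h : PTr ψ) (x y : E) : ‖ψ (star x * y)‖ ≤ √(sq2 ψ x) * √(sq2 ψ y) := by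
  rw [← Real.sqrt_mul (h.sq2_nonneg x)]
  exact Real.le_sqrt_of_sq_le (h.cs_sq x y)

/-- Cauchy-Schwarz -/
theorem PTr.cs_mul (h : PTr ψ) (x y : E) : ‖ψ (x * y)‖ ≤ √(sq2 ψ x) * √(sq2 ψ y) := by
  have := h.cs (star x) y
  rwa [star_star, h.sq2_star] at this

/-- Cauchy-Schwarz -/
theorem PTr.cs_re (h : PTr ψ) (x y : E) : (ψ (star x * y)).re ≤ √(sq2 ψ x) * √(sq2 ψ y) :=
  (Complex.re_le_norm _).trans (h.cs x y)

theorem PTr.sq2_add (h : PTr ψ) (x y : E) :
    sq2 ψ (x + y) = sq2 ψ x + 2 * (ψ (star x * y)).re + sq2 ψ y := by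
  have h1 : ψ (star y * x) = conj (ψ (star x * y)) := by
    rw [← h.star_map, star_mul, star_star]
  unfold sq2
  rw [star_add, add_mul, mul_add, mul_add, map_add, map_add, map_add, h1, Complex.add_re,
    Complex.add_re, Complex.add_re, Complex.conj_re]
  ring

theorem sq2_neg (x : E) : sq2 ψ (-x) = sq2 ψ x := by
  unfold sq2
  rw [star_neg, neg_mul_neg]

theorem sq2_zero : sq2 ψ (0 : E) = 0 := by
  unfold sq2
  rw [mul_zero, map_zero, Complex.zero_re]

theorem sq2_smul (c : ℂ) (x : E) : sq2 ψ (c • x) = ‖c‖ ^ 2 * sq2 ψ x := by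
  unfold sq2
  rw [star_smul, smul_mul_smul_comm, map_smul, smul_eq_mul]
  have : (star c * c : ℂ) = ((‖c‖ ^ 2 : ℝ) : ℂ) := by
    rw [RCLike.star_def, ← Complex.normSq_eq_conj_mul_self, Complex.normSq_eq_norm_sq]
  rw [this, Complex.re_ofReal_mul]

theorem PTr.sq2_sub (h : PTr ψ) (x y : E) :
    sq2 ψ (x - y) = sq2 ψ x - 2 * (ψ (star x * y)).re + sq2 ψ y := by
  rw [sub_eq_add_neg, h.sq2_add, sq2_neg, mul_neg, map_neg, Complex.neg_re]
  ring

/-- triangle inequality -/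
theorem PTr.sqrt_sq2_add_le (h : PTr ψ) (x y : E) :
    √(sq2 ψ (x + y)) ≤ √(sq2 ψ x) + √(sq2 ψ y) := by
  have h1 := h.cs_re x y
  have hx := Real.sq_sqrt (h.sq2_nonneg x)
  have hy := Real.sq_sqrt (h.sq2_nonneg y)
  apply Real.sqrt_le_iff.2
  refine ⟨by positivity, ?_⟩
  rw [h.sq2_add]
  nlinarith

theorem PTr.sqrt_sq2_sub_le (h : PTr ψ) (x y : E) :
    √(sq2 ψ (x - y)) ≤ √(sq2 ψ x) + √(sq2 ψ y) := by
  rw [sub_eq_add_neg]
  refine (h.sqrt_sq2_add_le x (-y)).trans ?_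
  rw [sq2_neg]

theorem PTr.sq2_add_le (h : PTr ψ) (x y : E) : sq2 ψ (x + y) ≤ 2 * sq2 ψ x + 2 * sq2 ψ y := by
  have h1 := h.sq2_add x y
  have h2 := h.sq2_sub x y
  have h3 := h.sq2_nonneg (x - y)
  linarith

theorem PTr.sq2_sub_le (h : PTr ψ) (x y : E) : sq2 ψ (x - y) ≤ 2 * sq2 ψ x + 2 * sq2 ψ y := by
  rw [sub_eq_add_neg]
  refine (h.sq2_add_le x (-y)).trans ?_
  rw [sq2_neg]

/-- triangle inequality for finite sums -/
theorem PTr.sqrt_sq2_sum_le (h : PTr ψ) {ι : Type*} (s : Finset ι) (f : ι → E) :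
    √(sq2 ψ (∑ i ∈ s, f i)) ≤ ∑ i ∈ s, √(sq2 ψ (f i)) := by
  classical
  induction s using Finset.induction_on with
  | empty => rw [Finset.sum_empty, Finset.sum_empty, sq2_zero, Real.sqrt_zero]
  | insert a s ha ih =>
    rw [Finset.sum_insert ha, Finset.sum_insert ha]
    exact (h.sqrt_sq2_add_le _ _).trans (add_le_add le_rfl ih)

/-- composition with an automorphism -/
theorem PTr.comp (h : PTr ψ) (s : E ≃⋆ₐ[ℂ] E) :
    PTr (ψ ∘ₗ ((s : E →⋆ₐ[ℂ] E).toAlgHom.toLinearMap)) := by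
  refine ⟨fun x => ?_, fun x => ?_, fun x y => ?_⟩
  · change 0 ≤ (ψ (s (star x * x))).re
    rw [map_mul, map_star]
    exact h.nonneg _
  · change (ψ (s (star x * x))).im = 0
    rw [map_mul, map_star]
    exact h.im_eq _
  · change ψ (s (x * y)) = ψ (s (y * x))
    rw [map_mul s, map_mul s, h.comm]

end Basic

section Order

variable {E : Type u} [CStarAlgebra E] [PartialOrder E] [StarOrderedRing E] {ψ : E →ₗ[ℂ] ℂ}

theorem PTr.re_nonneg (h : PTr ψ) {x : E} (hx : 0 ≤ x) : 0 ≤ (ψ x).re := by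
  obtain ⟨y, rfl⟩ := CStarAlgebra.nonneg_iff_eq_star_mul_self.1 hx
  exact h.nonneg y

omit [PartialOrder E] [StarOrderedRing E] in
theorem PTr.im_eq_zero (h : PTr ψ) {x : E} (hx : IsSelfAdjoint x) : (ψ x).im = 0 := by
  have h1 := h.star_map x
  rw [hx.star_eq] at h1
  have h2 := congrArg Complex.im h1
  rw [Complex.conj_im] at h2
  linarith

/-- monotonicity -/
theorem PTr.mono (h : PTr ψ) {x y : E} (hxy : x ≤ y) : (ψ x).re ≤ (ψ y).re := by
  have h1 := h.re_nonneg (sub_nonneg.2 hxy)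
  rw [map_sub, Complex.sub_re] at h1
  linarith

theorem PTr.conj_mono (h : PTr ψ) (z : E) {x y : E} (hxy : x ≤ y) :
    (ψ (star z * x * z)).re ≤ (ψ (star z * y * z)).re :=
  h.mono (star_left_conjugate_le_conjugate hxy z)

/-- monotonicity of `x ↦ ψ(z* z x)` -/
theorem PTr.wmono (h : PTr ψ) (z : E) {x y : E} (hxy : x ≤ y) :
    (ψ (star z * z * x)).re ≤ (ψ (star z * z * y)).re := by
  have h1 : ∀ w : E, ψ (star z * z * w) = ψ (z * w * star z) := fun w => by
    rw [mul_assoc, h.comm]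
  rw [h1, h1]
  exact h.mono (star_right_conjugate_le_conjugate hxy z)

/-- `ψ(x y) ≥ 0` for `x, y ≥ 0` -/
theorem PTr.mul_nonneg (h : PTr ψ) {x y : E} (hx : 0 ≤ x) (hy : 0 ≤ y) : 0 ≤ (ψ (x * y)).re := by
  obtain ⟨z, rfl⟩ := CStarAlgebra.nonneg_iff_eq_star_mul_self.1 hx
  have h1 := h.wmono z hy
  rw [mul_zero, map_zero, Complex.zero_re] at h1
  exact h1

theorem PTr.mul_mono_right (h : PTr ψ) {x y y' : E} (hx : 0 ≤ x) (hy : y ≤ y') :
    (ψ (x * y)).re ≤ (ψ (x * y')).re := by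
  have h1 := h.mul_nonneg hx (sub_nonneg.2 hy)
  rw [mul_sub, map_sub, Complex.sub_re] at h1
  linarith

theorem PTr.mul_mono_left (h : PTr ψ) {x x' y : E} (hx : x ≤ x') (hy : 0 ≤ y) :
    (ψ (x * y)).re ≤ (ψ (x' * y)).re := by
  have h1 := h.mul_nonneg (sub_nonneg.2 hx) hy
  rw [sub_mul, map_sub, Complex.sub_re] at h1
  linarith

theorem PTr.mul_mono (h : PTr ψ) {x x' y y' : E} (hx : x ≤ x') (hx' : 0 ≤ x') (hy0 : 0 ≤ y)
    (hy : y ≤ y') : (ψ (x * y)).re ≤ (ψ (x' * y')).re :=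
  (h.mul_mono_left hx hy0).trans (h.mul_mono_right hx' hy)

/-- `x* x ≤ ‖x‖² 1` -/
theorem star_mul_self_le_norm (x : E) : star x * x ≤ algebraMap ℝ E (‖x‖ ^ 2) := by
  have h1 : IsSelfAdjoint (star x * x) := IsSelfAdjoint.star_mul_self x
  have h2 := IsSelfAdjoint.le_algebraMap_norm_self h1
  rwa [CStarRing.norm_star_mul_self, ← pow_two] at h2

omit [PartialOrder E] [StarOrderedRing E] in
theorem map_algebraMap_re (r : ℝ) : (ψ (algebraMap ℝ E r)).re = r * (ψ 1).re := by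
  rw [Algebra.algebraMap_eq_smul_one, ← Complex.coe_smul, map_smul, smul_eq_mul,
    Complex.re_ofReal_mul]

theorem PTr.sq2_mul_le_left (h : PTr ψ) (x y : E) : sq2 ψ (x * y) ≤ ‖x‖ ^ 2 * sq2 ψ y := by
  have h1 := h.conj_mono y (star_mul_self_le_norm x)
  have h2 : sq2 ψ (x * y) = (ψ (star y * (star x * x) * y)).re := by
    unfold sq2
    rw [star_mul]
    simp only [mul_assoc]
  rw [h2]
  refine h1.trans (le_of_eq ?_)
  rw [Algebra.algebraMap_eq_smul_one, ← Complex.coe_smul, mul_smul_comm, mul_one, smul_mul_assoc,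
    map_smul, smul_eq_mul, Complex.re_ofReal_mul]
  rfl

theorem PTr.sq2_mul_le_right (h : PTr ψ) (x y : E) : sq2 ψ (x * y) ≤ ‖y‖ ^ 2 * sq2 ψ x := by
  have h1 := h.sq2_mul_le_left (star y) (star x)
  rwa [← star_mul, h.sq2_star, h.sq2_star, norm_star] at h1

theorem PTr.sq2_le (h : PTr ψ) (x : E) : sq2 ψ x ≤ ‖x‖ ^ 2 * (ψ 1).re := by
  have h1 := h.sq2_mul_le_left x 1
  have h2 : sq2 ψ (1 : E) = (ψ 1).re := by
    unfold sq2
    rw [star_one, one_mul]
  rwa [mul_one, h2] at h1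

theorem PTr.norm_map_le (h : PTr ψ) (x : E) : ‖ψ x‖ ≤ ‖x‖ * (ψ 1).re := by
  have h1 := h.cs 1 x
  have h2 : sq2 ψ (1 : E) = (ψ 1).re := by
    unfold sq2
    rw [star_one, one_mul]
  rw [star_one, one_mul, h2] at h1
  refine h1.trans ?_
  have h3 : √(sq2 ψ x) ≤ ‖x‖ * √((ψ 1).re) := by
    have h5 := Real.sqrt_le_sqrt (h.sq2_le x)
    rwa [Real.sqrt_mul (sq_nonneg _), Real.sqrt_sq (norm_nonneg x)] at h5
  have h4 := Real.mul_self_sqrt h.one_re
  calc √((ψ 1).re) * √(sq2 ψ x) ≤ √((ψ 1).re) * (‖x‖ * √((ψ 1).re)) :=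
        mul_le_mul_of_nonneg_left h3 (Real.sqrt_nonneg _)
    _ = ‖x‖ * (√((ψ 1).re) * √((ψ 1).re)) := by ring
    _ = ‖x‖ * (ψ 1).re := by rw [h4]

end Order

section Order'

/-! Versions without order instances. -/

variable {E : Type u} [CStarAlgebra E] {ψ : E →ₗ[ℂ] ℂ}

theorem PTr.sq2_mul_le_left' (h : PTr ψ) (x y : E) : sq2 ψ (x * y) ≤ ‖x‖ ^ 2 * sq2 ψ y := by
  let _ := CStarAlgebra.spectralOrder E
  have := CStarAlgebra.spectralOrderedRing E
  exact h.sq2_mul_le_left x y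

theorem PTr.sq2_mul_le_right' (h : PTr ψ) (x y : E) : sq2 ψ (x * y) ≤ ‖y‖ ^ 2 * sq2 ψ x := by
  let _ := CStarAlgebra.spectralOrder E
  have := CStarAlgebra.spectralOrderedRing E
  exact h.sq2_mul_le_right x y

theorem PTr.sq2_le' (h : PTr ψ) (x : E) : sq2 ψ x ≤ ‖x‖ ^ 2 * (ψ 1).re := by
  let _ := CStarAlgebra.spectralOrder E
  have := CStarAlgebra.spectralOrderedRing E
  exact h.sq2_le x

theorem PTr.norm_map_le' (h : PTr ψ) (x : E) : ‖ψ x‖ ≤ ‖x‖ * (ψ 1).re := by
  let _ := CStarAlgebra.spectralOrder E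
  have := CStarAlgebra.spectralOrderedRing E
  exact h.norm_map_le x

end Order'

section RelComm

variable {M : Type u} [CStarAlgebra M]

/-- the relative commutant `M ∩ B'` -/
abbrev relComm (B : StarSubalgebra ℂ M) : StarSubalgebra ℂ M :=
  StarSubalgebra.centralizer ℂ (B : Set M)

instance relComm_isClosed (B : StarSubalgebra ℂ M) : IsClosed (relComm B : Set M) := by
  rw [relComm, StarSubalgebra.coe_centralizer]
  exact Set.isClosed_centralizer _

noncomputable example (B : StarSubalgebra ℂ M) : CStarAlgebra (relComm B) := inferInstance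

theorem mem_relComm {B : StarSubalgebra ℂ M} {x : M} :
    x ∈ relComm B ↔ ∀ b ∈ B, Commute x b := by
  constructor
  · intro hx b hb
    exact ((StarSubalgebra.mem_centralizer_iff ℂ).1 hx b hb).1.symm
  · intro hx
    refine (StarSubalgebra.mem_centralizer_iff ℂ).2 fun b hb => ⟨(hx b hb).eq.symm, ?_⟩
    exact (hx (star b) (star_mem hb)).eq.symm

/-- the functional `x ↦ τ(z* z x)` on the relative commutant of `B` -/
noncomputable def locTr (τ : M →ₗ[ℂ] ℂ) (B : StarSubalgebra ℂ M) (z : M) :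
    relComm B →ₗ[ℂ] ℂ where
  toFun x := τ (star z * z * (x : M))
  map_add' x y := by
    change τ (star z * z * ((x : M) + (y : M))) = _
    rw [mul_add, map_add]
  map_smul' c x := by
    change τ (star z * z * (c • (x : M))) = _
    rw [mul_smul_comm, map_smul, RingHom.id_apply]

theorem locTr_apply (τ : M →ₗ[ℂ] ℂ) (B : StarSubalgebra ℂ M) (z : M) (x : relComm B) :
    locTr τ B z x = τ (star z * z * (x : M)) := rfl

theorem PTr.locTr {τ : M →ₗ[ℂ] ℂ} (hτ : PTr τ) {B : StarSubalgebra ℂ M} {z : M} (hz : z ∈ B) :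
    PTr (locTr τ B z) := by
  have key : ∀ x : relComm B, P095F.locTr τ B z (star x * x) =
      τ (star ((x : M) * z) * ((x : M) * z)) := by
    intro x
    have h1 : Commute (x : M) z := mem_relComm.1 x.2 z hz
    have h2 : Commute (star (x : M)) z := mem_relComm.1 (star_mem x.2) z hz
    rw [locTr_apply]
    change τ (star z * z * (star (x : M) * (x : M))) = _
    rw [star_mul]
    congr 1
    rw [mul_assoc, ← mul_assoc z, ← h2.eq, mul_assoc, ← h1.eq]
    simp only [mul_assoc]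
  refine ⟨fun x => ?_, fun x => ?_, fun x y => ?_⟩
  · rw [key]
    exact hτ.nonneg _
  · rw [key]
    exact hτ.im_eq _
  · rw [locTr_apply, locTr_apply]
    change τ (star z * z * ((x : M) * (y : M))) = τ (star z * z * ((y : M) * (x : M)))
    have hy : Commute (y : M) (star z * z) := mem_relComm.1 y.2 _ (mul_mem (star_mem hz) hz)
    rw [← mul_assoc, hτ.comm, ← mul_assoc, hy.eq, mul_assoc]

/-- restriction to the relative commutant -/
theorem PTr.restrict {τ : M →ₗ[ℂ] ℂ} (hτ : PTr τ) (B : StarSubalgebra ℂ M) :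
    PTr (τ ∘ₗ (relComm B).subtype.toAlgHom.toLinearMap) :=
  ⟨fun x => hτ.nonneg (x : M), fun x => hτ.im_eq (x : M), fun x y => hτ.comm (x : M) (y : M)⟩

end RelComm

end P095F
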