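import Vale.Agent.Lib.P095F.CBDefs
import Vale.Agent.Lib.P095F.PTrBasic
import Vale.Agent.Lib.P101.CopiesA

/-!
# P095F, part CB, module Seq: representing sequences

`[y] = toUltrapower ω A y`.  `lp (fun _ : ℕ => A) ∞` are the bounded sequences.
-/

open scoped ENNReal Topology
open Filter P101 P095E

namespace P095F

universe u

variable (ω : Ultrafilter ℕ) {A : Type u} [CStarAlgebra A] [Nontrivial A]

/-- an element of `F_ω(A)` has a representing sequence (`quotMk_surjective (cNull ω A)`) -/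
theorem exists_rep (x : FOmega ω A) :
    ∃ y : lp (fun _ : ℕ => A) ∞, toUltrapower ω A y = (x : Ultrapower ω A) :=
  quotMk_surjective (cNull ω A) (x : Ultrapower ω A)

private theorem cbseq_gt (z : lp (fun _ : ℕ => A) ∞) {r : ℝ} (hr : r < ‖toUltrapower ω A z‖) :
    ∀ᶠ n in (ω : Filter ℕ), r < ‖z n‖ := by
  by_contra hcon
  have h1 : ∀ᶠ n in (ω : Filter ℕ), ¬ r < ‖z n‖ := Ultrafilter.eventually_not.2 hcon
  have h2 : 0 ≤ r := by
    obtain ⟨n, hn⟩ := h1.exists
    exact (norm_nonneg (z n)).trans (not_lt.1 hn)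
  have h3 : ‖toUltrapower ω A z‖ ≤ r := by
    refine norm_toUltrapower_le ω A z h2 fun ε hε => ?_
    filter_upwards [h1] with n hn
    exact (not_lt.1 hn).trans (by linarith)
  linarith

/-- a null difference does not change the class -/
private theorem cbseq_class {y z : lp (fun _ : ℕ => A) ∞}
    (h : ∀ ε : ℝ, 0 < ε → ∀ᶠ n in (ω : Filter ℕ), ‖y n - z n‖ ≤ ε) :
    toUltrapower ω A y = toUltrapower ω A z := by
  rw [← sub_eq_zero, ← map_sub, toUltrapower_eq_zero_iff, Metric.tendsto_nhds]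
  intro ε hε
  filter_upwards [h (ε / 2) (by positivity)] with n hn
  rw [dist_zero_right, norm_norm]
  change ‖y n - z n‖ < ε
  linarith

omit [Nontrivial A] in
private theorem cbseq_scale (c : A) {t : ℝ} (ht : 0 ≤ t) :
    ∃ d : A, (t : ℂ) • (star c * c) = star d * d := by
  refine ⟨(√t : ℂ) • c, ?_⟩
  rw [star_smul, smul_mul_smul_comm]
  congr 1
  rw [RCLike.star_def, Complex.conj_ofReal, ← Complex.ofReal_mul, Real.mul_self_sqrt ht]

/-- Nonnegative contractions have representing sequences of nonnegative contractions.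
`x = c* c`, `c = [c_n]`; `y n = star (d n) * d n` with `d n = (max 1 ‖c n‖)⁻¹ c n`: `‖c n‖ → ‖c‖ ≤ 1`
from above (`P101.eventually_norm_lt`), so `‖d n - c n‖ = ‖c n‖ - 1 → 0` where `‖c n‖ > 1`. -/
theorem exists_rep_pos {x : FOmega ω A} (hx : ∃ c, x = star c * c) (hn : ‖x‖ ≤ 1) :
    ∃ y : lp (fun _ : ℕ => A) ∞, toUltrapower ω A y = (x : Ultrapower ω A) ∧
      (∀ n, ∃ c : A, y n = star c * c) ∧ ∀ n, ‖y n‖ ≤ 1 := by
  obtain ⟨c, hc⟩ := hx
  obtain ⟨yc, hyc⟩ := exists_rep ω c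
  set z : lp (fun _ : ℕ => A) ∞ := star yc * yc with hz
  have hzn : ∀ n, z n = star (yc n) * yc n := fun n => rfl
  have hzx : toUltrapower ω A z = (x : Ultrapower ω A) := by
    rw [hz, map_mul, map_star, hyc, hc]
    rfl
  have hm : ∀ n, 0 < max 1 ‖z n‖ := fun n => lt_of_lt_of_le one_pos (le_max_left _ _)
  have hb : ∀ n, ‖(((max 1 ‖z n‖)⁻¹ : ℝ) : ℂ) • z n‖ ≤ 1 := by
    intro n
    rw [norm_smul, Complex.norm_real, Real.norm_of_nonneg (inv_nonneg.2 (hm n).le),
      inv_mul_le_iff₀ (hm n), mul_one]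
    exact le_max_right _ _
  let y : lp (fun _ : ℕ => A) ∞ := ⟨fun n => (((max 1 ‖z n‖)⁻¹ : ℝ) : ℂ) • z n,
    memℓp_infty ⟨1, by rintro _ ⟨n, rfl⟩; exact hb n⟩⟩
  have hyn : ∀ n, y n = (((max 1 ‖z n‖)⁻¹ : ℝ) : ℂ) • z n := fun n => rfl
  refine ⟨y, ?_, fun n => ?_, hb⟩
  · rw [← hzx]
    refine cbseq_class ω fun ε hε => ?_
    have h1 : ‖toUltrapower ω A z‖ < 1 + ε := by
      rw [hzx]
      exact lt_of_le_of_lt hn (by linarith)
    filter_upwards [eventually_norm_lt ω A z h1] with n hn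
    have h2 : y n - z n = (((max 1 ‖z n‖)⁻¹ - 1 : ℝ) : ℂ) • z n := by
      rw [hyn]
      push_cast
      rw [sub_smul, one_smul]
    rw [h2, norm_smul, Complex.norm_real, Real.norm_eq_abs]
    rcases le_total ‖z n‖ 1 with h3 | h3
    · rw [max_eq_left h3]
      simp [hε.le]
    · rw [max_eq_right h3]
      have h4 : 0 < ‖z n‖ := lt_of_lt_of_le one_pos h3
      have h5 : ‖z n‖⁻¹ ≤ 1 := inv_le_one_of_one_le₀ h3
      rw [abs_of_nonpos (by linarith), neg_sub, sub_mul, one_mul, inv_mul_cancel₀ h4.ne']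
      linarith
  · rw [hyn, hzn]
    exact cbseq_scale (yc n) (inv_nonneg.2 (by rw [← hzn]; exact (hm n).le))

/-- Nonnegative elements of norm `1` have representing sequences of nonnegative elements of norm
`1`.  `x = c* c`, `c = [c_n]`, `‖c‖ = 1`; `d n = ‖c n‖⁻¹ c n` if `‖c n‖ ≥ 1/2`, and `d n = 1`
otherwise (this happens only off `ω`, as `‖c n‖ → 1` along `ω`: `P101.eventually_norm_lt` and, for
the lower bound, `P101.norm_toUltrapower_le` and the ultrafilter property). -/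
theorem exists_rep_one {x : FOmega ω A} (hx : ∃ c, x = star c * c) (hn : ‖x‖ = 1) :
    ∃ y : lp (fun _ : ℕ => A) ∞, toUltrapower ω A y = (x : Ultrapower ω A) ∧
      (∀ n, ∃ c : A, y n = star c * c) ∧ ∀ n, ‖y n‖ = 1 := by
  classical
  obtain ⟨c, hc⟩ := hx
  obtain ⟨yc, hyc⟩ := exists_rep ω c
  set z : lp (fun _ : ℕ => A) ∞ := star yc * yc with hz
  have hzn : ∀ n, z n = star (yc n) * yc n := fun n => rfl
  have hzx : toUltrapower ω A z = (x : Ultrapower ω A) := by
    rw [hz, map_mul, map_star, hyc, hc]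
    rfl
  have hb : ∀ n, ‖(if (1 / 2 : ℝ) < ‖z n‖ then ((‖z n‖⁻¹ : ℝ) : ℂ) • z n else (1 : A))‖ = 1 := by
    intro n
    by_cases h : (1 / 2 : ℝ) < ‖z n‖
    · rw [if_pos h, norm_smul, Complex.norm_real, Real.norm_of_nonneg
        (inv_nonneg.2 (norm_nonneg _)), inv_mul_cancel₀ (by linarith)]
    · rw [if_neg h, CStarRing.norm_one]
  let y : lp (fun _ : ℕ => A) ∞ :=
    ⟨fun n => if (1 / 2 : ℝ) < ‖z n‖ then ((‖z n‖⁻¹ : ℝ) : ℂ) • z n else (1 : A),
    memℓp_infty ⟨1, by rintro _ ⟨n, rfl⟩; exact (hb n).le⟩⟩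
  have hyn : ∀ n, y n = if (1 / 2 : ℝ) < ‖z n‖ then ((‖z n‖⁻¹ : ℝ) : ℂ) • z n else (1 : A) :=
    fun n => rfl
  refine ⟨y, ?_, fun n => ?_, hb⟩
  · rw [← hzx]
    refine cbseq_class ω fun ε hε => ?_
    have h1 : ‖toUltrapower ω A z‖ < 1 + ε := by
      rw [hzx, show ‖(x : Ultrapower ω A)‖ = 1 from hn]
      linarith
    have h1' : max (1 / 2) (1 - ε) < ‖toUltrapower ω A z‖ := by
      rw [hzx, show ‖(x : Ultrapower ω A)‖ = 1 from hn]
      exact max_lt (by norm_num) (by linarith)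
    filter_upwards [eventually_norm_lt ω A z h1, cbseq_gt ω z h1'] with n hn hn'
    have h3 : (1 / 2 : ℝ) < ‖z n‖ := lt_of_le_of_lt (le_max_left _ _) hn'
    have h4 : 1 - ε < ‖z n‖ := lt_of_le_of_lt (le_max_right _ _) hn'
    have h2 : y n - z n = ((‖z n‖⁻¹ - 1 : ℝ) : ℂ) • z n := by
      rw [hyn, if_pos h3]
      push_cast
      rw [sub_smul, one_smul]
    have h0 : 0 < ‖z n‖ := by linarith
    rw [h2, norm_smul, Complex.norm_real, Real.norm_eq_abs]
    have h5 : |‖z n‖⁻¹ - 1| * ‖z n‖ = |1 - ‖z n‖| := by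
      rw [← abs_of_pos h0, ← abs_mul, abs_of_pos h0, sub_mul, inv_mul_cancel₀ h0.ne', one_mul]
    rw [h5, abs_le]
    exact ⟨by linarith, by linarith⟩
  · by_cases h : (1 / 2 : ℝ) < ‖z n‖
    · rw [hyn, if_pos h, hzn]
      exact cbseq_scale (yc n) (inv_nonneg.2 (norm_nonneg _))
    · exact ⟨1, by rw [hyn, if_neg h, star_one, one_mul]⟩

/-- representing sequences commute asymptotically with every element of `A`
(`P101.eventually_comm_lt`) -/
theorem rep_comm {x : FOmega ω A} {y : lp (fun _ : ℕ => A) ∞}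
    (hy : toUltrapower ω A y = (x : Ultrapower ω A)) (a : A) {ε : ℝ} (hε : 0 < ε) :
    ∀ᶠ n in (ω : Filter ℕ), ‖y n * a - a * y n‖ ≤ ε := by
  have h1 : toUltrapower ω A y ∈ centralSeq ω A := by
    rw [hy]
    exact x.2
  filter_upwards [eventually_comm_lt ω A h1 a hε] with n hn
  exact hn.le

/-- A bounded sequence which commutes asymptotically with a dense sequence of `A` represents an
element of `F_ω(A)` (`P101.commute_of_eventually`, `P101.mem_centralSeq_of_commute`, density). -/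
theorem exists_of_seq {a : ℕ → A} (ha : DenseRange a) (s : ℕ → A) {C : ℝ} (hs : ∀ n, ‖s n‖ ≤ C)
    (h : ∀ (k : ℕ) (ε : ℝ), 0 < ε → ∀ᶠ n in (ω : Filter ℕ), ‖s n * a k - a k * s n‖ ≤ ε) :
    ∃ (x : FOmega ω A) (y : lp (fun _ : ℕ => A) ∞), (∀ n, y n = s n) ∧
      toUltrapower ω A y = (x : Ultrapower ω A) := by
  let y : lp (fun _ : ℕ => A) ∞ := ⟨s, memℓp_infty ⟨C, by rintro _ ⟨n, rfl⟩; exact hs n⟩⟩
  have hC : 0 ≤ C := (norm_nonneg _).trans (hs 0)
  have hmem : toUltrapower ω A y ∈ centralSeq ω A := by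
    refine mem_centralSeq_of_commute ω A fun b => commute_of_eventually ω A fun ε hε => ?_
    have hδ : 0 < ε / (4 * (C + 1)) := by positivity
    obtain ⟨k, hk⟩ := ha.exists_dist_lt b hδ
    have hk' : ‖b - a k‖ < ε / (4 * (C + 1)) := by rwa [← dist_eq_norm]
    filter_upwards [h k (ε / 4) (by positivity)] with n hn
    change ‖s n * b - b * s n‖ < ε
    have h3 : s n * b - b * s n =
        (s n * a k - a k * s n) + (s n * (b - a k) - (b - a k) * s n) := by
      noncomm_ring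
    have h4 : ‖s n * (b - a k)‖ ≤ ε / 4 := by
      calc ‖s n * (b - a k)‖ ≤ ‖s n‖ * ‖b - a k‖ := norm_mul_le _ _
        _ ≤ (C + 1) * (ε / (4 * (C + 1))) :=
          mul_le_mul ((hs n).trans (by linarith)) hk'.le (norm_nonneg _) (by linarith)
        _ = ε / 4 := by field_simp
    have h5 : ‖(b - a k) * s n‖ ≤ ε / 4 := by
      calc ‖(b - a k) * s n‖ ≤ ‖b - a k‖ * ‖s n‖ := norm_mul_le _ _
        _ ≤ (ε / (4 * (C + 1))) * (C + 1) :=
          mul_le_mul hk'.le ((hs n).trans (by linarith)) (norm_nonneg _) hδ.le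
        _ = ε / 4 := by field_simp
    rw [h3]
    calc _ ≤ ‖s n * a k - a k * s n‖ + ‖s n * (b - a k) - (b - a k) * s n‖ := norm_add_le _ _
      _ ≤ ‖s n * a k - a k * s n‖ + (‖s n * (b - a k)‖ + ‖(b - a k) * s n‖) := by
          gcongr
          exact norm_sub_le _ _
      _ < ε := by linarith
  exact ⟨⟨toUltrapower ω A y, hmem⟩, y, fun n => rfl, rfl⟩

/-- equality in `F_ω(A)` from representing sequences (`P101.toUltrapower_eq_zero_iff`) -/
theorem eq_of_rep {x x' : FOmega ω A} {y y' : lp (fun _ : ℕ => A) ∞}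
    (hy : toUltrapower ω A y = (x : Ultrapower ω A))
    (hy' : toUltrapower ω A y' = (x' : Ultrapower ω A))
    (h : ∀ ε : ℝ, 0 < ε → ∀ᶠ n in (ω : Filter ℕ), ‖y n - y' n‖ ≤ ε) : x = x' := by
  apply Subtype.ext
  rw [← hy, ← hy']
  exact cbseq_class ω h

/-- distances in `F_ω(A)` are seen along representing sequences (`P101.eventually_norm_lt`) -/
theorem rep_dist {x x' : FOmega ω A} {y y' : lp (fun _ : ℕ => A) ∞}
    (hy : toUltrapower ω A y = (x : Ultrapower ω A))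
    (hy' : toUltrapower ω A y' = (x' : Ultrapower ω A)) {r : ℝ} (h : ‖x - x'‖ < r) :
    ∀ᶠ n in (ω : Filter ℕ), ‖y n - y' n‖ < r := by
  have h1 : ‖toUltrapower ω A (y - y')‖ < r := by
    rw [map_sub, hy, hy']
    exact h
  exact eventually_norm_lt ω A (y - y') h1

/-- Traces: if `x ∈ J` then every representing sequence has uniformly small traces.
`InJ` gives a representing sequence `y'` with `τ(y'_n* y'_n) ≤ η²/4` for all `τ`, `ω`-many `n`; by
Cauchy-Schwarz (`PTr.cs 1 _`, `τ 1 = 1`) `|τ(y'_n)| ≤ η/2`; `y - y'` is a null sequence and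
`|τ(z)| ≤ ‖z‖` (`PTr.norm_map_le'`). -/
theorem InJ.eventually_tr {x : FOmega ω A} (hx : InJ ω x) {y : lp (fun _ : ℕ => A) ∞}
    (hy : toUltrapower ω A y = (x : Ultrapower ω A)) {η : ℝ} (hη : 0 < η) :
    ∀ᶠ n in (ω : Filter ℕ), ∀ τ ∈ TState A, (τ (y n)).re ≤ η := by
  obtain ⟨y', hy', h⟩ := hx
  have h1 : ‖x - x‖ < η / 2 := by
    rw [sub_self, norm_zero]
    positivity
  filter_upwards [rep_dist ω hy hy' h1, h ((η / 2) ^ 2) (by positivity)] with n hn1 hn2
  intro τ hτ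
  obtain ⟨hp, hτ1⟩ := hτ
  have h2 := hn2 τ ⟨hp, hτ1⟩
  have h3 : (τ (y' n)).re ≤ η / 2 := by
    have h4 := hp.cs 1 (y' n)
    have h5 : sq2 τ (1 : A) = 1 := by
      unfold sq2
      rw [star_one, one_mul, hτ1, Complex.one_re]
    rw [star_one, one_mul, h5, Real.sqrt_one, one_mul] at h4
    refine (Complex.re_le_norm _).trans (h4.trans ?_)
    apply Real.sqrt_le_iff.2
    exact ⟨by positivity, h2⟩
  have h4 : (τ (y n - y' n)).re ≤ η / 2 := by
    have h5 := hp.norm_map_le' (y n - y' n)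
    rw [hτ1, Complex.one_re, mul_one] at h5
    exact (Complex.re_le_norm _).trans (h5.trans hn1.le)
  rw [map_sub, Complex.sub_re] at h4
  linarith

end P095F
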