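import Vale.Agent.Lib.P095F.Defs

/-!
# P095 stage 2: concrete definitions (traces of `A`, comparison, nuclearity, the trace
kernel ideal of `F_ω(A)`)

See `PROOF2.md` (same folder).
-/

open scoped ENNReal Topology
open Filter P101 P095E

namespace P095F

universe u v

section A

variable (A : Type u) [CStarAlgebra A]

/-- the tracial states of `A` -/
def TState : Set (A →ₗ[ℂ] ℂ) := {τ | PTr τ ∧ τ 1 = 1}

/-- Very weak comparison (automatic for simple nuclear `Z`-stable `A`, by strict comparison):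
positive contractions with uniformly small traces are small in the Cuntz sense.  For every nonzero
positive `f = y* y` and `ε > 0` there is `η > 0` such that every positive contraction `e = x* x`
with `τ(e) ≤ η` for all tracial states `τ` is up to `ε` of the form `r* f r`. -/
def VeryWeakComparison : Prop :=
  ∀ y : A, y ≠ 0 → ∀ ε : ℝ, 0 < ε → ∃ η : ℝ, 0 < η ∧ ∀ x : A, ‖x‖ ≤ 1 →
    (∀ τ ∈ TState A, (τ (star x * x)).re ≤ η) →
    ∃ r : A, ‖star r * (star y * y) * r - star x * x‖ ≤ ε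

end A

/-- complete positivity of a linear map -/
def CPos {A : Type u} {B : Type v} [Ring A] [StarRing A] [Algebra ℂ A] [Ring B] [StarRing B]
    [Algebra ℂ B] (φ : A →ₗ[ℂ] B) : Prop :=
  ∀ (n : ℕ) (a : Fin n → A) (b : Fin n → B),
    ∃ c : B, ∑ i, ∑ j, star (b i) * φ (star (a i) * a j) * b j = star c * c

/-- Nuclearity, as the completely positive approximation property: the identity of `A` is a limit,
pointwise in norm, of completely positive maps that factor through matrix algebras. -/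
def CPAP (A : Type u) [CStarAlgebra A] : Prop :=
  ∀ (S : Finset A) (ε : ℝ), 0 < ε → ∃ (k : ℕ) (φ : A →ₗ[ℂ] Matrix (Fin k) (Fin k) ℂ)
    (ψ : Matrix (Fin k) (Fin k) ℂ →ₗ[ℂ] A), CPos φ ∧ CPos ψ ∧ ∀ a ∈ S, ‖ψ (φ a) - a‖ ≤ ε

section J

variable (ω : Ultrafilter ℕ) {A : Type u} [CStarAlgebra A] [Nontrivial A]

/-- membership in the trace kernel ideal `J` of `F_ω(A)` -/
def InJ (x : FOmega ω A) : Prop :=
  ∃ y : lp (fun _ : ℕ => A) ∞, toUltrapower ω A y = (x : Ultrapower ω A) ∧
    ∀ ε : ℝ, 0 < ε → ∀ᶠ n in (ω : Filter ℕ), ∀ τ ∈ TState A, (τ (star (y n) * y n)).re ≤ ε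

end J

/-- Kirchberg's epsilon test. -/
theorem eps_test {ω : Ultrafilter ℕ} (hω : (ω : Filter ℕ) ≤ Filter.cofinite) {B : Type u}
    (f : ℕ → ℕ → B → ℝ)
    (h : ∀ (m : ℕ) (ε : ℝ), 0 < ε →
      ∃ s : ℕ → B, ∀ k ≤ m, ∀ᶠ n in (ω : Filter ℕ), f k n (s n) < ε) :
    ∃ s : ℕ → B, ∀ (k : ℕ) (ε : ℝ), 0 < ε → ∀ᶠ n in (ω : Filter ℕ), f k n (s n) < ε := by
  classical
  choose s hs using fun m : ℕ => h m (1 / (m + 1)) (by positivity)
  let U : ℕ → Set ℕ := fun m => {n | m ≤ n ∧ ∀ k ≤ m, f k n (s m n) < 1 / (m + 1)}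
  have hU : ∀ m, U m ∈ (ω : Filter ℕ) := by
    intro m
    have h1 : ∀ᶠ n in (ω : Filter ℕ), m ≤ n := by
      have : ∀ᶠ n in (Filter.cofinite : Filter ℕ), m ≤ n := by
        rw [Nat.cofinite_eq_atTop]
        exact Filter.eventually_ge_atTop m
      exact hω this
    have h2 : ∀ᶠ n in (ω : Filter ℕ), ∀ k ∈ Finset.range (m + 1), f k n (s m n) < 1 / (m + 1) := by
      rw [Filter.eventually_all_finset]
      intro k hk
      exact hs m k (by simpa [Nat.lt_succ_iff] using hk)
    filter_upwards [h1, h2] with n hn1 hn2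
    exact ⟨hn1, fun k hk => hn2 k (by simpa [Nat.lt_succ_iff] using hk)⟩
  -- the largest admissible index
  let j : ℕ → ℕ := fun n => Nat.findGreatest (fun m => n ∈ U m) n
  refine ⟨fun n => s (j n) n, fun k ε hε => ?_⟩
  obtain ⟨m, hm⟩ := exists_nat_one_div_lt hε
  filter_upwards [hU (max k m)] with n hn
  have hle : max k m ≤ n := hn.1
  have hj1 : max k m ≤ j n := Nat.le_findGreatest hle hn
  have hj2 : n ∈ U (j n) := Nat.findGreatest_spec (P := fun m => n ∈ U m) hle hn
  refine (hj2.2 k ((le_max_left k m).trans hj1)).trans_le ((one_div_le_one_div_of_le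
    (by positivity) ?_).trans hm.le)
  have : m ≤ j n := (le_max_right k m).trans hj1
  exact_mod_cast Nat.succ_le_succ this

end P095F
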