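import Vale.Agent.Lib.P095F.CDefs

/-!
# P095 stage 2, part L: the fixed point algebra has no characters
-/

open scoped ENNReal Topology
open Filter P101 P095E

namespace P095F

universe u v

section Abs

attribute [local instance] CStarAlgebra.spectralOrder CStarAlgebra.spectralOrderedRing

theorem isEmpty_char_of_parts {E : Type u} [CStarAlgebra E] (J : Ideal E) [J.IsTwoSided]
    (hv : ∃ v : E, v * v ∈ J ∧ star v * v + v * star v - 1 ∈ J)
    (hs : ∀ e ∈ J, (∃ c : E, e = star c * c) → ‖e‖ ≤ 1 →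
      ∃ s : Fin 2 → E, ∀ i j, star (s i) * s j = if i = j then e else 0) :
    IsEmpty (E →⋆ₐ[ℂ] ℂ) := by
  refine ⟨fun χ => ?_⟩
  by_cases h : ∃ x ∈ J, χ x ≠ 0
  · obtain ⟨x, hxJ, hx⟩ := h
    obtain ⟨c, hc⟩ : ∃ c : ℝ, c = ‖χ x‖ ^ 2 := ⟨_, rfl⟩
    have hc0 : 0 < c := by
      rw [hc]
      exact pow_pos (norm_pos_iff.2 hx) 2
    obtain ⟨a, ha⟩ : ∃ a : E, a = star x * x := ⟨_, rfl⟩
    have hapos : 0 ≤ a := ha ▸ star_mul_self_nonneg x
    have hasa : IsSelfAdjoint a := hapos.isSelfAdjoint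
    have hχa : χ a = ((c : ℝ) : ℂ) := by
      rw [ha, map_mul, map_star, hc]
      have := Complex.conj_mul' (χ x)
      simpa using this
    have hspec : ∀ t ∈ spectrum ℝ a, 0 ≤ t := fun t ht => spectrum_nonneg_of_nonneg hapos ht
    -- the element `e`
    obtain ⟨e, he⟩ : ∃ e : E, e = cfc (fun t : ℝ => min (t / c) 1) a := ⟨_, rfl⟩
    have hgc : Continuous (fun t : ℝ => min (t / c) 1) := by fun_prop
    have hkc : Continuous (fun t : ℝ => 1 / max c t) := by
      refine continuous_const.div (by fun_prop) fun t => ?_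
      exact (lt_max_of_lt_left hc0).ne'
    have hgk : (spectrum ℝ a).EqOn (fun t : ℝ => min (t / c) 1) (fun t => t * (1 / max c t)) := by
      intro t ht
      have ht0 := hspec t ht
      simp only
      rcases le_total t c with htc | htc
      · rw [max_eq_left htc, min_eq_left ((div_le_one hc0).2 htc)]
        ring
      · have ht1 : 0 < t := hc0.trans_le htc
        rw [max_eq_right htc, min_eq_right ((one_le_div hc0).2 htc)]
        field_simp
    have heJ : e ∈ J := by
      have h1 : e = a * cfc (fun t : ℝ => 1 / max c t) a := by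
        rw [he, cfc_congr hgk, cfc_mul (fun t : ℝ => t) (fun t : ℝ => 1 / max c t) a
          continuous_id.continuousOn hkc.continuousOn, cfc_id' ℝ a]
      rw [h1, ha]
      exact J.mul_mem_right _ (J.mul_mem_left _ hxJ)
    have hχe : χ e = 1 := by
      have hχc : Continuous χ := map_continuous χ
      have h1 : χ e = cfc (fun t : ℝ => min (t / c) 1) (χ a) := by
        rw [he]
        exact StarAlgHomClass.map_cfc (R := ℝ) (S := ℂ) χ _ a hgc.continuousOn hχc hasa
          (hasa.map χ)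
      rw [h1, hχa]
      have h2 : ((c : ℝ) : ℂ) = algebraMap ℝ ℂ c := rfl
      rw [h2, cfc_algebraMap]
      rw [div_self hc0.ne', min_self, map_one]
    have hepos : ∃ c' : E, e = star c' * c' := by
      have h1 : 0 ≤ e := by
        rw [he]
        exact cfc_nonneg fun t ht => le_min (div_nonneg (hspec t ht) hc0.le) zero_le_one
      obtain ⟨c', hc'⟩ := CStarAlgebra.nonneg_iff_eq_star_mul_self.1 h1
      exact ⟨c', hc'⟩
    have henorm : ‖e‖ ≤ 1 := by
      rw [he]
      refine norm_cfc_le zero_le_one fun t ht => ?_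
      rw [Real.norm_of_nonneg (le_min (div_nonneg (hspec t ht) hc0.le) zero_le_one)]
      exact min_le_right _ _
    obtain ⟨s, hss⟩ := hs e heJ hepos henorm
    have h0 : star (χ (s 0)) * χ (s 0) = 1 := by
      rw [← map_star, ← map_mul, hss 0 0, if_pos rfl, hχe]
    have h1 : star (χ (s 1)) * χ (s 1) = 1 := by
      rw [← map_star, ← map_mul, hss 1 1, if_pos rfl, hχe]
    have h01 : star (χ (s 0)) * χ (s 1) = 0 := by
      rw [← map_star, ← map_mul, hss 0 1, if_neg (by decide), map_zero]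
    rcases mul_eq_zero.1 h01 with h2 | h2
    · rw [h2, zero_mul] at h0
      exact zero_ne_one h0
    · rw [h2, mul_zero] at h1
      exact zero_ne_one h1
  · push Not at h
    obtain ⟨v, hv1, hv2⟩ := hv
    have h1 := h _ hv1
    have h2 := h _ hv2
    rw [map_mul, mul_self_eq_zero] at h1
    rw [map_sub, map_add, map_mul, map_mul, h1, mul_zero, zero_mul, map_one] at h2
    norm_num at h2

end Abs

theorem isEmpty_char_fix {F : Type u} [CStarAlgebra F] (S : Set (F ≃⋆ₐ[ℂ] F)) (J : Ideal F)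
    [J.IsTwoSided]
    (hv : ∃ v ∈ fixAlg S, v * v ∈ J ∧ star v * v + v * star v - 1 ∈ J)
    (hs : ∀ e ∈ fixAlg S, e ∈ J → (∃ c : F, e = star c * c) → ‖e‖ ≤ 1 →
      ∃ s : Fin 2 → F, (∀ i, s i ∈ fixAlg S) ∧
        ∀ i j, star (s i) * s j = if i = j then e else 0) :
    IsEmpty (fixAlg S →⋆ₐ[ℂ] ℂ) := by
  let ι : fixAlg S →+* F := (fixAlg S).subtype.toAlgHom.toRingHom
  have : (J.comap ι).IsTwoSided :=
    ⟨fun {a} b ha => by
      rw [Ideal.mem_comap] at ha ⊢
      rw [map_mul]
      exact J.mul_mem_right _ ha⟩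
  refine isEmpty_char_of_parts (J.comap ι) ?_ ?_
  · obtain ⟨v, hvf, hv1, hv2⟩ := hv
    exact ⟨⟨v, hvf⟩, hv1, hv2⟩
  · rintro e he ⟨c, hc⟩ hn
    obtain ⟨s, hs1, hs2⟩ := hs e e.2 he ⟨c, by rw [hc]; rfl⟩ hn
    refine ⟨fun i => ⟨s i, hs1 i⟩, fun i j => Subtype.ext ?_⟩
    have := hs2 i j
    split_ifs with hij
    · rw [if_pos hij] at this
      exact this
    · rw [if_neg hij] at this
      exact this

end P095F
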