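import Mathlib
import Vale.Agent.Lib.P095F.LChar
import Vale.Agent.Lib.P095E.Induced
import Vale.Agent.Lib.P095E.CopiesEB
import Vale.Agent.Lib.P095E.CopiesEC
import Vale.Agent.Lib.P095E.FinalE

/-!
# P095 stage 2: from the absence of characters to cocycle conjugacy
-/

open scoped ENNReal Topology TensorProduct
open Filter P101 P095E

namespace P095F

universe u v

theorem conj_of_parts (ω : Ultrafilter ℕ) (hω : (ω : Filter ℕ) ≤ Filter.cofinite)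
    {A Z B : Type u} [CStarAlgebra A] [CStarAlgebra Z] [CStarAlgebra B] [Nontrivial A]
    [TopologicalSpace.SeparableSpace A] (hZ : IsJiangSuLike Z)
    (i : A →⋆ₐ[ℂ] B) (j : Z →⋆ₐ[ℂ] B) (hij : ∀ a z, Commute (i a) (j z))
    (hinj : Function.Injective (TensorProduct.lift
      ((LinearMap.mul ℂ B).compl₁₂ i.toAlgHom.toLinearMap j.toAlgHom.toLinearMap)))
    (hd : DenseRange (TensorProduct.lift
      ((LinearMap.mul ℂ B).compl₁₂ i.toAlgHom.toLinearMap j.toAlgHom.toLinearMap)))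
    {G : Type v} [Group G] [Countable G] (α : G →* (A ≃⋆ₐ[ℂ] A)) (γ : G →* (B ≃⋆ₐ[ℂ] B))
    (hi : ∀ g x, γ g (i x) = i (α g x)) (hj : ∀ g z, γ g (j z) = j z)
    [Nontrivial B]
    (β : G →* (FOmega ω A ≃⋆ₐ[ℂ] FOmega ω A)) (hβ : ∀ g, Induces ω (α g) (β g))
    (J : Ideal (FOmega ω A)) [J.IsTwoSided]
    (hv : ∃ v : FOmega ω A, (∀ g, β g v = v) ∧ v * v ∈ J ∧ star v * v + v * star v - 1 ∈ J)
    (hs : ∀ e ∈ J, (∀ g, β g e = e) → (∃ c : FOmega ω A, e = star c * c) → ‖e‖ ≤ 1 →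
      ∃ s : Fin 2 → FOmega ω A, (∀ i g, β g (s i) = s i) ∧
        ∀ i j, star (s i) * s j = if i = j then e else 0) :
    ∃ (Φ : A ≃⋆ₐ[ℂ] B) (w : G → unitary B), (∀ g h, (w (g * h) : B) = w g * γ g (w h : B)) ∧
      ∀ g a, Φ (α g a) = w g * γ g (Φ a) * star (w g : B) := by
  classical
  have := hZ.separable
  refine cocycle_conj_of_homs ω hω hZ i j hij hinj hd α γ hi hj β hβ ?_
  intro K p q hp hq hpq
  obtain ⟨S, hSdef⟩ : ∃ S : Set (FOmega ω A ≃⋆ₐ[ℂ] FOmega ω A), S = Set.range β := ⟨_, rfl⟩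
  have hS : HasEquivCopies S := by
    refine hasEquivCopies_FOmega ω hω A _ (hSdef ▸ Set.countable_range β) ?_
    rw [hSdef]
    rintro _ ⟨k, rfl⟩
    exact ⟨α k, hβ k⟩
  have hfix : ∀ x : FOmega ω A, x ∈ fixAlg S ↔ ∀ g, β g x = x := by
    intro x
    rw [mem_fixAlg, hSdef, Set.forall_mem_range]
  have hch : IsEmpty (fixAlg S →⋆ₐ[ℂ] ℂ) := by
    refine isEmpty_char_fix S J ?_ ?_
    · obtain ⟨v, hv1, hv2, hv3⟩ := hv
      exact ⟨v, (hfix v).2 hv1, hv2, hv3⟩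
    · intro e he heJ hc hn
      obtain ⟨s, hs1, hs2⟩ := hs e heJ ((hfix e).1 he) hc hn
      exact ⟨s, fun i => (hfix _).2 (hs1 i), hs2⟩
  obtain ⟨n, hn, ⟨f⟩⟩ := exists_dimDrop_hom_coprime hp hq hpq
  have : NeZero n := ⟨by omega⟩
  have : Nontrivial (fixAlg S) :=
    ⟨⟨0, 1, fun h01 => zero_ne_one (α := FOmega ω A) (congrArg Subtype.val h01)⟩⟩
  obtain ⟨g⟩ := exists_hom_of_no_characters (hasCopies_fixAlg hS) hch n
  refine ⟨(fixAlg S).subtype.comp (g.comp f), fun k _ x => ?_⟩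
  exact (hfix _).1 (g (f x)).2 k

end P095F
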