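import Mathlib
import Vale.Agent.Lib.P095F.LMain
import Vale.Agent.Lib.P095F.CB
import Vale.Agent.Lib.P095F.CAFinal
import Vale.Agent.Lib.P095E.Stmt
import Vale.Agent.Lib.P095E.TensorAct
import Vale.Agent.Lib.P095E.ZPropsB
import Vale.Agent.Lib.P095E.ZProps
import Vale.Agent.Lib.P101.TransferB

/-!
# P095 stage 2: assembly for unital algebras
-/

open scoped ENNReal Topology TensorProduct
open Filter P101 P095E

namespace P095F

universe u v

theorem not_finiteDimensional_of_equiv {A Z B : Type u} [CStarAlgebra A] [CStarAlgebra Z]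
    [CStarAlgebra B] [Nontrivial B] [IsSimpleRing Z] (hinf : ¬ FiniteDimensional ℂ Z)
    (j : Z →⋆ₐ[ℂ] B) (e : A ≃⋆ₐ[ℂ] B) : ¬ FiniteDimensional ℂ A := by
  intro h
  apply hinf
  have h1 : Function.Injective j := RingHom.injective (j : Z →+* B)
  have h2 : Function.Injective (e.symm : B →⋆ₐ[ℂ] A) := e.symm.injective
  exact FiniteDimensional.of_injective (((e.symm : B →⋆ₐ[ℂ] A).comp j).toAlgHom.toLinearMap)
    (h2.comp h1)

/-- everything except the comparison property and the tracial part -/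
theorem conj_of_tracial (ω : Ultrafilter ℕ) (hω : (ω : Filter ℕ) ≤ Filter.cofinite)
    {A Z B : Type u} [CStarAlgebra A] [CStarAlgebra Z] [CStarAlgebra B] [Nontrivial A]
    [TopologicalSpace.SeparableSpace A] [IsSimpleRing A] (hcp : CPAP A)
    (hvw : VeryWeakComparison A) (hZ : IsJiangSuLike Z) [IsSimpleRing Z]
    (hinf : ¬ FiniteDimensional ℂ Z) (hch : IsEmpty (FOmega ω A →⋆ₐ[ℂ] ℂ))
    (i : A →⋆ₐ[ℂ] B) (j : Z →⋆ₐ[ℂ] B) (hij : ∀ a z, Commute (i a) (j z))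
    (hinj : Function.Injective (TensorProduct.lift
      ((LinearMap.mul ℂ B).compl₁₂ i.toAlgHom.toLinearMap j.toAlgHom.toLinearMap)))
    (hd : DenseRange (TensorProduct.lift
      ((LinearMap.mul ℂ B).compl₁₂ i.toAlgHom.toLinearMap j.toAlgHom.toLinearMap)))
    (e : A ≃⋆ₐ[ℂ] B)
    {G : Type v} [Group G] [Countable G] (hG : FolnerGroup G) (α : G →* (A ≃⋆ₐ[ℂ] A))
    (γ : G →* (B ≃⋆ₐ[ℂ] B))
    (hi : ∀ g x, γ g (i x) = i (α g x)) (hj : ∀ g z, γ g (j z) = j z) [Nontrivial B]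
    (β : G →* (FOmega ω A ≃⋆ₐ[ℂ] FOmega ω A)) (hβ : ∀ g, Induces ω (α g) (β g))
    (J : Ideal (FOmega ω A)) [J.IsTwoSided] (hJ : ∀ x, x ∈ J ↔ InJ ω x)
    (hv : ∃ v : FOmega ω A, (∀ g, β g v = v) ∧ v * v ∈ J ∧ star v * v + v * star v - 1 ∈ J) :
    ∃ (Φ : A ≃⋆ₐ[ℂ] B) (w : G → unitary B), (∀ g h, (w (g * h) : B) = w g * γ g (w h : B)) ∧
      ∀ g a, Φ (α g a) = w g * γ g (Φ a) * star (w g : B) := by
  have hA : ¬ FiniteDimensional ℂ A := not_finiteDimensional_of_equiv hinf j e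
  have hSI : SILocal A := si_local A hA hcp hvw
  refine conj_of_parts ω hω hZ i j hij hinj hd α γ hi hj β hβ J hv ?_
  intro x hx hfix hc hn
  exact exists_isometries_of_local ω hω hSI hG α β hβ hch x ((hJ x).1 hx) hc hn hfix

end P095F
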