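import Vale.Agent.Lib.P095E.Stmt

/-!
# P095: further definitions used in the statement for amenable groups
-/

namespace P095F

universe u v

/-- The (discrete) group `G` is amenable, in the form of Følner's condition: for every finite set
`K₀ ⊆ G` and every `ε > 0` there is a finite nonempty set `K ⊆ G` such that `|h K \ K| ≤ ε |K|` for
all `h ∈ K₀` (`h K \ K` is the set of the `g ∉ K` with `h⁻¹ g ∈ K`). -/
def AmenableGroup (G : Type v) [Group G] : Prop :=
  ∀ (K₀ : Finset G) (ε : ℝ), 0 < ε → ∃ K : Finset G, K.Nonempty ∧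
    ∀ h ∈ K₀, (Nat.card {g : G // g ∉ K ∧ h⁻¹ * g ∈ K} : ℝ) ≤ ε * K.card

/-- The linear map `φ` between *-algebras is completely positive: for all `a_1, …, a_n` in the
domain and `b_1, …, b_n` in the codomain the element `∑ b_i* φ(a_i* a_j) b_j` is positive (of the
form `c* c`). -/
def CompletelyPositive {A : Type u} {B : Type v} [Ring A] [StarRing A] [Algebra ℂ A] [Ring B]
    [StarRing B] [Algebra ℂ B] (φ : A →ₗ[ℂ] B) : Prop :=
  ∀ (n : ℕ) (a : Fin n → A) (b : Fin n → B),
    ∃ c : B, ∑ i, ∑ j, star (b i) * φ (star (a i) * a j) * b j = star c * c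

/-- The unital C*-algebra `A` is nuclear, in the form of the completely positive approximation
property: the identity of `A` is a limit, pointwise in norm, of completely positive maps that factor
through matrix algebras. -/
def NuclearCPAP (A : Type u) [CStarAlgebra A] : Prop :=
  ∀ (S : Finset A) (ε : ℝ), 0 < ε → ∃ (k : ℕ) (φ : A →ₗ[ℂ] Matrix (Fin k) (Fin k) ℂ)
    (ψ : Matrix (Fin k) (Fin k) ℂ →ₗ[ℂ] A), CompletelyPositive φ ∧ CompletelyPositive ψ ∧
      ∀ a ∈ S, ‖ψ (φ a) - a‖ ≤ ε

end P095F
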