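import Mathlib
import Vale.Agent.Lib.P095F.LFinal
import Vale.Agent.Lib.P095F.Stmt2

/-!
# P095 stage 2: assembly for unital algebras, up to the comparison property and the tracial part
-/

open scoped ENNReal Topology TensorProduct
open Filter P101 P095E

namespace P095F

universe u v

/-- the comparison property and the tracial part as hypotheses; everything else is proved -/
theorem main_of (ω : Ultrafilter ℕ) (hω : (ω : Filter ℕ) ≤ Filter.cofinite)
    {A Z B : Type u} [CStarAlgebra A] [CStarAlgebra Z] [CStarAlgebra B] [Nontrivial A]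
    [TopologicalSpace.SeparableSpace A] [IsSimpleRing A] (hcp : CPAP A)
    (hZ : IsJiangSuLike Z) [IsSimpleRing Z]
    (hinf : ¬ FiniteDimensional ℂ Z) (hself : SelfAbsorbing Z)
    (i : A →⋆ₐ[ℂ] B) (j : Z →⋆ₐ[ℂ] B) (hij : ∀ a z, Commute (i a) (j z))
    (hinj : Function.Injective (TensorProduct.lift
      ((LinearMap.mul ℂ B).compl₁₂ i.toAlgHom.toLinearMap j.toAlgHom.toLinearMap)))
    (hd : DenseRange (TensorProduct.lift
      ((LinearMap.mul ℂ B).compl₁₂ i.toAlgHom.toLinearMap j.toAlgHom.toLinearMap)))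
    (e : A ≃⋆ₐ[ℂ] B)
    {G : Type v} [Group G] [Countable G] (hG : FolnerGroup G) (α : G →* (A ≃⋆ₐ[ℂ] A))
    (γ : G →* (B ≃⋆ₐ[ℂ] B))
    (hi : ∀ g x, γ g (i x) = i (α g x)) (hj : ∀ g z, γ g (j z) = j z)
    (hV : IsEmpty (FOmega ω A →⋆ₐ[ℂ] ℂ) → VeryWeakComparison A)
    (hM : IsEmpty (FOmega ω A →⋆ₐ[ℂ] ℂ) → ¬ FiniteDimensional ℂ A →
      ∀ β : G →* (FOmega ω A ≃⋆ₐ[ℂ] FOmega ω A), (∀ g, Induces ω (α g) (β g)) →
      ∃ J : Ideal (FOmega ω A), J.IsTwoSided ∧ (∀ x, x ∈ J ↔ InJ ω x) ∧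
        ∃ v : FOmega ω A, (∀ g, β g v = v) ∧ v * v ∈ J ∧ star v * v + v * star v - 1 ∈ J) :
    ∃ (Φ : A ≃⋆ₐ[ℂ] B) (w : G → unitary B), (∀ g h, (w (g * h) : B) = w g * γ g (w h : B)) ∧
      ∀ g a, Φ (α g a) = w g * γ g (Φ a) * star (w g : B) := by
  classical
  have := hZ.separable
  have : Nontrivial B := e.injective.nontrivial
  obtain ⟨f⟩ := exists_hom_of_selfAbsorbing ω hω hself i j hij hd
  obtain ⟨f'⟩ := exists_FOmega_hom ω e
  have hch : IsEmpty (FOmega ω A →⋆ₐ[ℂ] ℂ) :=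
    ⟨fun χ => (isEmpty_character_of_simple hinf).false (χ.comp (f'.comp f))⟩
  obtain ⟨β, hβ⟩ := exists_induced_action ω α
  have hA : ¬ FiniteDimensional ℂ A := not_finiteDimensional_of_equiv hinf j e
  obtain ⟨J, hJ2, hJ, hv⟩ := hM hch hA β hβ
  exact conj_of_tracial ω hω hcp (hV hch) hZ hinf hch i j hij hinj hd e hG α γ hi hj β hβ J hJ hv

theorem final_of {G : Type v} [Group G] [Countable G] {A Z B : Type u} [CStarAlgebra A]
    [CStarAlgebra Z] [CStarAlgebra B] [TopologicalSpace.SeparableSpace A] [Nontrivial A]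
    [IsSimpleRing A]
    (hV : ∀ ω : Ultrafilter ℕ, (ω : Filter ℕ) ≤ Filter.cofinite →
      IsEmpty (FOmega ω A →⋆ₐ[ℂ] ℂ) → VeryWeakComparison A)
    (hM : ∀ ω : Ultrafilter ℕ, (ω : Filter ℕ) ≤ Filter.cofinite →
      IsEmpty (FOmega ω A →⋆ₐ[ℂ] ℂ) → ¬ FiniteDimensional ℂ A →
      ∀ (α : G →* (A ≃⋆ₐ[ℂ] A)) (β : G →* (FOmega ω A ≃⋆ₐ[ℂ] FOmega ω A)),
      (∀ g, Induces ω (α g) (β g)) →
      ∃ J : Ideal (FOmega ω A), J.IsTwoSided ∧ (∀ x, x ∈ J ↔ InJ ω x) ∧
        ∃ v : FOmega ω A, (∀ g, β g v = v) ∧ v * v ∈ J ∧ star v * v + v * star v - 1 ∈ J)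
    (hcp : NuclearCPAP A) (hG : AmenableGroup G)
    (hZ : IsJiangSu Z) (m : A ⊗[ℂ] Z →⋆ₐ[ℂ] B) (hm : Function.Injective m) (hd : DenseRange m)
    (hA : Nonempty (A ≃⋆ₐ[ℂ] B)) (α : G →* (A ≃⋆ₐ[ℂ] A)) :
    ∃ γ : G →* (B ≃⋆ₐ[ℂ] B), IsTensorAction m α γ ∧ CocycleConjugate α γ := by
  obtain ⟨γ, hγ⟩ := exists_tensorAction hZ.nuclear m hm hd α
  refine ⟨γ, hγ, ?_⟩
  obtain ⟨e⟩ := hA
  obtain ⟨ω, hω⟩ : ∃ ω : Ultrafilter ℕ, (ω : Filter ℕ) ≤ Filter.cofinite :=
    ⟨hyperfilter ℕ, hyperfilter_le_cofinite⟩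
  let i : A →⋆ₐ[ℂ] B :=
    { toFun := fun a => m (a ⊗ₜ 1)
      map_one' := map_one m
      map_mul' := fun x y => by
        rw [← map_mul, Algebra.TensorProduct.tmul_mul_tmul, mul_one]
      map_zero' := by rw [TensorProduct.zero_tmul, map_zero]
      map_add' := fun x y => by rw [TensorProduct.add_tmul, map_add]
      commutes' := fun r => by
        rw [← AlgHomClass.commutes m r, Algebra.TensorProduct.algebraMap_apply]
      map_star' := fun x => by
        rw [← map_star, TensorProduct.star_tmul, star_one] }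
  let j : Z →⋆ₐ[ℂ] B :=
    { toFun := fun z => m (1 ⊗ₜ z)
      map_one' := map_one m
      map_mul' := fun x y => by
        rw [← map_mul, Algebra.TensorProduct.tmul_mul_tmul, mul_one]
      map_zero' := by rw [TensorProduct.tmul_zero, map_zero]
      map_add' := fun x y => by rw [TensorProduct.tmul_add, map_add]
      commutes' := fun r => by
        rw [← AlgHomClass.commutes m r, Algebra.TensorProduct.algebraMap_apply']
      map_star' := fun x => by
        rw [← map_star, TensorProduct.star_tmul, star_one] }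
  have hi : ∀ x : A, i x = m (x ⊗ₜ 1) := fun x => rfl
  have hj : ∀ z : Z, j z = m (1 ⊗ₜ z) := fun z => rfl
  have hij : ∀ (x : A) (z : Z), i x * j z = m (x ⊗ₜ z) := by
    intro x z
    rw [hi, hj, ← map_mul, Algebra.TensorProduct.tmul_mul_tmul, mul_one, one_mul]
  have hji : ∀ (x : A) (z : Z), j z * i x = m (x ⊗ₜ z) := by
    intro x z
    rw [hi, hj, ← map_mul, Algebra.TensorProduct.tmul_mul_tmul, mul_one, one_mul]
  have heq : ⇑(TensorProduct.lift
      ((LinearMap.mul ℂ B).compl₁₂ i.toAlgHom.toLinearMap j.toAlgHom.toLinearMap)) = m := by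
    have : TensorProduct.lift
      ((LinearMap.mul ℂ B).compl₁₂ i.toAlgHom.toLinearMap j.toAlgHom.toLinearMap) =
        m.toAlgHom.toLinearMap := by
      ext x z
      exact hij x z
    rw [this]
    rfl
  have := hZ.simple
  refine main_of ω hω hcp
    ⟨hZ.separable, isLimit_of_dimDropLimit hZ.limit, approxInnerHalfFlip_of hZ.flip⟩
    hZ.infinite hZ.selfAbsorbing i j (fun a z => ?_) ?_ ?_ e hG α γ (fun g x => ?_)
    (fun g z => ?_) (hV ω hω) (fun h1 h2 => hM ω hω h1 h2 α)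
  · rw [commute_iff_eq, hij, hji]
  · rw [heq]
    exact hm
  · rw [heq]
    exact hd
  · rw [hi, hγ, hi]
  · rw [hj, hγ, map_one]

end P095F
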