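import Vale.Agent.Lib.P095F.MSatM
import Vale.Agent.Lib.P095F.AdmBasic

/-!
# P095F, part M: from approximate to exact

`gammaExact_of_approx`: `satM` with `V = Unit`; `b : ℕ → M` a sequence in `B`, dense in `B`
(`IsSeparable`).  2-norm conditions (index e.g. `Bool ⊕ G ⊕ ℕ`):
`star m - m`, `m * m - 1`, `αM g m - m`, `m * b i - b i * m`; mean conditions: `b i * m`.  For finitely many
conditions take `m` from `GammaApprox`.  The only computation: with `star m = m`, `‖m‖ ≤ 1`:
`sq2 τ (m * m - 1) = τ ((1 - m^2)^2) = τ (1 - m^2) - τ (m (1 - m^2) m) ≤ τ (1 - m^2)`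
(`0 ≤ 1 - m^2`, `PTr.mul_nonneg` or `star_left_conjugate_nonneg`).  From the dense sequence to all of `B`
by continuity (`PTr.norm_map_le'`).

`matExact_of_approx`: `satM` with `V = Unit`, 2-norm conditions `v * v`, `star v * v + v * star v - 1`,
`αM g v - v`.
-/

open scoped ENNReal Topology
open Filter P101 P095E

namespace P095F

universe u v

variable {ω : Ultrafilter ℕ} {A : Type u} [CStarAlgebra A] [Nontrivial A]
  {G : Type v} [Group G] {α : G →* (A ≃⋆ₐ[ℂ] A)} {κ : Type} {S : κ → Set (A →ₗ[ℂ] ℂ)}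
  {β : G →* (FOmega ω A ≃⋆ₐ[ℂ] FOmega ω A)} {M : Type u} [CStarAlgebra M]
  {p : FOmega ω A →⋆ₐ[ℂ] M} {αM : G →* (M ≃⋆ₐ[ℂ] M)}

omit [Nontrivial A] in
theorem mgam_norm_le {τ : M →ₗ[ℂ] ℂ} (hp : PTr τ) (h1 : τ 1 = 1) (x : M) : ‖τ x‖ ≤ ‖x‖ := by
  have h := hp.norm_map_le' x
  rwa [h1, Complex.one_re, mul_one] at h

/-- `τ ((1 - m^2)^2) ≤ τ (1 - m^2)` -/
theorem mgam_sq {τ : M →ₗ[ℂ] ℂ} (hp : PTr τ) {m : M} (hm : star m = m) (hn : ‖m‖ ≤ 1) :
    sq2 τ (m * m - 1) ≤ (τ (1 - m * m)).re := by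
  let _ := CStarAlgebra.spectralOrder M
  have := CStarAlgebra.spectralOrderedRing M
  have h0 : 0 ≤ 1 - m * m := by
    have h2 := star_mul_self_le_norm m
    rw [hm] at h2
    have h3 : algebraMap ℝ M (‖m‖ ^ 2) ≤ algebraMap ℝ M 1 :=
      algebraMap_mono M (pow_le_one₀ (norm_nonneg _) hn)
    rw [map_one] at h3
    exact sub_nonneg.2 (h2.trans h3)
  have h1 : 0 ≤ (τ (m * m * (1 - m * m))).re := by
    refine hp.mul_nonneg ?_ h0
    have := star_mul_self_nonneg m
    rwa [hm] at this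
  have h2 : star (m * m - 1) * (m * m - 1) = (1 - m * m) - m * m * (1 - m * m) := by
    rw [star_sub, star_one, star_mul, hm]
    noncomm_ring
  unfold sq2
  rw [h2, map_sub, Complex.sub_re]
  linarith

theorem gammaExact_of_approx (hω : (ω : Filter ℕ) ≤ Filter.cofinite)
    [TopologicalSpace.SeparableSpace A] [Countable κ] [Countable G] (hS : StFam ω α S)
    (hβ : ∀ g, Induces ω (α g) (β g)) (hQ : Quo ω S β p αM)
    (h : GammaApprox αM (LT ω S p)) : GammaExact αM (LT ω S p) := by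
  classical
  intro B hB
  have hT : TrSys αM (LT ω S p) := trSys_LT hS hβ hQ
  have hsurj : Function.Surjective p := fun m => by
    obtain ⟨x, hx, -⟩ := hQ.surj m
    exact ⟨x, hx⟩
  obtain ⟨D0, hD0B, hD0c, hD0d⟩ : ∃ t ⊆ (B : Set M), t.Countable ∧ (B : Set M) ⊆ closure t := by
    obtain ⟨t, ht1, ht2, ht3⟩ := hB.sep.exists_countable_dense_subset
    exact ⟨t, ht1, ht2, ht3⟩
  have hD0ne : D0.Nonempty := by
    rw [Set.nonempty_iff_ne_empty]
    rintro rfl
    have h1 := hD0d (one_mem B)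
    rw [closure_empty] at h1
    exact h1
  obtain ⟨b, hb⟩ : ∃ b : ℕ → M, D0 = Set.range b := hD0c.exists_eq_range hD0ne
  have hbB : ∀ i, b i ∈ B := fun i => hD0B (hb ▸ Set.mem_range_self i)
  let V := Unit
  let c : Bool ⊕ G ⊕ ℕ → (Unit → M) → M := Sum.elim
    (fun t => if t then (fun m => star (m ()) - m ()) else (fun m => m () * m () - 1))
    (Sum.elim (fun g m => αM g (m ()) - m ()) (fun i m => m () * b i - b i * m ()))
  have hc : ∀ i, MLiftable ω p (c i) := by
    have hpr : MLiftable ω p (fun x : Unit → M => x ()) := MLiftable.proj ()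
    rintro (t | g | i)
    · cases t
      · exact (hpr.mul hpr).sub (MLiftable.const hsurj 1)
      · exact hpr.star.sub hpr
    · exact (MLiftable.aut hβ hQ g hpr).sub hpr
    · exact (hpr.mul (MLiftable.const hsurj (b i))).sub ((MLiftable.const hsurj (b i)).mul hpr)
  let d : ℕ → (Unit → M) → M := fun i m => b i * m ()
  have hd : ∀ i, MLiftable ω p (d i) := fun i =>
    (MLiftable.const hsurj (b i)).mul (MLiftable.proj ())
  obtain ⟨m, hm1, hm2⟩ := satM hω hS hQ c hc d hd 1 (by
    intro I I' ε hε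
    obtain ⟨m, h1, h2, h3, h4, h5, h6⟩ := h
      ((I.preimage Sum.inr Sum.inr_injective.injOn).preimage Sum.inl Sum.inl_injective.injOn)
      ε hε B hB
    refine ⟨fun _ => m, fun _ => h2, ?_, ?_⟩
    · rintro (t | g | i) hi τ hτ
      · cases t
        · exact (mgam_sq (hT.ptr τ hτ) h1 h2).trans (h5 τ hτ)
        · change sq2 τ (star m - m) ≤ ε
          rw [h1, sub_self, sq2_zero]
          exact hε.le
      · exact h6 τ hτ g (Finset.mem_preimage.2 (Finset.mem_preimage.2 hi))
      · change sq2 τ (m * b i - b i * m) ≤ ε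
        rw [(h3 (b i) (hbB i)).eq, sub_self, sq2_zero]
        exact hε.le
    · intro i _ τ hτ
      change ‖τ (b i * m)‖ ≤ ε
      rw [h4 τ hτ (b i) (hbB i), norm_zero]
      exact hε.le)
  have e1 : star (m ()) = m () := sub_eq_zero.1 (hm1 (Sum.inl true))
  have e2 : m () * m () = 1 := sub_eq_zero.1 (hm1 (Sum.inl false))
  have e3 : ∀ g, αM g (m ()) = m () := fun g => sub_eq_zero.1 (hm1 (Sum.inr (Sum.inl g)))
  have e4 : ∀ i, m () * b i = b i * m () := fun i => sub_eq_zero.1 (hm1 (Sum.inr (Sum.inr i)))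
  refine ⟨m (), e1, e2, e3, fun x hx => ?_, fun τ hτ x hx => ?_⟩
  · have hcl : IsClosed {x : M | m () * x = x * m ()} := isClosed_eq (by fun_prop) (by fun_prop)
    have hsub : D0 ⊆ {x : M | m () * x = x * m ()} := by
      rw [hb]
      rintro _ ⟨i, rfl⟩
      exact e4 i
    exact closure_minimal hsub hcl (hD0d hx)
  · have hp := hT.ptr τ hτ
    have hcont : Continuous τ := by
      have := (AddMonoidHomClass.continuous_of_bound τ 1 fun x => by
        rw [one_mul]
        exact mgam_norm_le hp (hT.one τ hτ) x)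
      exact this
    have hcl : IsClosed {x : M | τ (x * m ()) = 0} := isClosed_eq (by fun_prop) continuous_const
    have hsub : D0 ⊆ {x : M | τ (x * m ()) = 0} := by
      rw [hb]
      rintro _ ⟨i, rfl⟩
      exact hm2 i τ hτ
    exact closure_minimal hsub hcl (hD0d hx)

theorem matExact_of_approx (hω : (ω : Filter ℕ) ≤ Filter.cofinite)
    [TopologicalSpace.SeparableSpace A] [Countable κ] [Countable G] (hS : StFam ω α S)
    (hβ : ∀ g, Induces ω (α g) (β g)) (hQ : Quo ω S β p αM)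
    (h : MatApprox αM (LT ω S p)) :
    ∃ v : M, v * v = 0 ∧ star v * v + v * star v = 1 ∧ ∀ g, αM g v = v := by
  classical
  have hT : TrSys αM (LT ω S p) := trSys_LT hS hβ hQ
  have hsurj : Function.Surjective p := fun m => by
    obtain ⟨x, hx, -⟩ := hQ.surj m
    exact ⟨x, hx⟩
  let c : Bool ⊕ G → (Unit → M) → M := Sum.elim
    (fun t => if t then (fun m => m () * m ())
      else (fun m => star (m ()) * m () + m () * star (m ()) - 1))
    (fun g m => αM g (m ()) - m ())
  have hc : ∀ i, MLiftable ω p (c i) := by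
    have hpr : MLiftable ω p (fun x : Unit → M => x ()) := MLiftable.proj ()
    rintro (t | g)
    · cases t
      · exact ((hpr.star.mul hpr).add (hpr.mul hpr.star)).sub (MLiftable.const hsurj 1)
      · exact hpr.mul hpr
    · exact (MLiftable.aut hβ hQ g hpr).sub hpr
  let d : Empty → (Unit → M) → M := fun i => i.elim
  obtain ⟨m, hm1, -⟩ := satM hω hS hQ c hc d (fun i => i.elim) 1 (by
    intro I I' ε hε
    obtain ⟨v, h1, h2⟩ := h (I.preimage Sum.inr Sum.inr_injective.injOn) ε hε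
    refine ⟨fun _ => v, fun _ => h1, ?_, fun i => i.elim⟩
    rintro (t | g) hi τ hτ
    · cases t
      · exact (h2 τ hτ).2.1
      · exact (h2 τ hτ).1
    · exact (h2 τ hτ).2.2 g (Finset.mem_preimage.2 hi))
  exact ⟨m (), hm1 (Sum.inl true), sub_eq_zero.1 (hm1 (Sum.inl false)),
    fun g => sub_eq_zero.1 (hm1 (Sum.inr g))⟩

end P095F
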