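import Vale.Agent.Lib.P095F.Defs
import Vale.Agent.Lib.P095F.CDefs
import Vale.Agent.Lib.P095E.Defs
import Vale.Agent.Lib.P101.CopiesA
import Vale.Agent.Lib.P101.Transfer

/-!
# P095F, part M: definitions

`S : κ → Set (A →ₗ[ℂ] ℂ)` is a countable family of sets of states of `A` that are asymptotically
tracial on central sequences and permuted by the action; unital case: `κ = Unit`,
`S = TState A`.  `F = FOmega ω A`, `J` = the elements of `F` that are uniformly small for every `S k`,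
`M = F / J` (an arbitrary C*-algebra `M` with a surjection `p : F → M`, structure `Quo`),
`LT` = the limit functionals on `M`.
-/

open scoped ENNReal Topology
open Filter P101 P095E

namespace P095F

universe u v

/-- states (not assumed tracial) -/
structure PSt {A : Type u} [CStarAlgebra A] (s : A →ₗ[ℂ] ℂ) : Prop where
  nonneg : ∀ x : A, 0 ≤ (s (star x * x)).re
  im_eq : ∀ x : A, (s (star x * x)).im = 0
  one : s 1 = 1

section

variable (ω : Ultrafilter ℕ) {A : Type u} [CStarAlgebra A] [Nontrivial A]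

/-- the assumptions on the family of sets of states -/
structure StFam {G : Type v} [Group G] (α : G →* (A ≃⋆ₐ[ℂ] A)) {κ : Type}
    (S : κ → Set (A →ₗ[ℂ] ℂ)) : Prop where
  st : ∀ k, ∀ s ∈ S k, PSt s
  tr : ∀ k, ∀ x y : lp (fun _ : ℕ => A) ∞, toUltrapower ω A x ∈ centralSeq ω A →
    toUltrapower ω A y ∈ centralSeq ω A → ∀ ε : ℝ, 0 < ε → ∀ᶠ n in (ω : Filter ℕ),
      ∀ s ∈ S k, ‖s (x n * y n - y n * x n)‖ ≤ ε
  inv : ∀ (g : G) (k : κ), ∃ k', ∀ s ∈ S k, ∃ s' ∈ S k', ∀ x, s' x = s (α g x)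

/-- uniformly `‖x‖_2^2 ≤ ε` -/
def SmQ {κ : Type} (S : κ → Set (A →ₗ[ℂ] ℂ)) (x : FOmega ω A) (ε : ℝ) : Prop :=
  ∀ (k : κ) (y : lp (fun _ : ℕ => A) ∞), toUltrapower ω A y = (x : Ultrapower ω A) →
    ∀ ε' : ℝ, ε < ε' → ∀ᶠ n in (ω : Filter ℕ), ∀ s ∈ S k, (s (star (y n) * y n)).re ≤ ε'

/-- uniformly `|s x| ≤ ε` -/
def SmL {κ : Type} (S : κ → Set (A →ₗ[ℂ] ℂ)) (x : FOmega ω A) (ε : ℝ) : Prop :=
  ∀ (k : κ) (y : lp (fun _ : ℕ => A) ∞), toUltrapower ω A y = (x : Ultrapower ω A) →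
    ∀ ε' : ℝ, ε < ε' → ∀ᶠ n in (ω : Filter ℕ), ∀ s ∈ S k, ‖s (y n)‖ ≤ ε'

/-- `M = F / J` with the induced action -/
structure Quo {κ : Type} (S : κ → Set (A →ₗ[ℂ] ℂ)) {G : Type v} [Group G]
    (β : G →* (FOmega ω A ≃⋆ₐ[ℂ] FOmega ω A)) {M : Type u} [CStarAlgebra M]
    (p : FOmega ω A →⋆ₐ[ℂ] M) (αM : G →* (M ≃⋆ₐ[ℂ] M)) : Prop where
  surj : ∀ m : M, ∃ x, p x = m ∧ ‖x‖ ≤ ‖m‖ + 1
  ker : ∀ x, p x = 0 ↔ SmQ ω S x 0
  equiv : ∀ g x, αM g (p x) = p (β g x)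

/-- `τ` is the limit of the states `σ n` along `ω` -/
def IsLim {M : Type u} [CStarAlgebra M] (p : FOmega ω A →⋆ₐ[ℂ] M) (σ : ℕ → (A →ₗ[ℂ] ℂ))
    (τ : M →ₗ[ℂ] ℂ) : Prop :=
  ∀ (x : FOmega ω A) (y : lp (fun _ : ℕ => A) ∞), toUltrapower ω A y = (x : Ultrapower ω A) →
    Tendsto (fun n => σ n (y n)) (ω : Filter ℕ) (𝓝 (τ (p x)))

/-- the limit traces -/
def LT {κ : Type} (S : κ → Set (A →ₗ[ℂ] ℂ)) {M : Type u} [CStarAlgebra M]
    (p : FOmega ω A →⋆ₐ[ℂ] M) : Set (M →ₗ[ℂ] ℂ) :=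
  {τ | ∃ (k : κ) (σ : ℕ → (A →ₗ[ℂ] ℂ)), (∀ n, σ n ∈ S k) ∧ IsLim ω p σ τ}

/-- maps of `F` (in finitely many variables `V`) induced by a sequence of maps of `A` -/
def Liftable {V : Type} (c : (V → FOmega ω A) → FOmega ω A) : Prop :=
  ∃ cn : ℕ → (V → A) → A, ∀ (x : V → FOmega ω A) (y : V → lp (fun _ : ℕ => A) ∞),
    (∀ v, toUltrapower ω A (y v) = (x v : Ultrapower ω A)) →
    ∃ z : lp (fun _ : ℕ => A) ∞, (∀ n, z n = cn n (fun v => y v n)) ∧
      toUltrapower ω A z = (c x : Ultrapower ω A)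

/-- kinds of conditions: norm, 2-norm, mean -/
inductive Kind
  | N
  | Q
  | L

/-- the conditions -/
def Small {κ : Type} (S : κ → Set (A →ₗ[ℂ] ℂ)) : Kind → FOmega ω A → ℝ → Prop
  | Kind.N, x, ε => ‖x‖ ≤ ε
  | Kind.Q, x, ε => SmQ ω S x ε
  | Kind.L, x, ε => SmL ω S x ε

/-- maps of `M` which lift to liftable maps of `F` -/
def MLiftable {M : Type u} [CStarAlgebra M] (p : FOmega ω A →⋆ₐ[ℂ] M) {V : Type}
    (c : (V → M) → M) : Prop :=
  ∃ c' : (V → FOmega ω A) → FOmega ω A, Liftable ω c' ∧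
    ∀ x : V → FOmega ω A, c (fun v => p (x v)) = p (c' x)

/-- modulo `J` there are unital *-homomorphisms from the dimension drop algebras commuting with a
given countable set: `h` is a function to `F` which satisfies all relations modulo `J` -/
def DropJ {κ : Type} (S : κ → Set (A →ₗ[ℂ] ℂ)) : Prop :=
  ∀ n : ℕ, 1 ≤ n → ∀ C : Set (FOmega ω A), C.Countable →
    ∃ h : dimDrop n (n + 1) → FOmega ω A,
      (∀ x y, SmQ ω S (h (x + y) - (h x + h y)) 0) ∧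
      (∀ x y, SmQ ω S (h (x * y) - h x * h y) 0) ∧
      (∀ x, SmQ ω S (h (star x) - star (h x)) 0) ∧
      (∀ (r : ℂ) (x), SmQ ω S (h (r • x) - r • h x) 0) ∧
      SmQ ω S (h 1 - 1) 0 ∧
      ∀ x, ∀ c ∈ C, SmQ ω S (h x * c - c * h x) 0

end

/-- elements in a *-algebra (the image of a dimension drop algebra) which are matrix units up to the
small element `c` -/
structure DropUnits {D : Type u} [Ring D] [StarRing D] [Algebra ℂ D] {k m : ℕ}
    (E : Fin k → Fin k → D) (c w w' w'' w₃ : D) (a : Fin m → D) : Prop where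
  mul : ∀ i j j' l, E i j * E j' l = if j = j' then (1 - c) * E i l else 0
  star : ∀ i j, star (E i j) = E j i
  sum : ∑ i, E i i = 1 - c
  c_eq : c = Star.star w * w
  one_sub : 1 - c = Star.star w' * w'
  sub_sq : c - c * c = Star.star w'' * w''
  a_star : ∀ i, Star.star (a i) * a i = c
  a_sum : 1 - ∑ i, a i * Star.star (a i) = Star.star w₃ * w₃

end P095F
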