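
import Vale.Agent.Lib.P095F.MDefs
import Vale.Agent.Lib.P101.DropPath

/-!
# P095F, part M: approximate matrix units in the dimension drop algebras

`n = k N`, `P = pathP n = 1 ⊗ E_00`, `U = pathU n` (P101/DropPath.lean): `U(t)` unitary, `U = 1` near `0`,
`U = P + i S` near `1`, `P U = U P = P` (`S P = P S = 0`).  For `m ∈ M_n`:
`Φ(m)(t) = U(t)^* (m ⊗ 1)(1 - t P) U(t)`.
* `P` commutes with `m ⊗ 1`; `Φ(1)(t) = 1 - t P`; `Φ(m) Φ(m') = Φ(1) Φ(m m')`; `Φ(m)^* = Φ(m^*)`;
* `Φ(m)(0) = m ⊗ 1`, `Φ(m)(1) = U^*(m ⊗ 1)U - (m ⊗ 1) P = 1 ⊗ embSucc m` (the computation is in the proof of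
  `exists_path`: `U(1)^*(m ⊗ 1)U(1) = m ⊗ E_00 + 1 ⊗ embSucc m`), so `Φ(m)` is in `dimDrop n (n+1)`.
* `E i j = Φ(e_ij ⊗ 1_N)` (unital star homomorphism `M_k → M_{kN}`, e.g. `kroneckerMap` and `reindex` by
  `finProdFinEquiv`), `c(t) = t (1 ⊗ E_00)`, `w = √t (1 ⊗ E_00)`, `w' = √(1-t) P + (1 - P)`,
  `w'' = √(t(1-t)) P`, `a_i = √t (1 ⊗ E_i0)`, `w₃ = √(1-t) 1`: all in `dimDrop n (n+1)` (look at
  `t = 0`, `t = 1`).
-/

open scoped ENNReal Topology
open Filter P101 P095E Matrix

namespace P095F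

/-- the ambient algebra -/
private abbrev MdB (n : ℕ) : Type :=
  C(unitInterval, Matrix (Fin n × Fin (n + 1)) (Fin n × Fin (n + 1)) ℂ)

/-- a scalar function times a fixed matrix -/
private noncomputable def mdF {n : ℕ} (g : C(unitInterval, ℝ))
    (Q : Matrix (Fin n × Fin (n + 1)) (Fin n × Fin (n + 1)) ℂ) : MdB n where
  toFun t := ((g t : ℝ) : ℂ) • Q
  continuous_toFun := by
    have := g.continuous
    fun_prop

private theorem mdF_apply {n : ℕ} (g : C(unitInterval, ℝ))
    (Q : Matrix (Fin n × Fin (n + 1)) (Fin n × Fin (n + 1)) ℂ) (t : unitInterval) :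
    mdF g Q t = ((g t : ℝ) : ℂ) • Q := rfl

private theorem mdF_mul {n : ℕ} (g h : C(unitInterval, ℝ))
    (Q R : Matrix (Fin n × Fin (n + 1)) (Fin n × Fin (n + 1)) ℂ) :
    mdF g Q * mdF h R = mdF (g * h) (Q * R) := by
  ext1 t
  rw [ContinuousMap.mul_apply, mdF_apply, mdF_apply, mdF_apply, ContinuousMap.mul_apply,
    smul_mul_smul_comm, Complex.ofReal_mul]

private theorem mdF_star {n : ℕ} (g : C(unitInterval, ℝ))
    (Q : Matrix (Fin n × Fin (n + 1)) (Fin n × Fin (n + 1)) ℂ) :
    star (mdF g Q) = mdF g (star Q) := by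
  ext1 t
  rw [ContinuousMap.star_apply, mdF_apply, mdF_apply, star_smul]
  congr 1
  exact Complex.conj_ofReal _

private theorem mdF_sub_left {n : ℕ} (g h : C(unitInterval, ℝ))
    (Q : Matrix (Fin n × Fin (n + 1)) (Fin n × Fin (n + 1)) ℂ) :
    mdF g Q - mdF h Q = mdF (g - h) Q := by
  ext1 t
  rw [ContinuousMap.sub_apply, mdF_apply, mdF_apply, mdF_apply, ContinuousMap.sub_apply,
    Complex.ofReal_sub, sub_smul]

private theorem mdF_add_right {n : ℕ} (g : C(unitInterval, ℝ))
    (Q R : Matrix (Fin n × Fin (n + 1)) (Fin n × Fin (n + 1)) ℂ) :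
    mdF g (Q + R) = mdF g Q + mdF g R := by
  ext1 t
  rw [ContinuousMap.add_apply, mdF_apply, mdF_apply, mdF_apply, smul_add]

private theorem mdF_one {n : ℕ} : mdF (n := n) 1 1 = 1 := by
  ext1 t
  rw [mdF_apply]
  simp

/-- `t` -/
private noncomputable def mdt : C(unitInterval, ℝ) := ⟨fun t => (t : ℝ), by fun_prop⟩

/-- `√t` -/
private noncomputable def mdr : C(unitInterval, ℝ) := ⟨fun t => √(t : ℝ), by fun_prop⟩

/-- `√(1-t)` -/
private noncomputable def mds : C(unitInterval, ℝ) := ⟨fun t => √(1 - (t : ℝ)), by fun_prop⟩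

private theorem mdr_sq : mdr * mdr = mdt := by
  ext t
  change √(t : ℝ) * √(t : ℝ) = (t : ℝ)
  exact Real.mul_self_sqrt t.2.1

private theorem mds_sq : mds * mds = 1 - mdt := by
  ext t
  change √(1 - (t : ℝ)) * √(1 - (t : ℝ)) = 1 - (t : ℝ)
  exact Real.mul_self_sqrt (by linarith [t.2.2])

private theorem mdt_zero : mdt 0 = 0 := rfl
private theorem mdt_one : mdt 1 = 1 := rfl
private theorem mdr_zero : mdr 0 = 0 := by
  change √(0 : ℝ) = 0
  simp
private theorem mdr_one : mdr 1 = 1 := by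
  change √(1 : ℝ) = 1
  simp
private theorem mds_zero : mds 0 = 1 := by
  change √(1 - (0 : ℝ)) = 1
  simp
private theorem mds_one : mds 1 = 0 := by
  change √(1 - (1 : ℝ)) = 0
  simp

/-- `m ⊗ 1` -/
private def mdK {n : ℕ} (m : Matrix (Fin n) (Fin n) ℂ) :
    Matrix (Fin n × Fin (n + 1)) (Fin n × Fin (n + 1)) ℂ := kroneckerMap (· * ·) m 1

/-- `1 ⊗ x` -/
private def mdL {n : ℕ} (x : Matrix (Fin (n + 1)) (Fin (n + 1)) ℂ) :
    Matrix (Fin n × Fin (n + 1)) (Fin n × Fin (n + 1)) ℂ := kroneckerMap (· * ·) 1 x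

private theorem mdK_mul {n : ℕ} (m m' : Matrix (Fin n) (Fin n) ℂ) :
    mdK m * mdK m' = mdK (m * m') := by
  unfold mdK
  rw [← mul_kronecker_mul, mul_one]

private theorem mdL_mul {n : ℕ} (m m' : Matrix (Fin (n + 1)) (Fin (n + 1)) ℂ) :
    mdL m * mdL m' = mdL (m * m') := by
  unfold mdL
  rw [← mul_kronecker_mul, mul_one]

private theorem mdK_comm_mdL {n : ℕ} (m : Matrix (Fin n) (Fin n) ℂ)
    (x : Matrix (Fin (n + 1)) (Fin (n + 1)) ℂ) : mdK m * mdL x = mdL x * mdK m := by
  unfold mdK mdL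
  rw [← mul_kronecker_mul, ← mul_kronecker_mul, mul_one, one_mul, mul_one, one_mul]

private theorem mdK_star {n : ℕ} (m : Matrix (Fin n) (Fin n) ℂ) :
    star (mdK m) = mdK (mᴴ) := by
  unfold mdK
  rw [star_eq_conjTranspose, conjTranspose_kronecker, conjTranspose_one]

private theorem mdL_star {n : ℕ} (m : Matrix (Fin (n + 1)) (Fin (n + 1)) ℂ) :
    star (mdL m) = mdL (mᴴ) := by
  unfold mdL
  rw [star_eq_conjTranspose, conjTranspose_kronecker, conjTranspose_one]

private theorem mdK_one {n : ℕ} : mdK (1 : Matrix (Fin n) (Fin n) ℂ) = 1 := by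
  unfold mdK
  rw [one_kronecker_one]

private theorem mdL_one {n : ℕ} : mdL (1 : Matrix (Fin (n + 1)) (Fin (n + 1)) ℂ) = 1 := by
  unfold mdL
  rw [one_kronecker_one]

private theorem mdL_add {n : ℕ} (x y : Matrix (Fin (n + 1)) (Fin (n + 1)) ℂ) :
    mdL (x + y) = mdL x + mdL y := by
  unfold mdL
  rw [kronecker_add]

private theorem mdK_add {n : ℕ} (x y : Matrix (Fin n) (Fin n) ℂ) :
    mdK (x + y) = mdK x + mdK y := by
  unfold mdK
  rw [add_kronecker]

private theorem mdP {n : ℕ} : pathP n = mdL (Matrix.single 0 0 1) := rfl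

private theorem mdPU (n : ℕ) (t : unitInterval) : pathP n * pathU n t = pathP n := by
  rw [pathU_apply]
  simp only [mul_add, mul_sub, mul_smul_comm, pathP_mul_self, pathP_mul_pathS, mul_one, sub_self,
    smul_zero, add_zero]

private theorem mdUP (n : ℕ) (t : unitInterval) : pathU n t * pathP n = pathP n := by
  rw [pathU_apply]
  simp only [add_mul, sub_mul, smul_mul_assoc, pathP_mul_self, pathS_mul_pathP, one_mul, sub_self,
    smul_zero, add_zero]

private noncomputable def mdc (n : ℕ) : MdB n := mdF mdt (pathP n)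

private theorem mdc_U (n : ℕ) : mdc n * pathU n = pathU n * mdc n := by
  ext1 t
  rw [ContinuousMap.mul_apply, ContinuousMap.mul_apply]
  unfold mdc
  rw [mdF_apply, smul_mul_assoc, mul_smul_comm, mdPU, mdUP]

private theorem mdc_star (n : ℕ) : star (mdc n) = mdc n := by
  unfold mdc
  rw [mdF_star, pathP_star]

private theorem mdc_U' (n : ℕ) : mdc n * star (pathU n) = star (pathU n) * mdc n := by
  have h := congrArg star (mdc_U n)
  rw [star_mul, star_mul, mdc_star] at h
  exact h.symm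

private noncomputable def mdX {n : ℕ} (m : Matrix (Fin n) (Fin n) ℂ) : MdB n := mdF 1 (mdK m)

private theorem mdX_mul {n : ℕ} (m m' : Matrix (Fin n) (Fin n) ℂ) :
    mdX m * mdX m' = mdX (m * m') := by
  unfold mdX
  rw [mdF_mul, mdK_mul, mul_one]

private theorem mdX_star {n : ℕ} (m : Matrix (Fin n) (Fin n) ℂ) : star (mdX m) = mdX (mᴴ) := by
  unfold mdX
  rw [mdF_star, mdK_star]

private theorem mdX_one {n : ℕ} : mdX (1 : Matrix (Fin n) (Fin n) ℂ) = 1 := by
  unfold mdX
  rw [mdK_one, mdF_one]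

private theorem mdX_c {n : ℕ} (m : Matrix (Fin n) (Fin n) ℂ) : mdc n * mdX m = mdX m * mdc n := by
  unfold mdX mdc
  rw [mdF_mul, mdF_mul, mul_comm, mdP, mdK_comm_mdL]

/-- `Φ(m)` -/
private noncomputable def mdPhi {n : ℕ} (m : Matrix (Fin n) (Fin n) ℂ) : MdB n :=
  star (pathU n) * mdX m * (1 - mdc n) * pathU n

private theorem mdPhi_mul {n : ℕ} (m m' : Matrix (Fin n) (Fin n) ℂ) :
    mdPhi m * mdPhi m' = (1 - mdc n) * mdPhi (m * m') := by
  have h1 := pathU_mul_star n
  have h2 : (1 - mdc n) * star (pathU n) = star (pathU n) * (1 - mdc n) := by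
    rw [sub_mul, mul_sub, one_mul, mul_one, mdc_U']
  have h3 : ∀ x : Matrix (Fin n) (Fin n) ℂ, (1 - mdc n) * mdX x = mdX x * (1 - mdc n) := by
    intro x
    rw [sub_mul, mul_sub, one_mul, mul_one, mdX_c]
  unfold mdPhi
  rw [← mdX_mul]
  calc star (pathU n) * mdX m * (1 - mdc n) * pathU n *
        (star (pathU n) * mdX m' * (1 - mdc n) * pathU n)
      = star (pathU n) * mdX m * (1 - mdc n) * (pathU n * star (pathU n)) *
        (mdX m' * (1 - mdc n) * pathU n) := by simp only [mul_assoc]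
    _ = star (pathU n) * (mdX m * (1 - mdc n)) * (mdX m' * (1 - mdc n) * pathU n) := by
        rw [h1, mul_one, mul_assoc (star (pathU n))]
    _ = star (pathU n) * (1 - mdc n) * (mdX m * (mdX m' * (1 - mdc n) * pathU n)) := by
        rw [← h3]; simp only [mul_assoc]
    _ = (1 - mdc n) * (star (pathU n) * (mdX m * mdX m') * (1 - mdc n) * pathU n) := by
        rw [← h2]; simp only [mul_assoc]

private theorem mdPhi_star {n : ℕ} (m : Matrix (Fin n) (Fin n) ℂ) :
    star (mdPhi m) = mdPhi (mᴴ) := by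
  have h3 : ∀ x : Matrix (Fin n) (Fin n) ℂ, (1 - mdc n) * mdX x = mdX x * (1 - mdc n) := by
    intro x
    rw [sub_mul, mul_sub, one_mul, mul_one, mdX_c]
  unfold mdPhi
  rw [star_mul, star_mul, star_mul, star_star, star_sub, star_one, mdc_star, mdX_star,
    ← mul_assoc (1 - mdc n), h3, ← mul_assoc, ← mul_assoc]

private theorem mdPhi_one {n : ℕ} : mdPhi (1 : Matrix (Fin n) (Fin n) ℂ) = 1 - mdc n := by
  unfold mdPhi
  have h2 : (1 - mdc n) * star (pathU n) = star (pathU n) * (1 - mdc n) := by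
    rw [sub_mul, mul_sub, one_mul, mul_one, mdc_U']
  rw [mdX_one, mul_one, ← h2, mul_assoc, pathU_star_mul, mul_one]

private theorem mdPhi_add {n : ℕ} (m m' : Matrix (Fin n) (Fin n) ℂ) :
    mdPhi (m + m') = mdPhi m + mdPhi m' := by
  unfold mdPhi mdX
  rw [mdK_add, mdF_add_right, mul_add, add_mul, add_mul]

private theorem mdPhi_zero {n : ℕ} : mdPhi (0 : Matrix (Fin n) (Fin n) ℂ) = 0 := by
  have h := mdPhi_add (0 : Matrix (Fin n) (Fin n) ℂ) 0
  rw [add_zero] at h
  exact left_eq_add.1 h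

/-- `Φ` as an additive map -/
private noncomputable def mdPhiHom (n : ℕ) : Matrix (Fin n) (Fin n) ℂ →+ MdB n where
  toFun := mdPhi
  map_zero' := mdPhi_zero
  map_add' := mdPhi_add

private theorem mdPhi_mem {n : ℕ} (m : Matrix (Fin n) (Fin n) ℂ) :
    mdPhi m ∈ dimDrop n (n + 1) := by
  constructor
  · refine ⟨m, ?_⟩
    unfold mdPhi mdc mdX
    rw [ContinuousMap.mul_apply, ContinuousMap.mul_apply, ContinuousMap.mul_apply,
      ContinuousMap.sub_apply, ContinuousMap.star_apply, mdF_apply, mdF_apply, mdt_zero,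
      pathU_left n (t := 0) (by
        change (0 : ℝ) ≤ 1 / 3
        norm_num)]
    simp [mdK]
  · refine ⟨embSucc m, ?_⟩
    unfold mdPhi mdc mdX
    rw [ContinuousMap.mul_apply, ContinuousMap.mul_apply, ContinuousMap.mul_apply,
      ContinuousMap.sub_apply, ContinuousMap.star_apply, mdF_apply, mdF_apply, mdt_one]
    have h23 : (2 : ℝ) / 3 ≤ ((1 : unitInterval) : ℝ) := by
      change (2 : ℝ) / 3 ≤ 1
      norm_num
    rw [(pathU_right n h23).2, (pathU_right n h23).1]
    simp only [ContinuousMap.one_apply, Complex.ofReal_one, one_smul]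
    have e2 : pathP n * mdK m = mdK m * pathP n := by rw [mdP, mdK_comm_mdL]
    have e3 : pathS n * mdK m * pathS n = mdL (embSucc m) := pathS_conj m
    have e4 : (1 - pathP n) * (pathP n + Complex.I • pathS n) = Complex.I • pathS n := by
      rw [sub_mul, one_mul, mul_add, pathP_mul_self, mul_smul_comm, pathP_mul_pathS, smul_zero,
        add_zero, add_sub_cancel_left]
    have e5 : pathP n * mdK m * pathS n = 0 := by
      rw [e2, mul_assoc, pathP_mul_pathS, mul_zero]
    rw [mul_assoc, e4]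
    change (pathP n + (-Complex.I) • pathS n) * mdK m * (Complex.I • pathS n) = mdL (embSucc m)
    rw [← e3]
    simp only [add_mul, smul_mul_assoc, mul_smul_comm, e5, zero_add, smul_smul,
      mul_neg, Complex.I_mul_I, neg_neg, one_smul]

/-- membership of `g(t) (1 ⊗ x)` with `g(0) = 0` -/
private theorem mdF_mem {n : ℕ} (g : C(unitInterval, ℝ)) (h0 : g 0 = 0)
    (x : Matrix (Fin (n + 1)) (Fin (n + 1)) ℂ) : mdF g (mdL x) ∈ dimDrop n (n + 1) := by
  constructor
  · refine ⟨0, ?_⟩
    rw [mdF_apply, h0]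
    simp
  · refine ⟨((g 1 : ℝ) : ℂ) • x, ?_⟩
    rw [mdF_apply]
    unfold mdL
    rw [kronecker_smul]

/-- `e_ij ⊗ 1_N` -/
private noncomputable def mde {k N : ℕ} (i j : Fin k) : Matrix (Fin (k * N)) (Fin (k * N)) ℂ :=
  (kroneckerMap (· * ·) (Matrix.single i j (1 : ℂ)) (1 : Matrix (Fin N) (Fin N) ℂ)).submatrix
    finProdFinEquiv.symm finProdFinEquiv.symm

private theorem mde_mul {k N : ℕ} (i j j' l : Fin k) :
    mde (N := N) i j * mde j' l = if j = j' then mde i l else 0 := by
  unfold mde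
  rw [Matrix.submatrix_mul_equiv, ← mul_kronecker_mul, mul_one]
  by_cases h : j = j'
  · subst h
    rw [if_pos rfl, Matrix.single_mul_single_same, mul_one]
  · rw [if_neg h, Matrix.single_mul_single_of_ne _ _ _ _ h, zero_kronecker]
    rfl

private theorem mde_star {k N : ℕ} (i j : Fin k) : (mde (N := N) i j)ᴴ = mde j i := by
  unfold mde
  rw [Matrix.conjTranspose_submatrix, conjTranspose_kronecker, conjTranspose_one,
    Matrix.conjTranspose_single, star_one]

private theorem mde_sum {k N : ℕ} : ∑ i : Fin k, mde (N := N) i i = 1 := by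
  have h : ∑ i : Fin k, Matrix.single i i (1 : ℂ) = 1 := by
    ext a b
    rw [Matrix.sum_apply]
    simp only [Matrix.single_apply, Matrix.one_apply]
    by_cases hab : a = b
    · subst hab
      simp
    · rw [if_neg hab]
      apply Finset.sum_eq_zero
      intro i _
      rw [if_neg]
      rintro ⟨h1, h2⟩
      exact hab (h1.symm.trans h2)
  unfold mde
  ext a b
  rw [Matrix.sum_apply]
  simp only [Matrix.submatrix_apply, kroneckerMap_apply]
  rw [← Finset.sum_mul]
  have h2 : ∑ i : Fin k, Matrix.single i i (1 : ℂ) (finProdFinEquiv.symm a).1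
      (finProdFinEquiv.symm b).1 = (1 : Matrix (Fin k) (Fin k) ℂ) (finProdFinEquiv.symm a).1
      (finProdFinEquiv.symm b).1 := by
    rw [← h, Matrix.sum_apply]
  rw [h2]
  simp only [Matrix.one_apply]
  by_cases hab : a = b
  · subst hab
    simp
  · rw [if_neg hab]
    by_cases h3 : (finProdFinEquiv.symm a).1 = (finProdFinEquiv.symm b).1
    · have h4 : (finProdFinEquiv.symm a).2 ≠ (finProdFinEquiv.symm b).2 := by
        intro h4
        exact hab (finProdFinEquiv.symm.injective (Prod.ext h3 h4))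
      rw [if_neg h4, mul_zero]
    · rw [if_neg h3, zero_mul]

theorem exists_dropUnits (k N : ℕ) (hk : 1 ≤ k) (hN : 1 ≤ N) :
    ∃ (E : Fin k → Fin k → dimDrop (k * N) (k * N + 1))
      (c w w' w'' w₃ : dimDrop (k * N) (k * N + 1))
      (a : Fin (k * N + 1) → dimDrop (k * N) (k * N + 1)),
      DropUnits E c w w' w'' w₃ a := by
  have hc : mdc (k * N) ∈ dimDrop (k * N) (k * N + 1) := mdF_mem mdt mdt_zero _
  have hw : mdF mdr (pathP (k * N)) ∈ dimDrop (k * N) (k * N + 1) := mdF_mem mdr mdr_zero _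
  have hw' : mdF mds (pathP (k * N)) + (1 - mdF 1 (pathP (k * N))) ∈
      dimDrop (k * N) (k * N + 1) := by
    constructor
    · refine ⟨1, ?_⟩
      rw [ContinuousMap.add_apply, ContinuousMap.sub_apply, mdF_apply, mdF_apply, mds_zero,
        one_kronecker_one]
      simp
    · refine ⟨1 - Matrix.single 0 0 1, ?_⟩
      rw [ContinuousMap.add_apply, ContinuousMap.sub_apply, mdF_apply, mdF_apply, mds_one]
      have h : mdL (n := k * N) (1 - Matrix.single 0 0 1) = 1 - pathP (k * N) := by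
        rw [eq_sub_iff_add_eq, mdP, ← mdL_add, sub_add_cancel, mdL_one]
      refine Eq.trans ?_ h.symm
      simp
  have hw'' : mdF (mdr * mds) (pathP (k * N)) ∈ dimDrop (k * N) (k * N + 1) :=
    mdF_mem _ (by rw [ContinuousMap.mul_apply, mdr_zero, zero_mul]) _
  have hw₃ : mdF (n := k * N) mds 1 ∈ dimDrop (k * N) (k * N + 1) := by
    constructor
    · refine ⟨1, ?_⟩
      rw [mdF_apply, mds_zero, one_kronecker_one]
      simp
    · refine ⟨0, ?_⟩
      rw [mdF_apply, mds_one]
      simp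
  have ha : ∀ i, mdF mdr (mdL (n := k * N) (Matrix.single i 0 1)) ∈
      dimDrop (k * N) (k * N + 1) := fun i => mdF_mem mdr mdr_zero _
  have hPP := pathP_mul_self (k * N)
  refine ⟨fun i j => ⟨mdPhi (mde i j), mdPhi_mem _⟩, ⟨_, hc⟩, ⟨_, hw⟩, ⟨_, hw'⟩, ⟨_, hw''⟩,
    ⟨_, hw₃⟩, fun i => ⟨_, ha i⟩, ?_⟩
  constructor
  · intro i j j' l
    by_cases h : j = j'
    · rw [if_pos h]
      apply Subtype.ext
      change mdPhi (mde i j) * mdPhi (mde j' l) = (1 - mdc (k * N)) * mdPhi (mde i l)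
      rw [mdPhi_mul, mde_mul, if_pos h]
    · rw [if_neg h]
      apply Subtype.ext
      change mdPhi (mde i j) * mdPhi (mde j' l) = 0
      rw [mdPhi_mul, mde_mul, if_neg h, mdPhi_zero, mul_zero]
  · intro i j
    apply Subtype.ext
    change star (mdPhi (mde i j)) = mdPhi (mde j i)
    rw [mdPhi_star, mde_star]
  · apply Subtype.ext
    rw [AddSubmonoidClass.coe_finsetSum]
    change ∑ i : Fin k, mdPhiHom (k * N) (mde i i) = 1 - mdc (k * N)
    rw [← map_sum, mde_sum]
    exact mdPhi_one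
  · apply Subtype.ext
    change mdc (k * N) = star (mdF mdr (pathP (k * N))) * mdF mdr (pathP (k * N))
    rw [mdF_star, pathP_star, mdF_mul, mdr_sq, hPP]
    rfl
  · apply Subtype.ext
    change 1 - mdc (k * N) = star (mdF mds (pathP (k * N)) + (1 - mdF 1 (pathP (k * N)))) *
      (mdF mds (pathP (k * N)) + (1 - mdF 1 (pathP (k * N))))
    rw [star_add, star_sub, star_one, mdF_star, mdF_star, pathP_star]
    have h1 : mdF mds (pathP (k * N)) * mdF mds (pathP (k * N)) =
        mdF 1 (pathP (k * N)) - mdc (k * N) := by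
      rw [mdF_mul, mds_sq, hPP]
      unfold mdc
      rw [mdF_sub_left]
    have h2 : mdF mds (pathP (k * N)) * mdF 1 (pathP (k * N)) = mdF mds (pathP (k * N)) := by
      rw [mdF_mul, mul_one, hPP]
    have h3 : mdF 1 (pathP (k * N)) * mdF mds (pathP (k * N)) = mdF mds (pathP (k * N)) := by
      rw [mdF_mul, one_mul, hPP]
    have h4 : mdF 1 (pathP (k * N)) * mdF 1 (pathP (k * N)) = mdF 1 (pathP (k * N)) := by
      rw [mdF_mul, one_mul, hPP]
    simp only [add_mul, mul_add, sub_mul, mul_sub, one_mul, mul_one, h1, h2, h3, h4]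
    abel
  · apply Subtype.ext
    change mdc (k * N) - mdc (k * N) * mdc (k * N) =
      star (mdF (mdr * mds) (pathP (k * N))) * mdF (mdr * mds) (pathP (k * N))
    rw [mdF_star, pathP_star, mdF_mul, hPP]
    unfold mdc
    rw [mdF_mul, hPP, mdF_sub_left]
    congr 1
    have : mdr * mds * (mdr * mds) = (mdr * mdr) * (mds * mds) := by ring
    rw [this, mdr_sq, mds_sq, mul_sub, mul_one]
  · intro i
    apply Subtype.ext
    change star (mdF mdr (mdL (n := k * N) (Matrix.single i 0 1))) *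
      mdF mdr (mdL (n := k * N) (Matrix.single i 0 1)) = mdc (k * N)
    rw [mdF_star, mdL_star, mdF_mul, mdr_sq, mdL_mul, Matrix.conjTranspose_single,
      Matrix.single_mul_single_same, star_one, one_mul]
    rfl
  · apply Subtype.ext
    have hsum : ((1 - ∑ i, (⟨mdF mdr (mdL (n := k * N) (Matrix.single i 0 1)), ha i⟩ :
        dimDrop (k * N) (k * N + 1)) * star (⟨mdF mdr (mdL (n := k * N) (Matrix.single i 0 1)),
        ha i⟩ : dimDrop (k * N) (k * N + 1)) : dimDrop (k * N) (k * N + 1)) : MdB (k * N))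
        = 1 - ∑ i, mdF mdr (mdL (n := k * N) (Matrix.single i 0 1)) *
          star (mdF mdr (mdL (n := k * N) (Matrix.single i 0 1))) := by
      rw [AddSubgroupClass.coe_sub, AddSubmonoidClass.coe_finsetSum]
      rfl
    refine hsum.trans ?_
    change _ = star (mdF (n := k * N) mds 1) * mdF mds 1
    have h1 : ∀ i, mdF mdr (mdL (n := k * N) (Matrix.single i 0 1)) *
        star (mdF mdr (mdL (n := k * N) (Matrix.single i 0 1))) =
        mdF mdt (mdL (n := k * N) (Matrix.single i i 1)) := by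
      intro i
      rw [mdF_star, mdL_star, mdF_mul, mdr_sq, mdL_mul, Matrix.conjTranspose_single,
        Matrix.single_mul_single_same, star_one, one_mul]
    have h2 : ∑ i : Fin (k * N + 1), mdF mdt (mdL (n := k * N) (Matrix.single i i 1)) =
        mdF mdt 1 := by
      ext1 t
      rw [ContinuousMap.coe_sum, Finset.sum_apply]
      simp only [mdF_apply]
      rw [← Finset.smul_sum]
      congr 1
      ext a b
      rw [Matrix.sum_apply]
      simp only [mdL, kroneckerMap_apply]
      rw [← Finset.mul_sum]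
      have h3 : ∑ i : Fin (k * N + 1), Matrix.single i i (1 : ℂ) a.2 b.2 =
          (1 : Matrix (Fin (k * N + 1)) (Fin (k * N + 1)) ℂ) a.2 b.2 := by
        simp only [Matrix.single_apply, Matrix.one_apply]
        by_cases hab : a.2 = b.2
        · rw [if_pos hab, ← hab]
          simp
        · rw [if_neg hab]
          apply Finset.sum_eq_zero
          intro i _
          rw [if_neg]
          rintro ⟨h1, h2⟩
          exact hab (h1.symm.trans h2)
      rw [h3]
      have h4 := congrArg (fun M => M a b) (mdL_one (n := k * N))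
      exact h4
    simp only [h1]
    rw [h2, mdF_star, star_one, mdF_mul, mds_sq, one_mul, ← mdF_sub_left, mdF_one]

end P095F
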