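import Vale.Agent.Lib.P095F.MDefs
import Vale.Agent.Lib.P095F.PTrBasic

/-!
# P095F, part M: matrix algebras in `M ∩ B'`

* `exists_hom_of_dropJ`: lift the elements of `C` to `F`, `x ↦ p (h x)`.
* `units_est`: `e i j = f (E i j)`, `x_j = e j j`: `star (e i j) * e i j = (1 - c) x_j = star x_j * x_j`, and the sum over
  `j` of these is `(1 - c)^2 ≤ 1`, so `‖e i j‖ ≤ 1`.  `m ψ(c) = ∑ ψ(a_i^* a_i) = ψ(∑ a_i a_i^*) ≤ ψ(1)`, so
  `ψ(c) ≤ ψ(1)/m`; `sq2 ψ c = ψ(c^2) ≤ ψ(c)`; `sq2 ψ (c y) ≤ ‖y‖^2 sq2 ψ c` (`PTr.sq2_mul_le_right'`).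
* `exists_matHom_of_units`: `x ↦ ∑ x_ij e_ij` is a unital star homomorphism.
-/

open scoped ENNReal Topology
open Filter P101 P095E

namespace P095F

universe u v

variable {ω : Ultrafilter ℕ} {A : Type u} [CStarAlgebra A] [Nontrivial A]
  {G : Type v} [Group G] {α : G →* (A ≃⋆ₐ[ℂ] A)} {κ : Type} {S : κ → Set (A →ₗ[ℂ] ℂ)}
  {β : G →* (FOmega ω A ≃⋆ₐ[ℂ] FOmega ω A)} {M : Type u} [CStarAlgebra M]
  {p : FOmega ω A →⋆ₐ[ℂ] M} {αM : G →* (M ≃⋆ₐ[ℂ] M)}

theorem exists_hom_of_dropJ (hQ : Quo ω S β p αM) (hD : DropJ ω S) {n : ℕ} (hn : 1 ≤ n)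
    {C : Set M} (hC : C.Countable) :
    ∃ h : dimDrop n (n + 1) →⋆ₐ[ℂ] M, ∀ x, ∀ c ∈ C, Commute (h x) c := by
  choose l hl _ using hQ.surj
  obtain ⟨h, hadd, hmul, hstar, hsmul, hone, hcomm⟩ := hD n hn (l '' C) (hC.image l)
  have key : ∀ x y : FOmega ω A, SmQ ω S (x - y) 0 → p x = p y := by
    intro x y hxy
    rw [← sub_eq_zero, ← map_sub]
    exact (hQ.ker _).2 hxy
  have h1 : p (h 1) = 1 := by
    rw [key _ _ hone, map_one]
  have hsm : ∀ (r : ℂ) x, p (h (r • x)) = r • p (h x) := by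
    intro r x
    rw [key _ _ (hsmul r x), map_smul]
  refine ⟨{ toFun := fun x => p (h x), map_one' := h1, map_mul' := ?_, map_zero' := ?_,
            map_add' := ?_, commutes' := ?_, map_star' := ?_ }, ?_⟩
  · intro x y
    change p (h (x * y)) = p (h x) * p (h y)
    rw [key _ _ (hmul x y), map_mul]
  · change p (h 0) = 0
    have h2 := hsm 0 0
    rwa [zero_smul, zero_smul] at h2
  · intro x y
    change p (h (x + y)) = p (h x) + p (h y)
    rw [key _ _ (hadd x y), map_add]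
  · intro r
    change p (h (algebraMap ℂ _ r)) = _
    rw [Algebra.algebraMap_eq_smul_one, hsm, h1, Algebra.algebraMap_eq_smul_one]
  · intro x
    change p (h (star x)) = star (p (h x))
    rw [key _ _ (hstar x), map_star]
  · intro x c hc
    change p (h x) * c = c * p (h x)
    have h3 := key _ _ (hcomm x (l c) ⟨c, hc, rfl⟩)
    rwa [map_mul, map_mul, hl c] at h3

/-- norm estimate for an element `x` with `star x * x = d * y`, `y = star y`, `y * y = d * y`,
`∑ d * y_j = d * d`, `0 ≤ d ≤ 1`. -/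
private theorem mmata_norm {k : ℕ} {y : Fin k → M} {d c w w' : M} (hy : ∀ j, star (y j) = y j)
    (hyy : ∀ j, y j * y j = d * y j) (hsum : ∑ j, y j = d) (hd : d = 1 - c)
    (hc : c = star w * w) (hd' : d = star w' * w') {x : M} (j : Fin k)
    (hx : star x * x = d * y j) : ‖x‖ ≤ 1 := by
  let _ := CStarAlgebra.spectralOrder M
  have := CStarAlgebra.spectralOrderedRing M
  have hd0 : 0 ≤ d := by rw [hd']; exact star_mul_self_nonneg w'
  have hc0 : 0 ≤ c := by rw [hc]; exact star_mul_self_nonneg w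
  have hd1 : d ≤ 1 := by rw [hd]; exact sub_le_self 1 hc0
  have hdn : ‖d‖ ≤ 1 := (CStarAlgebra.norm_le_one_iff_of_nonneg d hd0).2 hd1
  have hsq : ∀ j, 0 ≤ y j * y j := by
    intro j
    have h1 := star_mul_self_nonneg (y j)
    rwa [hy] at h1
  have hs : ∑ j, y j * y j = d * d := by
    calc ∑ j, y j * y j = ∑ j, d * y j := Finset.sum_congr rfl fun j _ => hyy j
      _ = d * ∑ j, y j := (Finset.mul_sum _ _ _).symm
      _ = d * d := by rw [hsum]
  have hle : y j * y j ≤ d * d := by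
    rw [← hs]
    exact Finset.single_le_sum (fun i _ => hsq i) (Finset.mem_univ j)
  have hn : ‖y j * y j‖ ≤ ‖d * d‖ := CStarAlgebra.norm_le_norm_of_nonneg_of_le (hsq j) hle
  have h2 : ‖x‖ * ‖x‖ ≤ 1 := by
    rw [← CStarRing.norm_star_mul_self, hx, ← hyy]
    refine hn.trans ((norm_mul_le d d).trans ?_)
    nlinarith [norm_nonneg d]
  nlinarith [norm_nonneg x]

/-- the trace of `c` -/
private theorem mmata_trace {m : ℕ} (hm : 1 ≤ m) {c w'' w₃ : M} {a : Fin m → M}
    (hsa : star c = c) (hsub : c - c * c = star w'' * w'') (ha : ∀ i, star (a i) * a i = c)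
    (has : 1 - ∑ i, a i * star (a i) = star w₃ * w₃) {ψ : M →ₗ[ℂ] ℂ} (hψ : PTr ψ)
    (h1 : ψ 1 = 1) : sq2 ψ c ≤ 1 / (m : ℝ) := by
  have hm' : (0 : ℝ) < m := by exact_mod_cast hm
  have e1 : sq2 ψ c ≤ (ψ c).re := by
    have h2 := hψ.nonneg w''
    rw [← hsub, map_sub, Complex.sub_re] at h2
    unfold sq2
    rw [hsa]
    linarith
  have e2 : (m : ℝ) * (ψ c).re ≤ 1 := by
    have h2 := hψ.nonneg w₃
    rw [← has, map_sub, h1, map_sum, Complex.sub_re, Complex.re_sum, Complex.one_re] at h2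
    have h3 : ∀ i, (ψ (a i * star (a i))).re = (ψ c).re := by
      intro i
      rw [hψ.comm, ha]
    rw [Finset.sum_congr rfl fun i _ => h3 i, Finset.sum_const, Finset.card_univ,
      Fintype.card_fin, nsmul_eq_mul] at h2
    linarith
  rw [le_div_iff₀ hm']
  nlinarith

/-- estimates for the images of the approximate matrix units -/
theorem units_est {k m : ℕ} (hm : 1 ≤ m) {D : Type} [Ring D] [StarRing D] [Algebra ℂ D]
    {E : Fin k → Fin k → D} {c w w' w'' w₃ : D} {a : Fin m → D}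
    (h : DropUnits E c w w' w'' w₃ a) (f : D →⋆ₐ[ℂ] M) :
    (∀ i j, ‖f (E i j)‖ ≤ 1) ∧ ∀ ψ : M →ₗ[ℂ] ℂ, PTr ψ → ψ 1 = 1 →
      (∀ i j j' l, sq2 ψ (f (E i j) * f (E j' l) - (if j = j' then f (E i l) else 0)) ≤
        1 / (m : ℝ)) ∧
      sq2 ψ (∑ i, f (E i i) - 1) ≤ 1 / (m : ℝ) := by
  have hmul : ∀ i j l, f (E i j) * f (E j l) = (1 - f c) * f (E i l) := by
    intro i j l
    rw [← map_mul, h.mul, if_pos rfl, map_mul, map_sub, map_one]
  have hstar : ∀ i j, star (f (E i j)) = f (E j i) := by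
    intro i j
    rw [← map_star, h.star]
  have hsum : ∑ i, f (E i i) = 1 - f c := by
    rw [← map_sum, h.sum, map_sub, map_one]
  have hc : f c = star (f w) * f w := by
    rw [← map_star, ← map_mul, ← h.c_eq]
  have hd : 1 - f c = star (f w') * f w' := by
    rw [← map_star, ← map_mul, ← h.one_sub, map_sub, map_one]
  have hnorm : ∀ i j, ‖f (E i j)‖ ≤ 1 := by
    intro i j
    refine mmata_norm (y := fun j => f (E j j)) (d := 1 - f c) (c := f c) (w := f w) (w' := f w')
      (fun j => hstar j j) (fun j => hmul j j j) hsum rfl hc hd j ?_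
    rw [hstar]
    exact hmul j i j
  refine ⟨hnorm, fun ψ hψ h1 => ?_⟩
  have hm' : (0 : ℝ) < m := by exact_mod_cast hm
  have hsa : star (f c) = f c := by
    rw [hc, star_mul, star_star]
  have hcm : sq2 ψ (f c) ≤ 1 / (m : ℝ) := by
    refine mmata_trace hm (w'' := f w'') (w₃ := f w₃) (a := fun i => f (a i)) hsa ?_ ?_ ?_ hψ h1
    · rw [← map_mul, ← map_sub, h.sub_sq, map_mul, map_star]
    · intro i
      rw [← map_star, ← map_mul, h.a_star]
    · rw [← map_star, ← map_mul, ← h.a_sum, map_sub, map_one, map_sum]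
      congr 1
      refine Finset.sum_congr rfl fun i _ => ?_
      rw [map_mul, map_star]
  refine ⟨fun i j j' l => ?_, ?_⟩
  · by_cases hj : j = j'
    · subst hj
      rw [if_pos rfl, hmul, sub_mul, one_mul, sub_sub_cancel_left, sq2_neg]
      refine (hψ.sq2_mul_le_right' _ _).trans ?_
      have h2 := hnorm i l
      have h3 := norm_nonneg (f (E i l))
      have h4 := hψ.sq2_nonneg (f c)
      have h5 : ‖f (E i l)‖ ^ 2 ≤ 1 := by nlinarith
      nlinarith
    · rw [if_neg hj, sub_zero, ← map_mul, h.mul, if_neg hj, map_zero, sq2_zero]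
      positivity
  · rw [hsum, sub_sub_cancel_left, sq2_neg]
    exact hcm

theorem exists_matHom_of_units {k : ℕ} {e : Fin k → Fin k → M}
    (hmul : ∀ i j j' l, e i j * e j' l = if j = j' then e i l else 0)
    (hstar : ∀ i j, star (e i j) = e j i) (hsum : ∑ i, e i i = 1) :
    ∃ f : Matrix (Fin k) (Fin k) ℂ →⋆ₐ[ℂ] M, ∀ x, f x = ∑ i, ∑ j, x i j • e i j := by
  classical
  have h1 : ∀ r : ℂ, ∑ i, ∑ j, (algebraMap ℂ (Matrix (Fin k) (Fin k) ℂ) r) i j • e i j =
      algebraMap ℂ M r := by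
    intro r
    rw [Algebra.algebraMap_eq_smul_one (A := M), ← hsum, Finset.smul_sum]
    refine Finset.sum_congr rfl fun i _ => ?_
    rw [Finset.sum_eq_single i]
    · rw [Matrix.algebraMap_matrix_apply, if_pos rfl]
      rfl
    · intro j _ hj
      rw [Matrix.algebraMap_matrix_apply, if_neg hj.symm, zero_smul]
    · intro hi
      exact absurd (Finset.mem_univ i) hi
  refine ⟨{ toFun := fun x => ∑ i, ∑ j, x i j • e i j, map_one' := ?_, map_mul' := ?_,
            map_zero' := ?_, map_add' := ?_, commutes' := h1, map_star' := ?_ }, fun x => rfl⟩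
  · have h2 := h1 1
    rw [map_one, map_one] at h2
    exact h2
  · intro x y
    change ∑ i, ∑ j, (x * y) i j • e i j = (∑ i, ∑ j, x i j • e i j) * ∑ i, ∑ j, y i j • e i j
    rw [Finset.sum_mul]
    refine Finset.sum_congr rfl fun i _ => ?_
    rw [Finset.sum_mul]
    have h2 : ∀ j, x i j • e i j * ∑ i', ∑ l, y i' l • e i' l = ∑ l, (x i j * y j l) • e i l := by
      intro j
      rw [Finset.mul_sum, Finset.sum_eq_single j]
      · rw [Finset.mul_sum]
        refine Finset.sum_congr rfl fun l _ => ?_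
        rw [smul_mul_smul_comm, hmul, if_pos rfl]
      · intro i' _ hi'
        rw [Finset.mul_sum]
        refine Finset.sum_eq_zero fun l _ => ?_
        rw [smul_mul_smul_comm, hmul, if_neg hi'.symm, smul_zero]
      · intro hj
        exact absurd (Finset.mem_univ j) hj
    rw [Finset.sum_congr rfl fun j _ => h2 j, Finset.sum_comm]
    refine Finset.sum_congr rfl fun l _ => ?_
    rw [Matrix.mul_apply, Finset.sum_smul]
  · change ∑ i, ∑ j, (0 : Matrix (Fin k) (Fin k) ℂ) i j • e i j = 0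
    refine Finset.sum_eq_zero fun i _ => Finset.sum_eq_zero fun j _ => ?_
    rw [Matrix.zero_apply, zero_smul]
  · intro x y
    change ∑ i, ∑ j, (x + y) i j • e i j = (∑ i, ∑ j, x i j • e i j) + ∑ i, ∑ j, y i j • e i j
    rw [← Finset.sum_add_distrib]
    refine Finset.sum_congr rfl fun i _ => ?_
    rw [← Finset.sum_add_distrib]
    refine Finset.sum_congr rfl fun j _ => ?_
    rw [Matrix.add_apply, add_smul]
  · intro x
    rw [star_sum, Finset.sum_comm]
    refine Finset.sum_congr rfl fun i _ => ?_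
    rw [star_sum]
    refine Finset.sum_congr rfl fun j _ => ?_
    rw [star_smul, hstar, Matrix.star_apply]

end P095F
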