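import Vale.Agent.Lib.P095F.MJ

/-!
# P095F, part M: limit traces on `M`

* `exists_lim`: for a bounded sequence `y` the sequence `σ n (y n)` is bounded (`PSt.norm_le`), so it converges
  along the ultrafilter (`isCompact_closedBall`, `IsCompact.ultrafilter_le_nhds'` or similar for the
  pushforward ultrafilter `ω.map`).  For `m : M` choose `x` with `p x = m` and `y` with `[y] = x`
  and let `τ m` be the limit.  If `p x = p x'` then `x - x' ∈ J` (`Quo.ker`), `SmQ (x - x') 0`, and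
  `‖σ n (y n - y' n)‖^2 ≤ re σ n (star (y n - y' n) * (y n - y' n))` (`PSt.norm_sq_le`) tends to `0`: the limits agree.
  Linearity: uniqueness of limits.
* `trSys_LT`: limits: `PTr` by `StFam.tr` and `PSt`; `σ' n = σ n ∘ α g ∈ S k'` (`StFam.inv`; choose), `Induces`.
* `smQ_iff`: `←`: if not `SmQ x ε` there are `k`, `y`, `ε' > ε` such that for `ω`-all `n` there is `s ∈ S k` with
  `(s (star (y n) * y n)).re > ε'` (`Ultrafilter.eventually_not`); choose `σ n ∈ S k` (for the other `n` any element of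
  `S k`, which is not empty); its limit `τ` has `sq2 τ (p x) ≥ ε'`.
  `→`: limits of `≤`.  Note `p (star x * x)` is the limit along `star y * y`.  `smL_iff` in the same way.
-/

open scoped ENNReal Topology
open Filter P101 P095E

namespace P095F

universe u v

variable {ω : Ultrafilter ℕ} {A : Type u} [CStarAlgebra A] [Nontrivial A]
  {G : Type v} [Group G] {α : G →* (A ≃⋆ₐ[ℂ] A)} {κ : Type} {S : κ → Set (A →ₗ[ℂ] ℂ)}
  {β : G →* (FOmega ω A ≃⋆ₐ[ℂ] FOmega ω A)} {M : Type u} [CStarAlgebra M]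
  {p : FOmega ω A →⋆ₐ[ℂ] M} {αM : G →* (M ≃⋆ₐ[ℂ] M)}

/-- bounded sequences converge along an ultrafilter -/
theorem mlim_exists {u : ℕ → ℂ} {C : ℝ} (hu : ∀ n, ‖u n‖ ≤ C) :
    ∃ z : ℂ, Tendsto u (ω : Filter ℕ) (𝓝 z) := by
  have h1 : IsCompact (Metric.closedBall (0 : ℂ) C) := isCompact_closedBall 0 C
  have h2 : ((ω.map u : Ultrafilter ℂ) : Filter ℂ) ≤ 𝓟 (Metric.closedBall (0 : ℂ) C) := by
    rw [Filter.le_principal_iff]
    change u ⁻¹' _ ∈ (ω : Filter ℕ)
    refine Filter.univ_mem' fun n => ?_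
    simpa using hu n
  obtain ⟨z, -, hz⟩ := h1.ultrafilter_le_nhds _ h2
  exact ⟨z, hz⟩

theorem mlim_null (hS : StFam ω α S) {k : κ} {σ : ℕ → (A →ₗ[ℂ] ℂ)} (hσ : ∀ n, σ n ∈ S k)
    {x : FOmega ω A} (hx : SmQ ω S x 0) {y : lp (fun _ : ℕ => A) ∞}
    (hy : toUltrapower ω A y = (x : Ultrapower ω A)) :
    Tendsto (fun n => σ n (y n)) (ω : Filter ℕ) (𝓝 0) := by
  rw [Metric.tendsto_nhds]
  intro ε hε
  filter_upwards [hx k y hy ((ε / 2) ^ 2) (by positivity)] with n hn
  have h1 := ((hS.st k _ (hσ n)).norm_sq_le (y n)).trans (hn _ (hσ n))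
  have h2 : ‖σ n (y n)‖ ≤ ε / 2 := abs_le_of_sq_le_sq' h1 (by positivity) |>.2
  rw [dist_zero_right]
  linarith

theorem exists_lim (hS : StFam ω α S) (hQ : Quo ω S β p αM) {k : κ} {σ : ℕ → (A →ₗ[ℂ] ℂ)}
    (hσ : ∀ n, σ n ∈ S k) : ∃ τ : M →ₗ[ℂ] ℂ, IsLim ω p σ τ := by
  classical
  choose lf hlf _ using hQ.surj
  choose rp hrp using fun x : FOmega ω A => mj_exists_rep x
  have hlim : ∀ m : M, ∃ z : ℂ, Tendsto (fun n => σ n (rp (lf m) n)) (ω : Filter ℕ) (𝓝 z) :=
    fun m => mlim_exists (C := ‖rp (lf m)‖) fun n =>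
      ((hS.st k _ (hσ n)).norm_le _).trans (mj_bd _ n)
  choose f hf using hlim
  have key : ∀ (x : FOmega ω A) (y : lp (fun _ : ℕ => A) ∞),
      toUltrapower ω A y = (x : Ultrapower ω A) →
      Tendsto (fun n => σ n (y n)) (ω : Filter ℕ) (𝓝 (f (p x))) := by
    intro x y hy
    have h1 : SmQ ω S (x - lf (p x)) 0 := by
      refine (hQ.ker _).1 ?_
      rw [map_sub, hlf, sub_self]
    have h2 : toUltrapower ω A (y - rp (lf (p x))) =
        ((x - lf (p x) : FOmega ω A) : Ultrapower ω A) := by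
      rw [map_sub, hy, hrp]
      rfl
    have h3 := (mlim_null hS hσ h1 h2).add (hf (p x))
    rw [zero_add] at h3
    refine h3.congr fun n => ?_
    have h4 : (y - rp (lf (p x))) n = y n - rp (lf (p x)) n := rfl
    rw [h4, map_sub, sub_add_cancel]
  refine ⟨{ toFun := f, map_add' := ?_, map_smul' := ?_ }, key⟩
  · intro m m'
    have h1 := key (lf m + lf m') (rp (lf m) + rp (lf m')) (by rw [map_add, hrp, hrp]; rfl)
    rw [map_add, hlf, hlf] at h1
    refine tendsto_nhds_unique h1 ?_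
    refine ((hf m).add (hf m')).congr fun n => ?_
    have h4 : (rp (lf m) + rp (lf m')) n = rp (lf m) n + rp (lf m') n := rfl
    rw [h4, map_add]
  · intro r m
    have h1 := key (r • lf m) (r • rp (lf m)) (by rw [map_smul, hrp]; rfl)
    rw [map_smul, hlf] at h1
    refine tendsto_nhds_unique h1 ?_
    refine ((hf m).const_mul r).congr fun n => ?_
    have h4 : (r • rp (lf m)) n = r • rp (lf m) n := rfl
    rw [h4, map_smul, smul_eq_mul]

theorem trSys_LT (hS : StFam ω α S) (hβ : ∀ g, Induces ω (α g) (β g))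
    (hQ : Quo ω S β p αM) : TrSys αM (LT ω S p) := by
  refine ⟨?_, ?_, ?_⟩
  · rintro τ ⟨k, σ, hσ, hlim⟩
    have hsq : ∀ m : M, ∃ (y : lp (fun _ : ℕ => A) ∞),
        Tendsto (fun n => σ n (star (y n) * y n)) (ω : Filter ℕ) (𝓝 (τ (star m * m))) := by
      intro m
      obtain ⟨x, rfl, -⟩ := hQ.surj m
      obtain ⟨y, hy⟩ := mj_exists_rep x
      refine ⟨y, ?_⟩
      have h1 := hlim (star x * x) (star y * y) (by rw [map_mul, map_star, hy]; rfl)
      rw [map_mul, map_star] at h1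
      exact h1
    refine ⟨fun m => ?_, fun m => ?_, fun m m' => ?_⟩
    · obtain ⟨y, hy⟩ := hsq m
      refine ge_of_tendsto' ((Complex.continuous_re.tendsto _).comp hy) fun n => ?_
      exact (hS.st k _ (hσ n)).nonneg _
    · obtain ⟨y, hy⟩ := hsq m
      refine tendsto_nhds_unique ((Complex.continuous_im.tendsto _).comp hy) ?_
      refine (tendsto_const_nhds (x := (0 : ℝ))).congr fun n => ?_
      exact ((hS.st k _ (hσ n)).im_eq _).symm
    · obtain ⟨x, rfl, -⟩ := hQ.surj m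
      obtain ⟨x', rfl, -⟩ := hQ.surj m'
      obtain ⟨y, hy⟩ := mj_exists_rep x
      obtain ⟨y', hy'⟩ := mj_exists_rep x'
      have h1 := hlim (x * x') (y * y') (by rw [map_mul, hy, hy']; rfl)
      have h2 := hlim (x' * x) (y' * y) (by rw [map_mul, hy, hy']; rfl)
      rw [map_mul] at h1 h2
      have h3 : Tendsto (fun n => σ n (y n * y' n - y' n * y n)) (ω : Filter ℕ) (𝓝 0) := by
        rw [Metric.tendsto_nhds]
        intro ε hε
        filter_upwards [hS.tr k y y' (by rw [hy]; exact x.2) (by rw [hy']; exact x'.2) (ε / 2)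
          (by positivity)] with n hn
        rw [dist_zero_right]
        linarith [hn _ (hσ n)]
      have h4 := h3.add h2
      rw [zero_add] at h4
      refine tendsto_nhds_unique h1 (h4.congr fun n => ?_)
      have h5 : (y' * y) n = y' n * y n := rfl
      have h6 : (y * y') n = y n * y' n := rfl
      rw [h5, h6, map_sub, sub_add_cancel]
  · rintro τ ⟨k, σ, hσ, hlim⟩
    have h1 := hlim 1 1 (by rw [map_one]; rfl)
    rw [map_one] at h1
    refine tendsto_nhds_unique h1 ?_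
    refine (tendsto_const_nhds (x := (1 : ℂ))).congr fun n => ?_
    exact ((hS.st k _ (hσ n)).one).symm
  · rintro τ ⟨k, σ, hσ, hlim⟩ g
    obtain ⟨k', hk'⟩ := hS.inv g k
    choose σ' hσ' hσσ using fun n => hk' (σ n) (hσ n)
    obtain ⟨τ', hτ'⟩ := exists_lim hS hQ hσ'
    refine ⟨τ', ⟨k', σ', hσ', hτ'⟩, fun m => ?_⟩
    obtain ⟨x, rfl, -⟩ := hQ.surj m
    obtain ⟨y, hy⟩ := mj_exists_rep x
    have h1 := hτ' x y hy
    have h2 := hlim (β g x) (lpMap ((α g : A ≃⋆ₐ[ℂ] A) : A →⋆ₐ[ℂ] A) y) (hβ g x y hy).symm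
    rw [hQ.equiv]
    refine tendsto_nhds_unique h1 (h2.congr fun n => ?_)
    rw [hσσ]
    rfl

omit [Nontrivial A] in
theorem mlim_choose {k : κ} {P : ℕ → (A →ₗ[ℂ] ℂ) → Prop}
    (h : ¬ ∀ᶠ n in (ω : Filter ℕ), ∀ s ∈ S k, P n s) :
    ∃ σ : ℕ → (A →ₗ[ℂ] ℂ), (∀ n, σ n ∈ S k) ∧ ∀ᶠ n in (ω : Filter ℕ), ¬ P n (σ n) := by
  classical
  rw [← Ultrafilter.eventually_not] at h
  have h1 : ∀ᶠ n in (ω : Filter ℕ), ∃ s ∈ S k, ¬ P n s := by
    filter_upwards [h] with n hn
    by_contra hc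
    exact hn fun s hs => by_contra fun hP => hc ⟨s, hs, hP⟩
  obtain ⟨n₀, s₀, hs₀, -⟩ := h1.exists
  refine ⟨fun n => if hn : ∃ s ∈ S k, ¬ P n s then hn.choose else s₀, fun n => ?_, ?_⟩
  · dsimp only
    split_ifs with hn
    · exact hn.choose_spec.1
    · exact hs₀
  · filter_upwards [h1] with n hn
    rw [dif_pos hn]
    exact hn.choose_spec.2

theorem smQ_iff (hS : StFam ω α S) (hQ : Quo ω S β p αM) (x : FOmega ω A) (ε : ℝ) :
    SmQ ω S x ε ↔ ∀ τ ∈ LT ω S p, sq2 τ (p x) ≤ ε := by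
  classical
  constructor
  · rintro hx τ ⟨k, σ, hσ, hlim⟩
    obtain ⟨y, hy⟩ := mj_exists_rep x
    have h1 := hlim (star x * x) (star y * y) (by rw [map_mul, map_star, hy]; rfl)
    rw [map_mul, map_star] at h1
    have h2 := (Complex.continuous_re.tendsto _).comp h1
    refine le_of_forall_pos_le_add fun δ hδ => ?_
    refine le_of_tendsto h2 ?_
    filter_upwards [hx k y hy (ε + δ) (by linarith)] with n hn
    exact hn _ (hσ n)
  · intro h
    by_contra hcon
    refine hcon fun k y hy ε' hε' => ?_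
    by_contra hbad
    obtain ⟨σ, hσ, hev⟩ := mlim_choose hbad
    obtain ⟨τ, hτ⟩ := exists_lim hS hQ hσ
    have h1 := hτ (star x * x) (star y * y) (by rw [map_mul, map_star, hy]; rfl)
    rw [map_mul, map_star] at h1
    have h2 := (Complex.continuous_re.tendsto _).comp h1
    have h3 : ε' ≤ sq2 τ (p x) := by
      refine ge_of_tendsto h2 ?_
      filter_upwards [hev] with n hn
      exact (not_le.1 hn).le
    have h4 := h τ ⟨k, σ, hσ, hτ⟩
    linarith

theorem smL_iff (hS : StFam ω α S) (hQ : Quo ω S β p αM) (x : FOmega ω A) (ε : ℝ) :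
    SmL ω S x ε ↔ ∀ τ ∈ LT ω S p, ‖τ (p x)‖ ≤ ε := by
  constructor
  · rintro hx τ ⟨k, σ, hσ, hlim⟩
    obtain ⟨y, hy⟩ := mj_exists_rep x
    have h2 := (hlim x y hy).norm
    refine le_of_forall_pos_le_add fun δ hδ => ?_
    refine le_of_tendsto h2 ?_
    filter_upwards [hx k y hy (ε + δ) (by linarith)] with n hn
    exact hn _ (hσ n)
  · intro h k y hy ε' hε'
    by_contra hbad
    obtain ⟨σ, hσ, hev⟩ := mlim_choose hbad
    obtain ⟨τ, hτ⟩ := exists_lim hS hQ hσ
    have h3 : ε' ≤ ‖τ (p x)‖ := by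
      refine ge_of_tendsto (hτ x y hy).norm ?_
      filter_upwards [hev] with n hn
      exact (not_le.1 hn).le
    have h4 := h τ ⟨k, σ, hσ, hτ⟩
    linarith

/-- the limit traces are jointly faithful -/
theorem LT_faithful (hS : StFam ω α S) (hQ : Quo ω S β p αM) {m : M}
    (h : ∀ τ ∈ LT ω S p, sq2 τ m ≤ 0) : m = 0 := by
  obtain ⟨x, rfl, -⟩ := hQ.surj m
  exact (hQ.ker x).2 ((smQ_iff hS hQ x 0).2 h)

end P095F
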