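import Vale.Agent.Lib.P095F.MSat
import Vale.Agent.Lib.P095F.MLim

/-!
# P095F, part M: saturation of `M`

`sat` with `ι ⊕ ι'`, kinds `Q` and `L`, the lifts of the maps (`MLiftable`), and lifts `x v` of `m v` with
`‖x v‖ ≤ R + 1` (`Quo.surj`); `smQ_iff`, `smL_iff` and `LT_faithful`/`Quo.ker`.
-/

open scoped ENNReal Topology
open Filter P101 P095E

namespace P095F

universe u v w w'

variable {ω : Ultrafilter ℕ} {A : Type u} [CStarAlgebra A] [Nontrivial A]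
  {G : Type v} [Group G] {α : G →* (A ≃⋆ₐ[ℂ] A)} {κ : Type} {S : κ → Set (A →ₗ[ℂ] ℂ)}
  {β : G →* (FOmega ω A ≃⋆ₐ[ℂ] FOmega ω A)} {M : Type u} [CStarAlgebra M]
  {p : FOmega ω A →⋆ₐ[ℂ] M} {αM : G →* (M ≃⋆ₐ[ℂ] M)}

theorem satM (hω : (ω : Filter ℕ) ≤ Filter.cofinite) [TopologicalSpace.SeparableSpace A]
    [Countable κ] (hS : StFam ω α S) (hQ : Quo ω S β p αM) {V : Type} [Finite V]
    {ι : Type w} [Countable ι] {ι' : Type w'} [Countable ι']
    (c : ι → (V → M) → M) (hc : ∀ i, MLiftable ω p (c i))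
    (d : ι' → (V → M) → M) (hd : ∀ i, MLiftable ω p (d i)) (R : ℝ)
    (h : ∀ (I : Finset ι) (I' : Finset ι') (ε : ℝ), 0 < ε → ∃ m : V → M, (∀ v, ‖m v‖ ≤ R) ∧
      (∀ i ∈ I, ∀ τ ∈ LT ω S p, sq2 τ (c i m) ≤ ε) ∧
      ∀ i ∈ I', ∀ τ ∈ LT ω S p, ‖τ (d i m)‖ ≤ ε) :
    ∃ m : V → M, (∀ i, c i m = 0) ∧ ∀ i, ∀ τ ∈ LT ω S p, τ (d i m) = 0 := by
  classical
  choose c' hc' hcc using hc
  choose d' hd' hdd using hd
  obtain ⟨x, -, hx⟩ := sat (ω := ω) (A := A) (α := α) (S := S) hω hS (V := V) (ι := ι ⊕ ι')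
    (Sum.elim (fun _ => Kind.Q) (fun _ => Kind.L)) (Sum.elim c' d')
    (by rintro (i | i); exacts [hc' i, hd' i]) (R + 1) (by
      intro I ε hε
      obtain ⟨m, hm, h1, h2⟩ := h (I.preimage Sum.inl Sum.inl_injective.injOn)
        (I.preimage Sum.inr Sum.inr_injective.injOn) ε hε
      choose x hx hxn using fun v => hQ.surj (m v)
      have hpx : (fun v => p (x v)) = m := funext hx
      refine ⟨x, fun v => (hxn v).trans (by linarith [hm v]), ?_⟩
      rintro (i | i) hi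
      · change SmQ ω S (c' i x) ε
        rw [smQ_iff hS hQ]
        intro τ hτ
        rw [← hcc, hpx]
        exact h1 i (Finset.mem_preimage.2 hi) τ hτ
      · change SmL ω S (d' i x) ε
        rw [smL_iff hS hQ]
        intro τ hτ
        rw [← hdd, hpx]
        exact h2 i (Finset.mem_preimage.2 hi) τ hτ)
  refine ⟨fun v => p (x v), fun i => ?_, fun i τ hτ => ?_⟩
  · rw [hcc]
    exact (hQ.ker _).2 (hx (Sum.inl i))
  · rw [hdd]
    have h1 : SmL ω S (d' i x) 0 := hx (Sum.inr i)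
    have h2 := (smL_iff hS hQ _ _).1 h1 τ hτ
    exact norm_le_zero_iff.1 h2

end P095F
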