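import Mathlib.Data.Int.Star
import Vale.Agent.Lib.P095F.MSatM
import Vale.Agent.Lib.P095F.MDrop
import Vale.Agent.Lib.P095F.MMatA
import Vale.Agent.Lib.P095F.AdmBasic

/-!
# P095F, part M: matrix algebras in `M ∩ B'`

`satM` with `V = Fin k × Fin k`, 2-norm conditions `e i j * e j' l - δ e i l`,
`star (e i j) - e j i`, `∑ e i i - 1`, `e i j * b l - b l * e i j` (`b` dense in `B`); `R = 1`; approximately
satisfied by `f (E i j)` for `N` large (`exists_dropUnits`, `units_est` with `m = k N + 1`), where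
`f` commutes with the `b l` (`exists_hom_of_dropJ`).  Then `exists_matHom_of_units`; commutation with
all of `B` by density.
-/

open scoped ENNReal Topology
open Filter P101 P095E

namespace P095F

universe u v

variable {ω : Ultrafilter ℕ} {A : Type u} [CStarAlgebra A] [Nontrivial A]
  {G : Type v} [Group G] {α : G →* (A ≃⋆ₐ[ℂ] A)} {κ : Type} {S : κ → Set (A →ₗ[ℂ] ℂ)}
  {β : G →* (FOmega ω A ≃⋆ₐ[ℂ] FOmega ω A)} {M : Type u} [CStarAlgebra M]
  {p : FOmega ω A →⋆ₐ[ℂ] M} {αM : G →* (M ≃⋆ₐ[ℂ] M)}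

theorem hasMat_of_drop (hω : (ω : Filter ℕ) ≤ Filter.cofinite)
    [TopologicalSpace.SeparableSpace A] [Countable κ] (hS : StFam ω α S)
    (hβ : ∀ g, Induces ω (α g) (β g)) (hQ : Quo ω S β p αM) (hD : DropJ ω S) :
    HasMat αM := by
  classical
  intro B hB k hk
  obtain ⟨t, htB, htc, htd⟩ : ∃ t ⊆ (B : Set M), t.Countable ∧ (B : Set M) ⊆ closure t := by
    obtain ⟨t, ht1, ht2, ht3⟩ := hB.sep.exists_countable_dense_subset
    exact ⟨t, ht1, ht2, ht3⟩
  have : Countable t := htc.to_subtype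
  have hsurj : Function.Surjective p := fun m => by
    obtain ⟨x, hx, -⟩ := hQ.surj m
    exact ⟨x, hx⟩
  have htr := trSys_LT hS hβ hQ
  obtain ⟨m, hm, -⟩ := satM (ι' := Empty) hω hS hQ (V := Fin k × Fin k)
    (ι := ((Fin k × Fin k) × (Fin k × Fin k)) ⊕ ((Fin k × Fin k) ⊕ (Unit ⊕ ((Fin k × Fin k) × t))))
    (Sum.elim (fun q m => m q.1 * m q.2 - (if q.1.2 = q.2.1 then m (q.1.1, q.2.2) else 0))
      (Sum.elim (fun q m => star (m q) - m (q.2, q.1))
        (Sum.elim (fun _ m => ∑ i, m (i, i) - 1)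
          (fun q m => m q.1 * (q.2 : M) - (q.2 : M) * m q.1))))
    (by
      rintro (q | q | q | q)
      · refine (MLiftable.mul (MLiftable.proj _) (MLiftable.proj _)).sub ?_
        by_cases h : q.1.2 = q.2.1
        · simp only [if_pos h]
          exact MLiftable.proj _
        · simp only [if_neg h]
          exact MLiftable.const hsurj 0
      · exact (MLiftable.star (MLiftable.proj _)).sub (MLiftable.proj _)
      · exact (MLiftable.sum _ _ fun i => MLiftable.proj _).sub (MLiftable.const hsurj 1)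
      · exact ((MLiftable.proj _).mul (MLiftable.const hsurj _)).sub
          ((MLiftable.const hsurj _).mul (MLiftable.proj _)))
    (fun i => i.elim) (fun i => i.elim) 1 (by
      intro I I' ε hε
      obtain ⟨N, hN⟩ := exists_nat_gt (1 / ε)
      have hN1 : 1 ≤ N + 1 := Nat.le_add_left 1 N
      have hn1 : 1 ≤ k * (N + 1) := Nat.mul_pos hk hN1
      obtain ⟨E, c, w, w', w'', w₃, a, hU⟩ := exists_dropUnits k (N + 1) hk hN1
      obtain ⟨f, hf⟩ := exists_hom_of_dropJ hQ hD hn1 htc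
      obtain ⟨hnorm, hest⟩ := units_est (Nat.le_add_left 1 (k * (N + 1))) hU f
      have hle : 1 / ((k * (N + 1) + 1 : ℕ) : ℝ) ≤ ε := by
        rw [div_le_iff₀ (by positivity)]
        have h1 : (N : ℝ) ≤ ((k * (N + 1) + 1 : ℕ) : ℝ) := by
          have : N ≤ k * (N + 1) + 1 := by nlinarith
          exact_mod_cast this
        have h2 : 1 < N * ε := by
          rwa [div_lt_iff₀ hε] at hN
        nlinarith
      refine ⟨fun v => f (E v.1 v.2), fun v => hnorm _ _, ?_, fun i => i.elim⟩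
      rintro (q | q | q | q) - τ hτ
      · obtain ⟨h1, -⟩ := hest τ (htr.ptr τ hτ) (htr.one τ hτ)
        exact (h1 q.1.1 q.1.2 q.2.1 q.2.2).trans hle
      · have h0 : star (f (E q.1 q.2)) - f (E q.2 q.1) = 0 := by
          rw [← map_star, hU.star, sub_self]
        change sq2 τ (star (f (E q.1 q.2)) - f (E q.2 q.1)) ≤ ε
        rw [h0]
        simpa [sq2] using hε.le
      · obtain ⟨-, h1⟩ := hest τ (htr.ptr τ hτ) (htr.one τ hτ)
        exact h1.trans hle
      · have h0 : f (E q.1.1 q.1.2) * (q.2 : M) - (q.2 : M) * f (E q.1.1 q.1.2) = 0 :=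
          sub_eq_zero.2 (hf _ _ q.2.2)
        change sq2 τ (f (E q.1.1 q.1.2) * (q.2 : M) - (q.2 : M) * f (E q.1.1 q.1.2)) ≤ ε
        rw [h0]
        simpa [sq2] using hε.le)
  have h1 : ∀ i j j' l, m (i, j) * m (j', l) = if j = j' then m (i, l) else 0 := fun i j j' l =>
    sub_eq_zero.1 (hm (Sum.inl ((i, j), (j', l))))
  have h2 : ∀ i j, star (m (i, j)) = m (j, i) := fun i j =>
    sub_eq_zero.1 (hm (Sum.inr (Sum.inl (i, j))))
  have h3 : ∑ i, m (i, i) = 1 := sub_eq_zero.1 (hm (Sum.inr (Sum.inr (Sum.inl ()))))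
  have h4 : ∀ i j, ∀ b ∈ t, m (i, j) * b = b * m (i, j) := fun i j b hb =>
    sub_eq_zero.1 (hm (Sum.inr (Sum.inr (Sum.inr ((i, j), ⟨b, hb⟩)))))
  obtain ⟨f, hf⟩ := exists_matHom_of_units (e := fun i j => m (i, j)) h1 h2 h3
  refine ⟨f, fun x b hb => ?_⟩
  have h5 : ∀ i j, Commute (m (i, j)) b := by
    intro i j
    have hcl : IsClosed {y : M | m (i, j) * y = y * m (i, j)} :=
      isClosed_eq (continuous_const.mul continuous_id) (continuous_id.mul continuous_const)
    exact closure_minimal (fun y hy => h4 i j y hy) hcl (htd hb)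
  rw [hf]
  refine Commute.sum_left _ _ _ fun i _ => Commute.sum_left _ _ _ fun j _ => ?_
  exact (h5 i j).smul_left _

end P095F
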