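import Vale.Agent.Lib.P101.Quot

/-!
# Group actions on quotients of C*-algebras by invariant closed ideals
-/

namespace P095F

universe u v

open P101

section

variable {F : Type u} [CStarAlgebra F] (J : Ideal F) [J.IsTwoSided] [IsClosed (J : Set F)]

/-- a *-homomorphism that maps `J` to zero factors through `F ⧸ J`. -/
theorem exists_quotLift {C : Type v} [CStarAlgebra C] (f : F →⋆ₐ[ℂ] C) (h : ∀ x ∈ J, f x = 0) :
    ∃ g : (F ⧸ J) →⋆ₐ[ℂ] C, ∀ x, g (quotMk J x) = f x := by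
  refine ⟨{ Ideal.Quotient.liftₐ J (f : F →ₐ[ℂ] C) h with
    map_star' := ?_ }, fun x => rfl⟩
  intro x
  obtain ⟨y, rfl⟩ := quotMk_surjective J x
  rw [← map_star]
  exact map_star f y

/-- the *-homomorphism induced on the quotient -/
noncomputable def quotMap (b : F →⋆ₐ[ℂ] F) (h : ∀ x ∈ J, b x ∈ J) : (F ⧸ J) →⋆ₐ[ℂ] (F ⧸ J) :=
  (exists_quotLift J ((quotMk J).comp b) fun x hx => (quotMk_eq_zero_iff J _).2 (h x hx)).choose

theorem quotMap_mk (b : F →⋆ₐ[ℂ] F) (h : ∀ x ∈ J, b x ∈ J) (x : F) :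
    quotMap J b h (quotMk J x) = quotMk J (b x) :=
  (exists_quotLift J ((quotMk J).comp b) fun x hx =>
    (quotMk_eq_zero_iff J _).2 (h x hx)).choose_spec x

variable {G : Type v} [Group G] (β : G →* (F ≃⋆ₐ[ℂ] F)) (h : ∀ g, ∀ x ∈ J, β g x ∈ J)

/-- the endomorphism of `F ⧸ J` induced by `β g` -/
noncomputable def quotHom (g : G) : (F ⧸ J) →⋆ₐ[ℂ] (F ⧸ J) :=
  quotMap J (β g : F →⋆ₐ[ℂ] F) (fun x hx => h g x hx)

theorem quotHom_mk (g : G) (x : F) : quotHom J β h g (quotMk J x) = quotMk J (β g x) :=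
  quotMap_mk J (β g : F →⋆ₐ[ℂ] F) (fun x hx => h g x hx) x

theorem quotHom_comp (g k : G) :
    (quotHom J β h g).comp (quotHom J β h k) = quotHom J β h (g * k) := by
  refine StarAlgHom.ext fun x => ?_
  obtain ⟨y, rfl⟩ := quotMk_surjective J x
  rw [StarAlgHom.comp_apply, quotHom_mk, quotHom_mk, quotHom_mk, map_mul]
  rfl

theorem quotHom_one : quotHom J β h 1 = StarAlgHom.id ℂ (F ⧸ J) := by
  refine StarAlgHom.ext fun x => ?_
  obtain ⟨y, rfl⟩ := quotMk_surjective J x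
  rw [quotHom_mk, map_one]
  rfl

/-- the automorphism of `F ⧸ J` induced by `β g` -/
noncomputable def quotAut (g : G) : (F ⧸ J) ≃⋆ₐ[ℂ] (F ⧸ J) :=
  StarAlgEquiv.ofStarAlgHom (quotHom J β h g) (quotHom J β h g⁻¹)
    (by rw [quotHom_comp, inv_mul_cancel, quotHom_one])
    (by rw [quotHom_comp, mul_inv_cancel, quotHom_one])

theorem quotAut_mk (g : G) (x : F) : quotAut J β h g (quotMk J x) = quotMk J (β g x) :=
  quotHom_mk J β h g x

/-- the action of `G` on `F ⧸ J` induced by an action on `F` that leaves `J` invariant -/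
noncomputable def quotAct : G →* ((F ⧸ J) ≃⋆ₐ[ℂ] (F ⧸ J)) where
  toFun := quotAut J β h
  map_one' := by
    ext x
    obtain ⟨y, rfl⟩ := quotMk_surjective J x
    rw [quotAut_mk, map_one]
    rfl
  map_mul' := by
    intro g k
    ext x
    obtain ⟨y, rfl⟩ := quotMk_surjective J x
    change quotAut J β h (g * k) (quotMk J y) = quotAut J β h g (quotAut J β h k (quotMk J y))
    rw [quotAut_mk, quotAut_mk, quotAut_mk, map_mul]
    rfl

theorem quotAct_mk (g : G) (x : F) : quotAct J β h g (quotMk J x) = quotMk J (β g x) :=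
  quotAut_mk J β h g x

end

end P095F
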