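import Vale.Agent.Lib.P095F.MJ
import Vale.Agent.Lib.P095F.QuotAct

/-!
# P095F, part M: the ideal `J` and the quotient `M = F / J`

`JJ` from the closure properties in `MJ.lean`.  `M := F ⧸ J` with `P101.quotCStarAlgebra`,
`p := quotMk J` (`quotMk_surjective`, `quotMk_eq_zero_iff`, norm of a lift: `quot_exists_lift`).  `αM g`: as in
`P095E.exists_induced_action` / `P101.exists_ultraMap`: `β g` maps `J` into `J` (`SmQ.equiv`), so it induces
a star homomorphism `M → M`, functorial in `g` (all maps are determined on the range of `p`).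
-/

open scoped ENNReal Topology
open Filter P101 P095E

namespace P095F

universe u v

variable {ω : Ultrafilter ℕ} {A : Type u} [CStarAlgebra A] [Nontrivial A]
  {G : Type v} [Group G] {α : G →* (A ≃⋆ₐ[ℂ] A)} {κ : Type} {S : κ → Set (A →ₗ[ℂ] ℂ)}

/-- the trace kernel ideal of the family -/
def JJ (hS : StFam ω α S) : Ideal (FOmega ω A) where
  carrier := {x | SmQ ω S x 0}
  add_mem' hx hy := SmQ.add hS hx hy
  zero_mem' := SmQ.zero hS
  smul_mem' a _ hx := SmQ.mul_left hS a hx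

theorem mem_JJ {hS : StFam ω α S} {x : FOmega ω A} : x ∈ JJ hS ↔ SmQ ω S x 0 := Iff.rfl

instance JJ_isTwoSided (hS : StFam ω α S) : (JJ hS).IsTwoSided where
  mul_mem_of_left b ha := SmQ.mul_right hS b ha

instance JJ_isClosed (hS : StFam ω α S) : IsClosed (JJ hS : Set (FOmega ω A)) :=
  smQ_isClosed hS

/-- the quotient -/
theorem exists_quo (hS : StFam ω α S) {β : G →* (FOmega ω A ≃⋆ₐ[ℂ] FOmega ω A)}
    (hβ : ∀ g, Induces ω (α g) (β g)) :
    ∃ (M : Type u) (_ : CStarAlgebra M) (p : FOmega ω A →⋆ₐ[ℂ] M) (αM : G →* (M ≃⋆ₐ[ℂ] M)),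
      Quo ω S β p αM := by
  have hinv : ∀ g, ∀ x ∈ JJ hS, β g x ∈ JJ hS := fun g x hx => SmQ.equiv hS hβ g hx
  refine ⟨FOmega ω A ⧸ JJ hS, inferInstance, quotMk (JJ hS), quotAct (JJ hS) β hinv,
    ⟨fun m => ?_, fun x => quotMk_eq_zero_iff (JJ hS) x, fun g x => quotAct_mk (JJ hS) β hinv g x⟩⟩
  obtain ⟨x, hx, hn⟩ := quot_exists_lift (JJ hS) m one_pos
  exact ⟨x, hx, hn.le⟩

end P095F
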