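import Vale.Agent.Lib.P095F.Defs
import Vale.Agent.Lib.P101.Quot

/-!
# P095F, part M: an invariant unit in `J` for countably many elements of `J`

* `approx_unit`: for `d_1, …, d_r` in `J` choose successively `g_1, …, g_r ∈ J` self-adjoint with `‖1 - g_i‖ ≤ 1`
  and `‖(1 - g_i) (1 - g_{i-1}) ⋯ (1 - g_1) d_i‖ ≤ ε` (`P101.exists_approx` applied to `y = star (…)`: `g = star y * y * z` is in
  `J` when `y` is, `‖y (1 - g)‖ ≤ ε`, take adjoints); `e = 1 - (1 - g_r) ⋯ (1 - g_1)`.  Induction on the finset with the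
  statement: there is `P` with `‖P‖ ≤ 1`, `1 - P ∈ J`, `‖P d‖ ≤ ε` for `d ∈ Δ`.
* `approx_inv_unit`: `K` Folner for `(K₀, ε/4)`; `e₀` from `approx_unit` for all `β g⁻¹ d`, `g ∈ K`, `d ∈ Δ`;
  `e = |K|⁻¹ ∑_{g ∈ K} β g e₀`: `e d - d = |K|⁻¹ ∑ β g (e₀ (β g⁻¹ d) - β g⁻¹ d)`;
  `β h e - e = |K|⁻¹ (∑_{hK \ K} - ∑_{K \ hK})`, norm at most `2 (ε/4) 2`.
-/

open scoped ENNReal Topology
open Filter P101

namespace P095F

universe u v

section Abs

variable {F : Type u} [CStarAlgebra F]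

theorem approx_unit (J : Ideal F) [J.IsTwoSided] (hJ : IsClosed (J : Set F)) (D : Finset F)
    (hD : ∀ d ∈ D, d ∈ J) {ε : ℝ} (hε : 0 < ε) :
    ∃ P : F, ‖P‖ ≤ 1 ∧ 1 - P ∈ J ∧ ∀ d ∈ D, ‖P * d‖ ≤ ε := by
  classical
  induction D using Finset.induction_on with
  | empty =>
    refine ⟨1, ?_, ?_, ?_⟩
    · rcases subsingleton_or_nontrivial F with h | h
      · have h1 : (1 : F) = 0 := Subsingleton.elim _ _
        rw [h1, norm_zero]
        exact zero_le_one
      · exact (CStarRing.norm_one).le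
    · rw [sub_self]
      exact J.zero_mem
    · intro d hd
      simp at hd
  | insert a D ha ih =>
    obtain ⟨P, h1, h2, h3⟩ := ih fun d hd => hD d (Finset.mem_insert_of_mem hd)
    have haJ : a ∈ J := hD a (Finset.mem_insert_self a D)
    have hx : P * a ∈ J := J.mul_mem_left P haJ
    have hy : star (P * a) ∈ J := star_mem_of_closed J hJ hx
    obtain ⟨z, -, -, h4, -, h5, h6⟩ := exists_approx (star (P * a)) hε
    obtain ⟨g, hg⟩ : ∃ g, g = star (star (P * a)) * star (P * a) * z := ⟨_, rfl⟩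
    rw [← hg] at h4 h5 h6
    have hgJ : g ∈ J := by
      rw [hg]
      exact J.mul_mem_right z (J.mul_mem_left _ hy)
    have h7 : ‖(1 - g) * (P * a)‖ ≤ ε := by
      rw [← norm_star, star_mul, star_sub, star_one, h4.star_eq]
      exact h6
    refine ⟨(1 - g) * P, ?_, ?_, ?_⟩
    · refine (norm_mul_le _ _).trans ?_
      exact mul_le_one₀ h5 (norm_nonneg _) h1
    · have e : 1 - (1 - g) * P = (1 - P) + g * P := by noncomm_ring
      rw [e]
      exact J.add_mem h2 (J.mul_mem_right P hgJ)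
    · intro d hd
      rcases Finset.mem_insert.mp hd with rfl | hd
      · rw [mul_assoc]
        exact h7
      · rw [mul_assoc]
        refine (norm_mul_le _ _).trans ?_
        refine (mul_le_mul h5 (h3 d hd) (norm_nonneg _) zero_le_one).trans ?_
        rw [one_mul]

theorem approx_inv_unit {G : Type v} [Group G] (hG : FolnerGroup G)
    (β : G →* (F ≃⋆ₐ[ℂ] F)) (J : Ideal F) [J.IsTwoSided] (hJ : IsClosed (J : Set F))
    (hβ : ∀ g, ∀ x ∈ J, β g x ∈ J) (D : Finset F) (hD : ∀ d ∈ D, d ∈ J) (K₀ : Finset G)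
    {ε : ℝ} (hε : 0 < ε) :
    ∃ e ∈ J, ‖e‖ ≤ 2 ∧ (∀ d ∈ D, ‖e * d - d‖ ≤ ε) ∧ ∀ h ∈ K₀, ‖β h e - e‖ ≤ ε := by
  classical
  obtain ⟨K, hK, hKf⟩ := hG K₀ (ε / 4) (by positivity)
  obtain ⟨P, hP1, hP2, hP3⟩ := approx_unit J hJ
    ((K ×ˢ D).image fun q => β q.1⁻¹ q.2) (by
      intro x hx
      obtain ⟨q, hq, rfl⟩ := Finset.mem_image.mp hx
      exact hβ _ _ (hD _ (Finset.mem_product.mp hq).2)) hε
  have hn1 : ‖(1 : F)‖ ≤ 1 := by
    rcases subsingleton_or_nontrivial F with h | h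
    · have h1 : (1 : F) = 0 := Subsingleton.elim _ _
      rw [h1, norm_zero]
      exact zero_le_one
    · exact (CStarRing.norm_one).le
  obtain ⟨e₀, he₀⟩ : ∃ e₀ : F, e₀ = 1 - P := ⟨_, rfl⟩
  have hJ0 : e₀ ∈ J := he₀ ▸ hP2
  have hn0 : ‖e₀‖ ≤ 2 := by
    rw [he₀]
    refine (norm_sub_le _ _).trans ?_
    linarith
  have hmul : ∀ (g h : G) (x : F), β (g * h) x = β g (β h x) := by
    intro g h x
    rw [map_mul]
    rfl
  have hd0 : ∀ g ∈ K, ∀ d ∈ D, ‖β g e₀ * d - d‖ ≤ ε := by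
    intro g hg d hd
    have h1 : β g e₀ * d - d = β g (e₀ * β g⁻¹ d - β g⁻¹ d) := by
      have h2 : β g (β g⁻¹ d) = d := by
        rw [← hmul, mul_inv_cancel, map_one]
        rfl
      rw [map_sub, map_mul, h2]
    have h3 : e₀ * β g⁻¹ d - β g⁻¹ d = -(P * β g⁻¹ d) := by
      rw [he₀, sub_mul, one_mul]
      abel
    rw [h1, P095E.norm_aut, h3, norm_neg]
    exact hP3 _ (Finset.mem_image.mpr ⟨(g, d), Finset.mem_product.mpr ⟨hg, hd⟩, rfl⟩)
  have hc0 : (0 : ℝ) < K.card := by exact_mod_cast hK.card_pos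
  have hcc : ((K.card : ℂ)) ≠ 0 := by exact_mod_cast hK.card_pos.ne'
  have hcn : ‖((K.card : ℂ))⁻¹‖ = (K.card : ℝ)⁻¹ := by
    rw [norm_inv, Complex.norm_natCast]
  have havg : ∀ (x : G → F) (S : Finset G) (B : ℝ), (∀ g ∈ S, ‖x g‖ ≤ B) →
      ‖∑ g ∈ S, x g‖ ≤ S.card * B := by
    intro x S B hB
    refine (norm_sum_le _ _).trans ?_
    refine (Finset.sum_le_sum hB).trans_eq ?_
    rw [Finset.sum_const, nsmul_eq_mul]
  refine ⟨((K.card : ℂ))⁻¹ • ∑ g ∈ K, β g e₀, ?_, ?_, ?_, ?_⟩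
  · rw [Algebra.smul_def]
    exact J.mul_mem_left _ (J.sum_mem fun g _ => hβ g _ hJ0)
  · rw [norm_smul, hcn]
    have h1 := havg (fun g => β g e₀) K 2 fun g _ => by
      rw [P095E.norm_aut]
      exact hn0
    rw [inv_mul_le_iff₀ hc0]
    exact h1
  · intro d hd
    have h1 : (((K.card : ℂ))⁻¹ • ∑ g ∈ K, β g e₀) * d - d =
        ((K.card : ℂ))⁻¹ • ∑ g ∈ K, (β g e₀ * d - d) := by
      rw [Finset.sum_sub_distrib, Finset.sum_const, smul_sub, smul_mul_assoc, Finset.sum_mul,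
        ← Nat.cast_smul_eq_nsmul ℂ, smul_smul, inv_mul_cancel₀ hcc, one_smul]
    rw [h1, norm_smul, hcn, inv_mul_le_iff₀ hc0]
    exact havg _ K ε fun g hg => hd0 g hg d hd
  · intro h hh
    obtain ⟨L, hL⟩ : ∃ L : Finset G, L = K.image (fun g => h * g) := ⟨_, rfl⟩
    have hLc : L.card = K.card := by
      rw [hL]
      exact Finset.card_image_of_injective _ (mul_right_injective h)
    have hmem : ∀ x, x ∈ L ↔ h⁻¹ * x ∈ K := by
      intro x
      rw [hL, Finset.mem_image]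
      constructor
      · rintro ⟨g, hg, rfl⟩
        rwa [inv_mul_cancel_left]
      · intro hx
        exact ⟨h⁻¹ * x, hx, mul_inv_cancel_left h x⟩
    have h1 : β h (((K.card : ℂ))⁻¹ • ∑ g ∈ K, β g e₀) - ((K.card : ℂ))⁻¹ • ∑ g ∈ K, β g e₀ =
        ((K.card : ℂ))⁻¹ • (∑ g ∈ L \ K, β g e₀ - ∑ g ∈ K \ L, β g e₀) := by
      rw [map_smul, map_sum, ← smul_sub]
      congr 1
      have h2 : ∑ g ∈ K, β h (β g e₀) = ∑ g ∈ L, β g e₀ := by
        rw [hL, Finset.sum_image fun x _ y _ hxy => mul_left_cancel hxy]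
        exact Finset.sum_congr rfl fun g _ => (hmul h g e₀).symm
      rw [h2, ← Finset.sum_sdiff_sub_sum_sdiff]
    have h3 : (L \ K).card = Nat.card {g : G // g ∉ K ∧ h⁻¹ * g ∈ K} := by
      rw [Nat.subtype_card (L \ K) fun x => ?_]
      rw [Finset.mem_sdiff, hmem]
      exact and_comm
    have h4 : ((L \ K).card : ℝ) ≤ ε / 4 * K.card := by
      rw [h3]
      exact hKf h hh
    have h5 : ((K \ L).card : ℝ) ≤ ε / 4 * K.card := by
      have h6 : (K \ L).card = (L \ K).card := Finset.card_sdiff_comm hLc.symm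
      rw [h6]
      exact h4
    have hb : ∀ S : Finset G, ‖∑ g ∈ S, β g e₀‖ ≤ S.card * 2 := fun S =>
      havg _ S 2 fun g _ => by
        rw [P095E.norm_aut]
        exact hn0
    rw [h1, norm_smul, hcn, inv_mul_le_iff₀ hc0]
    refine (norm_sub_le _ _).trans ?_
    have h7 := hb (L \ K)
    have h8 := hb (K \ L)
    linarith

end Abs

end P095F
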