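import Vale.Agent.Lib.P095F.MSat
import Vale.Agent.Lib.P095F.MQuo
import Vale.Agent.Lib.P095F.MUnitA

/-!
# P095F, part M: an invariant unit in `J` for countably many elements of `J`

`sat` with `V = Unit`, `R = 2`; conditions of kind `N`: `β g e - e`, `e * d i - d i`, kind `Q`: `e`;
approximately satisfied by `approx_inv_unit` for `J = JJ hS`.
-/

open scoped ENNReal Topology
open Filter P101 P095E

namespace P095F

universe u v

variable {ω : Ultrafilter ℕ} {A : Type u} [CStarAlgebra A] [Nontrivial A]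
  {G : Type v} [Group G] {α : G →* (A ≃⋆ₐ[ℂ] A)} {κ : Type} {S : κ → Set (A →ₗ[ℂ] ℂ)}
  {β : G →* (FOmega ω A ≃⋆ₐ[ℂ] FOmega ω A)}

private def munit_kd {G ι : Type v} : Option (G ⊕ ι) → Kind
  | none => Kind.Q
  | some _ => Kind.N

private noncomputable def munit_c {ι : Type v} (β : G →* (FOmega ω A ≃⋆ₐ[ℂ] FOmega ω A))
    (d : ι → FOmega ω A) : Option (G ⊕ ι) → (Unit → FOmega ω A) → FOmega ω A
  | none => fun x => x ()
  | some (Sum.inl g) => fun x => β g (x ()) - x ()
  | some (Sum.inr i) => fun x => x () * d i - d i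

theorem exists_inv_unit (hω : (ω : Filter ℕ) ≤ Filter.cofinite)
    [TopologicalSpace.SeparableSpace A] [Countable κ] [Countable G] (hG : FolnerGroup G)
    (hS : StFam ω α S) (hβ : ∀ g, Induces ω (α g) (β g)) {ι : Type v} [Countable ι]
    (d : ι → FOmega ω A) (hd : ∀ i, SmQ ω S (d i) 0) :
    ∃ e : FOmega ω A, SmQ ω S e 0 ∧ (∀ g, β g e = e) ∧ ∀ i, e * d i = d i := by
  classical
  have hc : ∀ i : Option (G ⊕ ι), Liftable ω (munit_c (ω := ω) β d i) := by
    rintro (_ | g | i)
    · exact Liftable.proj ()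
    · exact ((Liftable.proj ()).aut (hβ g)).sub (Liftable.proj ())
    · exact ((Liftable.proj ()).mul (Liftable.const (d i))).sub (Liftable.const (d i))
  obtain ⟨x, -, hx⟩ := sat (V := Unit) hω hS (munit_kd (G := G) (ι := ι)) (munit_c β d) hc 2 (by
    intro I ε hε
    let D : Finset (FOmega ω A) := I.biUnion fun o => match o with
      | some (Sum.inr i) => {d i}
      | _ => ∅
    let K₀ : Finset G := I.biUnion fun o => match o with
      | some (Sum.inl g) => {g}
      | _ => ∅
    obtain ⟨e, heJ, he2, heD, heK⟩ := approx_inv_unit hG β (JJ hS) (JJ_isClosed hS)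
      (fun g y hy => SmQ.equiv hS hβ g hy) D (by
        intro y hy
        obtain ⟨o, _, ho⟩ := Finset.mem_biUnion.1 hy
        rcases o with _ | g | i
        · exact absurd ho (Finset.notMem_empty _)
        · exact absurd ho (Finset.notMem_empty _)
        · rw [Finset.mem_singleton.1 ho]
          exact hd i) K₀ hε
    refine ⟨fun _ => e, fun _ => he2, ?_⟩
    rintro (_ | g | i) hi
    · intro k y hy ε' hε'
      exact heJ k y hy ε' (hε.trans hε')
    · exact heK g (Finset.mem_biUnion.2 ⟨_, hi, Finset.mem_singleton_self g⟩)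
    · exact heD (d i) (Finset.mem_biUnion.2 ⟨_, hi, Finset.mem_singleton_self (d i)⟩))
  refine ⟨x (), hx none, fun g => ?_, fun i => ?_⟩
  · have h1 : ‖β g (x ()) - x ()‖ ≤ 0 := hx (some (Sum.inl g))
    exact sub_eq_zero.1 (norm_le_zero_iff.1 h1)
  · have h1 : ‖x () * d i - d i‖ ≤ 0 := hx (some (Sum.inr i))
    exact sub_eq_zero.1 (norm_le_zero_iff.1 h1)

end P095F
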