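import Vale.Agent.Lib.P095F.AdmBasic

/-!
# P095F, part T2P: invariant partitions of unity into `2 ^ n` projections of equal size
-/

open scoped Topology

namespace P095F

universe u v w

variable {G : Type v} [Group G] {M : Type u} [CStarAlgebra M]

/-- partitions indexed by `I` exist relative to every admissible algebra -/
def HasPart (α : G →* (M ≃⋆ₐ[ℂ] M)) (T : Set (M →ₗ[ℂ] ℂ)) (I : Type w) [Fintype I] : Prop :=
  ∀ B : StarSubalgebra ℂ M, Adm α B →
    ∃ q : I → M, (∀ i, star (q i) = q i) ∧ (∀ i, q i * q i = q i) ∧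
      (∀ i j, i ≠ j → q i * q j = 0) ∧ ∑ i, q i = 1 ∧ (∀ g i, α g (q i) = q i) ∧
      (∀ i, ∀ b ∈ B, Commute (q i) b) ∧
      ∀ τ ∈ T, ∀ b ∈ B, ∀ i, τ (b * q i) = (Fintype.card I : ℂ)⁻¹ * τ b

theorem HasPart.unit (α : G →* (M ≃⋆ₐ[ℂ] M)) (T : Set (M →ₗ[ℂ] ℂ)) :
    HasPart α T (Fin (2 ^ 0)) := by
  intro B _
  refine ⟨fun _ => 1, fun _ => star_one M, fun _ => one_mul 1, fun i j hij => ?_, ?_,
    fun g _ => map_one _, fun _ b _ => Commute.one_left b, fun τ _ b _ i => ?_⟩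
  · exact absurd (Fin.ext (by have h1 := i.2; have h2 := j.2; omega)) hij
  · simp
  · simp

theorem HasPart.equiv {α : G →* (M ≃⋆ₐ[ℂ] M)} {T : Set (M →ₗ[ℂ] ℂ)} {I : Type w} [Fintype I]
    {J : Type*} [Fintype J] (h : HasPart α T I) (e : J ≃ I) : HasPart α T J := by
  intro B hB
  obtain ⟨q, h1, h2, h3, h4, h5, h6, h7⟩ := h B hB
  refine ⟨fun j => q (e j), fun j => h1 _, fun j => h2 _, fun i j hij => h3 _ _ ?_, ?_,
    fun g j => h5 g _, fun j => h6 _, fun τ hτ b hb j => ?_⟩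
  · exact fun hh => hij (e.injective hh)
  · rw [← h4]
    exact Fintype.sum_equiv e _ _ fun _ => rfl
  · rw [h7 τ hτ b hb, Fintype.card_congr e]

theorem HasPart.prod {α : G →* (M ≃⋆ₐ[ℂ] M)} {T : Set (M →ₗ[ℂ] ℂ)} {I : Type w} [Fintype I]
    (hG : GammaExact α T) (h : HasPart α T I) : HasPart α T (I × Bool) := by
  intro B hB
  obtain ⟨q, h1, h2, h3, h4, h5, h6, h7⟩ := h B hB
  obtain ⟨B', hB', hBB', hqB'⟩ := exists_adm_of_inv hB (Set.range q)
    (Set.countable_range q) (by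
      rintro g x ⟨i, rfl⟩
      rw [h5]
      exact ⟨i, rfl⟩)
  have hq : ∀ i, q i ∈ B' := fun i => hqB' ⟨i, rfl⟩
  obtain ⟨m, m1, m2, m3, m4, m5⟩ := hG B' hB'
  set s : Bool → M := fun c => if c then (2 : ℂ)⁻¹ • (1 + m) else (2 : ℂ)⁻¹ • (1 - m) with hs
  have s_star : ∀ c, star (s c) = s c := by
    intro c
    cases c <;> simp [hs, m1]
  have s_comm : ∀ c, ∀ b ∈ B', Commute (s c) b := by
    intro c b hb
    have h := m4 b hb
    cases c
    · exact ((Commute.one_left b).sub_left h).smul_left _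
    · exact ((Commute.one_left b).add_left h).smul_left _
  have s_idem : ∀ c, s c * s c = s c := by
    intro c
    have e1 : ((2 : ℂ)⁻¹ • (1 + m)) * ((2 : ℂ)⁻¹ • (1 + m)) = (2 : ℂ)⁻¹ • (1 + m) := by
      have : (1 + m) * (1 + m) = (2 : ℂ) • (1 + m) := by
        simp only [mul_add, add_mul, mul_one, one_mul, m2, two_smul]
        abel
      rw [smul_mul_smul_comm, this, smul_smul]
      norm_num
    have e2 : ((2 : ℂ)⁻¹ • (1 - m)) * ((2 : ℂ)⁻¹ • (1 - m)) = (2 : ℂ)⁻¹ • (1 - m) := by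
      have : (1 - m) * (1 - m) = (2 : ℂ) • (1 - m) := by
        simp only [mul_sub, sub_mul, mul_one, one_mul, m2, two_smul]
        abel
      rw [smul_mul_smul_comm, this, smul_smul]
      norm_num
    cases c
    · exact e2
    · exact e1
  have s_orth : ∀ c d, c ≠ d → s c * s d = 0 := by
    intro c d hcd
    have e1 : ((2 : ℂ)⁻¹ • (1 + m)) * ((2 : ℂ)⁻¹ • (1 - m)) = 0 := by
      have : (1 + m) * (1 - m) = 0 := by
        simp only [mul_sub, add_mul, mul_one, one_mul, m2]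
        abel
      rw [smul_mul_smul_comm, this, smul_zero]
    have e2 : ((2 : ℂ)⁻¹ • (1 - m)) * ((2 : ℂ)⁻¹ • (1 + m)) = 0 := by
      have : (1 - m) * (1 + m) = 0 := by
        simp only [mul_add, sub_mul, mul_one, one_mul, m2]
        abel
      rw [smul_mul_smul_comm, this, smul_zero]
    cases c <;> cases d
    · exact absurd rfl hcd
    · exact e2
    · exact e1
    · exact absurd rfl hcd
  have s_sum : s true + s false = 1 := by
    have : (2 : ℂ)⁻¹ • (1 + m) + (2 : ℂ)⁻¹ • (1 - m) = 1 := by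
      rw [← smul_add, show (1 + m) + (1 - m) = (2 : ℂ) • (1 : M) by rw [two_smul]; abel, smul_smul]
      norm_num
    exact this
  have s_inv : ∀ g c, α g (s c) = s c := by
    intro g c
    cases c
    · change α g ((2 : ℂ)⁻¹ • (1 - m)) = (2 : ℂ)⁻¹ • (1 - m)
      rw [map_smul, map_sub, map_one, m3]
    · change α g ((2 : ℂ)⁻¹ • (1 + m)) = (2 : ℂ)⁻¹ • (1 + m)
      rw [map_smul, map_add, map_one, m3]
  have s_tr : ∀ τ ∈ T, ∀ b ∈ B', ∀ c, τ (b * s c) = (2 : ℂ)⁻¹ * τ b := by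
    intro τ hτ b hb c
    have hm := m5 τ hτ b hb
    cases c
    · change τ (b * ((2 : ℂ)⁻¹ • (1 - m))) = (2 : ℂ)⁻¹ * τ b
      rw [mul_smul_comm, map_smul, mul_sub, mul_one, map_sub, hm, sub_zero, smul_eq_mul]
    · change τ (b * ((2 : ℂ)⁻¹ • (1 + m))) = (2 : ℂ)⁻¹ * τ b
      rw [mul_smul_comm, map_smul, mul_add, mul_one, map_add, hm, add_zero, smul_eq_mul]
  refine ⟨fun p => q p.1 * s p.2, ?_, ?_, ?_, ?_, ?_, ?_, ?_⟩
  · rintro ⟨i, c⟩
    change star (q i * s c) = q i * s c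
    rw [star_mul, s_star, h1, (s_comm c (q i) (hq i)).eq]
  · rintro ⟨i, c⟩
    change q i * s c * (q i * s c) = q i * s c
    rw [mul_assoc, ← mul_assoc (s c), (s_comm c (q i) (hq i)).eq, mul_assoc, s_idem, ← mul_assoc,
      h2]
  · rintro ⟨i, c⟩ ⟨j, d⟩ hne
    change q i * s c * (q j * s d) = 0
    rw [mul_assoc, ← mul_assoc (s c), (s_comm c (q j) (hq j)).eq, mul_assoc, ← mul_assoc (q i)]
    by_cases hij : i = j
    · have hcd : c ≠ d := fun hh => hne (by rw [hij, hh])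
      rw [s_orth c d hcd, mul_zero]
    · rw [h3 i j hij, zero_mul]
  · rw [Fintype.sum_prod_type]
    have : ∀ i, ∑ c : Bool, q i * s c = q i := by
      intro i
      rw [Fintype.sum_bool, ← mul_add, s_sum, mul_one]
    simp only [this]
    exact h4
  · rintro g ⟨i, c⟩
    change α g (q i * s c) = q i * s c
    rw [map_mul, h5, s_inv]
  · rintro ⟨i, c⟩ b hb
    exact (h6 i b hb).mul_left (s_comm c b (hBB' hb))
  · rintro τ hτ b hb ⟨i, c⟩
    change τ (b * (q i * s c)) = _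
    rw [← mul_assoc, s_tr τ hτ _ (B'.mul_mem (hBB' hb) (hq i)), h7 τ hτ b hb, Fintype.card_prod,
      Fintype.card_bool, Nat.cast_mul, mul_inv]
    push_cast
    ring

/-- **T2P** -/
theorem exists_partition {α : G →* (M ≃⋆ₐ[ℂ] M)} {T : Set (M →ₗ[ℂ] ℂ)}
    (hG : GammaExact α T) {I : Type w} [Fintype I] (n : ℕ) (hI : Fintype.card I = 2 ^ n)
    {B : StarSubalgebra ℂ M} (hB : Adm α B) :
    ∃ q : I → M, (∀ i, star (q i) = q i) ∧ (∀ i, q i * q i = q i) ∧
      (∀ i j, i ≠ j → q i * q j = 0) ∧ ∑ i, q i = 1 ∧ (∀ g i, α g (q i) = q i) ∧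
      (∀ i, ∀ b ∈ B, Commute (q i) b) ∧
      ∀ τ ∈ T, ∀ b ∈ B, ∀ i, τ (b * q i) = (Fintype.card I : ℂ)⁻¹ * τ b := by
  have key : ∀ n : ℕ, HasPart α T (Fin (2 ^ n)) := by
    intro n
    induction n with
    | zero => exact HasPart.unit α T
    | succ n ih =>
      exact (ih.prod hG).equiv (Fintype.equivOfCardEq (by
        rw [Fintype.card_prod, Fintype.card_bool, Fintype.card_fin, Fintype.card_fin, pow_succ]))
  exact (key n).equiv (Fintype.equivOfCardEq (by rw [hI, Fintype.card_fin])) B hB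

end P095F
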