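import Vale.Agent.Lib.P095F.T2LDefs
import Vale.Agent.Lib.P095F.PTrBasic
import Vale.Agent.Lib.P095F.AdmBasic
import Vale.Agent.Lib.P095F.T2P

/-!
# P095F, part T2L: gluing along an invariant partition

`E = relComm B` with the restricted action, `v = sum q_i v_i`, `k = sum q_i k_i` with the partition
`q` of `exists_partition` for an admissible algebra `B'` containing `B`, all `v_i, k_i`
(`exists_adm`). For `x_i` in `E` and `z` in `B`: `τ(z sum q_i x_i) = card⁻¹ sum τ(z x_i)` if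
`x_i ∈ B'`; products, adjoints and `α_g` act componentwise;
`‖sum q_i x_i‖ ≤ max ‖x_i‖` (`X^* X = sum q_i x_i^* x_i ≤ (max)^2`).
Functionals: `ψ = locTr τ B z`, `ψ 1 = sq2 τ z`; `lam = τ(z ·)` restricted to `E`,
`ψ₁ = locTr τ B z`, `ψ₀ = τ` restricted, `ψ₀ 1 = 1`.
-/

open scoped ENNReal Topology

namespace P095F

universe u v

variable {G : Type v} [Group G] {M : Type u} [CStarAlgebra M] {α : G →* (M ≃⋆ₐ[ℂ] M)}
  {T : Set (M →ₗ[ℂ] ℂ)}

/-- `α g x` is in the relative commutant -/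
theorem t2lglue_mem {B : StarSubalgebra ℂ M} (hB : Adm α B) (g : G) {x : M}
    (hx : x ∈ relComm B) : α g x ∈ relComm B := by
  refine mem_relComm.2 fun b hb => ?_
  have h1 : α g⁻¹ b ∈ B := hB.inv g⁻¹ b hb
  have h2 : Commute x (α g⁻¹ b) := mem_relComm.1 hx _ h1
  have h3 : α g (α g⁻¹ b) = b := by
    have : (α g * α g⁻¹) b = b := by rw [← map_mul, mul_inv_cancel, map_one]; rfl
    exact this
  have h4 := h2.map (α g)
  rwa [h3] at h4

theorem t2lglue_inv (g : G) (x : M) : α g (α g⁻¹ x) = x := by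
  have : (α g * α g⁻¹) x = x := by rw [← map_mul, mul_inv_cancel, map_one]; rfl
  exact this

theorem t2lglue_inv' (g : G) (x : M) : α g⁻¹ (α g x) = x := by
  have : (α g⁻¹ * α g) x = x := by rw [← map_mul, inv_mul_cancel, map_one]; rfl
  exact this

/-- the restriction of one automorphism -/
noncomputable def t2lglue_res {B : StarSubalgebra ℂ M} (hB : Adm α B) (g : G) :
    relComm B ≃⋆ₐ[ℂ] relComm B where
  toFun x := ⟨α g x, t2lglue_mem hB g x.2⟩
  invFun x := ⟨α g⁻¹ x, t2lglue_mem hB g⁻¹ x.2⟩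
  left_inv x := Subtype.ext (t2lglue_inv' g (x : M))
  right_inv x := Subtype.ext (t2lglue_inv g (x : M))
  map_mul' x y := Subtype.ext (map_mul (α g) (x : M) (y : M))
  map_add' x y := Subtype.ext (map_add (α g) (x : M) (y : M))
  map_star' x := Subtype.ext (map_star (α g) (x : M))
  map_smul' r x := Subtype.ext (map_smul (α g) r (x : M))

/-- the restricted action on the relative commutant of an admissible algebra -/
theorem exists_resAct (B : StarSubalgebra ℂ M) (hB : Adm α B) :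
    ∃ γ : G →* (relComm B ≃⋆ₐ[ℂ] relComm B), ∀ g x, ((γ g x : relComm B) : M) = α g (x : M) := by
  refine ⟨{ toFun := t2lglue_res hB, map_one' := ?_, map_mul' := ?_ }, fun g x => rfl⟩
  · ext x
    change α 1 (x : M) = (x : M)
    rw [map_one]
    rfl
  · intro g h
    ext x
    change α (g * h) (x : M) = α g (α h (x : M))
    rw [map_mul]
    rfl

/-- the corestricted embedding of the matrices -/
theorem exists_matHom (B : StarSubalgebra ℂ M) {k : ℕ} (j : Matrix (Fin k) (Fin k) ℂ →⋆ₐ[ℂ] M)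
    (hj : ∀ x, ∀ b ∈ B, Commute (j x) b) : Nonempty (Matrix (Fin k) (Fin k) ℂ →⋆ₐ[ℂ] relComm B) :=
  ⟨j.codRestrict (relComm B) fun x => mem_relComm.2 (hj x)⟩

/-- the functional `x ↦ τ(z x)` on the relative commutant is dominated -/
theorem exists_dom (hT : TrSys α T) {τ : M →ₗ[ℂ] ℂ} (hτ : τ ∈ T) (B : StarSubalgebra ℂ M) {z : M}
    (hz : z ∈ B) : ∃ lam ψ₀ : relComm B →ₗ[ℂ] ℂ, (∀ x, lam x = τ (z * (x : M))) ∧ PTr ψ₀ ∧
      (ψ₀ 1).re = 1 ∧ Dom lam (locTr τ B z) ψ₀ := by
  have hp := hT.ptr τ hτ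
  refine ⟨τ ∘ₗ LinearMap.mulLeft ℂ z ∘ₗ (relComm B).subtype.toAlgHom.toLinearMap,
    τ ∘ₗ (relComm B).subtype.toAlgHom.toLinearMap, fun x => rfl, hp.restrict B, ?_, ?_⟩
  · change (τ 1).re = 1
    rw [hT.one τ hτ, Complex.one_re]
  · intro x y
    change ‖τ (z * ((x : M) * (y : M)))‖ ^ 2 ≤
      (τ (star z * z * ((x : M) * star (x : M)))).re * (τ (star (y : M) * (y : M))).re
    have h1 := hp.cs_sq (star (z * (x : M))) (y : M)
    rw [star_star] at h1
    have h2 : sq2 τ (star (z * (x : M))) = (τ (star z * z * ((x : M) * star (x : M)))).re := by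
      unfold sq2
      rw [star_star, star_mul]
      have e : z * (x : M) * (star (x : M) * star z) = z * ((x : M) * star (x : M)) * star z := by
        simp only [mul_assoc]
      rw [e, hp.comm]
      simp only [mul_assoc]
    rw [h2] at h1
    rw [← mul_assoc]
    exact h1

/-! ### sums along a partition -/

/-- a partition for `B'` -/
structure t2lglue_Part (T : Set (M →ₗ[ℂ] ℂ)) {I : Type} [Fintype I] (q : I → M)
    (B' : StarSubalgebra ℂ M) : Prop where
  sa : ∀ i, star (q i) = q i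
  idem : ∀ i, q i * q i = q i
  orth : ∀ i j, i ≠ j → q i * q j = 0
  sum : ∑ i, q i = 1
  comm : ∀ i, ∀ b ∈ B', Commute (q i) b
  tr : ∀ τ ∈ T, ∀ b ∈ B', ∀ i, τ (b * q i) = (Fintype.card I : ℂ)⁻¹ * τ b

section Part

variable {I : Type} [Fintype I] {q : I → M} {B' : StarSubalgebra ℂ M}

theorem t2lglue_mul (h : t2lglue_Part T q B') {x y : I → M} (hx : ∀ i, x i ∈ B') :
    (∑ i, q i * x i) * (∑ i, q i * y i) = ∑ i, q i * (x i * y i) := by
  classical
  rw [Finset.sum_mul_sum]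
  refine Finset.sum_congr rfl fun i _ => ?_
  rw [Finset.sum_eq_single i]
  · have e : q i * x i * (q i * y i) = q i * (x i * q i) * y i := by simp only [mul_assoc]
    rw [e, ← (h.comm i _ (hx i)).eq, ← mul_assoc, h.idem, mul_assoc]
  · intro j _ hj
    have e : q i * x i * (q j * y j) = q i * (x i * q j) * y j := by simp only [mul_assoc]
    rw [e, ← (h.comm j _ (hx i)).eq, ← mul_assoc, h.orth i j hj.symm, zero_mul, zero_mul]
  · intro hi
    exact absurd (Finset.mem_univ i) hi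

theorem t2lglue_star (h : t2lglue_Part T q B') {x : I → M} (hx : ∀ i, x i ∈ B') :
    star (∑ i, q i * x i) = ∑ i, q i * star (x i) := by
  rw [star_sum]
  refine Finset.sum_congr rfl fun i _ => ?_
  rw [star_mul, h.sa, ← (h.comm i _ (star_mem (hx i))).eq]

theorem t2lglue_one (h : t2lglue_Part T q B') : ∑ i, q i * (1 : M) = 1 := by
  simp only [mul_one, h.sum]

theorem t2lglue_left (h : t2lglue_Part T q B') {b : M} (hb : b ∈ B') (x : I → M) :
    b * (∑ i, q i * x i) = ∑ i, q i * (b * x i) := by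
  rw [Finset.mul_sum]
  refine Finset.sum_congr rfl fun i _ => ?_
  rw [← mul_assoc, ← (h.comm i b hb).eq, mul_assoc]

theorem t2lglue_tr (h : t2lglue_Part T q B') (hT : TrSys α T) {τ : M →ₗ[ℂ] ℂ} (hτ : τ ∈ T)
    {x : I → M} (hx : ∀ i, x i ∈ B') :
    τ (∑ i, q i * x i) = (Fintype.card I : ℂ)⁻¹ * ∑ i, τ (x i) := by
  rw [map_sum, Finset.mul_sum]
  refine Finset.sum_congr rfl fun i _ => ?_
  rw [(hT.ptr τ hτ).comm, h.tr τ hτ _ (hx i)]

theorem t2lglue_norm (h : t2lglue_Part T q B') {x : I → M} (hx : ∀ i, x i ∈ B')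
    (hn : ∀ i, ‖x i‖ ≤ 1) : ‖∑ i, q i * x i‖ ≤ 1 := by
  letI : PartialOrder M := CStarAlgebra.spectralOrder M
  haveI : StarOrderedRing M := CStarAlgebra.spectralOrderedRing M
  have h1 : star (∑ i, q i * x i) * (∑ i, q i * x i) ≤ 1 := by
    rw [t2lglue_star h hx, t2lglue_mul h fun i => star_mem (hx i), ← h.sum]
    refine Finset.sum_le_sum fun i _ => ?_
    have h2 : star (x i) * x i ≤ 1 := by
      have h3 := star_mul_self_le_norm (x i)
      refine h3.trans ?_
      have h4 : ‖x i‖ ^ 2 ≤ 1 := pow_le_one₀ (norm_nonneg _) (hn i)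
      have h5 : algebraMap ℝ M (‖x i‖ ^ 2) ≤ algebraMap ℝ M 1 := algebraMap_mono M h4
      rwa [map_one] at h5
    have h6 := star_left_conjugate_le_conjugate h2 (q i)
    rw [h.sa, mul_one, h.idem] at h6
    have h7 : q i * (star (x i) * x i) * q i = q i * (star (x i) * x i) := by
      have h8 : Commute (q i) (star (x i) * x i) := h.comm i _ (mul_mem (star_mem (hx i)) (hx i))
      rw [h8.eq, mul_assoc, h.idem]
    rwa [h7] at h6
  have h2 : ‖star (∑ i, q i * x i) * (∑ i, q i * x i)‖ ≤ 1 := by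
    have h3 := (CStarAlgebra.norm_le_iff_le_algebraMap
      (star (∑ i, q i * x i) * (∑ i, q i * x i)) zero_le_one (star_mul_self_nonneg _)).2
      (by rw [map_one]; exact h1)
    exact h3
  rw [CStarRing.norm_star_mul_self] at h2
  nlinarith [norm_nonneg (∑ i, q i * x i)]

/-- trace of `z^* z sum q_i x_i` -/
theorem t2lglue_loc (h : t2lglue_Part T q B') (hT : TrSys α T) {τ : M →ₗ[ℂ] ℂ} (hτ : τ ∈ T)
    {B : StarSubalgebra ℂ M} (hBB : B ≤ B') {z : M} (hz : z ∈ B) {x : I → relComm B}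
    (hx : ∀ i, (x i : M) ∈ B') :
    (τ (star z * z * (∑ i, q i * (x i : M)))).re =
      (Fintype.card I : ℝ)⁻¹ * ∑ i, (locTr τ B z (x i)).re := by
  have hzz : star z * z ∈ B' := mul_mem (star_mem (hBB hz)) (hBB hz)
  rw [t2lglue_left h hzz, t2lglue_tr h hT hτ fun i => mul_mem hzz (hx i)]
  have e : ((Fintype.card I : ℂ)⁻¹) = (((Fintype.card I : ℝ)⁻¹ : ℝ) : ℂ) := by push_cast; rfl
  rw [e, Complex.re_ofReal_mul, Complex.re_sum]
  rfl

/-- the 2-norm of `z sum q_i x_i` -/
theorem t2lglue_sq2 (h : t2lglue_Part T q B') (hT : TrSys α T) {τ : M →ₗ[ℂ] ℂ} (hτ : τ ∈ T)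
    {B : StarSubalgebra ℂ M} (hBB : B ≤ B') {z : M} (hz : z ∈ B) {x : I → relComm B}
    (hx : ∀ i, (x i : M) ∈ B') :
    sq2 τ (z * (∑ i, q i * (x i : M))) =
      (Fintype.card I : ℝ)⁻¹ * ∑ i, sq2 (locTr τ B z) (x i) := by
  have hzz : star z * z ∈ B' := mul_mem (star_mem (hBB hz)) (hBB hz)
  have h1 : star (z * (∑ i, q i * (x i : M))) * (z * (∑ i, q i * (x i : M))) =
      star z * z * ∑ i, q i * ((star (x i) * x i : relComm B) : M) := by
    rw [star_mul, t2lglue_star h hx]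
    have e1 : (∑ i, q i * star (x i : M)) * star z * (z * (∑ i, q i * (x i : M))) =
        (∑ i, q i * star (x i : M)) * (star z * z * (∑ i, q i * (x i : M))) := by
      simp only [mul_assoc]
    rw [e1, t2lglue_left h hzz, t2lglue_mul h fun i => star_mem (hx i), t2lglue_left h hzz]
    refine Finset.sum_congr rfl fun i _ => ?_
    congr 1
    have h2 : Commute (star (x i : M)) (star z * z) :=
      mem_relComm.1 (star_mem (x i).2) _ (mul_mem (star_mem hz) hz)
    rw [← mul_assoc, h2.eq, mul_assoc]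
    rfl
  unfold sq2
  rw [h1, t2lglue_loc h hT hτ hBB hz (x := fun i => star (x i) * x i)
    fun i => mul_mem (star_mem (hx i)) (hx i)]

end Part

theorem round_of_core [Countable G] (hT : TrSys α T) (hE : GammaExact α T) {K₀ : Finset G}
    {ρ t : ℝ} (B : StarSubalgebra ℂ M) (hB : Adm α B)
    (γ : G →* (relComm B ≃⋆ₐ[ℂ] relComm B))
    (hγ : ∀ g x, ((γ g x : relComm B) : M) = α g (x : M)) {I : Type} [Fintype I] {n : ℕ}
    (hI : Fintype.card I = 2 ^ n) {v k : I → relComm B} (h : CoreOut γ K₀ ρ t v k) :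
    ∃ v k : M,
    (∀ b ∈ B, Commute v b ∧ Commute (star v) b ∧ Commute k b) ∧
    star k = k ∧ ‖k‖ ≤ 1 ∧ ‖1 - k‖ ≤ 1 ∧ ‖v‖ ≤ 1 ∧ k * v = v ∧ v * k = v ∧
    ∀ τ ∈ T, ∀ z ∈ B,
      τ (z * v) = 0 ∧
      sq2 τ z * t ≤ (τ (star z * z * (1 - (1 - k) * (1 - k)))).re ∧
      (τ (star z * z * k)).re ≤ 32 * t * sq2 τ z ∧
      (τ (star z * z * (star (v * v) * (v * v)))).re ≤ ρ * t * sq2 τ z ∧
      ‖τ (z * (star v * v + v * star v - (1 - (1 - k) * (1 - k))))‖ ≤ ρ * t * √(sq2 τ z) ∧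
      sq2 τ (z * (star v * v + v * star v - (1 - (1 - k) * (1 - k)))) ≤ ρ * t * sq2 τ z ∧
      ∀ h ∈ K₀, sq2 τ (z * (α h v - v)) ≤ ρ * t * sq2 τ z ∧
        sq2 τ (z * (α h k - k)) ≤ ρ * t * sq2 τ z ∧
        ‖τ (z * (α h k - k))‖ ≤ ρ * t * √(sq2 τ z) := by
  classical
  have hcard : (0 : ℝ) < (Fintype.card I : ℝ) := by
    rw [hI]
    positivity
  -- the admissible algebra
  let S : Set M := Set.range (fun i => (v i : M)) ∪ Set.range (fun i => (k i : M))
  have hS : S.Countable := (Set.finite_range _).countable.union (Set.finite_range _).countable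
  obtain ⟨B', hB', hBB, hSB⟩ := exists_adm hB S hS
  have hv : ∀ i, (v i : M) ∈ B' := fun i => hSB (Or.inl ⟨i, rfl⟩)
  have hk : ∀ i, (k i : M) ∈ B' := fun i => hSB (Or.inr ⟨i, rfl⟩)
  obtain ⟨q, q1, q2, q3, q4, q5, q6, q7⟩ := exists_partition hE n hI hB'
  have hq : t2lglue_Part T q B' := ⟨q1, q2, q3, q4, q6, q7⟩
  -- functionals
  have hloc1 : ∀ τ ∈ T, ∀ z ∈ B, (locTr τ B z 1).re = sq2 τ z := by
    intro τ _ z _
    rw [locTr_apply]
    change (τ (star z * z * 1)).re = _
    rw [mul_one]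
    rfl
  set V : M := ∑ i, q i * (v i : M) with hV
  set Kk : M := ∑ i, q i * (k i : M) with hKk
  have c1 : ∀ b ∈ B, Commute V b := fun b hb => Commute.sum_left _ _ _ fun i _ =>
    (q6 i b (hBB hb)).mul_left (mem_relComm.1 (v i).2 b hb)
  have c2 : ∀ b ∈ B, Commute (star V) b := fun b hb => by
    have := (c1 (star b) (star_mem hb)).star_star
    rwa [star_star] at this
  have c3 : ∀ b ∈ B, Commute Kk b := fun b hb => Commute.sum_left _ _ _ fun i _ =>
    (q6 i b (hBB hb)).mul_left (mem_relComm.1 (k i).2 b hb)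
  have ksa : ∀ i, star (k i : M) = (k i : M) := fun i => congrArg Subtype.val (h.k_sa i)
  have d1 : star Kk = Kk := by
    rw [hKk, t2lglue_star hq hk]
    exact Finset.sum_congr rfl fun i _ => by rw [ksa]
  have d2 : 1 - Kk = ∑ i, q i * ((1 - k i : relComm B) : M) := by
    have e : ∀ i, ((1 - k i : relComm B) : M) = 1 - (k i : M) := fun i => rfl
    simp only [e, mul_sub, mul_one, Finset.sum_sub_distrib, q4, hKk]
  have hk1 : ∀ i, ((1 - k i : relComm B) : M) ∈ B' := fun i => sub_mem (one_mem _) (hk i)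
  have n1 : ‖Kk‖ ≤ 1 := t2lglue_norm hq hk fun i => h.k_norm i
  have n2 : ‖1 - Kk‖ ≤ 1 := by
    rw [d2]
    exact t2lglue_norm hq hk1 fun i => h.k_norm' i
  have n3 : ‖V‖ ≤ 1 := t2lglue_norm hq hv fun i => h.v_norm i
  have m1 : Kk * V = V := by
    rw [hKk, hV, t2lglue_mul hq hk]
    exact Finset.sum_congr rfl fun i _ => congrArg (q i * ·) (congrArg Subtype.val (h.kv i))
  have m2 : V * Kk = V := by
    rw [hKk, hV, t2lglue_mul hq hv]
    exact Finset.sum_congr rfl fun i _ => congrArg (q i * ·) (congrArg Subtype.val (h.vk i))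
  have m3 : V * V = ∑ i, q i * ((v i * v i : relComm B) : M) := by
    rw [hV, t2lglue_mul hq hv]
    rfl
  have hvv : ∀ i, ((v i * v i : relComm B) : M) ∈ B' := fun i => mul_mem (hv i) (hv i)
  have m4 : star (V * V) * (V * V) =
      ∑ i, q i * ((star (v i * v i) * (v i * v i) : relComm B) : M) := by
    rw [m3, t2lglue_star hq hvv, t2lglue_mul hq fun i => star_mem (hvv i)]
    rfl
  have m5 : 1 - (1 - Kk) * (1 - Kk) =
      ∑ i, q i * ((1 - (1 - k i) * (1 - k i) : relComm B) : M) := by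
    have e : ∀ i, q i * ((1 - (1 - k i) * (1 - k i) : relComm B) : M) =
        q i - q i * (((1 - k i : relComm B) : M) * ((1 - k i : relComm B) : M)) := fun i => by
      change q i * (1 - ((1 - k i : relComm B) : M) * ((1 - k i : relComm B) : M)) = _
      rw [mul_sub, mul_one]
    rw [Finset.sum_congr rfl fun i _ => e i, Finset.sum_sub_distrib, q4, d2,
      t2lglue_mul hq hk1]
  have m6 : star V * V + V * star V - (1 - (1 - Kk) * (1 - Kk)) =
      ∑ i, q i * ((yOf (v i) (k i) : relComm B) : M) := by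
    have e : ∀ i, q i * ((yOf (v i) (k i) : relComm B) : M) =
        q i * (star (v i : M) * (v i : M)) + q i * ((v i : M) * star (v i : M)) -
          q i * ((1 - (1 - k i) * (1 - k i) : relComm B) : M) := fun i => by
      change q i * (star (v i : M) * (v i : M) + (v i : M) * star (v i : M) -
          ((1 - (1 - k i) * (1 - k i) : relComm B) : M)) = _
      rw [mul_sub, mul_add]
    rw [Finset.sum_congr rfl fun i _ => e i, Finset.sum_sub_distrib, Finset.sum_add_distrib,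
      ← m5, hV, t2lglue_star hq hv, t2lglue_mul hq (fun i => star_mem (hv i)),
      t2lglue_mul hq hv]
  have hy : ∀ i, ((yOf (v i) (k i) : relComm B) : M) ∈ B' := by
    intro i
    change star (v i : M) * (v i : M) + (v i : M) * star (v i : M) -
          (1 - (1 - (k i : M)) * (1 - (k i : M))) ∈ B'
    exact sub_mem (add_mem (mul_mem (star_mem (hv i)) (hv i)) (mul_mem (hv i) (star_mem (hv i))))
      (sub_mem (one_mem _) (mul_mem (sub_mem (one_mem _) (hk i)) (sub_mem (one_mem _) (hk i))))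
  have act : ∀ (g : G) (x : I → relComm B), α g (∑ i, q i * (x i : M)) - (∑ i, q i * (x i : M)) =
      ∑ i, q i * ((γ g (x i) - x i : relComm B) : M) := by
    intro g x
    rw [map_sum, ← Finset.sum_sub_distrib]
    refine Finset.sum_congr rfl fun i _ => ?_
    rw [map_mul, q5, ← hγ, ← mul_sub]
    rfl
  have hgv : ∀ g i, ((γ g (v i) - v i : relComm B) : M) ∈ B' := fun g i => by
    change ((γ g (v i) : relComm B) : M) - (v i : M) ∈ B'
    rw [hγ]
    exact sub_mem (hB'.inv g _ (hv i)) (hv i)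
  have hgk : ∀ g i, ((γ g (k i) - k i : relComm B) : M) ∈ B' := fun g i => by
    change ((γ g (k i) : relComm B) : M) - (k i : M) ∈ B'
    rw [hγ]
    exact sub_mem (hB'.inv g _ (hk i)) (hk i)
  refine ⟨V, Kk, fun b hb => ⟨c1 b hb, c2 b hb, c3 b hb⟩, d1, n1, n2, n3, m1, m2, ?_⟩
  intro τ hτ z hz
  have hp := hT.ptr τ hτ
  have hl : PTr (locTr τ B z) := hp.locTr hz
  have hl1 := hloc1 τ hτ z hz
  obtain ⟨lam, ψ₀, hlam, hψ₀, hψ₀1, hdom⟩ := exists_dom hT hτ B hz
  -- mean of a sum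
  have mean : ∀ x : I → relComm B, (∀ i, (x i : M) ∈ B') →
      τ (z * (∑ i, q i * (x i : M))) = (Fintype.card I : ℂ)⁻¹ * ∑ i, lam (x i) := by
    intro x hx
    rw [t2lglue_left hq (hBB hz), t2lglue_tr hq hT hτ fun i => mul_mem (hBB hz) (hx i)]
    simp only [hlam]
  have bound : ∀ a b : ℝ, a ≤ Fintype.card I * b → (Fintype.card I : ℝ)⁻¹ * a ≤ b := by
    intro a b hab
    rw [inv_mul_le_iff₀ hcard]
    exact hab
  have mnorm : ∀ (x : I → relComm B) (C : ℝ), (∀ i, (x i : M) ∈ B') →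
      ‖∑ i, lam (x i)‖ ≤ Fintype.card I * C → ‖τ (z * (∑ i, q i * (x i : M)))‖ ≤ C := by
    intro x C hx hC
    rw [mean x hx, norm_mul, norm_inv, Complex.norm_natCast]
    exact bound _ _ hC
  refine ⟨?_, ?_, ?_, ?_, ?_, ?_, ?_⟩
  · rw [hV, mean v hv, ← map_sum, h.sum_v, map_zero, mul_zero]
  · rw [m5, t2lglue_loc hq hT hτ hBB hz (x := fun i => 1 - (1 - k i) * (1 - k i))
      fun i => sub_mem (one_mem _) (mul_mem (hk1 i) (hk1 i))]
    have := h.lo _ hl
    rw [hl1] at this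
    rw [le_inv_mul_iff₀ hcard, mul_comm (sq2 τ z) t]
    exact this
  · rw [hKk, t2lglue_loc hq hT hτ hBB hz hk]
    have := h.hi _ hl
    rw [hl1] at this
    exact bound _ _ this
  · rw [m4, t2lglue_loc hq hT hτ hBB hz (x := fun i => star (v i * v i) * (v i * v i))
      fun i => mul_mem (star_mem (hvv i)) (hvv i)]
    have := h.nil _ hl
    rw [hl1] at this
    exact bound _ _ this
  · rw [m6]
    refine mnorm _ _ hy ?_
    have := h.y_mean lam _ ψ₀ hl hψ₀ hdom
    rw [hl1, hψ₀1, Real.sqrt_one, mul_one] at this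
    exact this
  · rw [m6, t2lglue_sq2 hq hT hτ hBB hz hy]
    have := h.y_sq _ hl
    rw [hl1] at this
    exact bound _ _ this
  · intro g hg
    refine ⟨?_, ?_, ?_⟩
    · rw [hV, act, t2lglue_sq2 hq hT hτ hBB hz (hgv g)]
      have := h.inv_v _ hl g hg
      rw [hl1] at this
      exact bound _ _ this
    · rw [hKk, act, t2lglue_sq2 hq hT hτ hBB hz (hgk g)]
      have := h.inv_k _ hl g hg
      rw [hl1] at this
      exact bound _ _ this
    · rw [hKk, act]
      refine mnorm _ _ (hgk g) ?_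
      have := h.mean_k lam _ ψ₀ hl hψ₀ hdom g hg
      rw [hl1, hψ₀1, Real.sqrt_one, mul_one] at this
      exact this

end P095F
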