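import Vale.Agent.Lib.P095F.T1Dir
import Vale.Agent.Lib.P095F.T2LGlue

/-!
# P095F, part T1: good directions in the relative commutants

`exists_dir` for `E = relComm B` with the restricted action (`exists_resAct`, `exists_matHom` in T2LGlue;
`HasMat`).  For `τ ∈ T`, `z ∈ B`:
* `φ x = τ (z x)` on `relComm B` is tracial: `τ (z x y) = τ (x z y)`, so `τ (z X) = 0`;
* `ψ = locTr τ B z` is PTr (`PTr.locTr`), `ψ 1 = sq2 τ z`, `sq2 ψ x = sq2 τ (z x)` (as in the proof of `PTr.locTr`).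
-/

open scoped Topology

namespace P095F

universe u v

variable {G : Type v} [Group G] {M : Type u} [CStarAlgebra M] {α : G →* (M ≃⋆ₐ[ℂ] M)}
  {T : Set (M →ₗ[ℂ] ℂ)}

/-- the 2-norm of `z x` for `x` in the relative commutant -/
theorem t1loc_sq2 (τ : M →ₗ[ℂ] ℂ) {B : StarSubalgebra ℂ M} {z : M} (hz : z ∈ B)
    (x : relComm B) : sq2 (locTr τ B z) x = sq2 τ (z * (x : M)) := by
  unfold sq2
  rw [locTr_apply]
  have h1 : Commute (star (x : M)) (star z * z) :=
    mem_relComm.1 (star_mem x.2) _ (mul_mem (star_mem hz) hz)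
  have h2 : star z * z * ((star x * x : relComm B) : M) =
      star (z * (x : M)) * (z * (x : M)) := by
    change star z * z * (star (x : M) * (x : M)) = _
    rw [star_mul, ← mul_assoc, ← h1.eq]
    simp only [mul_assoc]
  rw [h2]

theorem exists_dirData (hG : FolnerGroup G) (hT : TrSys α T) (hM : HasMat α) (K₀ : Finset G)
    {σ : ℝ} (hσ : 0 < σ) : ∃ κ : ℝ, 0 < κ ∧ κ ≤ 1 ∧ DirData α T K₀ σ κ := by
  obtain ⟨k, κ, hk, hκ, hκ1, hdir⟩ := exists_dir.{u, v} hG K₀ hσ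
  refine ⟨κ, hκ, hκ1, fun B hB => ?_⟩
  obtain ⟨γ, hγ⟩ := exists_resAct B hB
  obtain ⟨j, hj⟩ := hM B hB k hk
  obtain ⟨j'⟩ := exists_matHom B j hj
  obtain ⟨X, hX⟩ := hdir (relComm B) γ j'
  refine ⟨(X : M), congrArg Subtype.val hX.sa, hX.norm, mem_relComm.1 X.2, fun τ hτ z hz => ?_⟩
  have hp := hT.ptr τ hτ
  have hl : PTr (locTr τ B z) := hp.locTr hz
  have hl1 : (locTr τ B z 1).re = sq2 τ z := by
    rw [locTr_apply]
    change (τ (star z * z * 1)).re = _
    rw [mul_one]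
    rfl
  refine ⟨?_, ?_, ?_, ?_⟩
  · refine hX.mean (τ ∘ₗ LinearMap.mulLeft ℂ z ∘ₗ (relComm B).subtype.toAlgHom.toLinearMap)
      fun x y => ?_
    change τ (z * ((x : M) * (y : M))) = τ (z * ((y : M) * (x : M)))
    have hy : Commute (y : M) z := mem_relComm.1 y.2 z hz
    rw [← mul_assoc, hp.comm, ← mul_assoc, hy.eq, mul_assoc]
  · have h := hX.lo _ hl
    rwa [hl1, t1loc_sq2 τ hz] at h
  · have h := hX.hi _ hl
    rwa [hl1, t1loc_sq2 τ hz] at h
  · intro h hh
    have h1 := hX.inv _ hl h hh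
    rw [hl1, t1loc_sq2 τ hz] at h1
    have h2 : ((γ h X - X : relComm B) : M) = α h (X : M) - (X : M) := by
      change ((γ h X : relComm B) : M) - (X : M) = _
      rw [hγ]
    rwa [h2] at h1

end P095F
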