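import Vale.Agent.Lib.P095F.T1Step
import Vale.Agent.Lib.P095F.T1Loc

/-!
# P095F, part T1: equivariant property Gamma (`theorem gammaApprox`)

`N` steps of the martingale, from `m = 0`, `D = B`:
`(N κ^2/2) (1 - s_N)^2 ≤ s_N ≤ 1` with `s_N = sq2 τ m_N`, and
`sq2 τ (α_h m_N - m_N) ≤ ((1 + 16 κ^2)^N - 1) σ / 8`.
Constants: `C = 2/η^2`, `σ = min (1/2) (η e^{-16 (C + 1)})`, `κ` from `exists_dirData`, `N = ⌈C/κ^2⌉`.
-/

open scoped Topology

namespace P095F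

universe u v

variable {G : Type v} [Group G] {M : Type u} [CStarAlgebra M] {α : G →* (M ≃⋆ₐ[ℂ] M)}
  {T : Set (M →ₗ[ℂ] ℂ)}

theorem mart_iter [Countable G] (hT : TrSys α T) {K₀ : Finset G} {σ κ : ℝ} (hσ : 0 < σ)
    (hσ1 : σ ≤ 1 / 2) (hκ : 0 < κ) (hD : DirData α T K₀ σ κ) {B : StarSubalgebra ℂ M}
    (hB : Adm α B) (N : ℕ) :
    ∃ (D : StarSubalgebra ℂ M) (m : M), Mart α T B D m ∧ ∀ τ ∈ T,
      N * (κ ^ 2 / 2) * (1 - sq2 τ m) ^ 2 ≤ sq2 τ m ∧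
      ∀ h ∈ K₀, sq2 τ (α h m - m) ≤ ((1 + 16 * κ ^ 2) ^ N - 1) * σ / 8 := by
  induction N with
  | zero =>
    refine ⟨B, 0, ⟨hB, le_rfl, zero_mem _, star_zero _, by simp, fun b _ => Commute.zero_left b,
      fun τ _ b _ => by rw [mul_zero, map_zero]⟩, fun τ hτ => ⟨?_, fun h _ => ?_⟩⟩
    · rw [sq2_zero]
      simp
    · rw [map_zero, sub_zero, sq2_zero, pow_zero]
      simp
  | succ N ih =>
    obtain ⟨D, m, hm, h1⟩ := ih
    obtain ⟨D', m', hm', h2⟩ := mart_step hT hσ hσ1 hκ hD hm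
    refine ⟨D', m', hm', fun τ hτ => ?_⟩
    obtain ⟨a1, a2⟩ := h1 τ hτ
    obtain ⟨b1, b2⟩ := h2 τ hτ
    have hp := hT.ptr τ hτ
    have hle : sq2 τ m' ≤ 1 := by
      have h3 := hp.sq2_le' m'
      rw [hT.one τ hτ, Complex.one_re, mul_one] at h3
      exact h3.trans (pow_le_one₀ (norm_nonneg _) hm'.norm)
    have hk2 : 0 ≤ κ ^ 2 / 2 := by positivity
    refine ⟨?_, fun h hh => ?_⟩
    · have h4 : sq2 τ m ≤ sq2 τ m' := by
        have : 0 ≤ κ ^ 2 / 2 * (1 - sq2 τ m) ^ 2 := by positivity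
        linarith
      have h5 : (1 - sq2 τ m') ^ 2 ≤ (1 - sq2 τ m) ^ 2 :=
        pow_le_pow_left₀ (by linarith) (by linarith) 2
      have h6 : ((N + 1 : ℕ) : ℝ) * (κ ^ 2 / 2) * (1 - sq2 τ m') ^ 2 ≤
          ((N + 1 : ℕ) : ℝ) * (κ ^ 2 / 2) * (1 - sq2 τ m) ^ 2 :=
        mul_le_mul_of_nonneg_left h5 (by positivity)
      refine h6.trans ?_
      push_cast
      linarith [b1, a1]
    · have h7 := b2 h hh
      have h8 := a2 h hh
      have h9 : (1 + 16 * κ ^ 2) * sq2 τ (α h m - m) ≤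
          (1 + 16 * κ ^ 2) * (((1 + 16 * κ ^ 2) ^ N - 1) * σ / 8) :=
        mul_le_mul_of_nonneg_left h8 (by positivity)
      rw [pow_succ]
      linarith

/-- equivariant property Gamma -/
theorem gammaApprox [Countable G] (hG : FolnerGroup G) (hT : TrSys α T) (hM : HasMat α) :
    GammaApprox α T := by
  intro K₀ η hη B hB
  set C : ℝ := 2 / η ^ 2 with hC
  have hC0 : 0 < C := by positivity
  set σ : ℝ := min (1 / 2) (η * Real.exp (-(16 * (C + 1)))) with hσd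
  have hσ : 0 < σ := lt_min (by norm_num) (by positivity)
  have hσ1 : σ ≤ 1 / 2 := min_le_left _ _
  have hσ2 : σ ≤ η * Real.exp (-(16 * (C + 1))) := min_le_right _ _
  obtain ⟨κ, hκ, hκ1, hD⟩ := exists_dirData hG hT hM K₀ hσ
  obtain ⟨D, m, hm, h1⟩ := mart_iter hT hσ hσ1 hκ hD hB ⌈C / κ ^ 2⌉₊
  have hκ2 : 0 < κ ^ 2 := by positivity
  have hκ3 : κ ^ 2 ≤ 1 := pow_le_one₀ hκ.le hκ1
  set N : ℕ := ⌈C / κ ^ 2⌉₊ with hN
  have hN1 : C ≤ N * κ ^ 2 := by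
    have := Nat.le_ceil (C / κ ^ 2)
    rwa [div_le_iff₀ hκ2] at this
  have hN2 : N * κ ^ 2 ≤ C + 1 := by
    have h2 : (N : ℝ) < C / κ ^ 2 + 1 := Nat.ceil_lt_add_one (by positivity)
    have h3 : (N : ℝ) * κ ^ 2 ≤ (C / κ ^ 2 + 1) * κ ^ 2 :=
      mul_le_mul_of_nonneg_right h2.le hκ2.le
    have h4 : (C / κ ^ 2 + 1) * κ ^ 2 = C + κ ^ 2 := by
      field_simp
    linarith
  refine ⟨m, hm.sa, hm.norm, hm.comm, hm.mean, fun τ hτ => ?_, fun τ hτ h hh => ?_⟩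
  · obtain ⟨a1, _⟩ := h1 τ hτ
    have hp := hT.ptr τ hτ
    have hle : sq2 τ m ≤ 1 := by
      have h3 := hp.sq2_le' m
      rw [hT.one τ hτ, Complex.one_re, mul_one] at h3
      exact h3.trans (pow_le_one₀ (norm_nonneg _) hm.norm)
    have e : (τ (1 - m * m)).re = 1 - sq2 τ m := by
      rw [map_sub, hT.one τ hτ, Complex.sub_re, Complex.one_re]
      unfold sq2
      rw [hm.sa]
    rw [e]
    have h5 : C / 2 * (1 - sq2 τ m) ^ 2 ≤ 1 := by
      have h6 : C / 2 * (1 - sq2 τ m) ^ 2 ≤ N * (κ ^ 2 / 2) * (1 - sq2 τ m) ^ 2 :=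
        mul_le_mul_of_nonneg_right (by linarith) (sq_nonneg _)
      linarith
    have h7 : (1 - sq2 τ m) ^ 2 ≤ η ^ 2 := by
      have h8 : C / 2 = 1 / η ^ 2 := by
        rw [hC]
        field_simp
      rw [h8, one_div, inv_mul_le_iff₀ (by positivity), mul_one] at h5
      exact h5
    exact abs_le_of_sq_le_sq' h7 hη.le |>.2
  · obtain ⟨_, a2⟩ := h1 τ hτ
    refine (a2 h hh).trans ?_
    have h3 : (1 + 16 * κ ^ 2) ^ N ≤ Real.exp (16 * (C + 1)) := by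
      have h4 : 1 + 16 * κ ^ 2 ≤ Real.exp (16 * κ ^ 2) := by
        have := Real.add_one_le_exp (16 * κ ^ 2)
        linarith
      calc (1 + 16 * κ ^ 2) ^ N ≤ Real.exp (16 * κ ^ 2) ^ N :=
            pow_le_pow_left₀ (by positivity) h4 N
        _ = Real.exp (N * (16 * κ ^ 2)) := (Real.exp_nat_mul _ _).symm
        _ ≤ Real.exp (16 * (C + 1)) := Real.exp_le_exp.2 (by linarith)
    have h5 : ((1 + 16 * κ ^ 2) ^ N - 1) * σ ≤ Real.exp (16 * (C + 1)) * σ :=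
      mul_le_mul_of_nonneg_right (by linarith) hσ.le
    have h6 : Real.exp (16 * (C + 1)) * σ ≤ η := by
      have h7 : Real.exp (16 * (C + 1)) * σ ≤
          Real.exp (16 * (C + 1)) * (η * Real.exp (-(16 * (C + 1)))) :=
        mul_le_mul_of_nonneg_left hσ2 (Real.exp_pos _).le
      have h8 : Real.exp (16 * (C + 1)) * (η * Real.exp (-(16 * (C + 1)))) = η := by
        rw [Real.exp_neg]
        field_simp
      linarith
    linarith

end P095F
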