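import Vale.Agent.Lib.P095F.T2LDefs
import Vale.Agent.Lib.P095F.PTrBasic

/-!
# P095F, part T2L: the 2 x 2 matrices

Positivity: if `Q = star Y * Y` in `D2 E` and `c = (c_0, c_1)` are complex scalars, then
`sum_{ij} conj(c_i) c_j Q_ij = sum_l star(c_0 Y_l0 + c_1 Y_l1) * (c_0 Y_l0 + c_1 Y_l1) ≥ 0`.
-/

open scoped ENNReal Topology

namespace P095F

universe u

variable {E : Type u} [CStarAlgebra E] [PartialOrder E] [StarOrderedRing E] {ψ : E →ₗ[ℂ] ℂ}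

theorem tr2_ptr (hψ : PTr ψ) : PTr (tr2 ψ) := by
  have key : ∀ x : D2 E, tr2 ψ (star x * x) =
      (ψ (star (ent x 0 0) * ent x 0 0) + ψ (star (ent x 1 0) * ent x 1 0)) +
      (ψ (star (ent x 0 1) * ent x 0 1) + ψ (star (ent x 1 1) * ent x 1 1)) := by
    intro x
    rw [tr2_apply, ent_mul, ent_mul, ent_star, ent_star, ent_star, ent_star, map_add, map_add]
  refine ⟨fun x => ?_, fun x => ?_, fun x y => ?_⟩
  · rw [key, Complex.add_re, Complex.add_re, Complex.add_re]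
    have h1 := hψ.nonneg (ent x 0 0)
    have h2 := hψ.nonneg (ent x 1 0)
    have h3 := hψ.nonneg (ent x 0 1)
    have h4 := hψ.nonneg (ent x 1 1)
    linarith
  · rw [key, Complex.add_im, Complex.add_im, Complex.add_im, hψ.im_eq, hψ.im_eq, hψ.im_eq,
      hψ.im_eq]
    norm_num
  · rw [tr2_apply, tr2_apply, ent_mul, ent_mul, ent_mul, ent_mul, map_add, map_add, map_add,
      map_add, hψ.comm (ent x 0 0), hψ.comm (ent x 0 1), hψ.comm (ent x 1 0),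
      hψ.comm (ent x 1 1)]
    ring

theorem sq2_tr2 (x : D2 E) : sq2 (tr2 ψ) x =
    sq2 ψ (ent x 0 0) + sq2 ψ (ent x 0 1) + sq2 ψ (ent x 1 0) + sq2 ψ (ent x 1 1) := by
  unfold sq2
  rw [tr2_apply, ent_mul, ent_mul, ent_star, ent_star, ent_star, ent_star, map_add, map_add,
    Complex.add_re, Complex.add_re, Complex.add_re]
  ring

/-- star algebra homomorphisms between C*-algebras are continuous and commute with `cfc` -/
theorem act2_cfc (σ : E ≃⋆ₐ[ℂ] E) (f : ℝ → ℝ) (hf : Continuous f) {b : D2 E}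
    (hb : IsSelfAdjoint b) : act2 σ (cfc f b) = cfc f (act2 σ b) :=
  StarAlgHomClass.map_cfc (S := ℂ) (act2 σ) f b hf.continuousOn (map_continuous (act2 σ)) hb
    (hb.map (act2 σ))

theorem aut_cfc (σ : E ≃⋆ₐ[ℂ] E) (f : ℝ → ℝ) (hf : Continuous f) {b : E}
    (hb : IsSelfAdjoint b) : σ (cfc f b) = cfc f (σ b) :=
  StarAlgHomClass.map_cfc (S := ℂ) (StarAlgHomClass.toStarAlgHom σ : E →⋆ₐ[ℂ] E) f b
    hf.continuousOn (map_continuous (StarAlgHomClass.toStarAlgHom σ : E →⋆ₐ[ℂ] E)) hb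
    (hb.map (StarAlgHomClass.toStarAlgHom σ : E →⋆ₐ[ℂ] E))

theorem act2_nonneg (σ : E ≃⋆ₐ[ℂ] E) {x : D2 E} (hx : 0 ≤ x) : 0 ≤ act2 σ x := by
  obtain ⟨y, rfl⟩ := CStarAlgebra.nonneg_iff_eq_star_mul_self.1 hx
  rw [map_mul, map_star]
  exact star_mul_self_nonneg _

theorem act2_le_one (σ : E ≃⋆ₐ[ℂ] E) {x : D2 E} (hx : x ≤ 1) : act2 σ x ≤ 1 := by
  have h1 := act2_nonneg σ (sub_nonneg.2 hx)
  rw [map_sub, map_one] at h1
  exact sub_nonneg.1 h1

/-- the positive elements attached to a positive matrix -/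
theorem pos_entries {Q : D2 E} (h : 0 ≤ Q) :
    0 ≤ ent Q 0 0 ∧ 0 ≤ ent Q 1 1 ∧ 0 ≤ rr Q + mm Q ∧ 0 ≤ rr Q - mm Q := by
  obtain ⟨y, rfl⟩ := CStarAlgebra.nonneg_iff_eq_star_mul_self.1 h
  have e00 : ent (star y * y) 0 0 = star (ent y 0 0) * ent y 0 0 + star (ent y 1 0) * ent y 1 0 := by
    rw [ent_mul, ent_star, ent_star]
  have e11 : ent (star y * y) 1 1 = star (ent y 0 1) * ent y 0 1 + star (ent y 1 1) * ent y 1 1 := by
    rw [ent_mul, ent_star, ent_star]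
  have e01 : ent (star y * y) 0 1 = star (ent y 0 0) * ent y 0 1 + star (ent y 1 0) * ent y 1 1 := by
    rw [ent_mul, ent_star, ent_star]
  have e10 : ent (star y * y) 1 0 = star (ent y 0 1) * ent y 0 0 + star (ent y 1 1) * ent y 1 0 := by
    rw [ent_mul, ent_star, ent_star]
  refine ⟨?_, ?_, ?_, ?_⟩
  · rw [e00]
    exact add_nonneg (star_mul_self_nonneg _) (star_mul_self_nonneg _)
  · rw [e11]
    exact add_nonneg (star_mul_self_nonneg _) (star_mul_self_nonneg _)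
  · have h1 : rr (star y * y) + mm (star y * y) =
        star (ent y 0 0 + ent y 0 1) * (ent y 0 0 + ent y 0 1) +
        star (ent y 1 0 + ent y 1 1) * (ent y 1 0 + ent y 1 1) := by
      unfold rr mm
      rw [e00, e11, e01, e10, star_add, star_add]
      noncomm_ring
    rw [h1]
    exact add_nonneg (star_mul_self_nonneg _) (star_mul_self_nonneg _)
  · have h1 : rr (star y * y) - mm (star y * y) =
        star (ent y 0 0 - ent y 0 1) * (ent y 0 0 - ent y 0 1) +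
        star (ent y 1 0 - ent y 1 1) * (ent y 1 0 - ent y 1 1) := by
      unfold rr mm
      rw [e00, e11, e01, e10, star_sub, star_sub]
      noncomm_ring
    rw [h1]
    exact add_nonneg (star_mul_self_nonneg _) (star_mul_self_nonneg _)

/-- monotonicity, from `pos_entries` for the difference -/
theorem mono_entries {Q B : D2 E} (h : Q ≤ B) :
    ent Q 0 0 ≤ ent B 0 0 ∧ ent Q 1 1 ≤ ent B 1 1 ∧ rr Q + mm Q ≤ rr B + mm B ∧
      rr Q - mm Q ≤ rr B - mm B := by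
  obtain ⟨h1, h2, h3, h4⟩ := pos_entries (sub_nonneg.2 h)
  refine ⟨?_, ?_, ?_, ?_⟩
  · rwa [ent_sub, sub_nonneg] at h1
  · rwa [ent_sub, sub_nonneg] at h2
  · have e : rr (B - Q) + mm (B - Q) = (rr B + mm B) - (rr Q + mm Q) := by
      unfold rr mm
      simp only [ent_sub]
      abel
    rwa [e, sub_nonneg] at h3
  · have e : rr (B - Q) - mm (B - Q) = (rr B - mm B) - (rr Q - mm Q) := by
      unfold rr mm
      simp only [ent_sub]
      abel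
    rwa [e, sub_nonneg] at h4

omit [PartialOrder E] [StarOrderedRing E] in
private theorem t2lmat_two : (algebraMap ℝ E 2 : E) = 1 + 1 := by
  have : (2 : ℝ) = 1 + 1 := by norm_num
  rw [this, map_add, map_one]

/-- consequences of `0 ≤ Q ≤ 1`; `Q^2 ≤ Q`; `2 Q - 1` is a contraction with off-diagonal entry
`2 Q_01` -/
theorem bounds_of_le_one {Q : D2 E} (h0 : 0 ≤ Q) (h1 : Q ≤ 1) :
    ent Q 0 0 ≤ 1 ∧ ent Q 1 1 ≤ 1 ∧ rr Q + mm Q ≤ algebraMap ℝ E 2 ∧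
      rr Q - mm Q ≤ algebraMap ℝ E 2 := by
  obtain ⟨h2, h3, h4, h5⟩ := mono_entries h1
  have e00 : ent (1 : D2 E) 0 0 = 1 := by rw [ent_one, if_pos rfl]
  have e11 : ent (1 : D2 E) 1 1 = 1 := by rw [ent_one, if_pos rfl]
  have e01 : ent (1 : D2 E) 0 1 = 0 := by rw [ent_one, if_neg (by decide)]
  have e10 : ent (1 : D2 E) 1 0 = 0 := by rw [ent_one, if_neg (by decide)]
  have er : rr (1 : D2 E) = 1 + 1 := by unfold rr; rw [e00, e11]
  have em : mm (1 : D2 E) = 0 := by unfold mm; rw [e01, e10, add_zero]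
  rw [e00] at h2
  rw [e11] at h3
  rw [er, em, add_zero] at h4
  rw [er, em, sub_zero] at h5
  rw [t2lmat_two]
  exact ⟨h2, h3, h4, h5⟩

theorem rr_nonneg {Q : D2 E} (h0 : 0 ≤ Q) : 0 ≤ rr Q :=
  add_nonneg (pos_entries h0).1 (pos_entries h0).2.1

theorem rr_le {Q : D2 E} (h1 : Q ≤ 1) : rr Q ≤ algebraMap ℝ E 2 := by
  obtain ⟨h2, h3, -, -⟩ := mono_entries h1
  rw [ent_one, if_pos rfl] at h2 h3
  rw [t2lmat_two]
  exact add_le_add h2 h3

theorem rr_spec {Q : D2 E} (h0 : 0 ≤ Q) (h1 : Q ≤ 1) : spectrum ℝ (rr Q) ⊆ Set.Icc 0 2 := by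
  intro x hx
  have h2 := rr_nonneg h0
  exact ⟨spectrum_nonneg_of_nonneg h2 hx,
    (le_algebraMap_iff_spectrum_le (ha := IsSelfAdjoint.of_nonneg h2)).1 (rr_le h1) x hx⟩

theorem star_off {Q : D2 E} (h0 : 0 ≤ Q) : star (ent Q 0 1) = ent Q 1 0 := by
  rw [← ent_star, (IsSelfAdjoint.of_nonneg h0).star_eq]

/-- `0 ≤ Q - Q^2 ≤ 1` -/
private theorem t2lmat_sub_sq_nonneg {Q : D2 E} (h0 : 0 ≤ Q) (h1 : Q ≤ 1) :
    0 ≤ Q - Q * Q ∧ Q - Q * Q ≤ 1 := by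
  have hs : star Q = Q := (IsSelfAdjoint.of_nonneg h0).star_eq
  have h2 : 0 ≤ 1 - Q := sub_nonneg.2 h1
  constructor
  · have e : Q - Q * Q = star Q * (1 - Q) * Q + star (1 - Q) * Q * (1 - Q) := by
      rw [star_sub, star_one, hs]
      noncomm_ring
    rw [e]
    exact add_nonneg (star_left_conjugate_nonneg h2 Q) (star_left_conjugate_nonneg h0 (1 - Q))
  · rw [← sub_nonneg]
    have e : 1 - (Q - Q * Q) = (1 - Q) + star Q * Q := by
      rw [hs]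
      abel
    rw [e]
    exact add_nonneg h2 (star_mul_self_nonneg Q)

theorem norm_off {Q : D2 E} (h0 : 0 ≤ Q) (h1 : Q ≤ 1) : ‖(2 : ℂ) • ent Q 0 1‖ ≤ 1 := by
  have hs : star Q = Q := (IsSelfAdjoint.of_nonneg h0).star_eq
  set Z : D2 E := Q + Q - 1 with hZ
  have hZs : star Z = Z := by rw [hZ, star_sub, star_add, star_one, hs]
  have h2 : star Z * Z ≤ 1 := by
    have h3 := (t2lmat_sub_sq_nonneg h0 h1).1
    have h4 : (1 : D2 E) - star Z * Z = (Q - Q * Q) + (Q - Q * Q) + (Q - Q * Q) + (Q - Q * Q) := by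
      rw [hZs, hZ]
      noncomm_ring
    rw [← sub_nonneg, h4]
    exact add_nonneg (add_nonneg (add_nonneg h3 h3) h3) h3
  have h3 : ‖star Z * Z‖ ≤ 1 :=
    (CStarAlgebra.norm_le_one_iff_of_nonneg _ (star_mul_self_nonneg Z)).2 h2
  rw [CStarRing.norm_star_mul_self] at h3
  have h4 : ‖Z‖ ≤ 1 := by
    have := norm_nonneg Z
    nlinarith
  have h5 : ent Z 0 1 = (2 : ℂ) • ent Q 0 1 := by
    rw [hZ, ent_sub, ent_add, ent_one, if_neg (by decide), sub_zero, two_smul]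
  rw [← h5]
  exact (CStarMatrix.norm_entry_le_norm (M := (Z : CStarMatrix (Fin 2) (Fin 2) E))).trans h4

/-- `(Q - Q^2)_00 ≥ 0` and `(Q - Q^2)_11 ≥ 0` -/
theorem off_mul_le {Q : D2 E} (h0 : 0 ≤ Q) (h1 : Q ≤ 1) :
    ent Q 0 1 * star (ent Q 0 1) ≤ ent Q 0 0 - ent Q 0 0 * ent Q 0 0 ∧
      star (ent Q 0 1) * ent Q 0 1 ≤ ent Q 1 1 - ent Q 1 1 * ent Q 1 1 := by
  obtain ⟨h2, h3, -, -⟩ := pos_entries (t2lmat_sub_sq_nonneg h0 h1).1
  rw [ent_sub, ent_mul] at h2 h3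
  rw [star_off h0]
  constructor
  · rw [← sub_nonneg]
    have e : ent Q 0 0 - ent Q 0 0 * ent Q 0 0 - ent Q 0 1 * ent Q 1 0 =
        ent Q 0 0 - (ent Q 0 0 * ent Q 0 0 + ent Q 0 1 * ent Q 1 0) := by abel
    rwa [e]
  · rw [← sub_nonneg]
    have e : ent Q 1 1 - ent Q 1 1 * ent Q 1 1 - ent Q 1 0 * ent Q 0 1 =
        ent Q 1 1 - (ent Q 1 0 * ent Q 0 1 + ent Q 1 1 * ent Q 1 1) := by abel
    rwa [e]

/-- `0 ≤ Q - Q^2 ≤ 1` -/
theorem sub_sq_nonneg {Q : D2 E} (h0 : 0 ≤ Q) (h1 : Q ≤ 1) :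
    0 ≤ Q - Q * Q ∧ Q - Q * Q ≤ 1 :=
  t2lmat_sub_sq_nonneg h0 h1

/-- the errors are nonnegative -/
theorem ab_nonneg (hψ : PTr ψ) {Q : D2 E} (h0 : 0 ≤ Q) : 0 ≤ ab ψ Q :=
  hψ.re_nonneg (cfc_nonneg fun _ _ => abs_nonneg _)

theorem err_nonneg (hψ : PTr ψ) {Q : D2 E} (h0 : 0 ≤ Q) (h1 : Q ≤ 1) : 0 ≤ err ψ Q := by
  obtain ⟨h2, h3, -, -⟩ := pos_entries h0
  have h4 := ab_nonneg hψ h0
  have h5 := hψ.mul_nonneg h3 h2
  have h6 := (tr2_ptr hψ).re_nonneg (sub_sq_nonneg h0 h1).1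
  unfold err
  linarith

theorem re_rr_nonneg (hψ : PTr ψ) {Q : D2 E} (h0 : 0 ≤ Q) : 0 ≤ (ψ (rr Q)).re :=
  hψ.re_nonneg (rr_nonneg h0)

end P095F
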