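import Vale.Agent.Lib.P095F.T2LScalar
import Vale.Agent.Lib.P095F.PTrBasic

/-!
# P095F, part T2L: two-variable functional calculus inequalities under a positive trace

(POS) `b, b'` self-adjoint with spectra in `[0, R]`, `F(s,t) = sum f_i(s) g_i(t) ≥ 0` on `[0,R]^2` ==>
`sum psi(f_i(b) g_i(b')) ≥ 0`. Proof: hat functions `phi_0, …, phi_N` for the nodes `x_a = R a / N`
(`0 ≤ phi_a`, `sum phi_a = 1` on `[0,R]`). `f_i` is uniformly approximated on `[0,R]` by
`sum_a f_i(x_a) phi_a` (uniform continuity), hence `cfc f_i b` in norm by `sum_a f_i(x_a) cfc phi_a b`;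
`sum_i psi((sum_a f_i(x_a) cfc phi_a b)(sum_c g_i(x_c) cfc phi_c b'))
  = sum_{a,c} F(x_a, x_c) psi(cfc phi_a b * cfc phi_c b') ≥ 0` by `PTr.mul_nonneg`; let `N → ∞`
(`PTr.norm_map_le`).
-/

open scoped ENNReal Topology

namespace P095F

universe u

variable {E : Type u} [CStarAlgebra E] [PartialOrder E] [StarOrderedRing E] {ψ : E →ₗ[ℂ] ℂ}

section Bern

/-- Bernstein polynomials on `[0, R]` -/
private noncomputable def t2lpos_bp (R : ℝ) (n k : ℕ) (x : ℝ) : ℝ :=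
  (n.choose k : ℝ) * (x / R) ^ k * (1 - x / R) ^ (n - k)

private noncomputable def t2lpos_BB (R : ℝ) (n : ℕ) (f : ℝ → ℝ) (x : ℝ) : ℝ :=
  ∑ k : Fin (n + 1), f (R * (((k : ℕ) : ℝ) / n)) * t2lpos_bp R n k x

private theorem t2lpos_bp_cont (R : ℝ) (n k : ℕ) : Continuous (t2lpos_bp R n k) := by
  unfold t2lpos_bp
  fun_prop

private theorem t2lpos_BB_cont (R : ℝ) (n : ℕ) (f : ℝ → ℝ) : Continuous (t2lpos_BB R n f) := by
  unfold t2lpos_BB
  exact continuous_finsetSum _ fun k _ => continuous_const.mul (t2lpos_bp_cont R n k)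

private theorem t2lpos_bp_nonneg {R : ℝ} (hR : 0 < R) (n k : ℕ) {x : ℝ} (hx : x ∈ Set.Icc 0 R) :
    0 ≤ t2lpos_bp R n k x := by
  unfold t2lpos_bp
  have h1 : 0 ≤ x / R := div_nonneg hx.1 hR.le
  have h2 : 0 ≤ 1 - x / R := by
    rw [sub_nonneg, div_le_one hR]
    exact hx.2
  positivity

private theorem t2lpos_tend {R : ℝ} (hR : 0 < R) (f : ℝ → ℝ) (hf : Continuous f) :
    TendstoUniformlyOn (fun n => t2lpos_BB R n f) f Filter.atTop (Set.Icc 0 R) := by
  have h := bernsteinApproximation_uniform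
    (⟨fun t : unitInterval => f (R * t), by fun_prop⟩ : C(unitInterval, ℝ))
  rw [ContinuousMap.tendsto_iff_tendstoUniformly, Metric.tendstoUniformly_iff] at h
  rw [Metric.tendstoUniformlyOn_iff]
  intro ε hε
  filter_upwards [h ε hε] with n hn x hx
  have h1 : 0 ≤ x / R := div_nonneg hx.1 hR.le
  have h2 : x / R ≤ 1 := by
    rw [div_le_one hR]
    exact hx.2
  have h3 := hn ⟨x / R, h1, h2⟩
  have h4 : R * (x / R) = x := by field_simp
  rw [bernsteinApproximation.apply] at h3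
  simp only [ContinuousMap.coe_mk, bernstein_apply, bernstein.z, h4, smul_eq_mul] at h3
  have h5 : t2lpos_BB R n f x = ∑ k : Fin (n + 1),
      (n.choose k : ℝ) * (x / R) ^ (k : ℕ) * (1 - x / R) ^ (n - k) *
        f (R * (((k : ℕ) : ℝ) / n)) := by
    unfold t2lpos_BB t2lpos_bp
    exact Finset.sum_congr rfl fun k _ => mul_comm _ _
  rw [h5]
  exact h3

omit [PartialOrder E] [StarOrderedRing E] in
private theorem t2lpos_cfc_tend {R : ℝ} (hR : 0 < R) {b : E} 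
    (hs : spectrum ℝ b ⊆ Set.Icc 0 R) (f : ℝ → ℝ) (hf : Continuous f) :
    Filter.Tendsto (fun n => cfc (t2lpos_BB R n f) b) Filter.atTop (𝓝 (cfc f b)) := by
  refine tendsto_cfc_fun ((t2lpos_tend hR f hf).mono hs) ?_
  exact Filter.Eventually.of_forall fun n => (t2lpos_BB_cont R n f).continuousOn

omit [PartialOrder E] [StarOrderedRing E] in
private theorem t2lpos_cfc_BB (R : ℝ) (b : E) (n : ℕ) (f : ℝ → ℝ) :
    cfc (t2lpos_BB R n f) b =
      ∑ k : Fin (n + 1), f (R * (((k : ℕ) : ℝ) / n)) • cfc (t2lpos_bp R n k) b := by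
  have h1 : t2lpos_BB R n f = ∑ k : Fin (n + 1),
      (fun x => f (R * (((k : ℕ) : ℝ) / n)) * t2lpos_bp R n k x) := by
    funext x
    rw [Finset.sum_apply]
    rfl
  have h2 : ∀ k : Fin (n + 1), ContinuousOn
      (fun x : ℝ => f (R * (((k : ℕ) : ℝ) / n)) * t2lpos_bp R n k x) (spectrum ℝ b) := fun k =>
    (continuous_const.mul (t2lpos_bp_cont R n k)).continuousOn
  rw [h1, cfc_sum_univ (fun (k : Fin (n + 1)) (x : ℝ) =>
    f (R * (((k : ℕ) : ℝ) / n)) * t2lpos_bp R n k x) b h2]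
  refine Finset.sum_congr rfl fun k _ => ?_
  exact cfc_const_mul _ _ _ (t2lpos_bp_cont R n k).continuousOn

private theorem t2lpos_approx (hψ : PTr ψ) {b b' : E} {R : ℝ}
    (hR : 0 < R) (hs : spectrum ℝ b ⊆ Set.Icc 0 R) (hs' : spectrum ℝ b' ⊆ Set.Icc 0 R)
    {ι : Type} (S : Finset ι) (f g : ι → ℝ → ℝ)
    (hF : ∀ x ∈ Set.Icc 0 R, ∀ y ∈ Set.Icc 0 R, 0 ≤ ∑ i ∈ S, f i x * g i y) (n : ℕ) :
    0 ≤ ∑ i ∈ S, (ψ (cfc (t2lpos_BB R n (f i)) b * cfc (t2lpos_BB R n (g i)) b')).re := by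
  have hnode : ∀ k : Fin (n + 1), R * (((k : ℕ) : ℝ) / n) ∈ Set.Icc 0 R := by
    intro k
    have h1 : (0 : ℝ) ≤ ((k : ℕ) : ℝ) / n := by positivity
    have h2 : ((k : ℕ) : ℝ) / n ≤ 1 := by
      apply div_le_one_of_le₀ _ (by positivity)
      exact_mod_cast Nat.lt_succ_iff.1 k.2
    exact ⟨by positivity, by nlinarith⟩
  have key : ∀ i : ι, (ψ (cfc (t2lpos_BB R n (f i)) b * cfc (t2lpos_BB R n (g i)) b')).re =
      ∑ k : Fin (n + 1), ∑ l : Fin (n + 1), f i (R * (((k : ℕ) : ℝ) / n)) *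
        g i (R * (((l : ℕ) : ℝ) / n)) *
          (ψ (cfc (t2lpos_bp R n k) b * cfc (t2lpos_bp R n l) b')).re := by
    intro i
    rw [t2lpos_cfc_BB, t2lpos_cfc_BB, Finset.sum_mul, map_sum, Complex.re_sum]
    refine Finset.sum_congr rfl fun k _ => ?_
    rw [Finset.mul_sum, map_sum, Complex.re_sum]
    refine Finset.sum_congr rfl fun l _ => ?_
    rw [smul_mul_smul_comm, ← Complex.coe_smul, map_smul, smul_eq_mul, Complex.re_ofReal_mul]
  have hsum : ∑ i ∈ S, (ψ (cfc (t2lpos_BB R n (f i)) b * cfc (t2lpos_BB R n (g i)) b')).re =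
      ∑ k : Fin (n + 1), ∑ l : Fin (n + 1), (∑ i ∈ S, f i (R * (((k : ℕ) : ℝ) / n)) *
        g i (R * (((l : ℕ) : ℝ) / n))) *
          (ψ (cfc (t2lpos_bp R n k) b * cfc (t2lpos_bp R n l) b')).re := by
    rw [Finset.sum_congr rfl fun i _ => key i, Finset.sum_comm]
    refine Finset.sum_congr rfl fun k _ => ?_
    rw [Finset.sum_comm]
    refine Finset.sum_congr rfl fun l _ => ?_
    rw [Finset.sum_mul]
  rw [hsum]
  refine Finset.sum_nonneg fun k _ => Finset.sum_nonneg fun l _ => mul_nonneg ?_ ?_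
  · exact hF _ (hnode k) _ (hnode l)
  · refine hψ.mul_nonneg ?_ ?_
    · exact cfc_nonneg fun x hx => t2lpos_bp_nonneg hR n k (hs hx)
    · exact cfc_nonneg fun x hx => t2lpos_bp_nonneg hR n l (hs' hx)

private theorem t2lpos_cont (hψ : PTr ψ) : Continuous ψ :=
  (ψ.mkContinuous (ψ 1).re fun x => by
    rw [mul_comm]
    exact hψ.norm_map_le x).continuous

end Bern

/-- (POS) -/
theorem pos_two (hψ : PTr ψ) {b b' : E} (hb : IsSelfAdjoint b) (hb' : IsSelfAdjoint b') {R : ℝ}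
    (hR : 0 < R) (hs : spectrum ℝ b ⊆ Set.Icc 0 R) (hs' : spectrum ℝ b' ⊆ Set.Icc 0 R)
    {ι : Type} (S : Finset ι) (f g : ι → ℝ → ℝ) (hf : ∀ i ∈ S, Continuous (f i))
    (hg : ∀ i ∈ S, Continuous (g i))
    (hF : ∀ x ∈ Set.Icc 0 R, ∀ y ∈ Set.Icc 0 R, 0 ≤ ∑ i ∈ S, f i x * g i y) :
    0 ≤ ∑ i ∈ S, (ψ (cfc (f i) b * cfc (g i) b')).re := by
  have h1 : Filter.Tendsto (fun n : ℕ => ∑ i ∈ S,
      (ψ (cfc (t2lpos_BB R n (f i)) b * cfc (t2lpos_BB R n (g i)) b')).re) Filter.atTop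
      (𝓝 (∑ i ∈ S, (ψ (cfc (f i) b * cfc (g i) b')).re)) := by
    refine tendsto_finsetSum _ fun i hi => ?_
    exact (Complex.continuous_re.tendsto _).comp (((t2lpos_cont hψ).tendsto _).comp
      ((t2lpos_cfc_tend hR hs (f i) (hf i hi)).mul (t2lpos_cfc_tend hR hs' (g i) (hg i hi))))
  exact ge_of_tendsto' h1 fun n => t2lpos_approx hψ hR hs hs' S f g hF n

/-- quadratic consequence of `pos_two` -/
private theorem t2lpos_quad (hψ : PTr ψ) {b b' : E} (hb : IsSelfAdjoint b) (hb' : IsSelfAdjoint b')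
    {R : ℝ} (hR : 0 < R) (hs : spectrum ℝ b ⊆ Set.Icc 0 R) (hs' : spectrum ℝ b' ⊆ Set.Icc 0 R)
    {ι : Type} (S : Finset ι) (c : ι → ℝ) (f g : ι → ℝ → ℝ) (hf : ∀ i, Continuous (f i))
    (hg : ∀ i, Continuous (g i))
    (hF : ∀ x ∈ Set.Icc 0 R, ∀ y ∈ Set.Icc 0 R, 0 ≤ ∑ i ∈ S, c i * (f i x + g i y) ^ 2) :
    0 ≤ ∑ i ∈ S, c i * sq2 ψ (cfc (f i) b + cfc (g i) b') := by
  set u : ι × Fin 3 → ℝ → ℝ := fun p => ![fun x => c p.1 * (f p.1 x * f p.1 x),
    fun x => (2 * c p.1) * f p.1 x, fun _ => c p.1] p.2 with hu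
  set v : ι × Fin 3 → ℝ → ℝ := fun p => ![fun _ => 1, g p.1, fun x => g p.1 x * g p.1 x] p.2 with hv
  have hcu : ∀ p, Continuous (u p) := by
    rintro ⟨i, j⟩
    have := hf i
    fin_cases j <;> simp only [hu] <;> simp <;> fun_prop
  have hcv : ∀ p, Continuous (v p) := by
    rintro ⟨i, j⟩
    have := hg i
    fin_cases j <;> simp only [hv] <;> simp <;> fun_prop
  have key := pos_two hψ hb hb' hR hs hs' (S ×ˢ (Finset.univ : Finset (Fin 3))) u v
    (fun p _ => hcu p) (fun p _ => hcv p) (by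
      intro x hx y hy
      have h1 := hF x hx y hy
      rw [Finset.sum_product]
      refine h1.trans (le_of_eq (Finset.sum_congr rfl fun i _ => ?_))
      rw [Fin.sum_univ_three]
      simp only [hu, hv, Matrix.cons_val_zero, Matrix.cons_val_one, Matrix.cons_val]
      ring)
  refine key.trans (le_of_eq ?_)
  rw [Finset.sum_product]
  refine Finset.sum_congr rfl fun i _ => ?_
  have hfi := hf i
  have hgi := hg i
  rw [Fin.sum_univ_three]
  have e0 : cfc (u (i, 0)) b = c i • (cfc (f i) b * cfc (f i) b) := by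
    rw [← cfc_mul (f i) (f i) b hfi.continuousOn hfi.continuousOn,
      ← cfc_const_mul (c i) (fun x => f i x * f i x) b (hfi.mul hfi).continuousOn]
    rfl
  have e1 : cfc (u (i, 1)) b = (2 * c i) • cfc (f i) b := by
    rw [← cfc_const_mul (2 * c i) (f i) b hfi.continuousOn]
    rfl
  have e2 : cfc (u (i, 2)) b = algebraMap ℝ E (c i) := cfc_const (c i) b hb
  have d0 : cfc (v (i, 0)) b' = 1 := cfc_const_one ℝ b' hb'
  have d1 : cfc (v (i, 1)) b' = cfc (g i) b' := rfl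
  have d2 : cfc (v (i, 2)) b' = cfc (g i) b' * cfc (g i) b' :=
    cfc_mul (g i) (g i) b' hgi.continuousOn hgi.continuousOn
  rw [e0, e1, e2, d0, d1, d2, hψ.sq2_add]
  have s1 : star (cfc (f i) b) = cfc (f i) b := (cfc_predicate (f i) b : IsSelfAdjoint _).star_eq
  have s2 : star (cfc (g i) b') = cfc (g i) b' :=
    (cfc_predicate (g i) b' : IsSelfAdjoint _).star_eq
  unfold sq2
  rw [s1, s2, mul_one, Algebra.algebraMap_eq_smul_one, smul_mul_assoc, smul_mul_assoc, one_mul,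
    ← Complex.coe_smul, ← Complex.coe_smul, ← Complex.coe_smul, map_smul, map_smul, map_smul,
    smul_eq_mul, smul_eq_mul, smul_eq_mul, Complex.re_ofReal_mul, Complex.re_ofReal_mul,
    Complex.re_ofReal_mul]
  ring

/-- from `pos_two` with `F = L^2 (s - t)^2 - (f s - f t)^2` (expand the squares; `cfc` of products) -/
theorem sq2_cfc_sub_le (hψ : PTr ψ) {b b' : E} (hb : IsSelfAdjoint b) (hb' : IsSelfAdjoint b')
    {R : ℝ} (hR : 0 < R) (hs : spectrum ℝ b ⊆ Set.Icc 0 R) (hs' : spectrum ℝ b' ⊆ Set.Icc 0 R)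
    (f : ℝ → ℝ) (hf : Continuous f) (L : ℝ)
    (hL : ∀ x ∈ Set.Icc 0 R, ∀ y ∈ Set.Icc 0 R, |f x - f y| ≤ L * |x - y|) :
    sq2 ψ (cfc f b - cfc f b') ≤ L ^ 2 * sq2 ψ (b - b') := by
  have key := t2lpos_quad hψ hb hb' hR hs hs' (Finset.univ : Finset (Fin 2)) ![L ^ 2, -1]
    ![fun x => x, f] ![fun x => -x, fun x => -f x]
    (by intro i; fin_cases i <;> simp <;> fun_prop)
    (by intro i; fin_cases i <;> simp <;> fun_prop)
    (by
      intro x hx y hy
      rw [Fin.sum_univ_two]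
      simp only [Matrix.cons_val_zero, Matrix.cons_val_one]
      have h1 := hL x hx y hy
      have h2 : (f x - f y) ^ 2 ≤ L ^ 2 * (x - y) ^ 2 := by
        have h3 := pow_le_pow_left₀ (abs_nonneg _) h1 2
        rwa [mul_pow, sq_abs, sq_abs] at h3
      nlinarith)
  rw [Fin.sum_univ_two] at key
  simp only [Matrix.cons_val_zero, Matrix.cons_val_one] at key
  rw [cfc_id' ℝ b hb, cfc_neg_id b' hb', cfc_neg f b', ← sub_eq_add_neg, ← sub_eq_add_neg] at key
  linarith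

/-- from `pos_two` and `HH_sum_diff` -/
theorem sum_sq2_HH_le (hψ : PTr ψ) {b b' : E} (hb : 0 ≤ b) (hb1 : b ≤ 1) (hb' : 0 ≤ b')
    (hb1' : b' ≤ 1) (m l₀ : ℕ) (c : ℝ) (hc : 0 < c) :
    ∑ l ∈ Finset.range (2 ^ m), sq2 ψ (cfc (HH m l₀ l) b - cfc (HH m l₀ l) b') ≤
      2 ^ m * (c / 2 * sq2 ψ (cfc Real.sqrt b - cfc Real.sqrt b') +
        1 / (2 * c) * sq2 ψ (cfc Real.sqrt b + cfc Real.sqrt b')) := by
  have hs : spectrum ℝ b ⊆ Set.Icc 0 1 := by
    intro x hx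
    refine ⟨spectrum_nonneg_of_nonneg hb hx, ?_⟩
    exact (le_algebraMap_iff_spectrum_le (r := (1 : ℝ)) (a := b)
      (IsSelfAdjoint.of_nonneg hb)).1 (by rwa [map_one]) x hx
  have hs' : spectrum ℝ b' ⊆ Set.Icc 0 1 := by
    intro x hx
    refine ⟨spectrum_nonneg_of_nonneg hb' hx, ?_⟩
    exact (le_algebraMap_iff_spectrum_le (r := (1 : ℝ)) (a := b')
      (IsSelfAdjoint.of_nonneg hb')).1 (by rwa [map_one]) x hx
  have key := t2lpos_quad hψ (IsSelfAdjoint.of_nonneg hb) (IsSelfAdjoint.of_nonneg hb') one_pos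
    hs hs' ((Finset.range (2 ^ m)).disjSum (Finset.univ : Finset (Fin 2)))
    (Sum.elim (fun _ => -1) ![2 ^ m * (c / 2), 2 ^ m * (1 / (2 * c))])
    (Sum.elim (fun l => HH m l₀ l) ![Real.sqrt, Real.sqrt])
    (Sum.elim (fun l => fun x => -HH m l₀ l x) ![fun x => -Real.sqrt x, Real.sqrt])
    (by
      rintro (l | i)
      · exact HH_continuous m l₀ l
      · fin_cases i <;> exact Real.continuous_sqrt)
    (by
      rintro (l | i)
      · exact (HH_continuous m l₀ l).neg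
      · fin_cases i
        · exact Real.continuous_sqrt.neg
        · exact Real.continuous_sqrt)
    (by
      intro x hx y hy
      rw [Finset.sum_disjSum, Fin.sum_univ_two]
      simp only [Sum.elim_inl, Sum.elim_inr, Matrix.cons_val_zero, Matrix.cons_val_one]
      have h1 := HH_sum_diff m l₀ x y hx.1 hy.1 c hc
      have h2 : ∑ l ∈ Finset.range (2 ^ m), (-1) * (HH m l₀ l x + -HH m l₀ l y) ^ 2 =
          -∑ l ∈ Finset.range (2 ^ m), (HH m l₀ l x - HH m l₀ l y) ^ 2 := by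
        rw [← Finset.sum_neg_distrib]
        exact Finset.sum_congr rfl fun l _ => by ring
      rw [h2]
      have h3 : (2 : ℝ) ^ m * (c / 2) * (√x + -√y) ^ 2 = 2 ^ m * (c / 2 * (√x - √y) ^ 2) := by
        ring
      rw [h3]
      linarith)
  rw [Finset.sum_disjSum, Fin.sum_univ_two] at key
  simp only [Sum.elim_inl, Sum.elim_inr, Matrix.cons_val_zero, Matrix.cons_val_one] at key
  have h4 : ∀ l, cfc (fun x => -HH m l₀ l x) b' = -cfc (HH m l₀ l) b' := fun l =>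
    cfc_neg (HH m l₀ l) b'
  have h5 : cfc (fun x => -√x) b' = -cfc Real.sqrt b' := cfc_neg Real.sqrt b'
  have h6 : ∑ l ∈ Finset.range (2 ^ m), (-1) * sq2 ψ (cfc (HH m l₀ l) b +
      cfc (fun x => -HH m l₀ l x) b') =
      -∑ l ∈ Finset.range (2 ^ m), sq2 ψ (cfc (HH m l₀ l) b - cfc (HH m l₀ l) b') := by
    rw [← Finset.sum_neg_distrib]
    refine Finset.sum_congr rfl fun l _ => ?_
    rw [h4, ← sub_eq_add_neg]
    ring
  rw [h6, h5, ← sub_eq_add_neg] at key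
  linarith

/-- one variable: `f ≤ g` on `[0, R]` (this is `cfc_mono` and `PTr.mono`) -/
theorem re_cfc_le (hψ : PTr ψ) {b : E} (hb : IsSelfAdjoint b) {R : ℝ}
    (hs : spectrum ℝ b ⊆ Set.Icc 0 R) (f g : ℝ → ℝ) (hf : Continuous f) (hg : Continuous g)
    (h : ∀ x ∈ Set.Icc 0 R, f x ≤ g x) : (ψ (cfc f b)).re ≤ (ψ (cfc g b)).re := by
  exact hψ.mono (cfc_mono (fun x hx => h x (hs hx)) hf.continuousOn hg.continuousOn)

/-- `0 ≤ b ≤ R` gives the spectrum condition -/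
theorem spectrum_subset_Icc {b : E} {R : ℝ} (hb : 0 ≤ b) (hR : b ≤ algebraMap ℝ E R) :
    spectrum ℝ b ⊆ Set.Icc 0 R := by
  intro x hx
  refine ⟨spectrum_nonneg_of_nonneg hb hx, ?_⟩
  exact (le_algebraMap_iff_spectrum_le (r := R) (a := b) (IsSelfAdjoint.of_nonneg hb)).1 hR x hx

end P095F
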