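import Mathlib.Algebra.Order.Chebyshev
import Vale.Agent.Lib.P095F.T2LMat
import Vale.Agent.Lib.P095F.T2LPos

/-!
# P095F, part T2L: the bound for `psi (|2 r^2 - r|)` (steps (5), (6), (7))

Notation `q = Q_00`, `p = Q_11`, `a = Q_01`, `r = q + p`, `mm = a + a^*`.
(5) `psi ((a^2)^* a^2) = psi ((a^* a)(a a^*)) ≤ psi (p q)` since `a a^* ≤ q`, `a^* a ≤ p`.
(6) `2 r^2 - r = (r^2 - mm^2) + (q p + p q) + (a^2 + a^{*2}) + [(Q^2 - Q)_00 + (Q^2 - Q)_11]`, seven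
terms. `r^2 - mm^2` is the self-adjoint part of `(r + mm)(r - mm)`, so its 2-norm is at most that of
`(r + mm)(r - mm) = 4 q' p'`, `q' = (r + mm)/2`, `p' = (r - mm)/2` in `[0, 1]`, and
`sq2 (q' p') = psi (q'^2 p'^2) ≤ psi (q' p')`; `sq2 (q p) = psi (q^2 p^2) ≤ psi (q p)`;
`sq2 (X_00) + sq2 (X_11) ≤ sq2 (tr2 psi) X ≤ (tr2 psi X).re` for `X = Q - Q^2`, `0 ≤ X ≤ 1`.
(7) `bd_sqrt` and `re_cfc_le`.
-/

open scoped ENNReal Topology

namespace P095F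

universe u

variable {E : Type u} [CStarAlgebra E] [PartialOrder E] [StarOrderedRing E] {ψ : E →ₗ[ℂ] ℂ}

/-- `x ^ 2 ≤ R x` for `0 ≤ x ≤ R` -/
private theorem t2labs_sq_le {F : Type u} [CStarAlgebra F] [PartialOrder F] [StarOrderedRing F]
    {x : F} {R : ℝ} (h0 : 0 ≤ x) (hR : x ≤ algebraMap ℝ F R) : x * x ≤ R • x := by
  have hsa : IsSelfAdjoint x := IsSelfAdjoint.of_nonneg h0
  have h1 : cfc (fun s : ℝ => R * s - s * s) x = R • x - x * x := by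
    rw [cfc_sub (fun s : ℝ => R * s) (fun s : ℝ => s * s) x,
      cfc_const_mul R (fun s : ℝ => s) x, cfc_mul (fun s : ℝ => s) (fun s : ℝ => s) x,
      cfc_id' ℝ x]
  have h2 : 0 ≤ cfc (fun s : ℝ => R * s - s * s) x := by
    refine cfc_nonneg fun s hs => ?_
    obtain ⟨h3, h4⟩ := spectrum_subset_Icc h0 hR hs
    nlinarith
  rw [h1] at h2
  exact sub_nonneg.1 h2

private theorem t2labs_sq_le_one {F : Type u} [CStarAlgebra F] [PartialOrder F]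
    [StarOrderedRing F] {x : F} (h0 : 0 ≤ x) (h1 : x ≤ 1) : x * x ≤ x := by
  have h := t2labs_sq_le (R := 1) h0 (by rw [map_one]; exact h1)
  rwa [one_smul] at h

private theorem t2labs_sq_nonneg {F : Type u} [CStarAlgebra F] [PartialOrder F]
    [StarOrderedRing F] {x : F} (h0 : 0 ≤ x) : 0 ≤ x * x := by
  have h := star_mul_self_nonneg x
  rwa [(IsSelfAdjoint.of_nonneg h0).star_eq] at h

private theorem t2labs_sq2_mul (hψ : PTr ψ) {u w : E} (hu : star u = u) (hw : star w = w) :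
    sq2 ψ (u * w) = (ψ ((u * u) * (w * w))).re := by
  unfold sq2
  rw [star_mul, hu, hw, mul_assoc, hψ.comm]
  simp only [mul_assoc]

private theorem t2labs_sum (hψ : PTr ψ) {ι : Type} (s : Finset ι) (f : ι → E) :
    sq2 ψ (∑ i ∈ s, f i) ≤ s.card * ∑ i ∈ s, sq2 ψ (f i) := by
  have h1 := hψ.sqrt_sq2_sum_le s f
  have h2 : sq2 ψ (∑ i ∈ s, f i) = √(sq2 ψ (∑ i ∈ s, f i)) ^ 2 :=
    (Real.sq_sqrt (hψ.sq2_nonneg _)).symm
  rw [h2]
  calc √(sq2 ψ (∑ i ∈ s, f i)) ^ 2 ≤ (∑ i ∈ s, √(sq2 ψ (f i))) ^ 2 :=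
        pow_le_pow_left₀ (Real.sqrt_nonneg _) h1 2
    _ ≤ s.card * ∑ i ∈ s, √(sq2 ψ (f i)) ^ 2 := sq_sum_le_card_mul_sum_sq
    _ = s.card * ∑ i ∈ s, sq2 ψ (f i) := by
        congr 1
        exact Finset.sum_congr rfl fun i _ => Real.sq_sqrt (hψ.sq2_nonneg _)

/-- (5) -/
theorem sq2_a_sq (hψ : PTr ψ) {Q : D2 E} (h0 : 0 ≤ Q) (h1 : Q ≤ 1) :
    sq2 ψ (ent Q 0 1 * ent Q 0 1) ≤ (ψ (ent Q 1 1 * ent Q 0 0)).re := by
  obtain ⟨hq, hp, _, _⟩ := pos_entries h0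
  obtain ⟨h2, h3⟩ := off_mul_le h0 h1
  have h4 : ent Q 0 1 * star (ent Q 0 1) ≤ ent Q 0 0 :=
    h2.trans (sub_le_self _ (t2labs_sq_nonneg hq))
  have h5 : star (ent Q 0 1) * ent Q 0 1 ≤ ent Q 1 1 :=
    h3.trans (sub_le_self _ (t2labs_sq_nonneg hp))
  have h6 : sq2 ψ (ent Q 0 1 * ent Q 0 1) =
      (ψ ((star (ent Q 0 1) * ent Q 0 1) * (ent Q 0 1 * star (ent Q 0 1)))).re := by
    unfold sq2
    rw [star_mul, mul_assoc, hψ.comm]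
    simp only [mul_assoc]
  rw [h6]
  exact hψ.mul_mono h5 hp (mul_star_self_nonneg _) h4

/-- (6) -/
theorem sq2_two_r_sq (hψ : PTr ψ) {Q : D2 E} (h0 : 0 ≤ Q) (h1 : Q ≤ 1) :
    sq2 ψ ((2 : ℂ) • (rr Q * rr Q) - rr Q) ≤
      7 * (4 * (ψ ((rr Q + mm Q) * (rr Q - mm Q))).re + 4 * (ψ (ent Q 1 1 * ent Q 0 0)).re +
        (tr2 ψ (Q - Q * Q)).re) := by
  obtain ⟨hq, hp, hu, hw⟩ := pos_entries h0
  obtain ⟨hq1, hp1, hu2, hw2⟩ := bounds_of_le_one h0 h1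
  have hqs : star (ent Q 0 0) = ent Q 0 0 := (IsSelfAdjoint.of_nonneg hq).star_eq
  have hps : star (ent Q 1 1) = ent Q 1 1 := (IsSelfAdjoint.of_nonneg hp).star_eq
  have hus : star (rr Q + mm Q) = rr Q + mm Q := (IsSelfAdjoint.of_nonneg hu).star_eq
  have hws : star (rr Q - mm Q) = rr Q - mm Q := (IsSelfAdjoint.of_nonneg hw).star_eq
  have hoff : ent Q 1 0 = star (ent Q 0 1) := (star_off h0).symm
  have hoff' : star (ent Q 1 0) = ent Q 0 1 := by rw [hoff, star_star]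
  -- the term `r^2 - mm^2`
  have hT1 : sq2 ψ (rr Q * rr Q - mm Q * mm Q) ≤
      4 * (ψ ((rr Q + mm Q) * (rr Q - mm Q))).re := by
    have e1 : rr Q * rr Q - mm Q * mm Q = ((1 / 2 : ℝ) : ℂ) •
        ((rr Q + mm Q) * (rr Q - mm Q) + star ((rr Q + mm Q) * (rr Q - mm Q))) := by
      rw [star_mul, hus, hws]
      have e2 : (rr Q + mm Q) * (rr Q - mm Q) + (rr Q - mm Q) * (rr Q + mm Q) =
          (2 : ℂ) • (rr Q * rr Q - mm Q * mm Q) := by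
        rw [two_smul]
        noncomm_ring
      rw [e2, smul_smul]
      norm_num
    have e3 : sq2 ψ (rr Q * rr Q - mm Q * mm Q) ≤
        sq2 ψ ((rr Q + mm Q) * (rr Q - mm Q)) := by
      rw [e1, sq2_smul]
      have h2 := hψ.sq2_add_le ((rr Q + mm Q) * (rr Q - mm Q))
        (star ((rr Q + mm Q) * (rr Q - mm Q)))
      rw [hψ.sq2_star] at h2
      have h3 : ‖((1 / 2 : ℝ) : ℂ)‖ ^ 2 = 1 / 4 := by
        rw [Complex.norm_real]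
        norm_num
      rw [h3]
      linarith
    refine e3.trans ?_
    rw [t2labs_sq2_mul hψ hus hws]
    have h2 := t2labs_sq_le hu hu2
    have h3 := t2labs_sq_le hw hw2
    have h4 : (0 : E) ≤ (2 : ℝ) • (rr Q + mm Q) := (t2labs_sq_nonneg hu).trans h2
    refine (hψ.mul_mono h2 h4 (t2labs_sq_nonneg hw) h3).trans (le_of_eq ?_)
    rw [smul_mul_smul_comm, ← Complex.coe_smul, map_smul, smul_eq_mul, Complex.re_ofReal_mul]
    norm_num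
  -- the mixed terms
  have hT2 : sq2 ψ (ent Q 0 0 * ent Q 1 1) ≤ (ψ (ent Q 1 1 * ent Q 0 0)).re := by
    rw [t2labs_sq2_mul hψ hqs hps, hψ.comm (ent Q 1 1)]
    exact hψ.mul_mono (t2labs_sq_le_one hq hq1) hq (t2labs_sq_nonneg hp)
      (t2labs_sq_le_one hp hp1)
  have hT3 : sq2 ψ (ent Q 1 1 * ent Q 0 0) ≤ (ψ (ent Q 1 1 * ent Q 0 0)).re := by
    rw [t2labs_sq2_mul hψ hps hqs]
    exact hψ.mul_mono (t2labs_sq_le_one hp hp1) hp (t2labs_sq_nonneg hq)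
      (t2labs_sq_le_one hq hq1)
  have hT4 := sq2_a_sq hψ h0 h1
  have hT5 : sq2 ψ (ent Q 1 0 * ent Q 1 0) ≤ (ψ (ent Q 1 1 * ent Q 0 0)).re := by
    have h2 : ent Q 1 0 * ent Q 1 0 = star (ent Q 0 1 * ent Q 0 1) := by
      rw [star_mul, hoff]
    rw [h2, hψ.sq2_star]
    exact hT4
  -- the diagonal terms
  obtain ⟨hX0, hX1⟩ := sub_sq_nonneg h0 h1
  have hT67 : sq2 ψ (ent (Q - Q * Q) 0 0) + sq2 ψ (ent (Q - Q * Q) 1 1) ≤
      (tr2 ψ (Q - Q * Q)).re := by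
    have hψ2 := tr2_ptr hψ
    have h2 := sq2_tr2 (ψ := ψ) (Q - Q * Q)
    have h3 := hψ.sq2_nonneg (ent (Q - Q * Q) 0 1)
    have h4 := hψ.sq2_nonneg (ent (Q - Q * Q) 1 0)
    have h5 : sq2 (tr2 ψ) (Q - Q * Q) ≤ (tr2 ψ (Q - Q * Q)).re := by
      unfold sq2
      rw [(IsSelfAdjoint.of_nonneg hX0).star_eq]
      exact hψ2.mono (t2labs_sq_le_one hX0 hX1)
    linarith
  -- the decomposition
  have hdec : (2 : ℂ) • (rr Q * rr Q) - rr Q =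
      ∑ i : Fin 7, (![rr Q * rr Q - mm Q * mm Q, ent Q 0 0 * ent Q 1 1, ent Q 1 1 * ent Q 0 0,
        ent Q 0 1 * ent Q 0 1, ent Q 1 0 * ent Q 1 0, -ent (Q - Q * Q) 0 0,
        -ent (Q - Q * Q) 1 1] : Fin 7 → E) i := by
    rw [Fin.sum_univ_seven]
    simp only [Matrix.cons_val]
    rw [ent_sub, ent_sub, ent_mul, ent_mul, two_smul]
    unfold rr mm
    noncomm_ring
  rw [hdec]
  refine (t2labs_sum hψ Finset.univ _).trans ?_
  rw [Finset.card_univ, Fintype.card_fin, Fin.sum_univ_seven]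
  simp only [Matrix.cons_val]
  rw [sq2_neg, sq2_neg]
  push_cast
  linarith

/-- (7) -/
theorem ab_le (hψ : PTr ψ) {Q : D2 E} (h0 : 0 ≤ Q) (h1 : Q ≤ 1) (c : ℝ) (hc : 0 < c) :
    ab ψ Q ≤ 2 * c * (ψ (cfc Real.sqrt (rr Q))).re +
      7 / c ^ 2 * (4 * (ψ ((rr Q + mm Q) * (rr Q - mm Q))).re +
        4 * (ψ (ent Q 1 1 * ent Q 0 0)).re + (tr2 ψ (Q - Q * Q)).re) := by
  have hr := rr_nonneg h0
  have hsa : IsSelfAdjoint (rr Q) := IsSelfAdjoint.of_nonneg hr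
  have hspec := rr_spec h0 h1
  have hmain := sq2_two_r_sq hψ h0 h1
  obtain ⟨Z, hZ⟩ : ∃ Z : ℝ, Z = 4 * (ψ ((rr Q + mm Q) * (rr Q - mm Q))).re +
    4 * (ψ (ent Q 1 1 * ent Q 0 0)).re + (tr2 ψ (Q - Q * Q)).re := ⟨_, rfl⟩
  rw [← hZ] at hmain ⊢
  have h2 : ab ψ Q ≤
      (ψ (cfc (fun s : ℝ => 2 * c * √s + 1 / c ^ 2 * ((2 * s ^ 2 - s) * (2 * s ^ 2 - s)))
        (rr Q))).re := by
    unfold ab
    refine re_cfc_le hψ hsa hspec _ _ (by fun_prop) (by fun_prop) fun x hx => ?_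
    refine (bd_sqrt x hx.1 hx.2 c hc).trans (le_of_eq ?_)
    rw [div_eq_mul_inv, one_div]
    ring
  have h3 : cfc (fun s : ℝ => 2 * c * √s + 1 / c ^ 2 * ((2 * s ^ 2 - s) * (2 * s ^ 2 - s)))
      (rr Q) = (2 * c) • cfc Real.sqrt (rr Q) + (1 / c ^ 2) •
        (((2 : ℂ) • (rr Q * rr Q) - rr Q) * ((2 : ℂ) • (rr Q * rr Q) - rr Q)) := by
    have e1 : cfc (fun s : ℝ => 2 * s ^ 2 - s) (rr Q) = (2 : ℂ) • (rr Q * rr Q) - rr Q := by
      rw [cfc_sub (fun s : ℝ => 2 * s ^ 2) (fun s : ℝ => s) (rr Q),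
        cfc_const_mul 2 (fun s : ℝ => s ^ 2) (rr Q), cfc_pow (fun s : ℝ => s) 2 (rr Q),
        cfc_id' ℝ (rr Q), two_smul, two_smul, sq]
    rw [cfc_add (rr Q) (fun s : ℝ => 2 * c * √s)
        (fun s : ℝ => 1 / c ^ 2 * ((2 * s ^ 2 - s) * (2 * s ^ 2 - s))),
      cfc_const_mul (2 * c) (fun s : ℝ => √s) (rr Q),
      cfc_const_mul (1 / c ^ 2) (fun s : ℝ => (2 * s ^ 2 - s) * (2 * s ^ 2 - s)) (rr Q),
      cfc_mul (fun s : ℝ => 2 * s ^ 2 - s) (fun s : ℝ => 2 * s ^ 2 - s) (rr Q), e1]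
  have hys : star ((2 : ℂ) • (rr Q * rr Q) - rr Q) = (2 : ℂ) • (rr Q * rr Q) - rr Q := by
    rw [star_sub, star_smul, star_mul, hsa.star_eq]
    norm_num
  have h4 : (ψ (((2 : ℂ) • (rr Q * rr Q) - rr Q) * ((2 : ℂ) • (rr Q * rr Q) - rr Q))).re =
      sq2 ψ ((2 : ℂ) • (rr Q * rr Q) - rr Q) := by
    unfold sq2
    rw [hys]
  rw [h3, map_add, ← Complex.coe_smul, ← Complex.coe_smul (1 / c ^ 2), map_smul, map_smul,
    smul_eq_mul, smul_eq_mul, Complex.add_re, Complex.re_ofReal_mul, Complex.re_ofReal_mul,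
    h4] at h2
  refine h2.trans ?_
  have h5 : 1 / c ^ 2 * sq2 ψ ((2 : ℂ) • (rr Q * rr Q) - rr Q) ≤ 7 / c ^ 2 * Z := by
    have h6 : 1 / c ^ 2 * sq2 ψ ((2 : ℂ) • (rr Q * rr Q) - rr Q) ≤ 1 / c ^ 2 * (7 * Z) :=
      mul_le_mul_of_nonneg_left hmain (by positivity)
    refine h6.trans (le_of_eq ?_)
    ring
  exact add_le_add le_rfl h5

end P095F
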