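import Vale.Agent.Lib.P095F.T2LVK
import Vale.Agent.Lib.P095F.T2LAbs

/-!
# P095F, part T2L: estimates for one `Q` (items (b), (c), (d), (f) of `RoundData`)

`φ = cfc phi r`, `g = cfc gg r = kk Q`, `a = ent Q 0 1`, `v = φ (2a) φ`.
-/

open scoped ENNReal Topology

namespace P095F

universe u

variable {E : Type u} [CStarAlgebra E] [PartialOrder E] [StarOrderedRing E] {ψ : E →ₗ[ℂ] ℂ}
  {Q : D2 E}

private theorem t2lest_re_real_smul (C : ℝ) (x : E) : (ψ (C • x)).re = C * (ψ x).re := by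
  have h : (C • x : E) = (C : ℂ) • x := (Complex.coe_smul C x).symm
  rw [h, map_smul, smul_eq_mul, Complex.re_ofReal_mul]

private theorem t2lest_rr_sa (h0 : 0 ≤ Q) : IsSelfAdjoint (rr Q) := (rr_nonneg h0).isSelfAdjoint

/-- functions of `r` under the trace -/
theorem re_cfc_le_ab (hψ : PTr ψ) (h0 : 0 ≤ Q) (h1 : Q ≤ 1) (f : ℝ → ℝ) (hf : Continuous f) (C : ℝ)
    (hC : ∀ s, 0 ≤ s → s ≤ 2 → f s ≤ C * |2 * s ^ 2 - s|) : (ψ (cfc f (rr Q))).re ≤ C * ab ψ Q := by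
  have h := re_cfc_le hψ (t2lest_rr_sa h0) (rr_spec h0 h1) f (fun s => C * |2 * s ^ 2 - s|) hf
    (by fun_prop) (fun x hx => hC x hx.1 hx.2)
  have hcont : ContinuousOn (fun s : ℝ => |2 * s ^ 2 - s|) (spectrum ℝ (rr Q)) :=
    (by fun_prop : Continuous (fun s : ℝ => |2 * s ^ 2 - s|)).continuousOn
  rw [cfc_const_mul C (fun s : ℝ => |2 * s ^ 2 - s|) (rr Q) hcont, t2lest_re_real_smul] at h
  exact h

/-- the general form of the two estimates -/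
private theorem t2lest_gen (hψ : PTr ψ) (h0 : 0 ≤ Q) (h1 : Q ≤ 1) (c : ℝ → ℝ) (hc : Continuous c)
    (hb : ∀ s, 0 ≤ s → s ≤ 2 → c s ^ 2 * s ≤ 2 * |2 * s ^ 2 - s|) (a y : E) (hay : a * star a ≤ rr Q)
    (hy : y = cfc c (rr Q)) :
    sq2 ψ (y * a) ≤ 2 * ab ψ Q := by
  have hr := t2lest_rr_sa h0
  have hysa : star y = y := by
    rw [hy]
    exact (cfc_predicate c (rr Q) : IsSelfAdjoint (cfc c (rr Q)))
  have e1 : sq2 ψ (y * a) = (ψ ((y * y) * (a * star a))).re := by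
    unfold sq2
    have : ψ (star (y * a) * (y * a)) = ψ ((y * y) * (a * star a)) := by
      rw [star_mul, hysa, hψ.comm]
      have h2 : y * a * (star a * y) = (y * (a * star a)) * y := by noncomm_ring
      rw [h2, hψ.comm]
      congr 1
      noncomm_ring
    rw [this]
  have hyy : 0 ≤ y * y := by
    have := star_mul_self_nonneg y
    rwa [hysa] at this
  have e2 : (ψ ((y * y) * (a * star a))).re ≤ (ψ ((y * y) * rr Q)).re :=
    hψ.mul_mono_right hyy hay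
  have e3 : (y * y) * rr Q = cfc (fun s => c s ^ 2 * s) (rr Q) := by
    have hcs : ContinuousOn c (spectrum ℝ (rr Q)) := hc.continuousOn
    rw [hy]
    conv_lhs => rw [← cfc_mul c c (rr Q) hcs hcs]
    nth_rewrite 2 [← cfc_id' ℝ (rr Q) hr]
    rw [← cfc_mul (fun x => c x * c x) (fun x => x) (rr Q) (by fun_prop) (by fun_prop)]
    congr 1
    funext s
    ring
  rw [e1]
  refine e2.trans ?_
  rw [e3]
  exact re_cfc_le_ab hψ h0 h1 _ (by fun_prop) 2 hb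

private theorem t2lest_a_le (h0 : 0 ≤ Q) (h1 : Q ≤ 1) :
    ent Q 0 1 * star (ent Q 0 1) ≤ rr Q ∧ star (ent Q 0 1) * star (star (ent Q 0 1)) ≤ rr Q := by
  have hp := pos_entries h0
  have ho := off_mul_le h0 h1
  have hsq : ∀ x : E, 0 ≤ x → x - x * x ≤ x := by
    intro x hx
    have hx2 : 0 ≤ x * x := by
      have := star_mul_self_nonneg x
      rwa [hx.isSelfAdjoint.star_eq] at this
    exact sub_le_self x hx2
  constructor
  · refine (ho.1.trans (hsq _ hp.1)).trans ?_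
    unfold rr
    exact le_add_of_nonneg_right hp.2.1
  · rw [star_star]
    refine (ho.2.trans (hsq _ hp.2.1)).trans ?_
    unfold rr
    exact le_add_of_nonneg_left hp.1

/-- `psi ((1 - φ^2) a a^* (1 - φ^2)) ≤ psi ((1 - φ^2)^2 r) ≤ 2 ab`, and the same with `a^*` -/
theorem sq2_one_sub_phi_sq (hψ : PTr ψ) (h0 : 0 ≤ Q) (h1 : Q ≤ 1) :
    sq2 ψ ((1 - cfc phi (rr Q) * cfc phi (rr Q)) * ent Q 0 1) ≤ 2 * ab ψ Q ∧
      sq2 ψ ((1 - cfc phi (rr Q) * cfc phi (rr Q)) * star (ent Q 0 1)) ≤ 2 * ab ψ Q := by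
  have hr := t2lest_rr_sa h0
  have hphi : ContinuousOn phi (spectrum ℝ (rr Q)) := phi_continuous.continuousOn
  have hy : 1 - cfc phi (rr Q) * cfc phi (rr Q) = cfc (fun s => 1 - phi s ^ 2) (rr Q) := by
    rw [cfc_sub (fun _ => (1 : ℝ)) (fun s => phi s ^ 2) (rr Q) (by fun_prop) (hphi.pow 2),
      cfc_const_one ℝ (rr Q), ← cfc_mul phi phi (rr Q) hphi hphi]
    congr 2
    funext s
    ring
  have hc : Continuous (fun s => 1 - phi s ^ 2) := continuous_const.sub (phi_continuous.pow 2)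
  have ha := t2lest_a_le h0 h1
  exact ⟨t2lest_gen hψ h0 h1 _ hc bd_phi_sq _ _ ha.1 hy,
    t2lest_gen hψ h0 h1 _ hc bd_phi_sq _ _ ha.2 hy⟩

/-- the same for `1 - φ` -/
theorem sq2_one_sub_phi (hψ : PTr ψ) (h0 : 0 ≤ Q) (h1 : Q ≤ 1) :
    sq2 ψ ((1 - cfc phi (rr Q)) * ent Q 0 1) ≤ 2 * ab ψ Q ∧
      sq2 ψ ((1 - cfc phi (rr Q)) * star (ent Q 0 1)) ≤ 2 * ab ψ Q := by
  have hr := t2lest_rr_sa h0
  have hphi : ContinuousOn phi (spectrum ℝ (rr Q)) := phi_continuous.continuousOn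
  have hy : 1 - cfc phi (rr Q) = cfc (fun s => 1 - phi s) (rr Q) := by
    rw [cfc_sub (fun _ => (1 : ℝ)) phi (rr Q) (by fun_prop) hphi, cfc_const_one ℝ (rr Q)]
  have hc : Continuous (fun s => 1 - phi s) := continuous_const.sub phi_continuous
  have ha := t2lest_a_le h0 h1
  exact ⟨t2lest_gen hψ h0 h1 _ hc bd_phi _ _ ha.1 hy,
    t2lest_gen hψ h0 h1 _ hc bd_phi _ _ ha.2 hy⟩

/-- (b): `1 - (1-k)^2 = 2k - k^2 ≥ k = g(r) ≥ r/2` -/
theorem est_lo (hψ : PTr ψ) (h0 : 0 ≤ Q) (h1 : Q ≤ 1) :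
    (ψ (rr Q)).re / 2 ≤ (ψ (1 - (1 - kk Q) * (1 - kk Q))).re := by
  have hr := t2lest_rr_sa h0
  have hgg : ContinuousOn gg (spectrum ℝ (rr Q)) := gg_continuous.continuousOn
  have e0 : 1 - kk Q = cfc (fun s => 1 - gg s) (rr Q) := by
    unfold kk
    rw [cfc_sub (fun _ => (1 : ℝ)) gg (rr Q) (by fun_prop) hgg, cfc_const_one ℝ (rr Q)]
  have hc1 : ContinuousOn (fun s => 1 - gg s) (spectrum ℝ (rr Q)) :=
    (continuous_const.sub gg_continuous).continuousOn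
  have e1 : 1 - (1 - kk Q) * (1 - kk Q) =
      cfc (fun s => 1 - (1 - gg s) * (1 - gg s)) (rr Q) := by
    rw [cfc_sub (fun _ => (1 : ℝ)) (fun s => (1 - gg s) * (1 - gg s)) (rr Q) (by fun_prop)
      (hc1.mul hc1), cfc_const_one ℝ (rr Q),
      cfc_mul (fun s => 1 - gg s) (fun s => 1 - gg s) (rr Q) hc1 hc1, e0]
  have e2 : (ψ (cfc (fun s : ℝ => (1 / 2) * s) (rr Q))).re = (ψ (rr Q)).re / 2 := by
    rw [cfc_const_mul (1 / 2 : ℝ) (fun s : ℝ => s) (rr Q) (by fun_prop), cfc_id' ℝ (rr Q) hr,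
      t2lest_re_real_smul]
    ring
  have h := re_cfc_le hψ hr (rr_spec h0 h1) (fun s : ℝ => (1 / 2) * s)
    (fun s => 1 - (1 - gg s) * (1 - gg s)) (by fun_prop)
    (continuous_const.sub ((continuous_const.sub gg_continuous).mul
      (continuous_const.sub gg_continuous))) (fun x hx => by
      have h2 := gg_ge x hx.1 hx.2
      have h3 := gg_nonneg x
      have h4 := gg_le_one x
      nlinarith [mul_nonneg h3 (sub_nonneg.2 h4)])
  rw [e2, ← e1] at h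
  exact h

/-- (c) -/
theorem est_hi (hψ : PTr ψ) (h0 : 0 ≤ Q) (h1 : Q ≤ 1) : (ψ (kk Q)).re ≤ 8 * (ψ (rr Q)).re := by
  have hr := t2lest_rr_sa h0
  have e2 : (ψ (cfc (fun s : ℝ => 8 * s) (rr Q))).re = 8 * (ψ (rr Q)).re := by
    rw [cfc_const_mul (8 : ℝ) (fun s : ℝ => s) (rr Q) (by fun_prop), cfc_id' ℝ (rr Q) hr,
      t2lest_re_real_smul]
  have h := re_cfc_le hψ hr (rr_spec h0 h1) gg (fun s : ℝ => 8 * s) gg_continuous
    (by fun_prop) (fun x hx => gg_le x hx.1)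
  rw [e2] at h
  exact h

private theorem t2lest_norm_phi (b : E) : ‖cfc phi b‖ ≤ 1 := by
  refine norm_cfc_le zero_le_one fun x _ => ?_
  rw [Real.norm_eq_abs, abs_le]
  exact ⟨by linarith [phi_nonneg x], phi_le_one x⟩

private theorem t2lest_mul_left (hψ : PTr ψ) {x : E} (hx : ‖x‖ ≤ 1) (y : E) :
    sq2 ψ (x * y) ≤ sq2 ψ y := by
  refine (hψ.sq2_mul_le_left x y).trans ?_
  have h1 : ‖x‖ ^ 2 ≤ 1 := by
    have := norm_nonneg x
    nlinarith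
  nlinarith [hψ.sq2_nonneg y]

private theorem t2lest_mul_right (hψ : PTr ψ) {y : E} (hy : ‖y‖ ≤ 1) (x : E) :
    sq2 ψ (x * y) ≤ sq2 ψ x := by
  refine (hψ.sq2_mul_le_right x y).trans ?_
  have h1 : ‖y‖ ^ 2 ≤ 1 := by
    have := norm_nonneg y
    nlinarith
  nlinarith [hψ.sq2_nonneg x]

/-- (d): `v^2 = 4 φ a φ^2 a φ`, `sq2 (v^2) ≤ 16 sq2 (a φ^2 a)`, `a φ^2 a = a^2 - a (1 - φ^2) a`,
`sq2 ≤ 2 sq2 (a^2) + 2 |a|^2 sq2 ((1 - φ^2) a)`, `|a| ≤ 1/2`, `sq2_a_sq`: total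
`16 (2 s1 + 2 (1/4) 2 ab) ≤ 48 err` -/
theorem est_nil (hψ : PTr ψ) (h0 : 0 ≤ Q) (h1 : Q ≤ 1) :
    sq2 ψ (vv Q * vv Q) ≤ 48 * err ψ Q := by
  set F : E := cfc phi (rr Q) with hF
  set a : E := ent Q 0 1 with ha
  have hv : vv Q * vv Q = F * ((4 : ℂ) • (a * (F * F) * a)) * F := by
    unfold vv
    rw [← hF, ← ha]
    simp only [smul_mul_assoc, mul_smul_comm, smul_smul, mul_assoc]
    norm_num
  have hFn : ‖F‖ ≤ 1 := t2lest_norm_phi _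
  have s1 : sq2 ψ (vv Q * vv Q) ≤ 16 * sq2 ψ (a * (F * F) * a) := by
    rw [hv]
    refine (t2lest_mul_right hψ hFn _).trans ?_
    refine (t2lest_mul_left hψ hFn _).trans ?_
    rw [sq2_smul]
    norm_num
  have e2 : a * (F * F) * a = a * a - a * ((1 - F * F) * a) := by noncomm_ring
  have s2 : sq2 ψ (a * (F * F) * a) ≤ 2 * sq2 ψ (a * a) + 2 * sq2 ψ (a * ((1 - F * F) * a)) := by
    rw [e2]
    exact hψ.sq2_sub_le _ _
  have hna : ‖a‖ ≤ 1 / 2 := by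
    have h := norm_off h0 h1
    rw [norm_smul] at h
    norm_num at h
    linarith
  have s3 : sq2 ψ (a * ((1 - F * F) * a)) ≤ 1 / 4 * sq2 ψ ((1 - F * F) * a) := by
    refine (hψ.sq2_mul_le_left _ _).trans ?_
    have h2 : ‖a‖ ^ 2 ≤ 1 / 4 := by
      have := norm_nonneg a
      nlinarith
    exact mul_le_mul_of_nonneg_right h2 (hψ.sq2_nonneg _)
  have s4 := (sq2_one_sub_phi_sq hψ h0 h1).1
  have s5 := sq2_a_sq hψ h0 h1
  have p1 := ab_nonneg hψ h0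
  have hp := pos_entries h0
  have p2 : 0 ≤ (ψ (ent Q 1 1 * ent Q 0 0)).re := hψ.mul_nonneg hp.2.1 hp.1
  have p3 : 0 ≤ (tr2 ψ (Q - Q * Q)).re := (tr2_ptr hψ).re_nonneg (sub_sq_nonneg h0 h1).1
  rw [← hF, ← ha] at s4
  rw [← ha] at s5
  unfold err
  linarith

private theorem t2lest_three (hψ : PTr ψ) (x y z : E) :
    sq2 ψ (x + y + z) ≤ 3 * (sq2 ψ x + sq2 ψ y + sq2 ψ z) := by
  have h1 := hψ.sqrt_sq2_add_le (x + y) z
  have h2 := hψ.sqrt_sq2_add_le x y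
  have hx := hψ.sq2_nonneg x
  have hy := hψ.sq2_nonneg y
  have hz := hψ.sq2_nonneg z
  have hs := hψ.sq2_nonneg (x + y + z)
  have ex := Real.sq_sqrt hx
  have ey := Real.sq_sqrt hy
  have ez := Real.sq_sqrt hz
  have es := Real.sq_sqrt hs
  have h3 : √(sq2 ψ (x + y + z)) ≤ √(sq2 ψ x) + √(sq2 ψ y) + √(sq2 ψ z) := by linarith
  have h4 := Real.sqrt_nonneg (sq2 ψ (x + y + z))
  have h5 : √(sq2 ψ (x + y + z)) ^ 2 ≤ (√(sq2 ψ x) + √(sq2 ψ y) + √(sq2 ψ z)) ^ 2 :=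
    pow_le_pow_left₀ h4 h3 2
  rw [es] at h5
  nlinarith [sq_nonneg (√(sq2 ψ x) - √(sq2 ψ y)), sq_nonneg (√(sq2 ψ y) - √(sq2 ψ z)),
    sq_nonneg (√(sq2 ψ x) - √(sq2 ψ z))]

private theorem t2lest_rr_act (σ : E ≃⋆ₐ[ℂ] E) : rr (act2 σ Q) = σ (rr Q) := by
  unfold rr
  rw [ent_act2, ent_act2, map_add]

private theorem t2lest_X (hψ : PTr ψ) (σ : E ≃⋆ₐ[ℂ] E) :
    sq2 ψ (σ (rr Q) - rr Q) ≤ 2 * sq2 (tr2 ψ) (act2 σ Q - Q) ∧
      sq2 ψ (σ (ent Q 0 1) - ent Q 0 1) ≤ sq2 (tr2 ψ) (act2 σ Q - Q) := by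
  rw [sq2_tr2, ent_sub, ent_sub, ent_sub, ent_sub, ent_act2, ent_act2, ent_act2, ent_act2]
  have e : σ (rr Q) - rr Q = (σ (ent Q 0 0) - ent Q 0 0) + (σ (ent Q 1 1) - ent Q 1 1) := by
    unfold rr
    rw [map_add]
    abel
  have h1 := hψ.sq2_add_le (σ (ent Q 0 0) - ent Q 0 0) (σ (ent Q 1 1) - ent Q 1 1)
  have h2 := hψ.sq2_nonneg (σ (ent Q 0 1) - ent Q 0 1)
  have h3 := hψ.sq2_nonneg (σ (ent Q 1 0) - ent Q 1 0)
  have h4 := hψ.sq2_nonneg (σ (ent Q 0 0) - ent Q 0 0)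
  have h5 := hψ.sq2_nonneg (σ (ent Q 1 1) - ent Q 1 1)
  constructor
  · rw [e]
    linarith
  · linarith

private theorem t2lest_cfc (hψ : PTr ψ) (h0 : 0 ≤ Q) (h1 : Q ≤ 1) (σ : E ≃⋆ₐ[ℂ] E) (f : ℝ → ℝ)
    (hf : Continuous f) (hL : ∀ x y, |f x - f y| ≤ 8 * |x - y|) :
    sq2 ψ (cfc f (σ (rr Q)) - cfc f (rr Q)) ≤ 128 * sq2 (tr2 ψ) (act2 σ Q - Q) := by
  have h0' := act2_nonneg σ h0
  have h1' := act2_le_one σ h1
  have hs' := rr_spec h0' h1'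
  have hr' := t2lest_rr_sa h0'
  rw [t2lest_rr_act] at hs' hr'
  have h := sq2_cfc_sub_le hψ hr' (t2lest_rr_sa h0) (by norm_num : (0 : ℝ) < 2) hs' (rr_spec h0 h1)
    f hf 8 (fun x _ y _ => hL x y)
  have h2 := (t2lest_X (Q := Q) hψ σ).1
  linarith

/-- (f), first part: with `r' = σ r`, `φ' = φ(r')`, `a' = σ a`:
`σ v - v = (φ' - φ) 2a' φ' + φ 2(a' - a) φ' + φ 2a (φ' - φ)`, three terms, `sq2 (φ' - φ) ≤ 64 sq2
(r' - r)` (`sq2_cfc_sub_le`, `phi_lip`), `sq2 (r' - r) ≤ 2 X`, `sq2 (a' - a) ≤ X` with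
`X = sq2 (tr2 ψ) (act2 σ Q - Q)` (`sq2_tr2`): `3 (128 + 4 + 128) = 780` -/
theorem est_inv_v (hψ : PTr ψ) (h0 : 0 ≤ Q) (h1 : Q ≤ 1) (σ : E ≃⋆ₐ[ℂ] E) :
    sq2 ψ (σ (vv Q) - vv Q) ≤ 780 * sq2 (tr2 ψ) (act2 σ Q - Q) := by
  have hphi := t2lest_cfc hψ h0 h1 σ phi phi_continuous phi_lip
  have ha := (t2lest_X (Q := Q) hψ σ).2
  have hoff := norm_off h0 h1
  have hoff' := norm_off (act2_nonneg σ h0) (act2_le_one σ h1)
  rw [ent_act2] at hoff'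
  have hn := t2lest_norm_phi (rr Q)
  have hn' := t2lest_norm_phi (σ (rr Q))
  set X : ℝ := sq2 (tr2 ψ) (act2 σ Q - Q) with hX
  set F : E := cfc phi (rr Q) with hF
  set F' : E := cfc phi (σ (rr Q)) with hF'
  set a : E := ent Q 0 1 with ha0
  set a' : E := σ a with ha'
  have ev : σ (vv Q) = F' * ((2 : ℂ) • a') * F' := by
    unfold vv
    rw [map_mul, map_mul, map_smul, aut_cfc σ phi phi_continuous (t2lest_rr_sa h0)]
  have e : σ (vv Q) - vv Q = (F' - F) * ((2 : ℂ) • a') * F' + F * ((2 : ℂ) • (a' - a)) * F' +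
      F * ((2 : ℂ) • a) * (F' - F) := by
    rw [ev]
    unfold vv
    rw [← hF, ← ha0, smul_sub]
    simp only [sub_mul, mul_sub]
    abel
  have t1 : sq2 ψ ((F' - F) * ((2 : ℂ) • a') * F') ≤ 128 * X :=
    ((t2lest_mul_right hψ hn' _).trans (t2lest_mul_right hψ hoff' _)).trans hphi
  have t2 : sq2 ψ (F * ((2 : ℂ) • (a' - a)) * F') ≤ 4 * X := by
    refine ((t2lest_mul_right hψ hn' _).trans (t2lest_mul_left hψ hn _)).trans ?_
    rw [sq2_smul]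
    norm_num
    exact ha
  have t3 : sq2 ψ (F * ((2 : ℂ) • a) * (F' - F)) ≤ 128 * X := by
    rw [mul_assoc]
    exact ((t2lest_mul_left hψ hn _).trans (t2lest_mul_left hψ hoff _)).trans hphi
  have h3 := t2lest_three hψ ((F' - F) * ((2 : ℂ) • a') * F') (F * ((2 : ℂ) • (a' - a)) * F')
    (F * ((2 : ℂ) • a) * (F' - F))
  rw [e]
  linarith

/-- (f), second part -/
theorem est_inv_k (hψ : PTr ψ) (h0 : 0 ≤ Q) (h1 : Q ≤ 1) (σ : E ≃⋆ₐ[ℂ] E) :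
    sq2 ψ (σ (kk Q) - kk Q) ≤ 128 * sq2 (tr2 ψ) (act2 σ Q - Q) := by
  unfold kk
  rw [aut_cfc σ gg gg_continuous (t2lest_rr_sa h0)]
  exact t2lest_cfc hψ h0 h1 σ gg gg_continuous gg_lip

end P095F
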