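import Mathlib
import Vale.Agent.Lib.P095F.T2LEst

/-!
# P095F, part T2L: the mean of `y = yy Q` under a dominated functional (item (e))

`Dom lam ψ₁ ψ₀`: `|lam (x x')|^2 ≤ ψ₁(x x^*) ψ₀(x'^* x')`. With `φ = cfc phi r`, `a = Q_01`, `q, p`:

`v^* v = 4 φ a^* φ^2 a φ`, `v v^* = 4 φ a φ^2 a^* φ`, `1 - (1-k)^2 = G(r)`,
`φ x φ = x - (1-φ) x φ - x (1-φ)`, so `y` is the sum of the ten terms

* `-4 (φ a^*) ((1-φ^2) a φ)`, `-4 ((1-φ) a^*) (a φ)`, `-4 (a^*) (a (1-φ))`,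
* `-4 (φ a) ((1-φ^2) a^* φ)`, `-4 ((1-φ) a) (a^* φ)`, `-4 (a) (a^* (1-φ))`,
* `-4 [X_00 + X_11]`, `X = Q - Q^2`,
* `4 (p √q)(√q)`, `4 (√q)(√q p)`,
* `F(r)`, `F(s) = 4 (s - s^2) - (1 - (1 - g s)^2)`, `|F| ≤ 12 |2s^2 - s|` (`bd_G`).

Bounds: for the first six `4 √(ψ₁ r) √(2 ab₀)` or `4 √(2 ab₁) √(ψ₀ r)`; for a positive element `x`
(`x = √x √x`): `|lam x| ≤ √(ψ₁ x) √(ψ₀ x)`; `X_00, X_11`: `8 √err₁ √err₀`; `4 √s1 √(ψ₀ r)` and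
`4 √(ψ₁ r) √s1`; `F = F_+ - F_-`: `24 √ab₁ √ab₀`. Total at most
`70 (√big₁ √err₀ + √err₁ √big₀)`.
-/

open scoped ENNReal Topology

namespace P095F

universe u

variable {E : Type u} [CStarAlgebra E] [PartialOrder E] [StarOrderedRing E]
  {lam ψ₁ ψ₀ ψ : E →ₗ[ℂ] ℂ} {Q : D2 E}

theorem Dom.le (h : Dom lam ψ₁ ψ₀) (x y : E) {A B : ℝ} (hA : (ψ₁ (x * star x)).re ≤ A)
    (hB : (ψ₀ (star y * y)).re ≤ B) (h0 : 0 ≤ (ψ₁ (x * star x)).re)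
    (h0' : 0 ≤ (ψ₀ (star y * y)).re) : ‖lam (x * y)‖ ≤ √A * √B := by
  have h1 := h x y
  have h2 : (ψ₁ (x * star x)).re * (ψ₀ (star y * y)).re ≤ A * B :=
    mul_le_mul hA hB h0' (h0.trans hA)
  rw [← Real.sqrt_mul (h0.trans hA)]
  exact Real.le_sqrt_of_sq_le (h1.trans h2)

/-- positive elements -/
theorem Dom.pos (h : Dom lam ψ₁ ψ₀) (h₁ : PTr ψ₁) (h₀ : PTr ψ₀) {x : E} (hx : 0 ≤ x) :
    ‖lam x‖ ≤ √(ψ₁ x).re * √(ψ₀ x).re := by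
  obtain ⟨y, rfl⟩ := CStarAlgebra.nonneg_iff_eq_star_mul_self.1 hx
  refine h.le (star y) y (le_of_eq ?_) le_rfl ?_ (h₀.nonneg y)
  · rw [star_star]
  · rw [star_star]
    exact h₁.nonneg y

/-- functions of `r` -/
theorem Dom.cfc (h : Dom lam ψ₁ ψ₀) (h₁ : PTr ψ₁) (h₀ : PTr ψ₀) (hQ : 0 ≤ Q) (hQ1 : Q ≤ 1)
    (f : ℝ → ℝ) (hf : Continuous f) (C : ℝ) (hC0 : 0 ≤ C)
    (hC : ∀ s, 0 ≤ s → s ≤ 2 → |f s| ≤ C * |2 * s ^ 2 - s|) :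
    ‖lam (cfc f (rr Q))‖ ≤ 2 * C * (√(ab ψ₁ Q) * √(ab ψ₀ Q)) := by
  have hspec := rr_spec hQ hQ1
  have hp : Continuous (fun s => max (f s) 0) := hf.max continuous_const
  have hn : Continuous (fun s => max (-f s) 0) := hf.neg.max continuous_const
  have e1 : _root_.cfc f (rr Q) = _root_.cfc (fun s => max (f s) 0) (rr Q) -
      _root_.cfc (fun s => max (-f s) 0) (rr Q) := by
    rw [← cfc_sub (fun s => max (f s) 0) (fun s => max (-f s) 0) (a := rr Q)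
      hp.continuousOn hn.continuousOn]
    congr 1
    funext s
    rcases le_total 0 (f s) with h3 | h3
    · rw [max_eq_left h3, max_eq_right (by linarith), sub_zero]
    · rw [max_eq_right h3, max_eq_left (by linarith)]
      ring
  have key : ∀ g : ℝ → ℝ, Continuous g → (∀ s, 0 ≤ g s) →
      (∀ s, 0 ≤ s → s ≤ 2 → g s ≤ C * |2 * s ^ 2 - s|) →
      ‖lam (_root_.cfc g (rr Q))‖ ≤ C * (√(ab ψ₁ Q) * √(ab ψ₀ Q)) := by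
    intro g hg hg0 hgC
    have h3 : 0 ≤ _root_.cfc g (rr Q) := cfc_nonneg fun s _ => hg0 s
    have h4 := h.pos h₁ h₀ h3
    have h5 := re_cfc_le_ab h₁ hQ hQ1 g hg C hgC
    have h6 := re_cfc_le_ab h₀ hQ hQ1 g hg C hgC
    refine h4.trans ?_
    calc √(ψ₁ (_root_.cfc g (rr Q))).re * √(ψ₀ (_root_.cfc g (rr Q))).re ≤
        √(C * ab ψ₁ Q) * √(C * ab ψ₀ Q) :=
          mul_le_mul (Real.sqrt_le_sqrt h5) (Real.sqrt_le_sqrt h6) (Real.sqrt_nonneg _)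
            (Real.sqrt_nonneg _)
      _ = C * (√(ab ψ₁ Q) * √(ab ψ₀ Q)) := by
          rw [Real.sqrt_mul hC0, Real.sqrt_mul hC0]
          have := Real.mul_self_sqrt hC0
          calc √C * √(ab ψ₁ Q) * (√C * √(ab ψ₀ Q)) =
              (√C * √C) * (√(ab ψ₁ Q) * √(ab ψ₀ Q)) := by ring
            _ = _ := by rw [this]
  rw [e1, map_sub]
  refine (norm_sub_le _ _).trans ?_
  have hab : ∀ s : ℝ, 0 ≤ C * |2 * s ^ 2 - s| := fun s => mul_nonneg hC0 (abs_nonneg _)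
  have h7 := key _ hp (fun s => le_max_right _ _)
    (fun s hs hs2 => max_le ((le_abs_self _).trans (hC s hs hs2)) (hab s))
  have h8 := key _ hn (fun s => le_max_right _ _)
    (fun s hs hs2 => max_le ((neg_le_abs _).trans (hC s hs hs2)) (hab s))
  linarith

private theorem t2lmean_le (h : Dom lam ψ₁ ψ₀) (h₁ : PTr ψ₁) (h₀ : PTr ψ₀) (x y : E) {A B : ℝ}
    (hA : sq2 ψ₁ x ≤ A) (hB : sq2 ψ₀ y ≤ B) : ‖lam (x * y)‖ ≤ √A * √B := by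
  have e : (ψ₁ (x * star x)).re = sq2 ψ₁ x := by
    rw [h₁.comm]
    rfl
  exact h.le x y (by rw [e]; exact hA) hB (by rw [e]; exact h₁.sq2_nonneg x) (h₀.nonneg y)

private theorem t2lmean_phi_norm : ‖cfc phi (rr Q)‖ ≤ 1 :=
  norm_cfc_le zero_le_one fun s _ => by
    rw [Real.norm_eq_abs, abs_of_nonneg (phi_nonneg s)]
    exact phi_le_one s

private theorem t2lmean_phi_star : star (cfc phi (rr Q)) = cfc phi (rr Q) :=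
  (cfc_predicate phi (rr Q) : IsSelfAdjoint _).star_eq

/-- basic facts on the entries -/
private theorem t2lmean_entries (hψ : PTr ψ) (hQ : 0 ≤ Q) (hQ1 : Q ≤ 1) :
    0 ≤ (ψ (ent Q 0 0)).re ∧ 0 ≤ (ψ (ent Q 1 1)).re ∧
      (ψ (ent Q 0 0)).re ≤ (ψ (rr Q)).re ∧ (ψ (ent Q 1 1)).re ≤ (ψ (rr Q)).re ∧
      ent Q 1 1 * ent Q 1 1 ≤ ent Q 1 1 ∧
      sq2 ψ (ent Q 0 1) ≤ (ψ (rr Q)).re ∧ sq2 ψ (star (ent Q 0 1)) ≤ (ψ (rr Q)).re := by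
  obtain ⟨hq, hp, -, -⟩ := pos_entries hQ
  obtain ⟨-, h2⟩ := off_mul_le hQ hQ1
  have hq' := hψ.re_nonneg hq
  have hp' := hψ.re_nonneg hp
  have hr : (ψ (rr Q)).re = (ψ (ent Q 0 0)).re + (ψ (ent Q 1 1)).re := by
    unfold rr
    rw [map_add, Complex.add_re]
  have hpp : 0 ≤ ent Q 1 1 * ent Q 1 1 := hp.isSelfAdjoint.mul_self_nonneg
  have hle : ent Q 1 1 * ent Q 1 1 ≤ ent Q 1 1 := by
    have h3 := (star_mul_self_nonneg (ent Q 0 1)).trans h2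
    exact sub_nonneg.1 h3
  have h4 : sq2 ψ (ent Q 0 1) ≤ (ψ (rr Q)).re := by
    have h5 := hψ.mono h2
    have h6 := hψ.re_nonneg hpp
    rw [map_sub, Complex.sub_re] at h5
    unfold sq2
    linarith
  refine ⟨hq', hp', by linarith, by linarith, hle, h4, ?_⟩
  rw [hψ.sq2_star]
  exact h4

/-- the errors -/
private theorem t2lmean_err (hψ : PTr ψ) (hQ : 0 ≤ Q) (hQ1 : Q ≤ 1) :
    0 ≤ ab ψ Q ∧ ab ψ Q ≤ err ψ Q ∧ 0 ≤ (ψ (ent Q 1 1 * ent Q 0 0)).re ∧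
      (ψ (ent Q 1 1 * ent Q 0 0)).re ≤ err ψ Q ∧
      0 ≤ ent (Q - Q * Q) 0 0 ∧ 0 ≤ ent (Q - Q * Q) 1 1 ∧
      (ψ (ent (Q - Q * Q) 0 0)).re ≤ err ψ Q ∧ (ψ (ent (Q - Q * Q) 1 1)).re ≤ err ψ Q ∧
      0 ≤ err ψ Q ∧ err ψ Q ≤ big ψ Q ∧ (ψ (rr Q)).re ≤ big ψ Q ∧ 0 ≤ (ψ (rr Q)).re := by
  obtain ⟨hq, hp, -, -⟩ := pos_entries hQ
  have h1 := ab_nonneg hψ hQ
  have h2 := hψ.mul_nonneg hp hq
  obtain ⟨hX, -⟩ := sub_sq_nonneg hQ hQ1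
  obtain ⟨hX0, hX1, -, -⟩ := pos_entries hX
  have h3 := hψ.re_nonneg hX0
  have h4 := hψ.re_nonneg hX1
  have h5 : err ψ Q = ab ψ Q + (ψ (ent Q 1 1 * ent Q 0 0)).re +
      ((ψ (ent (Q - Q * Q) 0 0)).re + (ψ (ent (Q - Q * Q) 1 1)).re) := by
    unfold err
    rw [tr2_apply, Complex.add_re]
  have h6 := re_rr_nonneg hψ hQ
  have h7 : big ψ Q = (ψ (rr Q)).re + err ψ Q := rfl
  refine ⟨h1, by linarith, h2, by linarith, hX0, hX1, by linarith, by linarith, by linarith,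
    by linarith, by linarith, h6⟩

/-- the six products -/
private theorem t2lmean_six (h : Dom lam ψ₁ ψ₀) (h₁ : PTr ψ₁) (h₀ : PTr ψ₀) (hQ : 0 ≤ Q)
    (hQ1 : Q ≤ 1) (c d : E) (hcd : star d = c)
    (hc1 : sq2 ψ₁ c ≤ (ψ₁ (rr Q)).re) (hd0 : sq2 ψ₀ d ≤ (ψ₀ (rr Q)).re)
    (e0 : sq2 ψ₀ ((1 - cfc phi (rr Q) * cfc phi (rr Q)) * d) ≤ 2 * ab ψ₀ Q)
    (e1 : sq2 ψ₁ ((1 - cfc phi (rr Q)) * c) ≤ 2 * ab ψ₁ Q)
    (e2 : sq2 ψ₀ ((1 - cfc phi (rr Q)) * c) ≤ 2 * ab ψ₀ Q) :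
    ‖lam ((cfc phi (rr Q) * c) * ((1 - cfc phi (rr Q) * cfc phi (rr Q)) * d * cfc phi (rr Q)))‖ ≤
        √(ψ₁ (rr Q)).re * √(2 * ab ψ₀ Q) ∧
      ‖lam (((1 - cfc phi (rr Q)) * c) * (d * cfc phi (rr Q)))‖ ≤
        √(2 * ab ψ₁ Q) * √(ψ₀ (rr Q)).re ∧
      ‖lam (c * (d * (1 - cfc phi (rr Q))))‖ ≤ √(ψ₁ (rr Q)).re * √(2 * ab ψ₀ Q) := by
  have hφ : ‖cfc phi (rr Q)‖ ≤ 1 := t2lmean_phi_norm
  have hφs : star (cfc phi (rr Q)) = cfc phi (rr Q) := t2lmean_phi_star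
  have hφ2 : ‖cfc phi (rr Q)‖ ^ 2 ≤ 1 := by
    have := norm_nonneg (cfc phi (rr Q))
    nlinarith
  have hL : ∀ (ψ' : E →ₗ[ℂ] ℂ), PTr ψ' → ∀ z : E, sq2 ψ' (cfc phi (rr Q) * z) ≤ sq2 ψ' z := by
    intro ψ' hψ' z
    refine (hψ'.sq2_mul_le_left _ _).trans ?_
    have := hψ'.sq2_nonneg z
    nlinarith
  have hR : ∀ (ψ' : E →ₗ[ℂ] ℂ), PTr ψ' → ∀ z : E, sq2 ψ' (z * cfc phi (rr Q)) ≤ sq2 ψ' z := by
    intro ψ' hψ' z
    refine (hψ'.sq2_mul_le_right _ _).trans ?_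
    have := hψ'.sq2_nonneg z
    nlinarith
  refine ⟨?_, ?_, ?_⟩
  · exact t2lmean_le h h₁ h₀ _ _ ((hL ψ₁ h₁ c).trans hc1) ((hR ψ₀ h₀ _).trans e0)
  · exact t2lmean_le h h₁ h₀ _ _ e1 ((hR ψ₀ h₀ d).trans hd0)
  · refine t2lmean_le h h₁ h₀ _ _ hc1 ?_
    have e3 : d * (1 - cfc phi (rr Q)) = star ((1 - cfc phi (rr Q)) * c) := by
      rw [star_mul, star_sub, star_one, hφs, ← hcd, star_star]
    rw [e3, h₀.sq2_star]
    exact e2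

/-- the products of `p` and `q` -/
private theorem t2lmean_pq (h : Dom lam ψ₁ ψ₀) (h₁ : PTr ψ₁) (h₀ : PTr ψ₀) (hQ : 0 ≤ Q)
    (hQ1 : Q ≤ 1) :
    ‖lam (ent Q 1 1 * ent Q 0 0)‖ ≤ √(ψ₁ (ent Q 1 1 * ent Q 0 0)).re * √(ψ₀ (rr Q)).re ∧
      ‖lam (ent Q 0 0 * ent Q 1 1)‖ ≤ √(ψ₁ (rr Q)).re * √(ψ₀ (ent Q 1 1 * ent Q 0 0)).re := by
  obtain ⟨hq, hp, -, -⟩ := pos_entries hQ
  obtain ⟨-, -, a3, -, a5, -, -⟩ := t2lmean_entries h₁ hQ hQ1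
  obtain ⟨-, -, b3, -, -, -, -⟩ := t2lmean_entries h₀ hQ hQ1
  have hps : star (ent Q 1 1) = ent Q 1 1 := hp.isSelfAdjoint.star_eq
  obtain ⟨y, hy⟩ := CStarAlgebra.nonneg_iff_eq_star_mul_self.1 hq
  have hpp : ∀ (ψ' : E →ₗ[ℂ] ℂ), PTr ψ' →
      (ψ' (ent Q 1 1 * ent Q 1 1 * ent Q 0 0)).re ≤ (ψ' (ent Q 1 1 * ent Q 0 0)).re :=
    fun ψ' hψ' => hψ'.mul_mono_left a5 hq
  constructor
  · have e1 : ent Q 1 1 * ent Q 0 0 = (ent Q 1 1 * star y) * y := by rw [hy, mul_assoc]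
    rw [e1]
    refine t2lmean_le h h₁ h₀ _ _ ?_ ?_
    · have e2 : sq2 ψ₁ (ent Q 1 1 * star y) = (ψ₁ (ent Q 1 1 * ent Q 1 1 * ent Q 0 0)).re := by
        unfold sq2
        rw [star_mul, star_star, hps, hy, h₁.comm]
        have e3 : ent Q 1 1 * star y * (y * ent Q 1 1) = ent Q 1 1 * (star y * y * ent Q 1 1) := by
          simp only [mul_assoc]
        rw [e3, h₁.comm]
        have e4 : star y * y * ent Q 1 1 * ent Q 1 1 = star y * y * (ent Q 1 1 * ent Q 1 1) := by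
          simp only [mul_assoc]
        rw [e4, h₁.comm]
      rw [e2, ← e1]
      exact hpp ψ₁ h₁
    · refine le_trans (le_of_eq ?_) b3
      rw [hy]
      rfl
  · have e1 : ent Q 0 0 * ent Q 1 1 = star y * (y * ent Q 1 1) := by rw [hy, mul_assoc]
    rw [e1]
    refine t2lmean_le h h₁ h₀ _ _ ?_ ?_
    · rw [h₁.sq2_star]
      refine le_trans (le_of_eq ?_) a3
      rw [hy]
      rfl
    · have e2 : sq2 ψ₀ (y * ent Q 1 1) = (ψ₀ (ent Q 1 1 * ent Q 1 1 * ent Q 0 0)).re := by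
        unfold sq2
        rw [star_mul, hps]
        have e3 : ent Q 1 1 * star y * (y * ent Q 1 1) = ent Q 1 1 * (ent Q 0 0 * ent Q 1 1) := by
          rw [hy]
          simp only [mul_assoc]
        rw [e3, h₀.comm]
        have e4 : ent Q 0 0 * ent Q 1 1 * ent Q 1 1 = ent Q 0 0 * (ent Q 1 1 * ent Q 1 1) := by
          simp only [mul_assoc]
        rw [e4, h₀.comm]
      rw [e2]
      exact hpp ψ₀ h₀

/-- the main function of `r` -/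
private theorem t2lmean_F (hQ : 0 ≤ Q) :
    cfc (fun s : ℝ => 4 * (s - s ^ 2) - (1 - (1 - gg s) ^ 2)) (rr Q) =
      4 * (rr Q - rr Q * rr Q) - (1 - (1 - kk Q) * (1 - kk Q)) := by
  have hr : IsSelfAdjoint (rr Q) := (rr_nonneg hQ).isSelfAdjoint
  have c1 : Continuous (fun s : ℝ => 4 * (s - s ^ 2)) := by fun_prop
  have cg : Continuous gg := gg_continuous
  have c2 : Continuous (fun s : ℝ => 1 - (1 - gg s) ^ 2) := by fun_prop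
  have c3 : Continuous (fun s : ℝ => s - s ^ 2) := by fun_prop
  have c4 : Continuous (fun s : ℝ => (1 - gg s) ^ 2) := by fun_prop
  have c5 : Continuous (fun s : ℝ => 1 - gg s) := by fun_prop
  rw [cfc_sub (fun s : ℝ => 4 * (s - s ^ 2)) (fun s : ℝ => 1 - (1 - gg s) ^ 2) (a := rr Q)
    c1.continuousOn c2.continuousOn]
  rw [cfc_const_mul (4 : ℝ) (fun s : ℝ => s - s ^ 2) (rr Q) c3.continuousOn]
  rw [cfc_sub (fun s : ℝ => s) (fun s : ℝ => s ^ 2) (a := rr Q) continuous_id.continuousOn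
    (by fun_prop)]
  rw [cfc_id' ℝ (rr Q) hr, cfc_pow_id (R := ℝ) (rr Q) 2 hr]
  rw [cfc_sub (fun _ : ℝ => (1 : ℝ)) (fun s : ℝ => (1 - gg s) ^ 2) (a := rr Q)
    continuous_const.continuousOn c4.continuousOn]
  rw [cfc_pow (fun s : ℝ => 1 - gg s) 2 (rr Q) c5.continuousOn hr]
  rw [cfc_sub (fun _ : ℝ => (1 : ℝ)) gg (a := rr Q) continuous_const.continuousOn
    cg.continuousOn]
  rw [cfc_const_one ℝ (rr Q)]
  have e4 : ∀ x : E, (4 : ℝ) • x = 4 * x := by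
    intro x
    rw [Algebra.smul_def]
    congr 1
    exact map_ofNat (algebraMap ℝ E) 4
  rw [e4, pow_two, pow_two]
  rfl

/-- the decomposition of `y` -/
private theorem t2lmean_decomp (hQ : 0 ≤ Q) :
    yy Q = cfc (fun s : ℝ => 4 * (s - s ^ 2) - (1 - (1 - gg s) ^ 2)) (rr Q)
      + 4 * (ent Q 1 1 * ent Q 0 0) + 4 * (ent Q 0 0 * ent Q 1 1)
      - 4 * ent (Q - Q * Q) 0 0 - 4 * ent (Q - Q * Q) 1 1
      - 4 * ((cfc phi (rr Q) * star (ent Q 0 1)) *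
          ((1 - cfc phi (rr Q) * cfc phi (rr Q)) * ent Q 0 1 * cfc phi (rr Q)))
      - 4 * (((1 - cfc phi (rr Q)) * star (ent Q 0 1)) * (ent Q 0 1 * cfc phi (rr Q)))
      - 4 * (star (ent Q 0 1) * (ent Q 0 1 * (1 - cfc phi (rr Q))))
      - 4 * ((cfc phi (rr Q) * ent Q 0 1) *
          ((1 - cfc phi (rr Q) * cfc phi (rr Q)) * star (ent Q 0 1) * cfc phi (rr Q)))
      - 4 * (((1 - cfc phi (rr Q)) * ent Q 0 1) * (star (ent Q 0 1) * cfc phi (rr Q)))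
      - 4 * (ent Q 0 1 * (star (ent Q 0 1) * (1 - cfc phi (rr Q)))) := by
  have hφs : star (cfc phi (rr Q)) = cfc phi (rr Q) := t2lmean_phi_star
  have e10 : ent Q 1 0 = star (ent Q 0 1) := (star_off hQ).symm
  rw [t2lmean_F hQ]
  unfold yy vv
  rw [star_mul, star_mul, hφs, two_smul, star_add, ent_sub, ent_sub, ent_mul, ent_mul, e10]
  unfold rr
  generalize cfc phi (ent Q 0 0 + ent Q 1 1) = φ
  generalize 1 - (1 - kk Q) * (1 - kk Q) = G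
  generalize star (ent Q 0 1) = b
  generalize ent Q 0 1 = a
  generalize ent Q 0 0 = q
  generalize ent Q 1 1 = p
  noncomm_ring

private theorem t2lmean_four (x : E) : ‖lam (4 * x)‖ = 4 * ‖lam x‖ := by
  have e4 : (4 : E) * x = (4 : ℂ) • x := by
    rw [Algebra.smul_def]
    congr 1
    exact (map_ofNat (algebraMap ℂ E) 4).symm
  rw [e4, map_smul, norm_smul]
  norm_num

private theorem t2lmean_tri (F P1 P2 X0 X1 T1 T2 T3 T4 T5 T6 : ℂ) :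
    ‖F + P1 + P2 - X0 - X1 - T1 - T2 - T3 - T4 - T5 - T6‖ ≤
      ‖F‖ + ‖P1‖ + ‖P2‖ + ‖X0‖ + ‖X1‖ + ‖T1‖ + ‖T2‖ + ‖T3‖ + ‖T4‖ + ‖T5‖ + ‖T6‖ := by
  refine (norm_sub_le _ _).trans (add_le_add ?_ le_rfl)
  refine (norm_sub_le _ _).trans (add_le_add ?_ le_rfl)
  refine (norm_sub_le _ _).trans (add_le_add ?_ le_rfl)
  refine (norm_sub_le _ _).trans (add_le_add ?_ le_rfl)
  refine (norm_sub_le _ _).trans (add_le_add ?_ le_rfl)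
  refine (norm_sub_le _ _).trans (add_le_add ?_ le_rfl)
  refine (norm_sub_le _ _).trans (add_le_add ?_ le_rfl)
  refine (norm_sub_le _ _).trans (add_le_add ?_ le_rfl)
  refine (norm_add_le _ _).trans (add_le_add ?_ le_rfl)
  exact norm_add_le _ _

private theorem t2lmean_sqrt2 (x : ℝ) : √(2 * x) ≤ 3 / 2 * √x := by
  rw [Real.sqrt_mul (by norm_num)]
  have h1 : √(2 : ℝ) ≤ 3 / 2 := by
    rw [Real.sqrt_le_left (by norm_num)]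
    norm_num
  exact mul_le_mul_of_nonneg_right h1 (Real.sqrt_nonneg x)

/-- (e), pointwise -/
theorem est_mean (h : Dom lam ψ₁ ψ₀) (h₁ : PTr ψ₁) (h₀ : PTr ψ₀) (hQ : 0 ≤ Q) (hQ1 : Q ≤ 1) :
    ‖lam (yy Q)‖ ≤ 70 * (√(big ψ₁ Q) * √(err ψ₀ Q) + √(err ψ₁ Q) * √(big ψ₀ Q)) := by
  obtain ⟨-, -, -, -, -, a6, a7⟩ := t2lmean_entries h₁ hQ hQ1
  obtain ⟨-, -, -, -, -, b6, b7⟩ := t2lmean_entries h₀ hQ hQ1
  obtain ⟨c1, c2, c3, c4, c5, c6, c7, c8, c9, c10, c11, c12⟩ := t2lmean_err h₁ hQ hQ1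
  obtain ⟨d1, d2, d3, d4, -, -, d7, d8, d9, d10, d11, d12⟩ := t2lmean_err h₀ hQ hQ1
  obtain ⟨f1, f2⟩ := sq2_one_sub_phi_sq h₀ hQ hQ1
  obtain ⟨g1, g2⟩ := sq2_one_sub_phi h₁ hQ hQ1
  obtain ⟨i1, i2⟩ := sq2_one_sub_phi h₀ hQ hQ1
  obtain ⟨t1, t2, t3⟩ := t2lmean_six h h₁ h₀ hQ hQ1 (star (ent Q 0 1)) (ent Q 0 1) rfl a7 b6 f1 g2
    i2
  obtain ⟨t4, t5, t6⟩ := t2lmean_six h h₁ h₀ hQ hQ1 (ent Q 0 1) (star (ent Q 0 1)) (star_star _)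
    a6 b7 f2 g1 i1
  obtain ⟨u1, u2⟩ := t2lmean_pq h h₁ h₀ hQ hQ1
  have x0 := h.pos h₁ h₀ c5
  have x1 := h.pos h₁ h₀ c6
  have cg : Continuous gg := gg_continuous
  have hF := h.cfc h₁ h₀ hQ hQ1 (fun s : ℝ => 4 * (s - s ^ 2) - (1 - (1 - gg s) ^ 2))
    (by fun_prop) 12 (by norm_num) (fun s hs hs2 => bd_G s hs hs2)
  rw [t2lmean_decomp hQ]
  simp only [map_add, map_sub]
  refine (t2lmean_tri _ _ _ _ _ _ _ _ _ _ _).trans ?_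
  simp only [t2lmean_four]
  -- notation
  set A₁ := √(big ψ₁ Q) with hA₁
  set A₀ := √(big ψ₀ Q) with hA₀
  set B₁ := √(err ψ₁ Q) with hB₁
  set B₀ := √(err ψ₀ Q) with hB₀
  have nA₁ : 0 ≤ A₁ := Real.sqrt_nonneg _
  have nA₀ : 0 ≤ A₀ := Real.sqrt_nonneg _
  have nB₁ : 0 ≤ B₁ := Real.sqrt_nonneg _
  have nB₀ : 0 ≤ B₀ := Real.sqrt_nonneg _
  have hBA₁ : B₁ ≤ A₁ := Real.sqrt_le_sqrt c10
  have r₁ : √(ψ₁ (rr Q)).re ≤ A₁ := Real.sqrt_le_sqrt c11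
  have r₀ : √(ψ₀ (rr Q)).re ≤ A₀ := Real.sqrt_le_sqrt d11
  have ab₁ : √(ab ψ₁ Q) ≤ B₁ := Real.sqrt_le_sqrt c2
  have ab₀ : √(ab ψ₀ Q) ≤ B₀ := Real.sqrt_le_sqrt d2
  have s₁ : √(ψ₁ (ent Q 1 1 * ent Q 0 0)).re ≤ B₁ := Real.sqrt_le_sqrt c4
  have s₀ : √(ψ₀ (ent Q 1 1 * ent Q 0 0)).re ≤ B₀ := Real.sqrt_le_sqrt d4
  have X0₁ : √(ψ₁ (ent (Q - Q * Q) 0 0)).re ≤ B₁ := Real.sqrt_le_sqrt c7
  have X0₀ : √(ψ₀ (ent (Q - Q * Q) 0 0)).re ≤ B₀ := Real.sqrt_le_sqrt d7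
  have X1₁ : √(ψ₁ (ent (Q - Q * Q) 1 1)).re ≤ B₁ := Real.sqrt_le_sqrt c8
  have X1₀ : √(ψ₀ (ent (Q - Q * Q) 1 1)).re ≤ B₀ := Real.sqrt_le_sqrt d8
  have ab₁' : √(2 * ab ψ₁ Q) ≤ 3 / 2 * B₁ := (t2lmean_sqrt2 _).trans (by linarith)
  have ab₀' : √(2 * ab ψ₀ Q) ≤ 3 / 2 * B₀ := (t2lmean_sqrt2 _).trans (by linarith)
  have m : ∀ {x y X Y : ℝ}, x ≤ X → y ≤ Y → 0 ≤ y → 0 ≤ X → x * y ≤ X * Y :=
    fun h1 h2 h3 h4 => mul_le_mul h1 h2 h3 h4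
  have k1 := t1.trans (m r₁ ab₀' (Real.sqrt_nonneg _) nA₁)
  have k2 := t2.trans (m ab₁' r₀ (Real.sqrt_nonneg _) (by linarith))
  have k3 := t3.trans (m r₁ ab₀' (Real.sqrt_nonneg _) nA₁)
  have k4 := t4.trans (m r₁ ab₀' (Real.sqrt_nonneg _) nA₁)
  have k5 := t5.trans (m ab₁' r₀ (Real.sqrt_nonneg _) (by linarith))
  have k6 := t6.trans (m r₁ ab₀' (Real.sqrt_nonneg _) nA₁)
  have k7 := u1.trans (m s₁ r₀ (Real.sqrt_nonneg _) nB₁)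
  have k8 := u2.trans (m r₁ s₀ (Real.sqrt_nonneg _) nA₁)
  have k9 := x0.trans (m X0₁ X0₀ (Real.sqrt_nonneg _) nB₁)
  have k10 := x1.trans (m X1₁ X1₀ (Real.sqrt_nonneg _) nB₁)
  have k11 := m ab₁ ab₀ (Real.sqrt_nonneg _) nB₁
  have k12 := m hBA₁ (le_refl B₀) nB₀ nA₁
  have k13 := mul_nonneg nA₁ nB₀
  have k14 := mul_nonneg nB₁ nA₀
  have e1 : A₁ * (3 / 2 * B₀) = 3 / 2 * (A₁ * B₀) := by ring
  have e2 : 3 / 2 * B₁ * A₀ = 3 / 2 * (B₁ * A₀) := by ring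
  rw [e1] at k1 k3 k4 k6
  rw [e2] at k2 k5
  linarith

/-- (e), 2-norm: `lam = ψ(y ·)` is dominated by `4ψ`, `ψ` (`|y| ≤ 2`) -/
theorem est_ysq (hψ : PTr ψ) (hQ : 0 ≤ Q) (hQ1 : Q ≤ 1) :
    sq2 ψ (yy Q) ≤ 280 * (√(big ψ Q) * √(err ψ Q)) := by
  have h4 : PTr ((4 : ℂ) • ψ) := by
    refine ⟨fun x => ?_, fun x => ?_, fun x y => ?_⟩
    · have h1 := hψ.nonneg x
      have h2 := hψ.im_eq x
      rw [LinearMap.smul_apply, smul_eq_mul, Complex.mul_re, h2]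
      norm_num
      exact h1
    · have h2 := hψ.im_eq x
      rw [LinearMap.smul_apply, smul_eq_mul, Complex.mul_im, h2]
      norm_num
    · rw [LinearMap.smul_apply, LinearMap.smul_apply, hψ.comm]
  have hre : ∀ x : E, (((4 : ℂ) • ψ) x).re = 4 * (ψ x).re := by
    intro x
    rw [LinearMap.smul_apply, smul_eq_mul, Complex.mul_re]
    norm_num
  set lam' : E →ₗ[ℂ] ℂ := ψ ∘ₗ (LinearMap.mulLeft ℂ (yy Q)) with hlam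
  have hD : Dom lam' ((4 : ℂ) • ψ) ψ := by
    intro x y
    have e1 : lam' (x * y) = ψ ((yy Q * x) * y) := by
      rw [hlam, LinearMap.comp_apply, LinearMap.mulLeft_apply, mul_assoc]
    rw [e1]
    have h5 := hψ.cs_sq (star (yy Q * x)) y
    rw [star_star, hψ.sq2_star] at h5
    have h6 := hψ.sq2_mul_le_left (yy Q) x
    have h7 := yy_norm hQ hQ1
    have h8 : ‖yy Q‖ ^ 2 ≤ 4 := by
      have := norm_nonneg (yy Q)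
      nlinarith
    have h9 : sq2 ψ (yy Q * x) ≤ 4 * sq2 ψ x :=
      h6.trans (mul_le_mul_of_nonneg_right h8 (hψ.sq2_nonneg x))
    rw [hre, hψ.comm x (star x)]
    exact h5.trans (mul_le_mul_of_nonneg_right h9 (hψ.sq2_nonneg y))
  have h5 := est_mean hD h4 hψ hQ hQ1
  have e1 : lam' (yy Q) = ψ (star (yy Q) * yy Q) := by
    rw [hlam, LinearMap.comp_apply, LinearMap.mulLeft_apply, yy_sa]
  have h6 : sq2 ψ (yy Q) ≤ ‖lam' (yy Q)‖ := by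
    rw [e1]
    exact Complex.re_le_norm _
  refine h6.trans (h5.trans ?_)
  have hab : ab ((4 : ℂ) • ψ) Q = 4 * ab ψ Q := hre _
  have herr : err ((4 : ℂ) • ψ) Q = 4 * err ψ Q := by
    unfold err
    rw [hab, hre, tr2_apply, tr2_apply, Complex.add_re, Complex.add_re, hre, hre]
    ring
  have hbig : big ((4 : ℂ) • ψ) Q = 4 * big ψ Q := by
    unfold big
    rw [hre, herr]
    ring
  have h16 : ∀ x : ℝ, √(4 * x) = 2 * √x := by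
    intro x
    rw [Real.sqrt_mul (by norm_num)]
    congr 1
    rw [show (4 : ℝ) = 2 ^ 2 by norm_num]
    exact Real.sqrt_sq (by norm_num)
  rw [hbig, herr, h16, h16]
  have e2 := mul_comm (√(big ψ Q)) (√(err ψ Q))
  nlinarith

/-- the functional `ψ ∘ σ` -/
noncomputable def pull (ψ : E →ₗ[ℂ] ℂ) (σ : E ≃⋆ₐ[ℂ] E) : E →ₗ[ℂ] ℂ :=
  ψ ∘ₗ ((σ : E →⋆ₐ[ℂ] E).toAlgHom.toLinearMap)

/-- mean of `σ k - k`: `k - σ k = F(r) - σ F(r) + 4 (r^2 - r'^2)`, `F = gg - 4 s^2` (`bd_g`),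
`r' = σ r`, `r^2 - r'^2 = r (r - r') + (r - r') r'`, `ψ(r^2) ≤ 2 ψ(r)`,
`sq2 (r - r') ≤ 2 sq2 (tr2 ψ) (act2 σ Q - Q)` -/
theorem est_mean_k (h : Dom lam ψ₁ ψ₀) (h₁ : PTr ψ₁) (h₀ : PTr ψ₀) (hQ : 0 ≤ Q) (hQ1 : Q ≤ 1)
    (σ : E ≃⋆ₐ[ℂ] E) :
    ‖lam (σ (kk Q) - kk Q)‖ ≤ 22 * (√(ab ψ₁ Q) * √(ab ψ₀ Q)) +
      22 * (√(ab (pull ψ₁ σ) Q) * √(ab (pull ψ₀ σ) Q)) +
      8 * (√(ψ₁ (rr Q)).re * √(sq2 (tr2 ψ₀) (act2 σ Q - Q))) +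
      8 * (√(sq2 (tr2 ψ₁) (act2 σ Q - Q)) * √(pull ψ₀ σ (rr Q)).re) := by
  have hr : IsSelfAdjoint (rr Q) := (rr_nonneg hQ).isSelfAdjoint
  have cg : Continuous gg := gg_continuous
  have cF : Continuous (fun s : ℝ => gg s - 4 * s ^ 2) := by fun_prop
  have e4 : ∀ x : E, (4 : ℝ) • x = 4 * x := by
    intro x
    rw [Algebra.smul_def]
    congr 1
    exact map_ofNat (algebraMap ℝ E) 4
  have hF : cfc (fun s : ℝ => gg s - 4 * s ^ 2) (rr Q) = kk Q - 4 * (rr Q * rr Q) := by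
    rw [cfc_sub gg (fun s : ℝ => 4 * s ^ 2) (a := rr Q) cg.continuousOn (by fun_prop)]
    rw [cfc_const_mul (4 : ℝ) (fun s : ℝ => s ^ 2) (rr Q) (by fun_prop)]
    rw [cfc_pow_id (R := ℝ) (rr Q) 2 hr, e4, pow_two]
    rfl
  have hdec : σ (kk Q) - kk Q = σ (cfc (fun s : ℝ => gg s - 4 * s ^ 2) (rr Q)) -
      cfc (fun s : ℝ => gg s - 4 * s ^ 2) (rr Q) + 4 * (rr Q * (σ (rr Q) - rr Q)) +
      4 * ((σ (rr Q) - rr Q) * σ (rr Q)) := by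
    rw [hF, map_sub, map_mul, map_mul, map_ofNat]
    generalize σ (kk Q) = K'
    generalize kk Q = K
    generalize σ (rr Q) = r'
    generalize rr Q = r
    noncomm_ring
  -- the functional `lam ∘ σ`
  have hDσ : Dom (pull lam σ) (pull ψ₁ σ) (pull ψ₀ σ) := by
    intro x y
    change ‖lam (σ (x * y))‖ ^ 2 ≤ (ψ₁ (σ (x * star x))).re * (ψ₀ (σ (star y * y))).re
    rw [map_mul σ, map_mul σ, map_mul σ, map_star σ, map_star σ]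
    exact h (σ x) (σ y)
  have hp₁ : PTr (pull ψ₁ σ) := h₁.comp σ
  have hp₀ : PTr (pull ψ₀ σ) := h₀.comp σ
  have k1 := h.cfc h₁ h₀ hQ hQ1 _ cF 11 (by norm_num) (fun s hs hs2 => bd_g s hs hs2)
  have k2 : ‖lam (σ (cfc (fun s : ℝ => gg s - 4 * s ^ 2) (rr Q)))‖ ≤
      2 * 11 * (√(ab (pull ψ₁ σ) Q) * √(ab (pull ψ₀ σ) Q)) :=
    hDσ.cfc hp₁ hp₀ hQ hQ1 _ cF 11 (by norm_num) (fun s hs hs2 => bd_g s hs hs2)
  -- squares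
  have hsq : ∀ ψ' : E →ₗ[ℂ] ℂ, PTr ψ' → sq2 ψ' (rr Q) ≤ 2 * (ψ' (rr Q)).re := by
    intro ψ' hψ'
    unfold sq2
    rw [hr.star_eq]
    refine (hψ'.mul_mono_left (rr_le hQ1) (rr_nonneg hQ)).trans (le_of_eq ?_)
    rw [Algebra.algebraMap_eq_smul_one, ← Complex.coe_smul, smul_mul_assoc, one_mul, map_smul,
      smul_eq_mul, Complex.re_ofReal_mul]
  have hdiff : ∀ ψ' : E →ₗ[ℂ] ℂ, PTr ψ' →
      sq2 ψ' (σ (rr Q) - rr Q) ≤ 2 * sq2 (tr2 ψ') (act2 σ Q - Q) := by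
    intro ψ' hψ'
    have e1 : σ (rr Q) - rr Q = ent (act2 σ Q - Q) 0 0 + ent (act2 σ Q - Q) 1 1 := by
      rw [ent_sub, ent_sub, ent_act2, ent_act2]
      unfold rr
      rw [map_add]
      abel
    rw [e1, sq2_tr2]
    have h3 := hψ'.sq2_add_le (ent (act2 σ Q - Q) 0 0) (ent (act2 σ Q - Q) 1 1)
    have h4 := hψ'.sq2_nonneg (ent (act2 σ Q - Q) 0 1)
    have h5 := hψ'.sq2_nonneg (ent (act2 σ Q - Q) 1 0)
    linarith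
  have hσr : sq2 ψ₀ (σ (rr Q)) ≤ 2 * (pull ψ₀ σ (rr Q)).re := by
    have h3 := hsq (pull ψ₀ σ) hp₀
    have e1 : sq2 (pull ψ₀ σ) (rr Q) = sq2 ψ₀ (σ (rr Q)) := by
      unfold sq2
      change (ψ₀ (σ (star (rr Q) * rr Q))).re = _
      rw [map_mul σ, map_star σ]
    rw [← e1]
    exact h3
  have k3 := t2lmean_le h h₁ h₀ (rr Q) (σ (rr Q) - rr Q) (hsq ψ₁ h₁) (hdiff ψ₀ h₀)
  have k4 := t2lmean_le h h₁ h₀ (σ (rr Q) - rr Q) (σ (rr Q)) (hdiff ψ₁ h₁) hσr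
  have h2 : ∀ x y : ℝ, √(2 * x) * √(2 * y) = 2 * (√x * √y) := by
    intro x y
    rw [Real.sqrt_mul (by norm_num), Real.sqrt_mul (by norm_num)]
    have := Real.mul_self_sqrt (show (0 : ℝ) ≤ 2 by norm_num)
    calc √2 * √x * (√2 * √y) = (√2 * √2) * (√x * √y) := by ring
      _ = _ := by rw [this]
  rw [h2] at k3 k4
  rw [hdec]
  simp only [map_add, map_sub lam]
  have n1 := norm_add_le (lam (σ (cfc (fun s : ℝ => gg s - 4 * s ^ 2) (rr Q))) -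
    lam (cfc (fun s : ℝ => gg s - 4 * s ^ 2) (rr Q)) + lam (4 * (rr Q * (σ (rr Q) - rr Q))))
    (lam (4 * ((σ (rr Q) - rr Q) * σ (rr Q))))
  have n2 := norm_add_le (lam (σ (cfc (fun s : ℝ => gg s - 4 * s ^ 2) (rr Q))) -
    lam (cfc (fun s : ℝ => gg s - 4 * s ^ 2) (rr Q))) (lam (4 * (rr Q * (σ (rr Q) - rr Q))))
  have n3 := norm_sub_le (lam (σ (cfc (fun s : ℝ => gg s - 4 * s ^ 2) (rr Q))))
    (lam (cfc (fun s : ℝ => gg s - 4 * s ^ 2) (rr Q)))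
  rw [t2lmean_four] at n1 n2
  linarith

end P095F
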