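import Mathlib
import Vale.Agent.Lib.P095F.T2LMean

/-!
# P095F, part T2L: from `Fam` to `CoreOut` (averages)

`sum √x_i √y_i ≤ √(sum x_i) √(sum y_i)` (`Real.sum_sqrt_mul_sqrt_le` or
`Finset.sum_sqrt_mul_sqrt_le`). With `ε = (ρ/2000)^2`, `ρ ≤ 1`, `c = card I`:
`sum err ≤ 3 c ε t ψ(1)`, `sum big ≤ (4 + 3 ε) c t ψ(1) ≤ 7 c t ψ(1)`.
* lo: `(1/2)(2t) = t`; hi: `8 * 4t = 32 t`; nil: `48 * 3 ε ≤ ρ`;
* y_mean: `140 √(7 * 3 ε) ≤ ρ` (`140 * 4.6 / 2000 < 1`); y_sq: `280 √(21 ε) ≤ ρ` (`280 * 4.6 / 2000 < 1`);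
* inv_v: `780 ε ≤ ρ`; inv_k: `128 ε ≤ ρ`; mean_k: `44 ε + 32 √ε ≤ ρ`
  (`(pull ψ σ) 1 = ψ 1`; `Fam` is used for `pull ψ σ` too).
* sum_v: `sum v_i = sum v_{σ i} = - sum v_i` (`vv_kk_sym`).
-/

open scoped ENNReal Topology

namespace P095F

universe u v

variable {G : Type v} [Group G] {E : Type u} [CStarAlgebra E] [PartialOrder E] [StarOrderedRing E]

private theorem t2lcore_cs {I : Type} [Fintype I] {x y : I → ℝ} (hx : ∀ i, 0 ≤ x i)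
    (hy : ∀ i, 0 ≤ y i) {A B : ℝ} (hA : ∑ i, x i ≤ A) (hB : ∑ i, y i ≤ B) :
    ∑ i, √(x i) * √(y i) ≤ √A * √B :=
  (Real.sum_sqrt_mul_sqrt_le Finset.univ hx hy).trans
    (mul_le_mul (Real.sqrt_le_sqrt hA) (Real.sqrt_le_sqrt hB) (Real.sqrt_nonneg _)
      (Real.sqrt_nonneg _))

/-- `√(a u x) √(b u y) ≤ e u √x √y` -/
private theorem t2lcore_sqrt {a b e u x y : ℝ} (ha : 0 ≤ a) (hb : 0 ≤ b) (he : 0 ≤ e)
    (hab : a * b ≤ e ^ 2) (hu : 0 ≤ u) :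
    √(a * (u * x)) * √(b * (u * y)) ≤ e * (u * (√x * √y)) := by
  rw [Real.sqrt_mul ha, Real.sqrt_mul hb, Real.sqrt_mul hu, Real.sqrt_mul hu]
  have h1 : √a * √b ≤ e := by
    rw [← Real.sqrt_mul ha]
    exact Real.sqrt_le_iff.2 ⟨he, hab⟩
  have h2 := Real.mul_self_sqrt hu
  calc √a * (√u * √x) * (√b * (√u * √y)) = (√a * √b) * ((√u * √u) * (√x * √y)) := by ring
    _ = (√a * √b) * (u * (√x * √y)) := by rw [h2]
    _ ≤ e * (u * (√x * √y)) := mul_le_mul_of_nonneg_right h1 (by positivity)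

theorem coreOut_of_fam {γ : G →* (E ≃⋆ₐ[ℂ] E)} {K₀ : Finset G} {t ρ : ℝ} (ht : 0 ≤ t)
    (hρ : 0 < ρ) (hρ1 : ρ ≤ 1) {I : Type} [Fintype I] {Q : I → D2 E}
    (h : Fam γ K₀ t ((ρ / 2000) ^ 2) Q) :
    CoreOut γ K₀ ρ t (fun i => vv (Q i)) (fun i => kk (Q i)) := by
  obtain ⟨h0, h1, hsym, hlo, hhi, hproj, hcross, habs, hinv⟩ := h
  have hct : 0 ≤ (Fintype.card I : ℝ) * t := mul_nonneg (Nat.cast_nonneg _) ht
  have hρ2 : ρ * ρ ≤ ρ := by nlinarith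
  have hε : (ρ / 2000) ^ 2 ≤ ρ / 4000000 := by
    have : (ρ / 2000) ^ 2 = ρ * ρ / 4000000 := by ring
    rw [this]
    linarith
  -- sums
  have herr : ∀ ψ : E →ₗ[ℂ] ℂ, PTr ψ → ∑ i, err ψ (Q i)
      ≤ (3 * (ρ / 2000) ^ 2) * (Fintype.card I * t * (ψ 1).re) := by
    intro ψ hψ
    have e1 := hproj ψ hψ
    have e2 := hcross ψ hψ
    have e3 := habs ψ hψ
    unfold err
    rw [Finset.sum_add_distrib, Finset.sum_add_distrib]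
    linarith
  have hrr : ∀ ψ : E →ₗ[ℂ] ℂ, PTr ψ → ∑ i, (ψ (rr (Q i))).re
      ≤ 4 * (Fintype.card I * t * (ψ 1).re) := by
    intro ψ hψ
    have e1 := hhi ψ hψ
    linarith
  have hS : ∀ ψ : E →ₗ[ℂ] ℂ, PTr ψ → 0 ≤ (Fintype.card I : ℝ) * t * (ψ 1).re :=
    fun ψ hψ => mul_nonneg hct hψ.one_re
  have hbig : ∀ ψ : E →ₗ[ℂ] ℂ, PTr ψ → ∑ i, big ψ (Q i)
      ≤ 7 * (Fintype.card I * t * (ψ 1).re) := by
    intro ψ hψ
    have e1 := hrr ψ hψ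
    have e2 := herr ψ hψ
    have e3 := hS ψ hψ
    unfold big
    rw [Finset.sum_add_distrib]
    have e4 : (3 * (ρ / 2000) ^ 2) * (Fintype.card I * t * (ψ 1).re)
        ≤ 3 * (Fintype.card I * t * (ψ 1).re) :=
      mul_le_mul_of_nonneg_right (by linarith) e3
    linarith
  have hab2 : ∀ ψ : E →ₗ[ℂ] ℂ, PTr ψ → ∑ i, ab ψ (Q i)
      ≤ (ρ / 2000) ^ 2 * (Fintype.card I * t * (ψ 1).re) := by
    intro ψ hψ
    have e1 := habs ψ hψ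
    linarith
  have hinv2 : ∀ ψ : E →ₗ[ℂ] ℂ, PTr ψ → ∀ h ∈ K₀, ∑ i, sq2 (tr2 ψ) (act2 (γ h) (Q i) - Q i)
      ≤ (ρ / 2000) ^ 2 * (Fintype.card I * t * (ψ 1).re) := by
    intro ψ hψ h hh
    have e1 := hinv ψ hψ h hh
    linarith
  have hpull1 : ∀ (ψ : E →ₗ[ℂ] ℂ) (σ : E ≃⋆ₐ[ℂ] E), (pull ψ σ) 1 = ψ 1 := by
    intro ψ σ
    change ψ (σ 1) = ψ 1
    rw [map_one]
  refine ⟨fun i => kk_sa, fun i => kk_norm, fun i => one_sub_kk_norm,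
    fun i => vv_norm (h0 i) (h1 i), fun i => kk_mul_vv (h0 i), fun i => vv_mul_kk (h0 i),
    ?_, ?_, ?_, ?_, ?_, ?_, ?_, ?_, ?_⟩
  · -- sum_v
    obtain ⟨σ, hσ⟩ := hsym
    have e1 : ∑ i, vv (Q (σ i)) = ∑ i, vv (Q i) := Equiv.sum_comp σ (fun i => vv (Q i))
    have e2 : ∑ i, vv (Q (σ i)) = -∑ i, vv (Q i) := by
      rw [← Finset.sum_neg_distrib]
      refine Finset.sum_congr rfl fun i _ => ?_
      exact (vv_kk_sym (hσ i).1 (hσ i).2.1 (hσ i).2.2).1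
    rw [e1] at e2
    have e3 : (2 : ℂ) • ∑ i, vv (Q i) = 0 := by
      rw [two_smul]
      nth_rewrite 1 [e2]
      exact neg_add_cancel _
    exact (smul_eq_zero.1 e3).resolve_left two_ne_zero
  · -- lo
    intro ψ hψ
    have e1 : ∑ i, (ψ (rr (Q i))).re / 2
        ≤ ∑ i, (ψ (1 - (1 - kk (Q i)) * (1 - kk (Q i)))).re :=
      Finset.sum_le_sum fun i _ => est_lo hψ (h0 i) (h1 i)
    rw [← Finset.sum_div] at e1
    have e2 := hlo ψ hψ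
    linarith
  · -- hi
    intro ψ hψ
    have e1 : ∑ i, (ψ (kk (Q i))).re ≤ ∑ i, 8 * (ψ (rr (Q i))).re :=
      Finset.sum_le_sum fun i _ => est_hi hψ (h0 i) (h1 i)
    rw [← Finset.mul_sum] at e1
    have e2 := hhi ψ hψ
    linarith
  · -- nil
    intro ψ hψ
    have e1 : ∑ i, sq2 ψ (vv (Q i) * vv (Q i)) ≤ ∑ i, 48 * err ψ (Q i) :=
      Finset.sum_le_sum fun i _ => est_nil hψ (h0 i) (h1 i)
    rw [← Finset.mul_sum] at e1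
    have e2 := herr ψ hψ
    have e3 := mul_le_mul_of_nonneg_right hε (hS ψ hψ)
    have e4 := mul_nonneg hρ.le (hS ψ hψ)
    linarith
  · -- y_sq
    intro ψ hψ
    have e1 : ∑ i, sq2 ψ (yOf (vv (Q i)) (kk (Q i)))
        ≤ ∑ i, 280 * (√(big ψ (Q i)) * √(err ψ (Q i))) :=
      Finset.sum_le_sum fun i _ => est_ysq hψ (h0 i) (h1 i)
    rw [← Finset.mul_sum] at e1
    have hb0 : ∀ i, 0 ≤ big ψ (Q i) := fun i =>
      add_nonneg (re_rr_nonneg hψ (h0 i)) (err_nonneg hψ (h0 i) (h1 i))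
    have e2 := t2lcore_cs hb0 (fun i => err_nonneg hψ (h0 i) (h1 i)) (hbig ψ hψ) (herr ψ hψ)
    have e3 := t2lcore_sqrt (a := 7) (b := 3 * (ρ / 2000) ^ 2) (e := 5 * (ρ / 2000))
      (x := (ψ 1).re) (y := (ψ 1).re) (by norm_num) (by positivity) (by positivity)
      (by nlinarith [sq_nonneg (ρ / 2000)]) hct
    rw [Real.mul_self_sqrt hψ.one_re] at e3
    have e4 := mul_nonneg hρ.le (hS ψ hψ)
    linarith
  · -- y_mean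
    intro lam ψ₁ ψ₀ hψ₁ hψ₀ hD
    have e0 : ‖∑ i, lam (yOf (vv (Q i)) (kk (Q i)))‖ ≤ ∑ i, ‖lam (yOf (vv (Q i)) (kk (Q i)))‖ :=
      norm_sum_le _ _
    have e1 : ∑ i, ‖lam (yOf (vv (Q i)) (kk (Q i)))‖
        ≤ ∑ i, 70 * (√(big ψ₁ (Q i)) * √(err ψ₀ (Q i)) + √(err ψ₁ (Q i)) * √(big ψ₀ (Q i))) :=
      Finset.sum_le_sum fun i _ => est_mean hD hψ₁ hψ₀ (h0 i) (h1 i)
    rw [← Finset.mul_sum, Finset.sum_add_distrib] at e1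
    have hb1 : ∀ i, 0 ≤ big ψ₁ (Q i) := fun i =>
      add_nonneg (re_rr_nonneg hψ₁ (h0 i)) (err_nonneg hψ₁ (h0 i) (h1 i))
    have hb0 : ∀ i, 0 ≤ big ψ₀ (Q i) := fun i =>
      add_nonneg (re_rr_nonneg hψ₀ (h0 i)) (err_nonneg hψ₀ (h0 i) (h1 i))
    have e2 := t2lcore_cs hb1 (fun i => err_nonneg hψ₀ (h0 i) (h1 i)) (hbig ψ₁ hψ₁) (herr ψ₀ hψ₀)
    have e2' := t2lcore_cs (fun i => err_nonneg hψ₁ (h0 i) (h1 i)) hb0 (herr ψ₁ hψ₁) (hbig ψ₀ hψ₀)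
    have e3 := t2lcore_sqrt (a := 7) (b := 3 * (ρ / 2000) ^ 2) (e := 5 * (ρ / 2000))
      (x := (ψ₁ 1).re) (y := (ψ₀ 1).re) (by norm_num) (by positivity) (by positivity)
      (by nlinarith [sq_nonneg (ρ / 2000)]) hct
    have e3' := t2lcore_sqrt (a := 3 * (ρ / 2000) ^ 2) (b := 7) (e := 5 * (ρ / 2000))
      (x := (ψ₁ 1).re) (y := (ψ₀ 1).re) (by positivity) (by norm_num) (by positivity)
      (by nlinarith [sq_nonneg (ρ / 2000)]) hct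
    have e4 : 0 ≤ ρ * (Fintype.card I * t * (√(ψ₁ 1).re * √(ψ₀ 1).re)) :=
      mul_nonneg hρ.le (mul_nonneg hct (by positivity))
    linarith
  · -- inv_v
    intro ψ hψ g hg
    have e1 : ∑ i, sq2 ψ (γ g (vv (Q i)) - vv (Q i))
        ≤ ∑ i, 780 * sq2 (tr2 ψ) (act2 (γ g) (Q i) - Q i) :=
      Finset.sum_le_sum fun i _ => est_inv_v hψ (h0 i) (h1 i) (γ g)
    rw [← Finset.mul_sum] at e1
    have e2 := hinv2 ψ hψ g hg
    have e3 := mul_le_mul_of_nonneg_right hε (hS ψ hψ)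
    have e4 := mul_nonneg hρ.le (hS ψ hψ)
    linarith
  · -- inv_k
    intro ψ hψ g hg
    have e1 : ∑ i, sq2 ψ (γ g (kk (Q i)) - kk (Q i))
        ≤ ∑ i, 128 * sq2 (tr2 ψ) (act2 (γ g) (Q i) - Q i) :=
      Finset.sum_le_sum fun i _ => est_inv_k hψ (h0 i) (h1 i) (γ g)
    rw [← Finset.mul_sum] at e1
    have e2 := hinv2 ψ hψ g hg
    have e3 := mul_le_mul_of_nonneg_right hε (hS ψ hψ)
    have e4 := mul_nonneg hρ.le (hS ψ hψ)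
    linarith
  · -- mean_k
    intro lam ψ₁ ψ₀ hψ₁ hψ₀ hD g hg
    have e0 : ‖∑ i, lam (γ g (kk (Q i)) - kk (Q i))‖ ≤ ∑ i, ‖lam (γ g (kk (Q i)) - kk (Q i))‖ :=
      norm_sum_le _ _
    have e1 : ∑ i, ‖lam (γ g (kk (Q i)) - kk (Q i))‖ ≤ ∑ i,
        (22 * (√(ab ψ₁ (Q i)) * √(ab ψ₀ (Q i))) +
      22 * (√(ab (pull ψ₁ (γ g)) (Q i)) * √(ab (pull ψ₀ (γ g)) (Q i))) +
      8 * (√(ψ₁ (rr (Q i))).re * √(sq2 (tr2 ψ₀) (act2 (γ g) (Q i) - Q i))) +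
      8 * (√(sq2 (tr2 ψ₁) (act2 (γ g) (Q i) - Q i)) * √(pull ψ₀ (γ g) (rr (Q i))).re)) :=
      Finset.sum_le_sum fun i _ => est_mean_k hD hψ₁ hψ₀ (h0 i) (h1 i) (γ g)
    rw [Finset.sum_add_distrib, Finset.sum_add_distrib, Finset.sum_add_distrib,
      ← Finset.mul_sum, ← Finset.mul_sum, ← Finset.mul_sum, ← Finset.mul_sum] at e1
    have hp1 : PTr (pull ψ₁ (γ g)) := hψ₁.comp (γ g)
    have hp0 : PTr (pull ψ₀ (γ g)) := hψ₀.comp (γ g)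
    have f1 := t2lcore_cs (fun i => ab_nonneg hψ₁ (h0 i)) (fun i => ab_nonneg hψ₀ (h0 i))
      (hab2 ψ₁ hψ₁) (hab2 ψ₀ hψ₀)
    have f2 := t2lcore_cs (fun i => ab_nonneg hp1 (h0 i)) (fun i => ab_nonneg hp0 (h0 i))
      (hab2 _ hp1) (hab2 _ hp0)
    have f3 := t2lcore_cs (fun i => re_rr_nonneg hψ₁ (h0 i))
      (fun i => (tr2_ptr hψ₀).sq2_nonneg (act2 (γ g) (Q i) - Q i)) (hrr ψ₁ hψ₁) (hinv2 ψ₀ hψ₀ g hg)
    have f4 := t2lcore_cs (fun i => (tr2_ptr hψ₁).sq2_nonneg (act2 (γ g) (Q i) - Q i))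
      (fun i => re_rr_nonneg hp0 (h0 i)) (hinv2 ψ₁ hψ₁ g hg) (hrr _ hp0)
    rw [hpull1, hpull1] at f2
    rw [hpull1] at f4
    have s1 := t2lcore_sqrt (a := (ρ / 2000) ^ 2) (b := (ρ / 2000) ^ 2) (e := (ρ / 2000) ^ 2)
      (x := (ψ₁ 1).re) (y := (ψ₀ 1).re) (by positivity) (by positivity) (by positivity)
      (by rw [pow_two ((ρ / 2000) ^ 2)]) hct
    have s3 := t2lcore_sqrt (a := 4) (b := (ρ / 2000) ^ 2) (e := 2 * (ρ / 2000))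
      (x := (ψ₁ 1).re) (y := (ψ₀ 1).re) (by norm_num) (by positivity) (by positivity)
      (le_of_eq (by ring)) hct
    have s4 := t2lcore_sqrt (a := (ρ / 2000) ^ 2) (b := 4) (e := 2 * (ρ / 2000))
      (x := (ψ₁ 1).re) (y := (ψ₀ 1).re) (by positivity) (by norm_num) (by positivity)
      (le_of_eq (by ring)) hct
    have e4 : 0 ≤ Fintype.card I * t * (√(ψ₁ 1).re * √(ψ₀ 1).re) :=
      mul_nonneg hct (by positivity)
    have e5 := mul_nonneg hρ.le e4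
    have e6 := mul_le_mul_of_nonneg_right hε e4
    linarith

end P095F
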