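import Vale.Agent.Lib.P095F.T2LDefs

/-!
# P095F, part T2L: averages over the phases

`a_i = I^{e_i}`, `b_i = I^{e'_i}` independent fourth roots of unity. With `E` the average over all
`(e, e')`: `E[a_i] = E[a_i^2] = 0`, `E[a_i conj a_j] = delta_ij`,
`E[a_i conj a_j a_p conj a_q] = 1` if (`i = j` and `p = q`) or (`i = q` and `j = p`), else `0`;
`E[a_i a_p] = 0` for all `i, p`.
With `A = a a^*`, `B = b b^*`, `C = a b^* + b a^*`: `(a+b)(a+b)^* = A + B + C`,
`(a-b)(a-b)^* = A + B - C`; the terms linear in `C` average to `0` (replace `a` by `-a`);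
`E[A (x) A] = E[B (x) B] = 1 (x) 1 + Fl - Dg`, `E[A (x) B] = E[B (x) A] = 1 (x) 1`,
`E[C (x) C] = 2 Fl`, where `Fl = sum e_ij (x) e_ji`, `Dg = sum e_ii (x) e_ii`.
-/

namespace P095F

/-- the number of pairs `(e, e')` -/
theorem card_phases (k : ℕ) :
    Fintype.card ((Fin k → Fin 4) × (Fin k → Fin 4)) = 2 ^ (4 * k) := by
  rw [Fintype.card_prod, Fintype.card_fun, Fintype.card_fin, Fintype.card_fin, ← pow_add,
    show (4 : ℕ) = 2 ^ 2 by norm_num, ← pow_mul]
  congr 1
  ring

private theorem t2lphase_coord (s t : ℕ) (hs : s ≤ 2) (ht : t ≤ 2) :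
    ∑ c : Fin 4, (Complex.I ^ (c : ℕ)) ^ s * (star (Complex.I ^ (c : ℕ))) ^ t =
      if s = t then 4 else 0 := by
  have h2 : Complex.I ^ 2 = -1 := Complex.I_sq
  have h3 : Complex.I ^ 3 = -Complex.I := by
    rw [pow_succ, h2]; ring
  have hst : star Complex.I = -Complex.I := Complex.conj_I
  interval_cases s <;> interval_cases t <;>
    simp [Fin.sum_univ_four, h2, h3, hst] <;> ring_nf <;> simp [h2] <;> norm_num

private theorem t2lphase_sum {k : ℕ} (s t : Fin k → ℕ) (hs : ∀ n, s n ≤ 2) (ht : ∀ n, t n ≤ 2) :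
    ∑ e : Fin k → Fin 4, ∏ n, ((ph e n) ^ (s n) * (star (ph e n)) ^ (t n)) =
      if s = t then (4 : ℂ) ^ k else 0 := by
  have h1 : ∑ e : Fin k → Fin 4, ∏ n, ((ph e n) ^ (s n) * (star (ph e n)) ^ (t n)) =
      ∏ n, ∑ c : Fin 4, (Complex.I ^ (c : ℕ)) ^ (s n) * (star (Complex.I ^ (c : ℕ))) ^ (t n) := by
    rw [Finset.prod_univ_sum, Fintype.piFinset_univ]
    rfl
  rw [h1]
  have h2 : ∀ n, ∑ c : Fin 4, (Complex.I ^ (c : ℕ)) ^ (s n) * (star (Complex.I ^ (c : ℕ))) ^ (t n) =
      if s n = t n then 4 else 0 := fun n => t2lphase_coord _ _ (hs n) (ht n)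
  rw [Finset.prod_congr rfl fun n _ => h2 n]
  split_ifs with h
  · subst h
    simp
  · obtain ⟨n, hn⟩ := Function.ne_iff.1 h
    exact Finset.prod_eq_zero (Finset.mem_univ n) (by rw [if_neg hn])

private theorem t2lphase_two {k : ℕ} (i j : Fin k) :
    ∑ e : Fin k → Fin 4, ph e i * star (ph e j) = if i = j then (4 : ℂ) ^ k else 0 := by
  have h := t2lphase_sum (k := k) (fun n => if i = n then 1 else 0) (fun n => if j = n then 1 else 0)
    (fun n => by split_ifs <;> norm_num) (fun n => by split_ifs <;> norm_num)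
  have h1 : ∀ e : Fin k → Fin 4, ∏ n, ((ph e n) ^ (if i = n then 1 else 0) *
      (star (ph e n)) ^ (if j = n then 1 else 0)) = ph e i * star (ph e j) := by
    intro e
    rw [Finset.prod_mul_distrib, Finset.prod_pow_boole, Finset.prod_pow_boole]
    simp
  rw [Finset.sum_congr rfl fun e _ => h1 e] at h
  rw [h]
  by_cases hij : i = j
  · subst hij
    simp
  · rw [if_neg hij, if_neg]
    intro hh
    have := congrFun hh i
    simp only [if_true] at this
    rw [if_neg (fun h => hij h.symm)] at this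
    exact one_ne_zero this

private theorem t2lphase_four {k : ℕ} (i j p q : Fin k) :
    ∑ e : Fin k → Fin 4, ph e i * star (ph e j) * (ph e p * star (ph e q)) =
      (4 : ℂ) ^ k * ((if i = j then 1 else 0) * (if p = q then 1 else 0) +
        (if i = q then 1 else 0) * (if j = p then 1 else 0) -
        (if i = j then 1 else 0) * (if p = q then 1 else 0) * (if i = p then 1 else 0)) := by
  have h := t2lphase_sum (k := k)
    (fun n => (if i = n then 1 else 0) + (if p = n then 1 else 0))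
    (fun n => (if j = n then 1 else 0) + (if q = n then 1 else 0))
    (fun n => by split_ifs <;> norm_num) (fun n => by split_ifs <;> norm_num)
  have h1 : ∀ e : Fin k → Fin 4, ∏ n, ((ph e n) ^ ((if i = n then 1 else 0) +
      (if p = n then 1 else 0)) * (star (ph e n)) ^ ((if j = n then 1 else 0) +
      (if q = n then 1 else 0))) = ph e i * star (ph e j) * (ph e p * star (ph e q)) := by
    intro e
    simp only [pow_add]
    rw [Finset.prod_mul_distrib, Finset.prod_mul_distrib, Finset.prod_mul_distrib,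
      Finset.prod_pow_boole, Finset.prod_pow_boole, Finset.prod_pow_boole, Finset.prod_pow_boole]
    simp only [Finset.mem_univ, if_true]
    ring
  rw [Finset.sum_congr rfl fun e _ => h1 e] at h
  rw [h]
  have hiff : ((fun n => (if i = n then 1 else 0) + (if p = n then 1 else 0)) =
      (fun n => (if j = n then 1 else 0) + (if q = n then 1 else 0) : Fin k → ℕ)) ↔
      (i = j ∧ p = q) ∨ (i = q ∧ j = p) := by
    constructor
    · intro hh
      have hi := congrFun hh i
      have hp := congrFun hh p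
      simp only [if_true] at hi hp
      by_cases hij : i = j
      · subst hij
        by_cases hpq : p = q
        · exact Or.inl ⟨rfl, hpq⟩
        · have hqp : ¬ q = p := fun h => hpq h.symm
          simp only [if_true] at hi hp
          rw [if_neg hqp] at hp
          by_cases hip : i = p
          · rw [if_pos hip] at hp
            norm_num at hp
          · rw [if_neg hip] at hp
            norm_num at hp
      · have hji : ¬ j = i := fun h => hij h.symm
        rw [if_neg hji] at hi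
        by_cases hiq : i = q
        · right
          refine ⟨hiq, ?_⟩
          subst hiq
          by_contra hjp
          rw [if_neg hjp] at hp
          by_cases hip : i = p
          · rw [if_pos hip] at hp
            norm_num at hp
          · rw [if_neg hip] at hp
            norm_num at hp
        · have hqi : ¬ q = i := fun h => hiq h.symm
          rw [if_neg hqi] at hi
          omega
    · rintro (⟨rfl, rfl⟩ | ⟨rfl, rfl⟩)
      · rfl
      · funext n
        exact add_comm _ _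
  by_cases hij : i = j <;> by_cases hpq : p = q <;> by_cases hiq : i = q <;>
    by_cases hjp : j = p <;> by_cases hip : i = p <;>
    simp [hiff, hij, hpq, hiq, hjp, hip] <;> simp_all

private theorem t2lphase_mat {k : ℕ} (x y : Fin k → ℂ) :
    rk x y = ∑ i, ∑ j, (x i * star (y j)) • (Matrix.single i j (1 : ℂ)) := by
  rw [Matrix.matrix_eq_sum_single (rk x y)]
  refine Finset.sum_congr rfl fun i _ => Finset.sum_congr rfl fun j _ => ?_
  rw [Matrix.smul_single, smul_eq_mul, mul_one]
  rfl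

private theorem t2lphase_expand {k : ℕ}
    (L : Matrix (Fin k) (Fin k) ℂ →ₗ[ℂ] Matrix (Fin k) (Fin k) ℂ →ₗ[ℂ] ℂ)
    (x y z w : Fin k → ℂ) :
    L (rk x y) (rk z w) = ∑ i, ∑ j, ∑ p, ∑ q, (x i * star (y j)) * (z p * star (w q)) *
      L (Matrix.single i j 1) (Matrix.single p q 1) := by
  have h1 : ∀ M : Matrix (Fin k) (Fin k) ℂ, L (rk x y) M =
      ∑ i, ∑ j, (x i * star (y j)) * L (Matrix.single i j 1) M := by
    intro M
    rw [t2lphase_mat x y]
    simp only [map_sum, LinearMap.sum_apply, map_smul, LinearMap.smul_apply, smul_eq_mul]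
  have h2 : ∀ i j : Fin k, L (Matrix.single i j 1) (rk z w) =
      ∑ p, ∑ q, (z p * star (w q)) * L (Matrix.single i j 1) (Matrix.single p q 1) := by
    intro i j
    rw [t2lphase_mat z w]
    simp only [map_sum, map_smul, smul_eq_mul]
  rw [h1]
  refine Finset.sum_congr rfl fun i _ => Finset.sum_congr rfl fun j _ => ?_
  rw [h2, Finset.mul_sum]
  refine Finset.sum_congr rfl fun p _ => ?_
  rw [Finset.mul_sum]
  exact Finset.sum_congr rfl fun q _ => (mul_assoc _ _ _).symm

private theorem t2lphase_avg {k : ℕ} {W : Type*} [Fintype W]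
    (L : Matrix (Fin k) (Fin k) ℂ →ₗ[ℂ] Matrix (Fin k) (Fin k) ℂ →ₗ[ℂ] ℂ)
    (x y z u : W → Fin k → ℂ) :
    ∑ w, L (rk (x w) (y w)) (rk (z w) (u w)) = ∑ i, ∑ j, ∑ p, ∑ q,
      (∑ w, (x w i * star (y w j)) * (z w p * star (u w q))) *
      L (Matrix.single i j 1) (Matrix.single p q 1) := by
  simp only [t2lphase_expand]
  rw [Finset.sum_comm]
  refine Finset.sum_congr rfl fun i _ => ?_
  rw [Finset.sum_comm]
  refine Finset.sum_congr rfl fun j _ => ?_
  rw [Finset.sum_comm]
  refine Finset.sum_congr rfl fun p _ => ?_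
  rw [Finset.sum_comm]
  refine Finset.sum_congr rfl fun q _ => ?_
  rw [Finset.sum_mul]

private theorem t2lphase_one {k : ℕ} : (1 : Matrix (Fin k) (Fin k) ℂ) =
    ∑ i, Matrix.single i i (1 : ℂ) := by
  ext a b
  rw [Matrix.sum_apply, Matrix.one_apply]
  by_cases hab : a = b
  · subst hab
    rw [if_pos rfl, Finset.sum_eq_single a]
    · simp
    · intro c _ hc
      rw [Matrix.single_apply_of_ne]
      tauto
    · simp
  · rw [if_neg hab]
    symm
    refine Finset.sum_eq_zero fun c _ => ?_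
    rw [Matrix.single_apply_of_ne]
    rintro ⟨rfl, rfl⟩
    exact hab rfl

private theorem t2lphase_L11 {k : ℕ}
    (L : Matrix (Fin k) (Fin k) ℂ →ₗ[ℂ] Matrix (Fin k) (Fin k) ℂ →ₗ[ℂ] ℂ) :
    L 1 1 = ∑ i, ∑ p, L (Matrix.single i i 1) (Matrix.single p p 1) := by
  rw [t2lphase_one]
  simp only [map_sum, LinearMap.sum_apply]
  exact Finset.sum_comm

private theorem t2lphase_pow {k : ℕ} : (2 : ℂ) ^ (4 * k) = 4 ^ k * 4 ^ k := by
  rw [← pow_add, show (4 : ℂ) = 2 ^ 2 by norm_num, ← pow_mul]
  congr 1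
  ring

/-- `E[A (x) B] = 1 (x) 1` -/
theorem phase_cross {k : ℕ}
    (L : Matrix (Fin k) (Fin k) ℂ →ₗ[ℂ] Matrix (Fin k) (Fin k) ℂ →ₗ[ℂ] ℂ) :
    ∑ w : (Fin k → Fin 4) × (Fin k → Fin 4), L (rk (ph w.1) (ph w.1)) (rk (ph w.2) (ph w.2)) =
      (2 : ℂ) ^ (4 * k) * L 1 1 := by
  rw [t2lphase_avg L (fun w : (Fin k → Fin 4) × (Fin k → Fin 4) => ph w.1) (fun w => ph w.1)
    (fun w => ph w.2) (fun w => ph w.2)]
  have h : ∀ i j p q : Fin k, ∑ w : (Fin k → Fin 4) × (Fin k → Fin 4),
      (ph w.1 i * star (ph w.1 j)) * (ph w.2 p * star (ph w.2 q)) =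
      (4 ^ k * 4 ^ k) * ((if i = j then 1 else 0) * (if p = q then 1 else 0)) := by
    intro i j p q
    rw [Fintype.sum_prod_type]
    simp only
    simp only [← Finset.mul_sum]
    rw [← Finset.sum_mul, t2lphase_two, t2lphase_two]
    split_ifs <;> ring
  simp only [h]
  rw [t2lphase_L11, t2lphase_pow, Finset.mul_sum]
  refine Finset.sum_congr rfl fun i _ => ?_
  rw [Finset.sum_eq_single i, Finset.mul_sum]
  · refine Finset.sum_congr rfl fun p _ => ?_
    rw [Finset.sum_eq_single p]
    · simp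
    · intro q _ hq
      rw [if_neg (c := p = q) (fun h => hq h.symm)]
      ring
    · simp
  · intro j _ hj
    rw [if_neg (fun h => hj h.symm)]
    simp
  · simp

private theorem t2lphase_AA {k : ℕ}
    (L : Matrix (Fin k) (Fin k) ℂ →ₗ[ℂ] Matrix (Fin k) (Fin k) ℂ →ₗ[ℂ] ℂ) :
    ∑ i, ∑ j, ∑ p, ∑ q, (((4 : ℂ) ^ k * 4 ^ k) * ((if i = j then 1 else 0) * (if p = q then 1 else 0) +
        (if i = q then 1 else 0) * (if j = p then 1 else 0) -
        (if i = j then 1 else 0) * (if p = q then 1 else 0) * (if i = p then 1 else 0))) *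
      L (Matrix.single i j 1) (Matrix.single p q 1) =
    (4 ^ k * 4 ^ k) * (L 1 1 + ∑ i, ∑ j, L (Matrix.single i j 1) (Matrix.single j i 1) -
      ∑ i, L (Matrix.single i i 1) (Matrix.single i i 1)) := by
  have h1 : ∀ i j p : Fin k, ∑ q, (((4 : ℂ) ^ k * 4 ^ k) * ((if i = j then 1 else 0) * (if p = q then 1 else 0) +
        (if i = q then 1 else 0) * (if j = p then 1 else 0) -
        (if i = j then 1 else 0) * (if p = q then 1 else 0) * (if i = p then 1 else 0))) *
      L (Matrix.single i j 1) (Matrix.single p q 1) =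
      (4 ^ k * 4 ^ k) * ((if i = j then L (Matrix.single i j 1) (Matrix.single p p 1) else 0) +
        (if j = p then L (Matrix.single i j 1) (Matrix.single p i 1) else 0) -
        (if i = j then (if i = p then L (Matrix.single i j 1) (Matrix.single p p 1) else 0)
          else 0)) := by
    intro i j p
    have h2 : ∀ q : Fin k, (((4 : ℂ) ^ k * 4 ^ k) * ((if i = j then 1 else 0) * (if p = q then 1 else 0) +
        (if i = q then 1 else 0) * (if j = p then 1 else 0) -
        (if i = j then 1 else 0) * (if p = q then 1 else 0) * (if i = p then 1 else 0))) *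
      L (Matrix.single i j 1) (Matrix.single p q 1) =
      (4 ^ k * 4 ^ k) * ((if p = q then (if i = j then L (Matrix.single i j 1) (Matrix.single p q 1)
          else 0) else 0) +
        (if i = q then (if j = p then L (Matrix.single i j 1) (Matrix.single p q 1) else 0)
          else 0) -
        (if p = q then (if i = j then (if i = p then L (Matrix.single i j 1) (Matrix.single p q 1)
          else 0) else 0) else 0)) := by
      intro q
      split_ifs <;> ring
    simp only [h2]
    rw [← Finset.mul_sum, Finset.sum_sub_distrib, Finset.sum_add_distrib]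
    simp only [Finset.sum_ite_eq, Finset.mem_univ, if_true]
  simp only [h1]
  simp only [← Finset.mul_sum, Finset.sum_sub_distrib, Finset.sum_add_distrib]
  congr 1
  rw [t2lphase_L11]
  congr 1
  · congr 1
    · refine Finset.sum_congr rfl fun i _ => ?_
      rw [Finset.sum_comm]
      refine Finset.sum_congr rfl fun p _ => ?_
      simp
    · refine Finset.sum_congr rfl fun i _ => Finset.sum_congr rfl fun j _ => ?_
      simp
  · refine Finset.sum_congr rfl fun i _ => ?_
    rw [Finset.sum_comm]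
    simp

private theorem t2lphase_shift {k : ℕ} (e : Fin k → Fin 4) :
    ph (e + fun _ => 1) = Complex.I • ph e := by
  funext i
  have h : ∀ c : Fin 4, Complex.I ^ ((c + 1 : Fin 4) : ℕ) = Complex.I * Complex.I ^ (c : ℕ) := by
    intro c
    have h2 : Complex.I ^ 2 = -1 := Complex.I_sq
    have h3 : Complex.I ^ 3 = -Complex.I := by
      rw [pow_succ, h2]; ring
    fin_cases c <;> simp [h2, h3]
  exact h (e i)

private theorem t2lphase_shift_sum {k : ℕ}
    (f : (Fin k → Fin 4) × (Fin k → Fin 4) → ℂ) (g : (Fin k → ℂ) → (Fin k → ℂ) → ℂ)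
    (hf : ∀ w, f w = g (ph w.1) (ph w.2)) :
    ∑ w, f w = ∑ w : (Fin k → Fin 4) × (Fin k → Fin 4), g (ph w.1) (Complex.I • ph w.2) := by
  rw [← Equiv.sum_comp ((Equiv.refl (Fin k → Fin 4)).prodCongr
    (Equiv.addRight (fun _ : Fin k => (1 : Fin 4)))) f]
  refine Finset.sum_congr rfl fun w _ => ?_
  rw [hf]
  show g (ph w.1) (ph (w.2 + fun _ => 1)) = _
  rw [t2lphase_shift]

private theorem t2lphase_odd {k : ℕ} (g : (Fin k → ℂ) → (Fin k → ℂ) → ℂ) (c : ℂ) (hc : c ≠ 1)
    (hg : ∀ x y, g x (Complex.I • y) = c * g x y) :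
    ∑ w : (Fin k → Fin 4) × (Fin k → Fin 4), g (ph w.1) (ph w.2) = 0 := by
  have h := t2lphase_shift_sum (fun w : (Fin k → Fin 4) × (Fin k → Fin 4) => g (ph w.1) (ph w.2)) g
    (fun _ => rfl)
  simp only [hg] at h
  rw [← Finset.mul_sum] at h
  have h2 : (c - 1) * ∑ w : (Fin k → Fin 4) × (Fin k → Fin 4), g (ph w.1) (ph w.2) = 0 := by
    rw [sub_mul, one_mul, ← h, sub_self]
  exact (mul_eq_zero.1 h2).resolve_left (sub_ne_zero.2 hc)

private theorem t2lphase_rk_add_left {k : ℕ} (x y z : Fin k → ℂ) :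
    rk (x + y) z = rk x z + rk y z := by
  ext i j
  simp only [rk, Matrix.of_apply, Matrix.add_apply, Pi.add_apply, add_mul]

private theorem t2lphase_rk_add_right {k : ℕ} (x y z : Fin k → ℂ) :
    rk x (y + z) = rk x y + rk x z := by
  ext i j
  simp only [rk, Matrix.of_apply, Matrix.add_apply, Pi.add_apply, star_add, mul_add]

private theorem t2lphase_rk_smul_left {k : ℕ} (c : ℂ) (x y : Fin k → ℂ) :
    rk (c • x) y = c • rk x y := by
  ext i j
  simp only [rk, Matrix.of_apply, Matrix.smul_apply, Pi.smul_apply, smul_eq_mul, mul_assoc]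

private theorem t2lphase_rk_smul_right {k : ℕ} (c : ℂ) (x y : Fin k → ℂ) :
    rk x (c • y) = star c • rk x y := by
  ext i j
  simp only [rk, Matrix.of_apply, Matrix.smul_apply, Pi.smul_apply, smul_eq_mul, star_mul']
  ring

private theorem t2lphase_rk_II {k : ℕ} (y : Fin k → ℂ) :
    rk (Complex.I • y) (Complex.I • y) = rk y y := by
  rw [t2lphase_rk_smul_left, t2lphase_rk_smul_right, smul_smul]
  have : Complex.I * star Complex.I = 1 := by
    rw [show star Complex.I = -Complex.I from Complex.conj_I]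
    rw [mul_neg, Complex.I_mul_I, neg_neg]
  rw [this, one_smul]

private theorem t2lphase_card {k : ℕ} : (Fintype.card (Fin k → Fin 4) : ℂ) = 4 ^ k := by
  simp

private theorem t2lphase_sum_fst {k : ℕ} (f : (Fin k → Fin 4) → ℂ) :
    ∑ w : (Fin k → Fin 4) × (Fin k → Fin 4), f w.1 = 4 ^ k * ∑ e, f e := by
  rw [Fintype.sum_prod_type, Finset.mul_sum]
  refine Finset.sum_congr rfl fun e _ => ?_
  simp only [Finset.sum_const, nsmul_eq_mul, Finset.card_univ, t2lphase_card]

private theorem t2lphase_sum_snd {k : ℕ} (f : (Fin k → Fin 4) → ℂ) :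
    ∑ w : (Fin k → Fin 4) × (Fin k → Fin 4), f w.2 = 4 ^ k * ∑ e, f e := by
  rw [Fintype.sum_prod_type]
  simp only [Finset.sum_const, nsmul_eq_mul, Finset.card_univ, t2lphase_card]

private theorem t2lphase_sAA {k : ℕ}
    (L : Matrix (Fin k) (Fin k) ℂ →ₗ[ℂ] Matrix (Fin k) (Fin k) ℂ →ₗ[ℂ] ℂ) :
    ∑ w : (Fin k → Fin 4) × (Fin k → Fin 4), L (rk (ph w.1) (ph w.1)) (rk (ph w.1) (ph w.1)) =
    (4 ^ k * 4 ^ k) * (L 1 1 + ∑ i, ∑ j, L (Matrix.single i j 1) (Matrix.single j i 1) -
      ∑ i, L (Matrix.single i i 1) (Matrix.single i i 1)) := by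
  rw [t2lphase_avg L (fun w : (Fin k → Fin 4) × (Fin k → Fin 4) => ph w.1) (fun w => ph w.1)
    (fun w => ph w.1) (fun w => ph w.1), ← t2lphase_AA]
  refine Finset.sum_congr rfl fun i _ => Finset.sum_congr rfl fun j _ =>
    Finset.sum_congr rfl fun p _ => Finset.sum_congr rfl fun q _ => ?_
  congr 1
  rw [t2lphase_sum_fst (fun e => ph e i * star (ph e j) * (ph e p * star (ph e q))), t2lphase_four]
  ring

private theorem t2lphase_sBB {k : ℕ}
    (L : Matrix (Fin k) (Fin k) ℂ →ₗ[ℂ] Matrix (Fin k) (Fin k) ℂ →ₗ[ℂ] ℂ) :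
    ∑ w : (Fin k → Fin 4) × (Fin k → Fin 4), L (rk (ph w.2) (ph w.2)) (rk (ph w.2) (ph w.2)) =
    (4 ^ k * 4 ^ k) * (L 1 1 + ∑ i, ∑ j, L (Matrix.single i j 1) (Matrix.single j i 1) -
      ∑ i, L (Matrix.single i i 1) (Matrix.single i i 1)) := by
  rw [t2lphase_avg L (fun w : (Fin k → Fin 4) × (Fin k → Fin 4) => ph w.2) (fun w => ph w.2)
    (fun w => ph w.2) (fun w => ph w.2), ← t2lphase_AA]
  refine Finset.sum_congr rfl fun i _ => Finset.sum_congr rfl fun j _ =>
    Finset.sum_congr rfl fun p _ => Finset.sum_congr rfl fun q _ => ?_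
  congr 1
  rw [t2lphase_sum_snd (fun e => ph e i * star (ph e j) * (ph e p * star (ph e q))), t2lphase_four]
  ring

private theorem t2lphase_sBA {k : ℕ}
    (L : Matrix (Fin k) (Fin k) ℂ →ₗ[ℂ] Matrix (Fin k) (Fin k) ℂ →ₗ[ℂ] ℂ) :
    ∑ w : (Fin k → Fin 4) × (Fin k → Fin 4), L (rk (ph w.2) (ph w.2)) (rk (ph w.1) (ph w.1)) =
    (4 ^ k * 4 ^ k) * L 1 1 := by
  rw [← Equiv.sum_comp (Equiv.prodComm (Fin k → Fin 4) (Fin k → Fin 4)), ← t2lphase_pow]
  exact phase_cross L

private theorem t2lphase_sPQ {k : ℕ}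
    (L : Matrix (Fin k) (Fin k) ℂ →ₗ[ℂ] Matrix (Fin k) (Fin k) ℂ →ₗ[ℂ] ℂ) :
    ∑ w : (Fin k → Fin 4) × (Fin k → Fin 4), L (rk (ph w.1) (ph w.2)) (rk (ph w.2) (ph w.1)) =
    (4 ^ k * 4 ^ k) * ∑ i, ∑ j, L (Matrix.single i j 1) (Matrix.single j i 1) := by
  rw [t2lphase_avg L (fun w : (Fin k → Fin 4) × (Fin k → Fin 4) => ph w.1) (fun w => ph w.2)
    (fun w => ph w.2) (fun w => ph w.1)]
  have h : ∀ i j p q : Fin k, ∑ w : (Fin k → Fin 4) × (Fin k → Fin 4),
      (ph w.1 i * star (ph w.2 j)) * (ph w.2 p * star (ph w.1 q)) =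
      (4 ^ k * 4 ^ k) * ((if i = q then 1 else 0) * (if p = j then 1 else 0)) := by
    intro i j p q
    have h1 : ∀ w : (Fin k → Fin 4) × (Fin k → Fin 4),
      (ph w.1 i * star (ph w.2 j)) * (ph w.2 p * star (ph w.1 q)) =
      (ph w.1 i * star (ph w.1 q)) * (ph w.2 p * star (ph w.2 j)) := fun w => by ring
    rw [Finset.sum_congr rfl fun w _ => h1 w, Fintype.sum_prod_type]
    simp only
    simp only [← Finset.mul_sum]
    rw [← Finset.sum_mul, t2lphase_two, t2lphase_two]
    split_ifs <;> ring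
  simp only [h]
  rw [Finset.mul_sum]
  refine Finset.sum_congr rfl fun i _ => ?_
  rw [Finset.mul_sum]
  refine Finset.sum_congr rfl fun j _ => ?_
  rw [Finset.sum_eq_single j, Finset.sum_eq_single i]
  · simp
  · intro q _ hq
    rw [if_neg (c := i = q) (fun h => hq h.symm)]
    ring
  · simp
  · intro p _ hp
    rw [if_neg (c := p = j) hp]
    simp
  · simp

private theorem t2lphase_sQP {k : ℕ}
    (L : Matrix (Fin k) (Fin k) ℂ →ₗ[ℂ] Matrix (Fin k) (Fin k) ℂ →ₗ[ℂ] ℂ) :
    ∑ w : (Fin k → Fin 4) × (Fin k → Fin 4), L (rk (ph w.2) (ph w.1)) (rk (ph w.1) (ph w.2)) =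
    (4 ^ k * 4 ^ k) * ∑ i, ∑ j, L (Matrix.single i j 1) (Matrix.single j i 1) := by
  rw [← Equiv.sum_comp (Equiv.prodComm (Fin k → Fin 4) (Fin k → Fin 4))]
  exact t2lphase_sPQ L

private theorem t2lphase_I_ne : Complex.I ≠ 1 := by
  intro h
  have := congrArg Complex.re h
  simp at this

private theorem t2lphase_sI_ne : star Complex.I ≠ 1 := by
  intro h
  have := congrArg Complex.re h
  simp at this

private theorem t2lphase_II : Complex.I * Complex.I ≠ 1 := by
  rw [Complex.I_mul_I]
  norm_num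

private theorem t2lphase_sII : star Complex.I * star Complex.I ≠ 1 := by
  rw [← star_mul', Complex.I_mul_I]
  norm_num

/-- `E[(A+B+C) (x) (A+B-C)] = 4 - 2 Dg` -/
theorem phase_rot {k : ℕ}
    (L : Matrix (Fin k) (Fin k) ℂ →ₗ[ℂ] Matrix (Fin k) (Fin k) ℂ →ₗ[ℂ] ℂ) :
    ∑ w : (Fin k → Fin 4) × (Fin k → Fin 4),
      L (rk (ph w.1 + ph w.2) (ph w.1 + ph w.2)) (rk (ph w.1 - ph w.2) (ph w.1 - ph w.2)) =
      (2 : ℂ) ^ (4 * k) * (4 * L 1 1 -
        2 * ∑ i : Fin k, L (Matrix.single i i 1) (Matrix.single i i 1)) := by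
  have hneg : ∀ x y : Fin k → ℂ, rk (x - y) (x - y) = rk x x + rk y y - (rk x y + rk y x) := by
    intro x y
    ext i j
    simp only [rk, Matrix.of_apply, Matrix.add_apply, Matrix.sub_apply, Pi.sub_apply, star_sub]
    ring
  have hpos : ∀ x y : Fin k → ℂ, rk (x + y) (x + y) = rk x x + rk y y + (rk x y + rk y x) := by
    intro x y
    ext i j
    simp only [rk, Matrix.of_apply, Matrix.add_apply, Pi.add_apply, star_add]
    ring
  have hexp : ∀ x y : Fin k → ℂ, L (rk (x + y) (x + y)) (rk (x - y) (x - y)) =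
      (L (rk x x) (rk x x) + L (rk y y) (rk y y) + L (rk x x) (rk y y) + L (rk y y) (rk x x) -
        L (rk x y) (rk y x) - L (rk y x) (rk x y)) +
      (-(L (rk x x + rk y y) (rk x y)) - L (rk x x + rk y y) (rk y x) +
        L (rk x y) (rk x x + rk y y) + L (rk y x) (rk x x + rk y y) -
        L (rk x y) (rk x y) - L (rk y x) (rk y x)) := by
    intro x y
    rw [hneg, hpos]
    simp only [map_add, map_sub, LinearMap.add_apply]
    ring
  have o1 := t2lphase_odd (k := k) (fun x y => L (rk x x + rk y y) (rk x y)) (star Complex.I)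
    t2lphase_sI_ne (fun x y => by
      simp only [t2lphase_rk_II]
      rw [t2lphase_rk_smul_right, map_smul, smul_eq_mul])
  have o2 := t2lphase_odd (k := k) (fun x y => L (rk x x + rk y y) (rk y x)) Complex.I
    t2lphase_I_ne (fun x y => by
      simp only [t2lphase_rk_II]
      rw [t2lphase_rk_smul_left, map_smul, smul_eq_mul])
  have o3 := t2lphase_odd (k := k) (fun x y => L (rk x y) (rk x x + rk y y)) (star Complex.I)
    t2lphase_sI_ne (fun x y => by
      simp only [t2lphase_rk_II]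
      rw [t2lphase_rk_smul_right, map_smul, LinearMap.smul_apply, smul_eq_mul])
  have o4 := t2lphase_odd (k := k) (fun x y => L (rk y x) (rk x x + rk y y)) Complex.I
    t2lphase_I_ne (fun x y => by
      simp only [t2lphase_rk_II]
      rw [t2lphase_rk_smul_left, map_smul, LinearMap.smul_apply, smul_eq_mul])
  have o5 := t2lphase_odd (k := k) (fun x y => L (rk x y) (rk x y)) (star Complex.I * star Complex.I)
    t2lphase_sII (fun x y => by
      rw [t2lphase_rk_smul_right, map_smul, map_smul, LinearMap.smul_apply, smul_eq_mul,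
        smul_eq_mul, mul_assoc])
  have o6 := t2lphase_odd (k := k) (fun x y => L (rk y x) (rk y x)) (Complex.I * Complex.I)
    t2lphase_II (fun x y => by
      rw [t2lphase_rk_smul_left, map_smul, map_smul, LinearMap.smul_apply, smul_eq_mul,
        smul_eq_mul, mul_assoc])
  simp only [hexp]
  simp only [Finset.sum_add_distrib, Finset.sum_sub_distrib, Finset.sum_neg_distrib]
  rw [o1, o2, o3, o4, o5, o6, t2lphase_sAA, t2lphase_sBB, phase_cross, t2lphase_sBA,
    t2lphase_sPQ, t2lphase_sQP, t2lphase_pow]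
  ring

/-- the trace of `a a^*` is `k` -/
theorem trace_rk {k : ℕ} (e : Fin k → Fin 4) : (rk (ph e) (ph e)).trace = k := by
  have h : ∀ i, ph e i * star (ph e i) = 1 := by
    intro i
    show ph e i * (starRingEnd ℂ) (ph e i) = 1
    rw [Complex.mul_conj, Complex.normSq_eq_norm_sq]
    simp [ph]
  rw [Matrix.trace]
  simp only [Matrix.diag_apply, rk, Matrix.of_apply, h]
  simp

/-- `(x y^*)(z w^*) = (y^* z) x w^*`; in particular -/
theorem rk_mul_rk {k : ℕ} (e e' e'' : Fin k → Fin 4) :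
    rk (ph e) (ph e') * rk (ph e') (ph e'') = (k : ℂ) • rk (ph e) (ph e'') := by
  have h : ∀ i, ph e' i * star (ph e' i) = 1 := by
    intro i
    show ph e' i * (starRingEnd ℂ) (ph e' i) = 1
    rw [Complex.mul_conj, Complex.normSq_eq_norm_sq]
    simp [ph]
  ext i j
  simp only [rk, Matrix.mul_apply, Matrix.of_apply, Matrix.smul_apply, smul_eq_mul]
  have h2 : ∀ x, ph e i * star (ph e' x) * (ph e' x * star (ph e'' j)) =
      ph e i * star (ph e'' j) := by
    intro x
    calc ph e i * star (ph e' x) * (ph e' x * star (ph e'' j))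
        = (ph e' x * star (ph e' x)) * (ph e i * star (ph e'' j)) := by ring
      _ = _ := by rw [h, one_mul]
  simp only [h2]
  simp

theorem star_rk {k : ℕ} (x y : Fin k → ℂ) : star (rk x y) = rk y x := by
  ext i j
  simp only [rk, Matrix.star_apply, Matrix.of_apply, star_mul', star_star]
  ring

end P095F
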