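import Mathlib.Topology.Order.Hom.Esakia
import Vale.Agent.Lib.P095F.Defs

/-!
# P095F, part T2L: definitions

`D2 E` = 2 x 2 matrices over the C*-algebra `E` with the entrywise action; the functions `HH`, `phi`,
`gg`; the families `Fam` (output of the matrix part A) and `CoreOut` (output of the analytic part B).
-/

open scoped ENNReal Topology

namespace P095F

universe u v

/-! ### 2 x 2 matrices -/

section M2

/-- 2 x 2 matrices over `E` (a type synonym of `CStarMatrix (Fin 2) (Fin 2) E`; all operations come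
from the C*-algebra structure) -/
def D2 (E : Type u) : Type u := CStarMatrix (Fin 2) (Fin 2) E

/-- the entries -/
def ent {E : Type u} (x : D2 E) (i j : Fin 2) : E := (show CStarMatrix (Fin 2) (Fin 2) E from x) i j

/-- a matrix from its entries -/
def mk2 {E : Type u} (a b c d : E) : D2 E :=
  (CStarMatrix.ofMatrix !![a, b; c, d] : CStarMatrix (Fin 2) (Fin 2) E)

variable {E : Type u} [CStarAlgebra E] [PartialOrder E] [StarOrderedRing E]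

noncomputable instance : CStarAlgebra (D2 E) :=
  inferInstanceAs (CStarAlgebra (CStarMatrix (Fin 2) (Fin 2) E))

noncomputable instance : PartialOrder (D2 E) := CStarAlgebra.spectralOrder _

instance : StarOrderedRing (D2 E) := CStarAlgebra.spectralOrderedRing _

omit [CStarAlgebra E] [PartialOrder E] [StarOrderedRing E] in
theorem D2.ext {x y : D2 E} (h : ∀ i j, ent x i j = ent y i j) : x = y := CStarMatrix.ext h

omit [CStarAlgebra E] [PartialOrder E] [StarOrderedRing E] in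
@[simp] theorem ent_mk2_00 (a b c d : E) : ent (mk2 a b c d) 0 0 = a := rfl
omit [CStarAlgebra E] [PartialOrder E] [StarOrderedRing E] in
@[simp] theorem ent_mk2_01 (a b c d : E) : ent (mk2 a b c d) 0 1 = b := rfl
omit [CStarAlgebra E] [PartialOrder E] [StarOrderedRing E] in
@[simp] theorem ent_mk2_10 (a b c d : E) : ent (mk2 a b c d) 1 0 = c := rfl
omit [CStarAlgebra E] [PartialOrder E] [StarOrderedRing E] in
@[simp] theorem ent_mk2_11 (a b c d : E) : ent (mk2 a b c d) 1 1 = d := rfl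

theorem ent_add (x y : D2 E) (i j : Fin 2) : ent (x + y) i j = ent x i j + ent y i j := rfl
theorem ent_sub (x y : D2 E) (i j : Fin 2) : ent (x - y) i j = ent x i j - ent y i j := rfl
theorem ent_neg (x : D2 E) (i j : Fin 2) : ent (-x) i j = -ent x i j := rfl
theorem ent_zero (i j : Fin 2) : ent (0 : D2 E) i j = 0 := rfl
theorem ent_smul (c : ℂ) (x : D2 E) (i j : Fin 2) : ent (c • x) i j = c • ent x i j := rfl
theorem ent_star (x : D2 E) (i j : Fin 2) : ent (star x) i j = star (ent x j i) := rfl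

theorem ent_one (i j : Fin 2) : ent (1 : D2 E) i j = if i = j then 1 else 0 :=
  CStarMatrix.one_apply

theorem ent_mul (x y : D2 E) (i j : Fin 2) :
    ent (x * y) i j = ent x i 0 * ent y 0 j + ent x i 1 * ent y 1 j := by
  have h : ent (x * y) i j = ∑ l : Fin 2, ent x i l * ent y l j := CStarMatrix.mul_apply
  rw [h, Fin.sum_univ_two]

theorem ent_sum {ι : Type*} (s : Finset ι) (x : ι → D2 E) (i j : Fin 2) :
    ent (∑ a ∈ s, x a) i j = ∑ a ∈ s, ent (x a) i j := by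
  classical
  induction s using Finset.induction_on with
  | empty => rfl
  | insert a s ha ih => rw [Finset.sum_insert ha, Finset.sum_insert ha, ent_add, ih]

/-- entrywise action -/
noncomputable def act2 (σ : E ≃⋆ₐ[ℂ] E) : D2 E →⋆ₐ[ℂ] D2 E where
  toFun x := mk2 (σ (ent x 0 0)) (σ (ent x 0 1)) (σ (ent x 1 0)) (σ (ent x 1 1))
  map_one' := by
    refine D2.ext fun i j => ?_
    fin_cases i <;> fin_cases j <;> simp [ent_one]
  map_mul' x y := by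
    refine D2.ext fun i j => ?_
    fin_cases i <;> fin_cases j <;> simp [ent_mul]
  map_zero' := by
    refine D2.ext fun i j => ?_
    fin_cases i <;> fin_cases j <;> simp [ent_zero]
  map_add' x y := by
    refine D2.ext fun i j => ?_
    fin_cases i <;> fin_cases j <;> simp [ent_add]
  commutes' r := by
    refine D2.ext fun i j => ?_
    rw [Algebra.algebraMap_eq_smul_one]
    fin_cases i <;> fin_cases j <;> simp [ent_smul, ent_one]
  map_star' x := by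
    refine D2.ext fun i j => ?_
    fin_cases i <;> fin_cases j <;> simp [ent_star, map_star]

theorem ent_act2 (σ : E ≃⋆ₐ[ℂ] E) (x : D2 E) (i j : Fin 2) :
    ent (act2 σ x) i j = σ (ent x i j) := by
  fin_cases i <;> fin_cases j <;> rfl

/-- the (unnormalized) extension of a functional to the 2 x 2 matrices -/
noncomputable def tr2 (ψ : E →ₗ[ℂ] ℂ) : D2 E →ₗ[ℂ] ℂ where
  toFun x := ψ (ent x 0 0) + ψ (ent x 1 1)
  map_add' x y := by
    rw [ent_add, ent_add, map_add, map_add]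
    ring
  map_smul' r x := by
    rw [ent_smul, ent_smul, map_smul, map_smul, RingHom.id_apply, smul_add]

@[simp] theorem tr2_apply (ψ : E →ₗ[ℂ] ℂ) (x : D2 E) :
    tr2 ψ x = ψ (ent x 0 0) + ψ (ent x 1 1) := rfl

end M2

/-! ### the scalar functions -/

/-- the truncated level functions, `l < 2 ^ m` -/
noncomputable def HH (m l₀ l : ℕ) (s : ℝ) : ℝ :=
  if l < l₀ then 0 else max 0 (min 1 (2 ^ m * s - l))

/-- `0` on `(-∞, 1/8]`, `1` on `[1/4, ∞)` -/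
noncomputable def phi (s : ℝ) : ℝ := max 0 (min 1 (8 * s - 1))

/-- `min (8 s) 1` for `s ≥ 0` -/
noncomputable def gg (s : ℝ) : ℝ := max 0 (min 1 (8 * s))

/-! ### the elements attached to one matrix `Q` -/

section One

variable {E : Type u} [CStarAlgebra E] [PartialOrder E] [StarOrderedRing E]

/-- `r = q + p` -/
noncomputable def rr (Q : D2 E) : E := ent Q 0 0 + ent Q 1 1

/-- `v = phi(r) 2a phi(r)` -/
noncomputable def vv (Q : D2 E) : E := cfc phi (rr Q) * ((2 : ℂ) • ent Q 0 1) * cfc phi (rr Q)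

/-- `k = g(r)` -/
noncomputable def kk (Q : D2 E) : E := cfc gg (rr Q)

/-- `y = v^* v + v v^* - (1 - (1 - k)^2)` -/
noncomputable def yy (Q : D2 E) : E :=
  star (vv Q) * vv Q + vv Q * star (vv Q) - (1 - (1 - kk Q) * (1 - kk Q))

/-- `psi (|2 r^2 - r|)` -/
noncomputable def ab (ψ : E →ₗ[ℂ] ℂ) (Q : D2 E) : ℝ :=
  (ψ (cfc (fun s : ℝ => |2 * s ^ 2 - s|) (rr Q))).re

/-- the total error of `Q` -/
noncomputable def err (ψ : E →ₗ[ℂ] ℂ) (Q : D2 E) : ℝ :=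
  ab ψ Q + (ψ (ent Q 1 1 * ent Q 0 0)).re + (tr2 ψ (Q - Q * Q)).re

/-- size plus error -/
noncomputable def big (ψ : E →ₗ[ℂ] ℂ) (Q : D2 E) : ℝ := (ψ (rr Q)).re + err ψ Q

/-- `lam` is dominated by the two positive tracial functionals `psi1`, `psi0` -/
def Dom (lam ψ₁ ψ₀ : E →ₗ[ℂ] ℂ) : Prop :=
  ∀ x y : E, ‖lam (x * y)‖ ^ 2 ≤ (ψ₁ (x * star x)).re * (ψ₀ (star y * y)).re

end One

/-! ### the matrices -/

section Mat

variable {G : Type v} [Group G] {E : Type u} [CStarAlgebra E] [PartialOrder E] [StarOrderedRing E]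

/-- `Q 0 1 + Q 1 0` -/
noncomputable def mm (Q : D2 E) : E := ent Q 0 1 + ent Q 1 0

/-- the matrix `x y^*` -/
def rk {k : ℕ} (x y : Fin k → ℂ) : Matrix (Fin k) (Fin k) ℂ :=
  Matrix.of fun i j => x i * star (y j)

/-- the vector of phases -/
noncomputable def ph {k : ℕ} (e : Fin k → Fin 4) : Fin k → ℂ := fun i => Complex.I ^ (e i : ℕ)

/-- the projection `P_omega` -/
noncomputable def PP {k : ℕ} (j : Matrix (Fin k) (Fin k) ℂ →⋆ₐ[ℂ] E) (e e' : Fin k → Fin 4) :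
    D2 E :=
  mk2 ((2 * (k : ℂ))⁻¹ • j (rk (ph e) (ph e))) ((2 * (k : ℂ))⁻¹ • j (rk (ph e) (ph e')))
    ((2 * (k : ℂ))⁻¹ • j (rk (ph e') (ph e))) ((2 * (k : ℂ))⁻¹ • j (rk (ph e') (ph e')))

/-- the average `b_omega` over the finite set `K` -/
noncomputable def bb (γ : G →* (E ≃⋆ₐ[ℂ] E)) (K : Finset G) {k : ℕ}
    (j : Matrix (Fin k) (Fin k) ℂ →⋆ₐ[ℂ] E) (e e' : Fin k → Fin 4) : D2 E :=
  ((K.card : ℂ)⁻¹) • ∑ g ∈ K, act2 (γ g) (PP j e e')

/-- the index set: phases and levels -/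
abbrev Idx (k m : ℕ) : Type := ((Fin k → Fin 4) × (Fin k → Fin 4)) × Fin (2 ^ m)

/-- the family `Q_{omega, l} = H_l(b_omega)` -/
noncomputable def QQ (γ : G →* (E ≃⋆ₐ[ℂ] E)) (K : Finset G) {k : ℕ} (m l₀ : ℕ)
    (j : Matrix (Fin k) (Fin k) ℂ →⋆ₐ[ℂ] E) (i : Idx k m) : D2 E :=
  cfc (HH m l₀ (i.2 : ℕ)) (bb γ K j i.1.1 i.1.2)

end Mat

/-! ### families -/

section Families

variable {G : Type v} [Group G] {E : Type u} [CStarAlgebra E] [PartialOrder E] [StarOrderedRing E]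

/-- output of the matrix part -/
structure Fam (γ : G →* (E ≃⋆ₐ[ℂ] E)) (K₀ : Finset G) (t ε : ℝ) {I : Type} [Fintype I]
    (Q : I → D2 E) : Prop where
  nonneg : ∀ i, 0 ≤ Q i
  le_one : ∀ i, Q i ≤ 1
  sym : ∃ σ : Equiv.Perm I, ∀ i, ent (Q (σ i)) 0 0 = ent (Q i) 0 0 ∧
    ent (Q (σ i)) 1 1 = ent (Q i) 1 1 ∧ ent (Q (σ i)) 0 1 = -ent (Q i) 0 1
  lo : ∀ ψ : E →ₗ[ℂ] ℂ, PTr ψ →
    Fintype.card I * (2 * t * (ψ 1).re) ≤ ∑ i, (ψ (rr (Q i))).re
  hi : ∀ ψ : E →ₗ[ℂ] ℂ, PTr ψ →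
    ∑ i, (ψ (rr (Q i))).re ≤ Fintype.card I * (4 * t * (ψ 1).re)
  proj : ∀ ψ : E →ₗ[ℂ] ℂ, PTr ψ →
    ∑ i, (tr2 ψ (Q i - Q i * Q i)).re ≤ Fintype.card I * (ε * t * (ψ 1).re)
  cross : ∀ ψ : E →ₗ[ℂ] ℂ, PTr ψ →
    ∑ i, (ψ (ent (Q i) 1 1 * ent (Q i) 0 0)).re ≤ Fintype.card I * (ε * t * (ψ 1).re)
  abs : ∀ ψ : E →ₗ[ℂ] ℂ, PTr ψ →
    ∑ i, ab ψ (Q i) ≤ Fintype.card I * (ε * t * (ψ 1).re)
  inv : ∀ ψ : E →ₗ[ℂ] ℂ, PTr ψ → ∀ h ∈ K₀,
    ∑ i, sq2 (tr2 ψ) (act2 (γ h) (Q i) - Q i) ≤ Fintype.card I * (ε * t * (ψ 1).re)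

/-- `v^* v + v v^* - (1 - (1 - k)^2)` -/
noncomputable def yOf (v k : E) : E := star v * v + v * star v - (1 - (1 - k) * (1 - k))

/-- output of the analytic part -/
structure CoreOut (γ : G →* (E ≃⋆ₐ[ℂ] E)) (K₀ : Finset G) (ρ t : ℝ) {I : Type} [Fintype I]
    (v k : I → E) : Prop where
  k_sa : ∀ i, star (k i) = k i
  k_norm : ∀ i, ‖k i‖ ≤ 1
  k_norm' : ∀ i, ‖1 - k i‖ ≤ 1
  v_norm : ∀ i, ‖v i‖ ≤ 1
  kv : ∀ i, k i * v i = v i
  vk : ∀ i, v i * k i = v i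
  sum_v : ∑ i, v i = 0
  lo : ∀ ψ : E →ₗ[ℂ] ℂ, PTr ψ →
    Fintype.card I * (t * (ψ 1).re) ≤ ∑ i, (ψ (1 - (1 - k i) * (1 - k i))).re
  hi : ∀ ψ : E →ₗ[ℂ] ℂ, PTr ψ →
    ∑ i, (ψ (k i)).re ≤ Fintype.card I * (32 * t * (ψ 1).re)
  nil : ∀ ψ : E →ₗ[ℂ] ℂ, PTr ψ →
    ∑ i, sq2 ψ (v i * v i) ≤ Fintype.card I * (ρ * t * (ψ 1).re)
  y_sq : ∀ ψ : E →ₗ[ℂ] ℂ, PTr ψ →
    ∑ i, sq2 ψ (yOf (v i) (k i)) ≤ Fintype.card I * (ρ * t * (ψ 1).re)
  y_mean : ∀ lam ψ₁ ψ₀ : E →ₗ[ℂ] ℂ, PTr ψ₁ → PTr ψ₀ → Dom lam ψ₁ ψ₀ →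
    ‖∑ i, lam (yOf (v i) (k i))‖ ≤ Fintype.card I * (ρ * t * (√(ψ₁ 1).re * √(ψ₀ 1).re))
  inv_v : ∀ ψ : E →ₗ[ℂ] ℂ, PTr ψ → ∀ h ∈ K₀,
    ∑ i, sq2 ψ (γ h (v i) - v i) ≤ Fintype.card I * (ρ * t * (ψ 1).re)
  inv_k : ∀ ψ : E →ₗ[ℂ] ℂ, PTr ψ → ∀ h ∈ K₀,
    ∑ i, sq2 ψ (γ h (k i) - k i) ≤ Fintype.card I * (ρ * t * (ψ 1).re)
  mean_k : ∀ lam ψ₁ ψ₀ : E →ₗ[ℂ] ℂ, PTr ψ₁ → PTr ψ₀ → Dom lam ψ₁ ψ₀ → ∀ h ∈ K₀,
    ‖∑ i, lam (γ h (k i) - k i)‖ ≤ Fintype.card I * (ρ * t * (√(ψ₁ 1).re * √(ψ₀ 1).re))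

end Families

end P095F
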