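import Mathlib.Analysis.SpecialFunctions.ContinuousFunctionalCalculus.Rpow.Order
import Vale.Agent.Lib.P095F.T2LDefs
import Vale.Agent.Lib.P095F.PTrBasic

/-!
# P095F, part T2L: square roots under a trace (T1.2, T1.3 of `PROOF2.md`)
-/

open scoped ENNReal Topology

namespace P095F

universe u

variable {E : Type u} [CStarAlgebra E] [PartialOrder E] [StarOrderedRing E] {ψ : E →ₗ[ℂ] ℂ}

private theorem t2lsqrt_eq {x : E} (hx : 0 ≤ x) : cfc Real.sqrt x = CFC.sqrt x := by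
  rw [CFC.sqrt_eq_real_sqrt x hx, cfcₙ_eq_cfc]

private theorem t2lsqrt_mono {x y : E} (hx : 0 ≤ x) (hxy : x ≤ y) :
    cfc Real.sqrt x ≤ cfc Real.sqrt y := by
  rw [t2lsqrt_eq hx, t2lsqrt_eq (hx.trans hxy)]
  exact CFC.sqrt_le_sqrt x y hxy

private theorem t2lsqrt_mul_self {x : E} (hx : 0 ≤ x) :
    cfc Real.sqrt x * cfc Real.sqrt x = x := by
  rw [t2lsqrt_eq hx]
  exact CFC.sqrt_mul_sqrt_self x hx

private theorem t2lsqrt_nonneg (x : E) : 0 ≤ cfc Real.sqrt x :=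
  cfc_nonneg fun s _ => Real.sqrt_nonneg s

private theorem t2lsqrt_spec {x : E} (hx : 0 ≤ x) {s : ℝ} (hs : s ∈ spectrum ℝ x) : 0 ≤ s :=
  spectrum_nonneg_of_nonneg hx hs

private theorem t2lsqrt_contA {x : E} (hx : 0 ≤ x) {κ : ℝ} (hκ : 0 < κ) :
    ContinuousOn (fun s : ℝ => (√(s + κ))⁻¹) (spectrum ℝ x) := by
  refine ContinuousOn.inv₀ (by fun_prop) fun s hs => ?_
  have h1 := t2lsqrt_spec hx hs
  exact (Real.sqrt_pos.2 (by linarith)).ne'

private theorem t2lsqrt_AB {x : E} (hx : 0 ≤ x) {κ : ℝ} (hκ : 0 < κ) :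
    cfc (fun s : ℝ => √(s + κ)) x * cfc (fun s : ℝ => (√(s + κ))⁻¹) x = 1 := by
  have hsa : IsSelfAdjoint x := IsSelfAdjoint.of_nonneg hx
  rw [← cfc_mul (fun s : ℝ => √(s + κ)) (fun s : ℝ => (√(s + κ))⁻¹) x (by fun_prop)
    (t2lsqrt_contA hx hκ)]
  rw [cfc_congr (g := fun _ : ℝ => (1 : ℝ)), cfc_const_one ℝ x hsa]
  intro s hs
  have h1 := t2lsqrt_spec hx hs
  exact mul_inv_cancel₀ (Real.sqrt_pos.2 (by linarith)).ne'

private theorem t2lsqrt_BA {x : E} (hx : 0 ≤ x) {κ : ℝ} (hκ : 0 < κ) :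
    cfc (fun s : ℝ => (√(s + κ))⁻¹) x * cfc (fun s : ℝ => √(s + κ)) x = 1 := by
  rw [(cfc_commute_cfc _ _ x).eq]
  exact t2lsqrt_AB hx hκ

/-- `sqrt (x + κ)` as a unit -/
private noncomputable def t2lsqrt_unit {x : E} (hx : 0 ≤ x) {κ : ℝ} (hκ : 0 < κ) : Eˣ :=
  ⟨cfc (fun s : ℝ => √(s + κ)) x, cfc (fun s : ℝ => (√(s + κ))⁻¹) x, t2lsqrt_AB hx hκ,
    t2lsqrt_BA hx hκ⟩

private theorem t2lsqrt_A_nonneg (x : E) (κ : ℝ) : 0 ≤ cfc (fun s : ℝ => √(s + κ)) x :=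
  cfc_nonneg fun _ _ => Real.sqrt_nonneg _

private theorem t2lsqrt_A_eq {x : E} (hx : 0 ≤ x) {κ : ℝ} (hκ : 0 < κ) :
    cfc (fun s : ℝ => √(s + κ)) x = CFC.sqrt (x + algebraMap ℝ E κ) := by
  have hsa : IsSelfAdjoint x := IsSelfAdjoint.of_nonneg hx
  symm
  refine CFC.sqrt_unique ?_ (t2lsqrt_A_nonneg x κ)
  rw [← cfc_mul (fun s : ℝ => √(s + κ)) (fun s : ℝ => √(s + κ)) x (by fun_prop) (by fun_prop)]
  have h1 : cfc (fun s : ℝ => √(s + κ) * √(s + κ)) x = cfc (fun s : ℝ => s + κ) x := by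
    refine cfc_congr fun s hs => ?_
    have h1 := t2lsqrt_spec hx hs
    exact Real.mul_self_sqrt (by linarith)
  rw [h1, cfc_add_const κ (fun s : ℝ => s) x (by fun_prop), cfc_id' ℝ x]

private theorem t2lsqrt_B_anti {x z : E} (hx : 0 ≤ x) (hz : 0 ≤ z) (hxz : x ≤ z) {κ : ℝ}
    (hκ : 0 < κ) :
    cfc (fun s : ℝ => (√(s + κ))⁻¹) z ≤ cfc (fun s : ℝ => (√(s + κ))⁻¹) x := by
  refine CStarAlgebra.inv_le_inv (a := t2lsqrt_unit hx hκ) (b := t2lsqrt_unit hz hκ)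
    (t2lsqrt_A_nonneg x κ) ?_
  change cfc (fun s : ℝ => √(s + κ)) x ≤ cfc (fun s : ℝ => √(s + κ)) z
  rw [t2lsqrt_A_eq hx hκ, t2lsqrt_A_eq hz hκ]
  exact CFC.sqrt_le_sqrt _ _ (add_le_add_left hxz _)

private theorem t2lsqrt_xB_eq {x : E} (hx : 0 ≤ x) {κ : ℝ} (hκ : 0 < κ) :
    x * cfc (fun s : ℝ => (√(s + κ))⁻¹) x = cfc (fun s : ℝ => s * (√(s + κ))⁻¹) x := by
  have hsa : IsSelfAdjoint x := IsSelfAdjoint.of_nonneg hx
  rw [cfc_mul (fun s : ℝ => s) (fun s : ℝ => (√(s + κ))⁻¹) x (by fun_prop)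
    (t2lsqrt_contA hx hκ), cfc_id' ℝ x]

private theorem t2lsqrt_xB_le {x : E} (hx : 0 ≤ x) {κ : ℝ} (hκ : 0 < κ) :
    x * cfc (fun s : ℝ => (√(s + κ))⁻¹) x ≤ cfc Real.sqrt x := by
  rw [t2lsqrt_xB_eq hx hκ]
  refine cfc_mono (fun s hs => ?_) (continuousOn_id.mul (t2lsqrt_contA hx hκ)) (by fun_prop)
  have h1 := t2lsqrt_spec hx hs
  have h2 : 0 < √(s + κ) := Real.sqrt_pos.2 (by linarith)
  rw [← div_eq_mul_inv, div_le_iff₀ h2]
  calc s = √s * √s := (Real.mul_self_sqrt h1).symm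
    _ ≤ √s * √(s + κ) := mul_le_mul_of_nonneg_left (Real.sqrt_le_sqrt (by linarith))
        (Real.sqrt_nonneg s)

private theorem t2lsqrt_le_xB {x : E} (hx : 0 ≤ x) {κ : ℝ} (hκ : 0 < κ) :
    cfc Real.sqrt x ≤ x * cfc (fun s : ℝ => (√(s + κ))⁻¹) x + algebraMap ℝ E (√κ) := by
  have hc : ContinuousOn (fun s : ℝ => s * (√(s + κ))⁻¹) (spectrum ℝ x) :=
    continuousOn_id.mul (t2lsqrt_contA hx hκ)
  rw [t2lsqrt_xB_eq hx hκ, ← cfc_add_const (√κ) (fun s : ℝ => s * (√(s + κ))⁻¹) x hc]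
  refine cfc_mono (fun s hs => ?_) (by fun_prop) (hc.add continuousOn_const)
  have h1 := t2lsqrt_spec hx hs
  have h2 : 0 < √(s + κ) := Real.sqrt_pos.2 (by linarith)
  have h3 : √s ≤ s * (√(s + κ))⁻¹ + √κ := by
    rcases le_total √s √κ with h | h
    · have h4 : 0 ≤ s * (√(s + κ))⁻¹ := by positivity
      linarith
    · have h5 : √(s + κ) ≤ √s + √κ := by
        rw [Real.sqrt_le_left (by positivity)]
        have e1 := Real.sq_sqrt h1
        have e2 := Real.sq_sqrt hκ.le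
        nlinarith [mul_nonneg (Real.sqrt_nonneg s) (Real.sqrt_nonneg κ)]
      have h6 : √s - √κ ≤ s * (√(s + κ))⁻¹ := by
        rw [← div_eq_mul_inv, le_div_iff₀ h2]
        calc (√s - √κ) * √(s + κ) ≤ (√s - √κ) * (√s + √κ) :=
              mul_le_mul_of_nonneg_left h5 (by linarith)
          _ = √s ^ 2 - √κ ^ 2 := by ring
          _ = s - κ := by rw [Real.sq_sqrt h1, Real.sq_sqrt hκ.le]
          _ ≤ s := by linarith
      linarith
  exact h3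

/-- T1.2 -/
theorem re_sqrt_add_le (hψ : PTr ψ) {x y : E} (hx : 0 ≤ x) (hy : 0 ≤ y) :
    (ψ (cfc Real.sqrt (x + y))).re ≤ (ψ (cfc Real.sqrt x)).re + (ψ (cfc Real.sqrt y)).re := by
  have hz : 0 ≤ x + y := add_nonneg hx hy
  have key : ∀ κ : ℝ, 0 < κ → (ψ (cfc Real.sqrt (x + y))).re ≤
      (ψ (cfc Real.sqrt x)).re + (ψ (cfc Real.sqrt y)).re + √κ * (ψ 1).re := by
    intro κ hκ
    have h1 := hψ.mono (t2lsqrt_le_xB hz hκ)
    rw [map_add, Complex.add_re, map_algebraMap_re, add_mul, map_add, Complex.add_re] at h1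
    have h2 := hψ.mul_mono_right hx (t2lsqrt_B_anti hx hz (le_add_of_nonneg_right hy) hκ)
    have h3 := hψ.mul_mono_right hy (t2lsqrt_B_anti hy hz (le_add_of_nonneg_left hx) hκ)
    have h4 := hψ.mono (t2lsqrt_xB_le hx hκ)
    have h5 := hψ.mono (t2lsqrt_xB_le hy hκ)
    linarith
  have h0 := hψ.one_re
  refine le_of_forall_pos_le_add fun ε hε => ?_
  have h1 : 0 < ε / ((ψ 1).re + 1) := by positivity
  have h2 := key ((ε / ((ψ 1).re + 1)) ^ 2) (by positivity)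
  rw [Real.sqrt_sq h1.le] at h2
  have h3 : ε / ((ψ 1).re + 1) * (ψ 1).re ≤ ε := by
    rw [div_mul_eq_mul_div, div_le_iff₀ (by linarith)]
    nlinarith
  linarith

/-- T1.2 for finite sums -/
theorem re_sqrt_sum_le (hψ : PTr ψ) {ι : Type*} (s : Finset ι) (x : ι → E)
    (hx : ∀ i ∈ s, 0 ≤ x i) :
    (ψ (cfc Real.sqrt (∑ i ∈ s, x i))).re ≤ ∑ i ∈ s, (ψ (cfc Real.sqrt (x i))).re := by
  classical
  induction s using Finset.induction_on with
  | empty =>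
    rw [Finset.sum_empty, Finset.sum_empty, t2lsqrt_eq le_rfl, CFC.sqrt_zero, map_zero,
      Complex.zero_re]
  | insert a s ha ih =>
    rw [Finset.sum_insert ha, Finset.sum_insert ha]
    have h1 : 0 ≤ x a := hx a (Finset.mem_insert_self a s)
    have h2 : ∀ i ∈ s, 0 ≤ x i := fun i hi => hx i (Finset.mem_insert_of_mem hi)
    have h3 := re_sqrt_add_le hψ h1 (Finset.sum_nonneg h2)
    have h4 := ih h2
    linarith

/-- T1.3 -/
theorem sq2_sqrt_sub_le (hψ : PTr ψ) {c x : E} (hc : 0 ≤ c) (hx : 0 ≤ x) :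
    sq2 ψ (cfc Real.sqrt (c + x) - cfc Real.sqrt c) ≤ (ψ x).re := by
  have hle : c ≤ c + x := le_add_of_nonneg_right hx
  have hb := t2lsqrt_nonneg c
  have hab := t2lsqrt_mono hc hle
  have ha := t2lsqrt_nonneg (c + x)
  have ha2 := t2lsqrt_mul_self (add_nonneg hc hx)
  have hb2 := t2lsqrt_mul_self hc
  set a := cfc Real.sqrt (c + x) with hadef
  set b := cfc Real.sqrt c with hbdef
  have h1 := hψ.mul_nonneg hb (sub_nonneg.2 hab)
  rw [mul_sub, map_sub, Complex.sub_re] at h1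
  have hsa : star (a - b) = a - b := (IsSelfAdjoint.of_nonneg (sub_nonneg.2 hab)).star_eq
  unfold sq2
  have h2 : ψ ((a - b) * (a - b)) = ψ (a * a) - ψ (a * b) - ψ (b * a) + ψ (b * b) := by
    rw [sub_mul, mul_sub, mul_sub, map_sub, map_sub, map_sub]
    ring
  rw [hsa, h2, hψ.comm a b, ha2]
  rw [hb2] at h1 ⊢
  rw [map_add]
  simp only [Complex.add_re, Complex.sub_re] at h1 ⊢
  linarith

/-- operator monotonicity of the square root -/
theorem re_sqrt_mono (hψ : PTr ψ) {x y : E} (hx : 0 ≤ x) (hxy : x ≤ y) :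
    (ψ (cfc Real.sqrt x)).re ≤ (ψ (cfc Real.sqrt y)).re := by
  exact hψ.mono (t2lsqrt_mono hx hxy)

/-- square root of a multiple of a projection -/
theorem sqrt_smul_proj {p : E} (hp : star p = p) (hp2 : p * p = p) (c : ℝ) (hc : 0 ≤ c) :
    cfc Real.sqrt ((c : ℂ) • p) = ((√c : ℝ) : ℂ) • p := by
  have hp0 : 0 ≤ p := by
    have h1 : p = star p * p := by rw [hp, hp2]
    rw [h1]
    exact star_mul_self_nonneg p
  have hs : ∀ r : ℝ, 0 ≤ r → 0 ≤ ((r : ℂ) • p) := by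
    intro r hr
    have h1 : ((r : ℂ) • p) = r • p := Complex.coe_smul r p
    rw [h1]
    exact smul_nonneg hr hp0
  rw [t2lsqrt_eq (hs c hc)]
  refine CFC.sqrt_unique ?_ (hs _ (Real.sqrt_nonneg c))
  rw [smul_mul_smul_comm, hp2, ← Complex.ofReal_mul, Real.mul_self_sqrt hc]

end P095F
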