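import Vale.Agent.Lib.P095F.T2LMat
import Vale.Agent.Lib.P095F.T2LPhase
import Vale.Agent.Lib.P095F.T2LSqrt

/-!
# P095F, part T2L: the averaged projections `b_omega` (facts B1 - B5, B7, B8)
-/

open scoped ENNReal Topology

namespace P095F

universe u v

variable {G : Type v} [Group G] {E : Type u} [CStarAlgebra E] [PartialOrder E] [StarOrderedRing E]
  {ψ : E →ₗ[ℂ] ℂ}

/-- a linear functional on matrices vanishing on commutators is a multiple of the trace -/
private theorem t2lba_trace {k : ℕ} (hk : 1 ≤ k) (f : Matrix (Fin k) (Fin k) ℂ →ₗ[ℂ] ℂ)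
    (hf : ∀ x y, f (x * y) = f (y * x)) (x : Matrix (Fin k) (Fin k) ℂ) :
    f x = (k : ℂ)⁻¹ * x.trace * f 1 := by
  have hk0 : (k : ℂ) ≠ 0 := by
    have : k ≠ 0 := by omega
    exact_mod_cast this
  have hoff : ∀ i j : Fin k, i ≠ j → f (Matrix.single i j 1) = 0 := by
    intro i j hij
    have h1 : (Matrix.single i j 1 : Matrix (Fin k) (Fin k) ℂ) =
        Matrix.single i i 1 * Matrix.single i j 1 := by
      rw [Matrix.single_mul_single_same, mul_one]
    rw [h1, hf, Matrix.single_mul_single_of_ne _ _ _ _ hij.symm, map_zero]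
  have hdiag : ∀ i j : Fin k, f (Matrix.single i i 1) = f (Matrix.single j j 1) := by
    intro i j
    have h1 : (Matrix.single i i 1 : Matrix (Fin k) (Fin k) ℂ) =
        Matrix.single i j 1 * Matrix.single j i 1 := by
      rw [Matrix.single_mul_single_same, mul_one]
    have h2 : (Matrix.single j j 1 : Matrix (Fin k) (Fin k) ℂ) =
        Matrix.single j i 1 * Matrix.single i j 1 := by
      rw [Matrix.single_mul_single_same, mul_one]
    rw [h1, hf, ← h2]
  have hx : ∀ x : Matrix (Fin k) (Fin k) ℂ, f x = ∑ i, x i i * f (Matrix.single i i 1) := by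
    intro x
    conv_lhs => rw [Matrix.matrix_eq_sum_single x]
    rw [map_sum]
    refine Finset.sum_congr rfl fun i _ => ?_
    rw [map_sum, Finset.sum_eq_single i]
    · have h1 : (Matrix.single i i (x i i) : Matrix (Fin k) (Fin k) ℂ) =
          x i i • Matrix.single i i 1 := by
        rw [Matrix.smul_single, smul_eq_mul, mul_one]
      rw [h1, map_smul, smul_eq_mul]
    · intro j _ hj
      have h1 : (Matrix.single i j (x i j) : Matrix (Fin k) (Fin k) ℂ) =
          x i j • Matrix.single i j 1 := by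
        rw [Matrix.smul_single, smul_eq_mul, mul_one]
      rw [h1, map_smul, hoff i j (Ne.symm hj), smul_zero]
    · intro h
      exact absurd (Finset.mem_univ _) h
  have i0 : Fin k := ⟨0, by omega⟩
  have h1 : f 1 = (k : ℂ) * f (Matrix.single i0 i0 1) := by
    rw [hx 1, Finset.sum_congr rfl fun i _ => by
      rw [Matrix.one_apply_eq, one_mul, hdiag i i0], Finset.sum_const, Finset.card_univ,
      Fintype.card_fin, nsmul_eq_mul]
  rw [hx x, Finset.sum_congr rfl fun i _ => by rw [hdiag i i0], ← Finset.sum_mul, h1]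
  rw [Matrix.trace]
  simp only [Matrix.diag_apply]
  field_simp

/-- a tracial functional on matrices is a multiple of the trace -/
theorem ptr_matrix (hψ : PTr ψ) {k : ℕ} (hk : 1 ≤ k) (σ : E ≃⋆ₐ[ℂ] E)
    (j : Matrix (Fin k) (Fin k) ℂ →⋆ₐ[ℂ] E) (x : Matrix (Fin k) (Fin k) ℂ) :
    ψ (σ (j x)) = (k : ℂ)⁻¹ * x.trace * ψ 1 := by
  let f : Matrix (Fin k) (Fin k) ℂ →ₗ[ℂ] ℂ :=
    { toFun := fun x => ψ (σ (j x))
      map_add' := fun x y => by rw [map_add, map_add, map_add]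
      map_smul' := fun c x => by rw [map_smul, map_smul, map_smul, RingHom.id_apply] }
  have h := t2lba_trace hk f (fun x y => by
    show ψ (σ (j (x * y))) = ψ (σ (j (y * x)))
    rw [map_mul j, map_mul σ, map_mul j, map_mul σ, hψ.comm]) x
  have h1 : f 1 = ψ 1 := by
    show ψ (σ (j 1)) = ψ 1
    rw [map_one, map_one]
  rw [h1] at h
  exact h

private theorem t2lba_star_inv (k : ℕ) : star ((2 * (k : ℂ))⁻¹) = (2 * (k : ℂ))⁻¹ := by
  have h : (2 * (k : ℂ))⁻¹ = (((2 * (k : ℝ))⁻¹ : ℝ) : ℂ) := by push_cast; ring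
  rw [h]
  exact Complex.conj_ofReal _

section

variable {k : ℕ} (hk : 1 ≤ k) (j : Matrix (Fin k) (Fin k) ℂ →⋆ₐ[ℂ] E) (e e' : Fin k → Fin 4)

/-- B1 -/
theorem PP_sa : star (PP j e e') = PP j e e' := by
  refine D2.ext fun a b => ?_
  rw [ent_star]
  fin_cases a <;> fin_cases b <;>
    simp only [PP, Fin.zero_eta, Fin.mk_one, ent_mk2_00, ent_mk2_01, ent_mk2_10, ent_mk2_11,
      star_smul, t2lba_star_inv, ← map_star j, star_rk]

omit [PartialOrder E] [StarOrderedRing E] in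
include hk in
private theorem t2lba_mul (a b c : Fin k → Fin 4) :
    ((2 * (k : ℂ))⁻¹ • j (rk (ph a) (ph b))) * ((2 * (k : ℂ))⁻¹ • j (rk (ph b) (ph c))) =
      (2 : ℂ)⁻¹ • ((2 * (k : ℂ))⁻¹ • j (rk (ph a) (ph c))) := by
  have hk0 : (k : ℂ) ≠ 0 := by
    have : k ≠ 0 := by omega
    exact_mod_cast this
  rw [smul_mul_smul_comm, ← map_mul, rk_mul_rk, map_smul, smul_smul, smul_smul]
  congr 1
  field_simp

omit [PartialOrder E] [StarOrderedRing E] in
private theorem t2lba_half (x : E) : (2 : ℂ)⁻¹ • x + (2 : ℂ)⁻¹ • x = x := by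
  rw [← add_smul]
  norm_num

include hk in
theorem PP_idem : PP j e e' * PP j e e' = PP j e e' := by
  refine D2.ext fun a b => ?_
  rw [ent_mul]
  fin_cases a <;> fin_cases b <;>
    simp only [PP, Fin.zero_eta, Fin.mk_one, ent_mk2_00, ent_mk2_01, ent_mk2_10, ent_mk2_11,
      t2lba_mul hk, t2lba_half]

include hk in
/-- B2 -/
theorem tr2_PP (hψ : PTr ψ) (σ : E ≃⋆ₐ[ℂ] E) :
    tr2 ψ (act2 σ (PP j e e')) = (k : ℂ)⁻¹ * ψ 1 := by
  have hk0 : (k : ℂ) ≠ 0 := by
    have : k ≠ 0 := by omega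
    exact_mod_cast this
  rw [tr2_apply, ent_act2, ent_act2, PP, ent_mk2_00, ent_mk2_11, map_smul, map_smul, map_smul,
    map_smul, ptr_matrix hψ hk, ptr_matrix hψ hk, trace_rk, trace_rk, smul_eq_mul]
  field_simp
  ring

include hk in
private theorem t2lba_PP_nonneg : 0 ≤ PP j e e' := by
  have h : PP j e e' = star (PP j e e') * PP j e e' := by rw [PP_sa, PP_idem hk]
  rw [h]
  exact star_mul_self_nonneg _

include hk in
private theorem t2lba_PP_le_one : PP j e e' ≤ 1 := by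
  have h : 1 - PP j e e' = star (1 - PP j e e') * (1 - PP j e e') := by
    rw [star_sub, star_one, PP_sa, mul_sub, sub_mul, sub_mul, PP_idem hk]
    simp
  rw [← sub_nonneg, h]
  exact star_mul_self_nonneg _

variable (γ : G →* (E ≃⋆ₐ[ℂ] E)) (K : Finset G)

omit [Group G] in
private theorem t2lba_inv (x : D2 E) :
    ((K.card : ℂ)⁻¹) • x = ((K.card : ℝ)⁻¹) • x := by
  rw [← Complex.coe_smul]
  push_cast
  rfl

include hk in
/-- B3: an average of projections -/
theorem bb_nonneg : 0 ≤ bb γ K j e e' := by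
  rw [bb, t2lba_inv]
  exact smul_nonneg (by positivity)
    (Finset.sum_nonneg fun g _ => act2_nonneg (γ g) (t2lba_PP_nonneg hk j e e'))

include hk in
theorem bb_le_one : bb γ K j e e' ≤ 1 := by
  rw [bb, t2lba_inv]
  have h1 : ∑ g ∈ K, act2 (γ g) (PP j e e') ≤ ∑ g ∈ K, (1 : D2 E) :=
    Finset.sum_le_sum fun g _ => act2_le_one (γ g) (t2lba_PP_le_one hk j e e')
  rcases K.eq_empty_or_nonempty with h0 | h0
  · subst h0
    rw [Finset.sum_empty, smul_zero]
    exact zero_le_one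
  · have hc : (0 : ℝ) < K.card := by exact_mod_cast h0.card_pos
    calc (K.card : ℝ)⁻¹ • ∑ g ∈ K, act2 (γ g) (PP j e e')
        ≤ (K.card : ℝ)⁻¹ • ∑ g ∈ K, (1 : D2 E) := smul_le_smul_of_nonneg_left h1 (by positivity)
      _ = 1 := by
          rw [Finset.sum_const, ← Nat.cast_smul_eq_nsmul ℝ, smul_smul, inv_mul_cancel₀ hc.ne',
            one_smul]

include hk in
theorem tr2_bb (hψ : PTr ψ) (hK : K.Nonempty) :
    (tr2 ψ (bb γ K j e e')).re = (k : ℝ)⁻¹ * (ψ 1).re := by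
  have hc : (K.card : ℂ) ≠ 0 := by exact_mod_cast hK.card_pos.ne'
  have h1 : tr2 ψ (bb γ K j e e') = (((k : ℝ)⁻¹ : ℝ) : ℂ) * ψ 1 := by
    rw [bb, map_smul, map_sum, Finset.sum_congr rfl fun g _ => tr2_PP hk j e e' hψ (γ g),
      Finset.sum_const, nsmul_eq_mul, smul_eq_mul]
    push_cast
    field_simp
  rw [h1, Complex.re_ofReal_mul]

include hk in
/-- B4: `√b ≤ sum √(gP/N)` under the trace (`re_sqrt_sum_le`), `√(c p) = √c p` -/
theorem tr2_sqrt_bb (hψ : PTr ψ) (hK : K.Nonempty) :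
    (tr2 ψ (cfc Real.sqrt (bb γ K j e e'))).re ≤ √(K.card : ℝ) * ((k : ℝ)⁻¹ * (ψ 1).re) := by
  have hc : (0 : ℝ) < K.card := by exact_mod_cast hK.card_pos
  have h1 : bb γ K j e e' = ∑ g ∈ K, (((K.card : ℝ)⁻¹ : ℝ) : ℂ) • act2 (γ g) (PP j e e') := by
    rw [bb, Finset.smul_sum]
    push_cast
    rfl
  have hsa : ∀ g, star (act2 (γ g) (PP j e e')) = act2 (γ g) (PP j e e') := fun g => by
    rw [← map_star, PP_sa]
  have hid : ∀ g, act2 (γ g) (PP j e e') * act2 (γ g) (PP j e e') = act2 (γ g) (PP j e e') :=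
    fun g => by rw [← map_mul, PP_idem hk]
  have hnn : ∀ g ∈ K, 0 ≤ (((K.card : ℝ)⁻¹ : ℝ) : ℂ) • act2 (γ g) (PP j e e') := fun g _ => by
    rw [Complex.coe_smul]
    exact smul_nonneg (by positivity) (act2_nonneg (γ g) (t2lba_PP_nonneg hk j e e'))
  rw [h1]
  refine (re_sqrt_sum_le (tr2_ptr hψ) K _ hnn).trans (le_of_eq ?_)
  have h2 : ∀ g ∈ K, (tr2 ψ (cfc Real.sqrt
      ((((K.card : ℝ)⁻¹ : ℝ) : ℂ) • act2 (γ g) (PP j e e')))).re =
      √((K.card : ℝ)⁻¹) * ((k : ℝ)⁻¹ * (ψ 1).re) := by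
    intro g _
    rw [sqrt_smul_proj (hsa g) (hid g) _ (by positivity), map_smul, tr2_PP hk j e e' hψ (γ g),
      smul_eq_mul, Complex.re_ofReal_mul]
    congr 1
    have h3 : (k : ℂ)⁻¹ * ψ 1 = (((k : ℝ)⁻¹ : ℝ) : ℂ) * ψ 1 := by push_cast; rfl
    rw [h3, Complex.re_ofReal_mul]
  rw [Finset.sum_congr rfl h2, Finset.sum_const, nsmul_eq_mul, ← mul_assoc]
  congr 1
  rw [Real.sqrt_inv]
  rw [← div_eq_mul_inv, Real.div_sqrt]

/-- the diagonal entries of the average -/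
private theorem t2lba_ent (a b : Fin 2) : ent (bb γ K j e e') a b =
    (K.card : ℂ)⁻¹ • ∑ g ∈ K, γ g (ent (PP j e e') a b) := by
  rw [bb, ent_smul, ent_sum]
  congr 1
  exact Finset.sum_congr rfl fun g _ => ent_act2 _ _ _ _

include hk in
/-- the trace of the square root of an average of halves of rank one projections -/
private theorem t2lba_diag (hψ : PTr ψ) (hK : K.Nonempty) (a : Fin k → Fin 4) :
    (ψ (cfc Real.sqrt ((K.card : ℂ)⁻¹ • ∑ g ∈ K, γ g ((2 * (k : ℂ))⁻¹ • j (rk (ph a) (ph a)))))).re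
      ≤ √((K.card : ℝ) / 2) * ((k : ℝ)⁻¹ * (ψ 1).re) := by
  have hc : (0 : ℝ) < K.card := by exact_mod_cast hK.card_pos
  have hk0 : (k : ℂ) ≠ 0 := by
    have : k ≠ 0 := by omega
    exact_mod_cast this
  set p : E := (k : ℂ)⁻¹ • j (rk (ph a) (ph a)) with hp
  have hpsa : star p = p := by
    rw [hp, star_smul, ← map_star, star_rk]
    congr 1
    have h : (k : ℂ)⁻¹ = (((k : ℝ)⁻¹ : ℝ) : ℂ) := by push_cast; rfl
    rw [h]
    exact Complex.conj_ofReal _
  have hpid : p * p = p := by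
    rw [hp, smul_mul_smul_comm, ← map_mul, rk_mul_rk, map_smul, smul_smul]
    congr 1
    field_simp
  have hsa : ∀ g, star (γ g p) = γ g p := fun g => by rw [← map_star (γ g), hpsa]
  have hid : ∀ g, γ g p * γ g p = γ g p := fun g => by rw [← map_mul (γ g), hpid]
  have hpos : ∀ g, 0 ≤ γ g p := fun g => by
    have h : γ g p = star (γ g p) * γ g p := by rw [hsa, hid]
    rw [h]
    exact star_mul_self_nonneg _
  set c : ℝ := (2 * (K.card : ℝ))⁻¹ with hcdef
  have hc0 : 0 ≤ c := by positivity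
  have h1 : (K.card : ℂ)⁻¹ • ∑ g ∈ K, γ g ((2 * (k : ℂ))⁻¹ • j (rk (ph a) (ph a))) =
      ∑ g ∈ K, (c : ℂ) • γ g p := by
    rw [Finset.smul_sum]
    refine Finset.sum_congr rfl fun g _ => ?_
    rw [hp, map_smul, map_smul, smul_smul, smul_smul, hcdef]
    congr 1
    push_cast
    field_simp
  have hnn : ∀ g ∈ K, 0 ≤ (c : ℂ) • γ g p := fun g _ => by
    rw [Complex.coe_smul]
    exact smul_nonneg hc0 (hpos g)
  rw [h1]
  refine (re_sqrt_sum_le hψ K _ hnn).trans (le_of_eq ?_)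
  have h2 : ∀ g ∈ K, (ψ (cfc Real.sqrt ((c : ℂ) • γ g p))).re =
      √c * ((k : ℝ)⁻¹ * (ψ 1).re) := by
    intro g _
    have h3 : ψ (γ g p) = (((k : ℝ)⁻¹ : ℝ) : ℂ) * ψ 1 := by
      rw [hp, map_smul, map_smul, ptr_matrix hψ hk, trace_rk, smul_eq_mul]
      push_cast
      field_simp
    rw [sqrt_smul_proj (hsa g) (hid g) _ hc0, map_smul, h3, smul_eq_mul, Complex.re_ofReal_mul,
      Complex.re_ofReal_mul]
  rw [Finset.sum_congr rfl h2, Finset.sum_const, nsmul_eq_mul, ← mul_assoc]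
  congr 1
  -- `N √(1/(2N)) = √(N/2)`
  have h4 : (K.card : ℝ) / 2 = (K.card : ℝ) ^ 2 * c := by
    rw [hcdef, mul_inv]
    rw [sq, mul_assoc, mul_left_comm (K.card : ℝ) (2 : ℝ)⁻¹, mul_inv_cancel₀ hc.ne', mul_one]
    rfl
  rw [h4, Real.sqrt_mul (sq_nonneg _), Real.sqrt_sq hc.le]

include hk in
/-- B7 -/
theorem sqrt_bb_entries (hψ : PTr ψ) (hK : K.Nonempty) :
    (ψ (cfc Real.sqrt (ent (bb γ K j e e') 0 0))).re ≤
        √((K.card : ℝ) / 2) * ((k : ℝ)⁻¹ * (ψ 1).re) ∧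
      (ψ (cfc Real.sqrt (ent (bb γ K j e e') 1 1))).re ≤
        √((K.card : ℝ) / 2) * ((k : ℝ)⁻¹ * (ψ 1).re) := by
  rw [t2lba_ent, t2lba_ent]
  exact ⟨t2lba_diag hk j γ K hψ hK e, t2lba_diag hk j γ K hψ hK e'⟩

private theorem t2lba_ph (a : Fin k → Fin 4) : ph (fun i => a i + 2) = -ph a := by
  have h : ∀ b : Fin 4, Complex.I ^ ((b + 2 : Fin 4) : ℕ) = -Complex.I ^ (b : ℕ) := by
    intro b
    fin_cases b
    · show Complex.I ^ 2 = -Complex.I ^ 0
      rw [Complex.I_sq, pow_zero]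
    · show Complex.I ^ 3 = -Complex.I ^ 1
      rw [pow_succ, Complex.I_sq, pow_one]
      ring
    · show Complex.I ^ 0 = -Complex.I ^ 2
      rw [Complex.I_sq, pow_zero, neg_neg]
    · show Complex.I ^ 1 = -Complex.I ^ 3
      rw [pow_succ Complex.I 2, Complex.I_sq, pow_one]
      ring
  funext i
  exact h (a i)

private theorem t2lba_rk_neg_neg (x y : Fin k → ℂ) : rk (-x) (-y) = rk x y := by
  ext i l
  simp [rk]

private theorem t2lba_rk_neg_left (x y : Fin k → ℂ) : rk (-x) y = -rk x y := by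
  ext i l
  simp [rk]

private theorem t2lba_rk_neg_right (x y : Fin k → ℂ) : rk x (-y) = -rk x y := by
  ext i l
  simp [rk]

/-- B8: `ph (e + 2) = - ph e` -/
theorem bb_sym : ent (bb γ K j (fun i => e i + 2) e') 0 0 = ent (bb γ K j e e') 0 0 ∧
    ent (bb γ K j (fun i => e i + 2) e') 1 1 = ent (bb γ K j e e') 1 1 ∧
    ent (bb γ K j (fun i => e i + 2) e') 0 1 = -ent (bb γ K j e e') 0 1 ∧
    ent (bb γ K j (fun i => e i + 2) e') 1 0 = -ent (bb γ K j e e') 1 0 := by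
  have hneg : ∀ a b : Fin 2, ent (PP j (fun i => e i + 2) e') a b = -ent (PP j e e') a b →
      ent (bb γ K j (fun i => e i + 2) e') a b = -ent (bb γ K j e e') a b := by
    intro a b h
    rw [t2lba_ent, t2lba_ent, h, ← smul_neg, ← Finset.sum_neg_distrib]
    congr 1
    exact Finset.sum_congr rfl fun g _ => map_neg _ _
  refine ⟨?_, ?_, ?_, ?_⟩
  · rw [t2lba_ent, t2lba_ent, PP, PP, ent_mk2_00, ent_mk2_00, t2lba_ph, t2lba_rk_neg_neg]
  · rw [t2lba_ent, t2lba_ent, PP, PP, ent_mk2_11, ent_mk2_11]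
  · refine hneg 0 1 ?_
    rw [PP, PP, ent_mk2_01, ent_mk2_01, t2lba_ph, t2lba_rk_neg_left, map_neg, smul_neg]
  · refine hneg 1 0 ?_
    rw [PP, PP, ent_mk2_10, ent_mk2_10, t2lba_ph, t2lba_rk_neg_right, map_neg, smul_neg]

end

end P095F
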