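import Mathlib
import Vale.Agent.Lib.P095F.T2LBa

/-!
# P095F, part T2L: the averaged projections `b_omega`, facts B5 (invariance) and B6 (phases)

B5. `b = bb`, `b' = act2 (γ h) b = N⁻¹ sum_{g in hK} g P`. With `c = N⁻¹ sum_{K ∩ hK}`,
`x = N⁻¹ sum_{K \ hK}`, `y = N⁻¹ sum_{hK \ K}`: `b = c + x`, `b' = c + y`,
`|K \ hK| = |hK \ K| ≤ d N`, so `tr2 psi x, tr2 psi y ≤ d psi(1)/k` (`tr2_PP`), and
`sq2_sqrt_sub_le` (applied in `D2 E` to `tr2 psi`, `tr2_ptr`) with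
`sq2 (u + v) ≤ 2 sq2 u + 2 sq2 v` gives the bound `4 d psi(1)/k`.

B6. For `g, h` in `K` let `L(A, B) = psi (γ_g (j A) * γ_h (j B))`; `L 1 1 = psi 1`,
`Re L(e_ii, e_ii) ≥ 0` (`PTr.mul_nonneg`). `ent (bb) 0 0 = N⁻¹ sum_g (2k)⁻¹ γ_g j (a a^*)` etc.,
`rr PP + mm PP = (2k)⁻¹ j ((a+b)(a+b)^*)`, `rr PP - mm PP = (2k)⁻¹ j ((a-b)(a-b)^*)`.
Use `phase_cross`, `phase_rot`.
-/

open scoped ENNReal Topology

namespace P095F

universe u v

variable {G : Type v} [Group G] {E : Type u} [CStarAlgebra E] [PartialOrder E] [StarOrderedRing E]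
  {ψ : E →ₗ[ℂ] ℂ} {k : ℕ}

/-! ### auxiliary facts -/

section Aux

variable (j : Matrix (Fin k) (Fin k) ℂ →⋆ₐ[ℂ] E) (γ : G →* (E ≃⋆ₐ[ℂ] E)) (K : Finset G)

private theorem t2lbb_act2_mul (h g : G) (x : D2 E) :
    act2 (γ h) (act2 (γ g) x) = act2 (γ (h * g)) x := by
  refine D2.ext fun a b => ?_
  rw [ent_act2, ent_act2, ent_act2, map_mul]
  rfl

private theorem t2lbb_PP_nonneg (hk : 1 ≤ k) (e e' : Fin k → Fin 4) : 0 ≤ PP j e e' := by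
  have h : PP j e e' = star (PP j e e') * PP j e e' := by
    rw [PP_sa, PP_idem hk]
  rw [h]
  exact star_mul_self_nonneg _

private theorem t2lbb_smul_nonneg (n : ℕ) {x : D2 E} (hx : 0 ≤ x) : 0 ≤ ((n : ℂ)⁻¹) • x := by
  have h : ((n : ℂ)⁻¹) • x = ((n : ℝ)⁻¹) • x := by
    rw [← Complex.coe_smul]
    push_cast
    rfl
  rw [h]
  exact smul_nonneg (by positivity) hx

private theorem t2lbb_sum_nonneg (hk : 1 ≤ k) (e e' : Fin k → Fin 4) (n : ℕ) (s : Finset G) :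
    0 ≤ ((n : ℂ)⁻¹) • ∑ g ∈ s, act2 (γ g) (PP j e e') :=
  t2lbb_smul_nonneg n (Finset.sum_nonneg fun g _ => act2_nonneg (γ g) (t2lbb_PP_nonneg j hk e e'))

private theorem t2lbb_tr2_sum (hk : 1 ≤ k) (hψ : PTr ψ) (e e' : Fin k → Fin 4) (n : ℕ)
    (s : Finset G) : (tr2 ψ (((n : ℂ)⁻¹) • ∑ g ∈ s, act2 (γ g) (PP j e e'))).re =
      (n : ℝ)⁻¹ * s.card * ((k : ℝ)⁻¹ * (ψ 1).re) := by
  rw [map_smul, map_sum, Finset.sum_congr rfl fun g _ => tr2_PP hk j e e' hψ (γ g),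
    Finset.sum_const, nsmul_eq_mul, smul_eq_mul]
  have h : (n : ℂ)⁻¹ * ((s.card : ℂ) * ((k : ℂ)⁻¹ * ψ 1)) =
      (((n : ℝ)⁻¹ * s.card * (k : ℝ)⁻¹ : ℝ) : ℂ) * ψ 1 := by
    push_cast
    ring
  rw [h, Complex.re_ofReal_mul]
  ring

/-- the averaged map `X ↦ N⁻¹ sum_g (2k)⁻¹ γ_g (j X)` -/
private noncomputable def t2lbbT : Matrix (Fin k) (Fin k) ℂ →ₗ[ℂ] E :=
  ((K.card : ℂ)⁻¹) • ∑ g ∈ K, ((2 * (k : ℂ))⁻¹) •
    (((γ g : E ≃⋆ₐ[ℂ] E) : E →⋆ₐ[ℂ] E).toAlgHom.toLinearMap ∘ₗ j.toAlgHom.toLinearMap)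

private theorem t2lbbT_apply (X : Matrix (Fin k) (Fin k) ℂ) :
    t2lbbT j γ K X = ((K.card : ℂ)⁻¹) • ∑ g ∈ K, γ g (((2 * (k : ℂ))⁻¹) • j X) := by
  unfold t2lbbT
  rw [LinearMap.smul_apply, LinearMap.sum_apply]
  congr 1
  refine Finset.sum_congr rfl fun g _ => ?_
  rw [LinearMap.smul_apply, map_smul]
  rfl

private theorem t2lbbT_one (hK : K.Nonempty) :
    t2lbbT j γ K 1 = ((2 * (k : ℂ))⁻¹) • (1 : E) := by
  rw [t2lbbT_apply, map_one, Finset.sum_congr rfl fun g _ => (by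
    rw [map_smul, map_one] : γ g (((2 * (k : ℂ))⁻¹) • (1 : E)) = ((2 * (k : ℂ))⁻¹) • (1 : E)),
    Finset.sum_const, ← Nat.cast_smul_eq_nsmul ℂ, smul_smul, inv_mul_cancel₀, one_smul]
  exact Nat.cast_ne_zero.2 hK.card_pos.ne'

private theorem t2lbbT_star (X : Matrix (Fin k) (Fin k) ℂ) :
    star (t2lbbT j γ K X) = t2lbbT j γ K (star X) := by
  rw [t2lbbT_apply, t2lbbT_apply, star_smul, star_sum]
  congr 1
  · rw [RCLike.star_def, map_inv₀, Complex.conj_natCast]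
  · refine Finset.sum_congr rfl fun g _ => ?_
    rw [← map_star, star_smul, ← map_star]
    congr 2
    rw [RCLike.star_def, map_inv₀, map_mul, Complex.conj_natCast, Complex.conj_ofNat]

/-- the bilinear functional `L(A, B) = psi (T A * T B)` -/
private noncomputable def t2lbbL (ψ : E →ₗ[ℂ] ℂ) :
    Matrix (Fin k) (Fin k) ℂ →ₗ[ℂ] Matrix (Fin k) (Fin k) ℂ →ₗ[ℂ] ℂ :=
  LinearMap.mk₂ ℂ (fun A B => ψ (t2lbbT j γ K A * t2lbbT j γ K B))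
    (fun A A' B => by rw [map_add, add_mul, map_add])
    (fun c A B => by rw [map_smul, smul_mul_assoc, map_smul])
    (fun A B B' => by rw [map_add, mul_add, map_add])
    (fun c A B => by rw [map_smul, mul_smul_comm, map_smul])

private theorem t2lbbL_apply (ψ : E →ₗ[ℂ] ℂ) (A B : Matrix (Fin k) (Fin k) ℂ) :
    t2lbbL j γ K ψ A B = ψ (t2lbbT j γ K A * t2lbbT j γ K B) := rfl

private theorem t2lbbL_one (ψ : E →ₗ[ℂ] ℂ) (hK : K.Nonempty) :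
    t2lbbL j γ K ψ 1 1 = ((4 * (k : ℝ) ^ 2)⁻¹ : ℝ) * ψ 1 := by
  rw [t2lbbL_apply, t2lbbT_one j γ K hK, smul_mul_smul_comm, one_mul, map_smul, smul_eq_mul]
  congr 1
  push_cast
  rw [← mul_inv]
  congr 1
  ring

private theorem t2lbb_ent (e e' : Fin k → Fin 4) (a b : Fin 2) (X : Matrix (Fin k) (Fin k) ℂ)
    (h : ent (PP j e e') a b = ((2 * (k : ℂ))⁻¹) • j X) :
    ent (bb γ K j e e') a b = t2lbbT j γ K X := by
  unfold bb
  rw [ent_smul, ent_sum, t2lbbT_apply]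
  congr 1
  refine Finset.sum_congr rfl fun g _ => ?_
  rw [ent_act2, h]

private theorem t2lbb_ent00 (e e' : Fin k → Fin 4) :
    ent (bb γ K j e e') 0 0 = t2lbbT j γ K (rk (ph e) (ph e)) :=
  t2lbb_ent j γ K e e' 0 0 _ rfl

private theorem t2lbb_ent01 (e e' : Fin k → Fin 4) :
    ent (bb γ K j e e') 0 1 = t2lbbT j γ K (rk (ph e) (ph e')) :=
  t2lbb_ent j γ K e e' 0 1 _ rfl

private theorem t2lbb_ent10 (e e' : Fin k → Fin 4) :
    ent (bb γ K j e e') 1 0 = t2lbbT j γ K (rk (ph e') (ph e)) :=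
  t2lbb_ent j γ K e e' 1 0 _ rfl

private theorem t2lbb_ent11 (e e' : Fin k → Fin 4) :
    ent (bb γ K j e e') 1 1 = t2lbbT j γ K (rk (ph e') (ph e')) :=
  t2lbb_ent j γ K e e' 1 1 _ rfl

private theorem t2lbb_rk_add (x y : Fin k → ℂ) :
    rk (x + y) (x + y) = rk x x + rk y y + (rk x y + rk y x) := by
  ext i l
  simp only [rk, Matrix.of_apply, Matrix.add_apply, Pi.add_apply, star_add]
  ring

private theorem t2lbb_rk_sub (x y : Fin k → ℂ) :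
    rk (x - y) (x - y) = rk x x + rk y y - (rk x y + rk y x) := by
  ext i l
  simp only [rk, Matrix.of_apply, Matrix.add_apply, Matrix.sub_apply, Pi.sub_apply, star_sub]
  ring

private theorem t2lbb_rr_add (e e' : Fin k → Fin 4) :
    rr (bb γ K j e e') + mm (bb γ K j e e') =
      t2lbbT j γ K (rk (ph e + ph e') (ph e + ph e')) := by
  unfold rr mm
  rw [t2lbb_ent00, t2lbb_ent01, t2lbb_ent10, t2lbb_ent11, t2lbb_rk_add, map_add, map_add, map_add]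

private theorem t2lbb_rr_sub (e e' : Fin k → Fin 4) :
    rr (bb γ K j e e') - mm (bb γ K j e e') =
      t2lbbT j γ K (rk (ph e - ph e') (ph e - ph e')) := by
  unfold rr mm
  rw [t2lbb_ent00, t2lbb_ent01, t2lbb_ent10, t2lbb_ent11, t2lbb_rk_sub, map_sub, map_add, map_add]

end Aux

/-- B5 -/
theorem sq2_sqrt_bb (hk : 1 ≤ k) (hψ : PTr ψ) (j : Matrix (Fin k) (Fin k) ℂ →⋆ₐ[ℂ] E)
    (e e' : Fin k → Fin 4) (γ : G →* (E ≃⋆ₐ[ℂ] E)) (K : Finset G) (hK : K.Nonempty) (h : G)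
    (d : ℝ) (hd : (Nat.card {g : G // g ∉ K ∧ h⁻¹ * g ∈ K} : ℝ) ≤ d * K.card) :
    sq2 (tr2 ψ) (cfc Real.sqrt (act2 (γ h) (bb γ K j e e')) - cfc Real.sqrt (bb γ K j e e')) ≤
      4 * d * ((k : ℝ)⁻¹ * (ψ 1).re) := by
  classical
  set hK' : Finset G := K.map (Equiv.mulLeft h).toEmbedding with hK'def
  have hN : (0 : ℝ) < K.card := Nat.cast_pos.2 hK.card_pos
  have hmem : ∀ g, g ∈ hK' ↔ h⁻¹ * g ∈ K := by
    intro g
    rw [hK'def, Finset.mem_map_equiv]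
    rfl
  have hcard : hK'.card = K.card := Finset.card_map _
  have hc1 : Nat.card {g : G // g ∉ K ∧ h⁻¹ * g ∈ K} = (hK' \ K).card := by
    refine Nat.subtype_card _ fun x => ?_
    rw [Finset.mem_sdiff, hmem, and_comm]
  have hc2 : (K \ hK').card = (hK' \ K).card := Finset.card_sdiff_comm hcard.symm
  set F : Finset G → D2 E := fun s => ((K.card : ℂ)⁻¹) • ∑ g ∈ s, act2 (γ g) (PP j e e') with hF
  have hFn : ∀ s, 0 ≤ F s := fun s => t2lbb_sum_nonneg j γ hk e e' K.card s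
  have hFt : ∀ s, (tr2 ψ (F s)).re = (K.card : ℝ)⁻¹ * s.card * ((k : ℝ)⁻¹ * (ψ 1).re) :=
    fun s => t2lbb_tr2_sum j γ hk hψ e e' K.card s
  have hb : bb γ K j e e' = F (K ∩ hK') + F (K \ hK') := by
    rw [hF]
    simp only
    rw [← smul_add, Finset.sum_inter_add_sum_sdiff]
    rfl
  have hb' : act2 (γ h) (bb γ K j e e') = F (K ∩ hK') + F (hK' \ K) := by
    rw [hF]
    simp only
    rw [← smul_add, Finset.inter_comm, Finset.sum_inter_add_sum_sdiff, hK'def, Finset.sum_map]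
    unfold bb
    rw [map_smul, map_sum]
    congr 1
    refine Finset.sum_congr rfl fun g _ => ?_
    rw [t2lbb_act2_mul]
    rfl
  have hq : (0 : ℝ) ≤ (k : ℝ)⁻¹ * (ψ 1).re := mul_nonneg (by positivity) hψ.one_re
  have hbd : (K.card : ℝ)⁻¹ * (hK' \ K).card ≤ d := by
    rw [← hc1, inv_mul_le_iff₀ hN, mul_comm]
    exact hd
  have e1 := sq2_sqrt_sub_le (tr2_ptr hψ) (hFn (K ∩ hK')) (hFn (K \ hK'))
  have e2 := sq2_sqrt_sub_le (tr2_ptr hψ) (hFn (K ∩ hK')) (hFn (hK' \ K))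
  rw [hFt, hc2] at e1
  rw [hFt] at e2
  have e3 : (K.card : ℝ)⁻¹ * (hK' \ K).card * ((k : ℝ)⁻¹ * (ψ 1).re) ≤
      d * ((k : ℝ)⁻¹ * (ψ 1).re) := mul_le_mul_of_nonneg_right hbd hq
  rw [hb', hb]
  have e4 := (tr2_ptr hψ).sq2_sub_le
    (cfc Real.sqrt (F (K ∩ hK') + F (hK' \ K)) - cfc Real.sqrt (F (K ∩ hK')))
    (cfc Real.sqrt (F (K ∩ hK') + F (K \ hK')) - cfc Real.sqrt (F (K ∩ hK')))
  rw [sub_sub_sub_cancel_right] at e4
  linarith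

/-- B6, first part (an equality) -/
theorem sum_cross_bb (hk : 1 ≤ k) (hψ : PTr ψ) (j : Matrix (Fin k) (Fin k) ℂ →⋆ₐ[ℂ] E)
    (γ : G →* (E ≃⋆ₐ[ℂ] E)) (K : Finset G) (hK : K.Nonempty) :
    ∑ w : (Fin k → Fin 4) × (Fin k → Fin 4),
      (ψ (ent (bb γ K j w.1 w.2) 1 1 * ent (bb γ K j w.1 w.2) 0 0)).re ≤
      2 ^ (4 * k) * ((ψ 1).re / (4 * (k : ℝ) ^ 2)) := by
  have h0 : ∀ w : (Fin k → Fin 4) × (Fin k → Fin 4),
      ψ (ent (bb γ K j w.1 w.2) 1 1 * ent (bb γ K j w.1 w.2) 0 0) =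
        t2lbbL j γ K ψ (rk (ph w.1) (ph w.1)) (rk (ph w.2) (ph w.2)) := by
    intro w
    rw [t2lbb_ent11, t2lbb_ent00, t2lbbL_apply, hψ.comm]
  rw [← Complex.re_sum, Finset.sum_congr rfl fun w _ => h0 w, phase_cross, t2lbbL_one j γ K ψ hK]
  refine le_of_eq ?_
  have h1 : (2 : ℂ) ^ (4 * k) * (((4 * (k : ℝ) ^ 2)⁻¹ : ℝ) * ψ 1) =
      (((2 : ℝ) ^ (4 * k) * (4 * (k : ℝ) ^ 2)⁻¹ : ℝ) : ℂ) * ψ 1 := by
    push_cast
    ring
  rw [h1, Complex.re_ofReal_mul]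
  ring

/-- B6, second part -/
theorem sum_rot_bb (hk : 1 ≤ k) (hψ : PTr ψ) (j : Matrix (Fin k) (Fin k) ℂ →⋆ₐ[ℂ] E)
    (γ : G →* (E ≃⋆ₐ[ℂ] E)) (K : Finset G) (hK : K.Nonempty) :
    ∑ w : (Fin k → Fin 4) × (Fin k → Fin 4),
      (ψ ((rr (bb γ K j w.1 w.2) + mm (bb γ K j w.1 w.2)) *
        (rr (bb γ K j w.1 w.2) - mm (bb γ K j w.1 w.2)))).re ≤
      2 ^ (4 * k) * ((ψ 1).re / (k : ℝ) ^ 2) := by
  have h0 : ∀ w : (Fin k → Fin 4) × (Fin k → Fin 4),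
      ψ ((rr (bb γ K j w.1 w.2) + mm (bb γ K j w.1 w.2)) *
        (rr (bb γ K j w.1 w.2) - mm (bb γ K j w.1 w.2))) =
        t2lbbL j γ K ψ (rk (ph w.1 + ph w.2) (ph w.1 + ph w.2))
          (rk (ph w.1 - ph w.2) (ph w.1 - ph w.2)) := by
    intro w
    rw [t2lbb_rr_add, t2lbb_rr_sub, t2lbbL_apply]
  have hpos : ∀ i : Fin k,
      0 ≤ (t2lbbL j γ K ψ (Matrix.single i i 1) (Matrix.single i i 1)).re := by
    intro i
    have h1 : star (t2lbbT j γ K (Matrix.single i i 1)) = t2lbbT j γ K (Matrix.single i i 1) := by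
      rw [t2lbbT_star]
      congr 1
      rw [Matrix.star_eq_conjTranspose, Matrix.conjTranspose_single, star_one]
    have h2 := hψ.nonneg (t2lbbT j γ K (Matrix.single i i 1))
    rw [h1] at h2
    exact h2
  rw [← Complex.re_sum, Finset.sum_congr rfl fun w _ => h0 w, phase_rot, t2lbbL_one j γ K ψ hK]
  have h1 : (2 : ℂ) ^ (4 * k) * (4 * ((((4 * (k : ℝ) ^ 2)⁻¹ : ℝ) : ℂ) * ψ 1) -
      2 * ∑ i : Fin k, t2lbbL j γ K ψ (Matrix.single i i 1) (Matrix.single i i 1)) =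
      (((2 : ℝ) ^ (4 * k) : ℝ) : ℂ) * ((((4 * (4 * (k : ℝ) ^ 2)⁻¹ : ℝ)) : ℂ) * ψ 1 -
        ((2 : ℝ) : ℂ) * ∑ i : Fin k, t2lbbL j γ K ψ (Matrix.single i i 1)
          (Matrix.single i i 1)) := by
    push_cast
    ring
  rw [h1, Complex.re_ofReal_mul, Complex.sub_re, Complex.re_ofReal_mul, Complex.re_ofReal_mul,
    Complex.re_sum]
  have h2 : 0 ≤ ∑ i : Fin k, (t2lbbL j γ K ψ (Matrix.single i i 1) (Matrix.single i i 1)).re :=
    Finset.sum_nonneg fun i _ => hpos i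
  have h3 : 4 * (4 * (k : ℝ) ^ 2)⁻¹ * (ψ 1).re = (ψ 1).re / (k : ℝ) ^ 2 := by
    rw [mul_inv]
    ring
  rw [h3]
  refine mul_le_mul_of_nonneg_left ?_ (by positivity)
  linarith

end P095F
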