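import Mathlib
import Vale.Agent.Lib.P095F.T2LBb
import Vale.Agent.Lib.P095F.T2LPos

/-!
# P095F, part T2L: one matrix `b` (`0 ≤ b ≤ 1` in `D2 E`) and its levels `Q_l = cfc (HH m l₀ l) b`

`u = l₀ / 2^m`. All statements are for an arbitrary `b`; they are applied to `b = bb γ K j e e'`.
-/

open scoped ENNReal Topology

namespace P095F

universe u v

variable {E : Type u} [CStarAlgebra E] [PartialOrder E] [StarOrderedRing E] {ψ : E →ₗ[ℂ] ℂ}
  {b : D2 E} (m l₀ : ℕ)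

theorem Q_nonneg (l : ℕ) : 0 ≤ cfc (HH m l₀ l) b :=
  cfc_nonneg fun s _ => HH_nonneg m l₀ l s

theorem Q_le_one (l : ℕ) : cfc (HH m l₀ l) b ≤ 1 :=
  cfc_le_one _ _ fun s _ => HH_le_one m l₀ l s

private theorem t2lq_rr (ψ : E →ₗ[ℂ] ℂ) (x : D2 E) : ψ (rr x) = tr2 ψ x := by
  rw [rr, map_add, tr2_apply]

private theorem t2lq_spec {A : Type u} [CStarAlgebra A] [PartialOrder A] [StarOrderedRing A]
    {b : A} (hb : 0 ≤ b) (hb1 : b ≤ 1) : spectrum ℝ b ⊆ Set.Icc 0 1 := by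
  apply spectrum_subset_Icc hb
  rw [map_one]
  exact hb1

/-- sums of `cfc` under a trace -/
private theorem t2lq_sum {A : Type u} [CStarAlgebra A] (φ : A →ₗ[ℂ] ℂ) (b : A)
    {ι : Type} (s : Finset ι) (f : ι → ℝ → ℝ) (hf : ∀ i, Continuous (f i)) :
    ∑ i ∈ s, (φ (cfc (f i) b)).re = (φ (cfc (fun t => ∑ i ∈ s, f i t) b)).re := by
  have h1 : (fun t => ∑ i ∈ s, f i t) = ∑ i ∈ s, f i := by
    ext t
    simp
  rw [h1, cfc_sum f b s (fun i _ => (hf i).continuousOn), map_sum, Complex.re_sum]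

private theorem t2lq_smul_re {A : Type u} [CStarAlgebra A] (φ : A →ₗ[ℂ] ℂ) (r : ℝ) (x : A) :
    (φ (r • x)).re = r * (φ x).re := by
  rw [← Complex.coe_smul, map_smul, smul_eq_mul, Complex.re_ofReal_mul]

/-- Q2 (upper), from `HH_sum_le` -/
theorem sum_Q_le (hψ : PTr ψ) (hb : 0 ≤ b) (hb1 : b ≤ 1) :
    ∑ l ∈ Finset.range (2 ^ m), (ψ (rr (cfc (HH m l₀ l) b))).re ≤ 2 ^ m * (tr2 ψ b).re := by
  have hsa : IsSelfAdjoint b := IsSelfAdjoint.of_nonneg hb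
  have hT := tr2_ptr hψ
  simp only [t2lq_rr]
  rw [t2lq_sum (tr2 ψ) b (Finset.range (2 ^ m)) (fun l => HH m l₀ l)
    (fun l => HH_continuous m l₀ l)]
  have h1 := re_cfc_le hT hsa (t2lq_spec hb hb1) (fun t => ∑ l ∈ Finset.range (2 ^ m), HH m l₀ l t)
    (fun t => 2 ^ m * t) (continuous_finsetSum _ fun l _ => HH_continuous m l₀ l)
    (by fun_prop) (fun x hx => HH_sum_le m l₀ x hx.1)
  refine h1.trans (le_of_eq ?_)
  rw [cfc_const_mul_id ((2 : ℝ) ^ m) b hsa, t2lq_smul_re]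

/-- Q2 (lower), from `HH_sum_ge` -/
theorem sum_Q_ge (hψ : PTr ψ) (hb : 0 ≤ b) (hb1 : b ≤ 1) :
    2 ^ m * ((tr2 ψ b).re - √((l₀ : ℝ) / 2 ^ m) * (tr2 ψ (cfc Real.sqrt b)).re) ≤
      ∑ l ∈ Finset.range (2 ^ m), (ψ (rr (cfc (HH m l₀ l) b))).re := by
  have hsa : IsSelfAdjoint b := IsSelfAdjoint.of_nonneg hb
  have hT := tr2_ptr hψ
  simp only [t2lq_rr]
  rw [t2lq_sum (tr2 ψ) b (Finset.range (2 ^ m)) (fun l => HH m l₀ l)
    (fun l => HH_continuous m l₀ l)]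
  have hc : Continuous (fun t : ℝ => √((l₀ : ℝ) / 2 ^ m) * √t) :=
    continuous_const.mul Real.continuous_sqrt
  have h1 := re_cfc_le hT hsa (t2lq_spec hb hb1)
    (fun t => 2 ^ m * (t - √((l₀ : ℝ) / 2 ^ m) * √t))
    (fun t => ∑ l ∈ Finset.range (2 ^ m), HH m l₀ l t)
    (continuous_const.mul (continuous_id.sub hc))
    (continuous_finsetSum _ fun l _ => HH_continuous m l₀ l)
    (fun x hx => HH_sum_ge m l₀ x hx.1 hx.2)
  refine (le_of_eq ?_).trans h1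
  rw [cfc_const_mul ((2 : ℝ) ^ m) (fun t => t - √((l₀ : ℝ) / 2 ^ m) * √t) b
    (continuous_id.sub hc).continuousOn, t2lq_smul_re,
    cfc_sub (fun t => t) (fun t => √((l₀ : ℝ) / 2 ^ m) * √t) b
      continuous_id.continuousOn hc.continuousOn,
    cfc_const_mul (√((l₀ : ℝ) / 2 ^ m)) (fun t => √t) b Real.continuous_sqrt.continuousOn,
    cfc_id' ℝ b hsa, map_sub, Complex.sub_re, t2lq_smul_re]

/-- Q3, from `HH_sum_proj`; `tr2 ψ 1 = 2 ψ 1` -/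
theorem sum_Q_proj (hψ : PTr ψ) (hb : 0 ≤ b) (hb1 : b ≤ 1) :
    ∑ l ∈ Finset.range (2 ^ m),
      (tr2 ψ (cfc (HH m l₀ l) b - cfc (HH m l₀ l) b * cfc (HH m l₀ l) b)).re ≤
      (ψ 1).re / 2 := by
  have hsa : IsSelfAdjoint b := IsSelfAdjoint.of_nonneg hb
  have hT := tr2_ptr hψ
  have e : ∀ l, cfc (HH m l₀ l) b - cfc (HH m l₀ l) b * cfc (HH m l₀ l) b =
      cfc (fun t => HH m l₀ l t - HH m l₀ l t ^ 2) b := by
    intro l
    have hc := HH_continuous m l₀ l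
    have e1 : (fun t => HH m l₀ l t - HH m l₀ l t ^ 2) =
        fun t => HH m l₀ l t - HH m l₀ l t * HH m l₀ l t := by
      ext t; ring
    rw [e1, cfc_sub (fun t => HH m l₀ l t) (fun t => HH m l₀ l t * HH m l₀ l t) b
      hc.continuousOn (hc.mul hc).continuousOn,
      cfc_mul (fun t => HH m l₀ l t) (fun t => HH m l₀ l t) b hc.continuousOn hc.continuousOn]
  simp only [e]
  rw [t2lq_sum (tr2 ψ) b (Finset.range (2 ^ m)) (fun l t => HH m l₀ l t - HH m l₀ l t ^ 2)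
    (fun l => (HH_continuous m l₀ l).sub ((HH_continuous m l₀ l).pow 2))]
  have h1 := re_cfc_le hT hsa (t2lq_spec hb hb1)
    (fun t => ∑ l ∈ Finset.range (2 ^ m), (HH m l₀ l t - HH m l₀ l t ^ 2))
    (fun _ => 1 / 4)
    (continuous_finsetSum _ fun l _ => (HH_continuous m l₀ l).sub ((HH_continuous m l₀ l).pow 2))
    continuous_const (fun x _ => HH_sum_proj m l₀ x)
  refine h1.trans (le_of_eq ?_)
  rw [cfc_const (1 / 4 : ℝ) b hsa, map_algebraMap_re, tr2_apply, ent_one, ent_one, if_pos rfl,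
    if_pos rfl, Complex.add_re]
  ring

private theorem t2lq_sqrt_sq {A : Type u} [CStarAlgebra A] [PartialOrder A] [StarOrderedRing A]
    (φ : A →ₗ[ℂ] ℂ) {b : A} (hb : 0 ≤ b) : sq2 φ (cfc Real.sqrt b) = (φ b).re := by
  have hsa : IsSelfAdjoint b := IsSelfAdjoint.of_nonneg hb
  have h1 : IsSelfAdjoint (cfc Real.sqrt b) := cfc_predicate _ _
  unfold sq2
  rw [h1.star_eq, ← cfc_mul Real.sqrt Real.sqrt b Real.continuous_sqrt.continuousOn
    Real.continuous_sqrt.continuousOn]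
  congr 2
  have h2 : cfc (fun t => √t * √t) b = cfc (fun t : ℝ => t) b := by
    apply cfc_congr
    intro t ht
    exact Real.mul_self_sqrt (spectrum_nonneg_of_nonneg hb ht)
  rw [h2, cfc_id' ℝ b hsa]

/-- Q4, from `sum_sq2_HH_le` in `D2 E` for `tr2 ψ`; `sq2 (√b + √b') ≤ 2 tr2 ψ b + 2 tr2 ψ b'` -/
theorem sum_Q_inv (hψ : PTr ψ) (hb : 0 ≤ b) (hb1 : b ≤ 1) (σ : E ≃⋆ₐ[ℂ] E) (c d s : ℝ)
    (hc : 0 < c) (hs : (tr2 ψ b).re ≤ s) (hs' : (tr2 ψ (act2 σ b)).re ≤ s)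
    (hd : sq2 (tr2 ψ) (cfc Real.sqrt (act2 σ b) - cfc Real.sqrt b) ≤ 4 * d * s) :
    ∑ l ∈ Finset.range (2 ^ m), sq2 (tr2 ψ) (act2 σ (cfc (HH m l₀ l) b) - cfc (HH m l₀ l) b) ≤
      2 ^ m * ((2 * c * d + 2 / c) * s) := by
  have hsa : IsSelfAdjoint b := IsSelfAdjoint.of_nonneg hb
  have hT := tr2_ptr hψ
  have h1 := sum_sq2_HH_le hT (act2_nonneg σ hb) (act2_le_one σ hb1) hb hb1 m l₀ c hc
  have e : ∀ l, act2 σ (cfc (HH m l₀ l) b) = cfc (HH m l₀ l) (act2 σ b) := fun l =>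
    act2_cfc σ _ (HH_continuous m l₀ l) hsa
  simp only [e]
  refine h1.trans ?_
  apply mul_le_mul_of_nonneg_left _ (by positivity)
  have h2 : sq2 (tr2 ψ) (cfc Real.sqrt (act2 σ b) + cfc Real.sqrt b) ≤ 4 * s := by
    have h3 := hT.sq2_add_le (cfc Real.sqrt (act2 σ b)) (cfc Real.sqrt b)
    rw [t2lq_sqrt_sq (tr2 ψ) (act2_nonneg σ hb), t2lq_sqrt_sq (tr2 ψ) hb] at h3
    linarith
  have h4 : c / 2 * sq2 (tr2 ψ) (cfc Real.sqrt (act2 σ b) - cfc Real.sqrt b) ≤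
      c / 2 * (4 * d * s) := mul_le_mul_of_nonneg_left hd (by positivity)
  have h5 : 1 / (2 * c) * sq2 (tr2 ψ) (cfc Real.sqrt (act2 σ b) + cfc Real.sqrt b) ≤
      1 / (2 * c) * (4 * s) := mul_le_mul_of_nonneg_left h2 (by positivity)
  refine (add_le_add h4 h5).trans (le_of_eq ?_)
  field_simp
  ring

private theorem t2lq_le_smul (hb : 0 ≤ b) (hl : 0 < l₀) (l : ℕ) :
    cfc (HH m l₀ l) b ≤ (((l₀ : ℝ) / 2 ^ m)⁻¹) • b := by
  have hsa : IsSelfAdjoint b := IsSelfAdjoint.of_nonneg hb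
  rw [← cfc_const_mul_id (((l₀ : ℝ) / 2 ^ m)⁻¹) b hsa]
  apply cfc_mono
  · intro x hx
    exact HH_le_div m l₀ l hl x (spectrum_nonneg_of_nonneg hb hx)
  · exact (HH_continuous m l₀ l).continuousOn
  · exact (continuous_const.mul continuous_id).continuousOn

private theorem t2lq_ent_smul (r : ℝ) (x : D2 E) (i j : Fin 2) :
    ent (r • x) i j = r • ent x i j := by
  rw [← Complex.coe_smul, ent_smul, Complex.coe_smul]

private theorem t2lq_rr_smul (r : ℝ) (x : D2 E) : rr (r • x) = r • rr x := by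
  rw [rr, rr, t2lq_ent_smul, t2lq_ent_smul, smul_add]

private theorem t2lq_mm_smul (r : ℝ) (x : D2 E) : mm (r • x) = r • mm x := by
  rw [mm, mm, t2lq_ent_smul, t2lq_ent_smul, smul_add]

private theorem t2lq_mul_le (hψ : PTr ψ) {x y x' y' : E} {r : ℝ} (hr : 0 ≤ r)
    (hy : 0 ≤ y) (hx' : 0 ≤ x') (h1 : x ≤ r • x')
    (h2 : y ≤ r • y') : (ψ (x * y)).re ≤ r ^ 2 * (ψ (x' * y')).re := by
  have h3 := hψ.mul_mono h1 (smul_nonneg hr hx') hy h2
  refine h3.trans (le_of_eq ?_)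
  rw [smul_mul_smul_comm, t2lq_smul_re, pow_two]

/-- Q5: `Q ≤ u⁻¹ b` (`HH_le_div`), `mono_entries`, `PTr.mul_mono` -/
theorem Q_cross (hψ : PTr ψ) (hb : 0 ≤ b) (hl : 0 < l₀) (l : ℕ) :
    (ψ (ent (cfc (HH m l₀ l) b) 1 1 * ent (cfc (HH m l₀ l) b) 0 0)).re ≤
      (((l₀ : ℝ) / 2 ^ m)⁻¹) ^ 2 * (ψ (ent b 1 1 * ent b 0 0)).re := by
  have h1 := mono_entries (t2lq_le_smul m l₀ hb hl l)
  rw [t2lq_ent_smul, t2lq_ent_smul] at h1
  have h2 := pos_entries hb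
  have h3 := pos_entries (Q_nonneg (b := b) m l₀ l)
  exact t2lq_mul_le hψ (by positivity) h3.1 h2.2.1 h1.2.1 h1.1

theorem Q_rot (hψ : PTr ψ) (hb : 0 ≤ b) (hl : 0 < l₀) (l : ℕ) :
    (ψ ((rr (cfc (HH m l₀ l) b) + mm (cfc (HH m l₀ l) b)) *
        (rr (cfc (HH m l₀ l) b) - mm (cfc (HH m l₀ l) b)))).re ≤
      (((l₀ : ℝ) / 2 ^ m)⁻¹) ^ 2 * (ψ ((rr b + mm b) * (rr b - mm b))).re := by
  have h1 := mono_entries (t2lq_le_smul m l₀ hb hl l)
  rw [t2lq_rr_smul, t2lq_mm_smul, ← smul_add, ← smul_sub] at h1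
  have h2 := pos_entries hb
  have h3 := pos_entries (Q_nonneg (b := b) m l₀ l)
  exact t2lq_mul_le hψ (by positivity) h3.2.2.2 h2.2.2.1 h1.2.2.1 h1.2.2.2

private theorem t2lq_sqrt_smul {r : ℝ} (hr : 0 ≤ r) {x : E} (hx : 0 ≤ x) :
    cfc Real.sqrt (r • x) = √r • cfc Real.sqrt x := by
  have hsa : IsSelfAdjoint x := IsSelfAdjoint.of_nonneg hx
  rw [← cfc_comp_const_mul r Real.sqrt x Real.continuous_sqrt.continuousOn hsa,
    ← cfc_const_mul (√r) Real.sqrt x Real.continuous_sqrt.continuousOn]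
  apply cfc_congr
  intro t _
  exact Real.sqrt_mul hr t

/-- Q6: `√r ≤ √q + √p` under the trace, `q ≤ u⁻¹ b_00`, `re_sqrt_mono` -/
theorem Q_sqrt (hψ : PTr ψ) (hb : 0 ≤ b) (hl : 0 < l₀) (l : ℕ) (s : ℝ)
    (h0 : (ψ (cfc Real.sqrt (ent b 0 0))).re ≤ s) (h1 : (ψ (cfc Real.sqrt (ent b 1 1))).re ≤ s) :
    (ψ (cfc Real.sqrt (rr (cfc (HH m l₀ l) b)))).re ≤ 2 * √(((l₀ : ℝ) / 2 ^ m)⁻¹) * s := by
  have g1 := mono_entries (t2lq_le_smul m l₀ hb hl l)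
  rw [t2lq_ent_smul, t2lq_ent_smul] at g1
  have g2 := pos_entries hb
  have g3 := pos_entries (Q_nonneg (b := b) m l₀ l)
  have hr : (0 : ℝ) ≤ ((l₀ : ℝ) / 2 ^ m)⁻¹ := by positivity
  have k1 := re_sqrt_add_le hψ g3.1 g3.2.1
  have k2 := re_sqrt_mono hψ g3.1 g1.1
  have k3 := re_sqrt_mono hψ g3.2.1 g1.2.1
  rw [t2lq_sqrt_smul hr g2.1, t2lq_smul_re] at k2
  rw [t2lq_sqrt_smul hr g2.2.1, t2lq_smul_re] at k3
  have k4 := mul_le_mul_of_nonneg_left h0 (Real.sqrt_nonneg (((l₀ : ℝ) / 2 ^ m)⁻¹))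
  have k5 := mul_le_mul_of_nonneg_left h1 (Real.sqrt_nonneg (((l₀ : ℝ) / 2 ^ m)⁻¹))
  unfold rr
  linarith

/-- conjugation by `diag (-1, 1)` -/
private noncomputable def t2lq_th : D2 E →⋆ₐ[ℂ] D2 E where
  toFun x := mk2 (ent x 0 0) (-ent x 0 1) (-ent x 1 0) (ent x 1 1)
  map_one' := by
    refine D2.ext fun i j => ?_
    fin_cases i <;> fin_cases j <;> simp [ent_one]
  map_mul' x y := by
    refine D2.ext fun i j => ?_
    fin_cases i <;> fin_cases j <;> simp [ent_mul] <;> abel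
  map_zero' := by
    refine D2.ext fun i j => ?_
    fin_cases i <;> fin_cases j <;> simp [ent_zero]
  map_add' x y := by
    refine D2.ext fun i j => ?_
    fin_cases i <;> fin_cases j <;> simp [ent_add] <;> abel
  commutes' r := by
    refine D2.ext fun i j => ?_
    rw [Algebra.algebraMap_eq_smul_one]
    fin_cases i <;> fin_cases j <;> simp [ent_smul, ent_one]
  map_star' x := by
    refine D2.ext fun i j => ?_
    fin_cases i <;> fin_cases j <;> simp [ent_star]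

/-- the symmetry: if `b'` is the conjugate of `b` by `diag (-1, 1)` then so is `cfc f b'` -/
theorem cfc_sym {b b' : D2 E} (hb : 0 ≤ b) (f : ℝ → ℝ) (hf : Continuous f)
    (h00 : ent b' 0 0 = ent b 0 0) (h11 : ent b' 1 1 = ent b 1 1)
    (h01 : ent b' 0 1 = -ent b 0 1) (h10 : ent b' 1 0 = -ent b 1 0) :
    ent (cfc f b') 0 0 = ent (cfc f b) 0 0 ∧ ent (cfc f b') 1 1 = ent (cfc f b) 1 1 ∧
      ent (cfc f b') 0 1 = -ent (cfc f b) 0 1 := by
  have hsa : IsSelfAdjoint b := IsSelfAdjoint.of_nonneg hb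
  have hb' : b' = t2lq_th b := by
    refine D2.ext fun i j => ?_
    fin_cases i <;> fin_cases j
    · exact h00
    · exact h01
    · exact h10
    · exact h11
  have hsa' : IsSelfAdjoint (t2lq_th b) := hsa.map _
  have hcont : Continuous (t2lq_th : D2 E →⋆ₐ[ℂ] D2 E) := map_continuous _
  have key : t2lq_th (cfc f b) = cfc f (t2lq_th b) :=
    StarAlgHom.map_cfc t2lq_th f b hf.continuousOn hcont hsa hsa'
  rw [hb', ← key]
  exact ⟨rfl, rfl, rfl⟩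

end P095F
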