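import Mathlib
import Vale.Agent.Lib.P095F.T2LQ
import Vale.Agent.Lib.P095F.T2LAbs

/-!
# P095F, part T2L: the family `QQ` satisfies `Fam` (part A)

`t = 1/(4k)`, `u = l₀/2^m`, `N = |K|`. The averages over `Idx k m` are
`card = 2^(4k) 2^m`, `sum over (w, l)` with `l : Fin (2^m)` (`Finset.sum_range`).
-/

open scoped ENNReal Topology

namespace P095F

universe u v

variable {G : Type v} [Group G]

private theorem t2lfam_card_w (k : ℕ) :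
    Fintype.card ((Fin k → Fin 4) × (Fin k → Fin 4)) = 2 ^ (4 * k) := by
  rw [Fintype.card_prod, Fintype.card_fun, Fintype.card_fin, Fintype.card_fin]
  have h : (4 : ℕ) = 2 ^ 2 := by norm_num
  rw [h, ← pow_mul, ← pow_add]
  congr 1
  ring

theorem card_Idx (k m : ℕ) : Fintype.card (Idx k m) = 2 ^ (4 * k + m) := by
  rw [pow_add, ← t2lfam_card_w k]
  change Fintype.card (((Fin k → Fin 4) × (Fin k → Fin 4)) × Fin (2 ^ m)) = _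
  rw [Fintype.card_prod, Fintype.card_fin]

private theorem t2lfam_sum (k m : ℕ) (F : (Fin k → Fin 4) × (Fin k → Fin 4) → ℕ → ℝ) :
    ∑ i : Idx k m, F i.1 (i.2 : ℕ) = ∑ w, ∑ l ∈ Finset.range (2 ^ m), F w l := by
  change ∑ i : ((Fin k → Fin 4) × (Fin k → Fin 4)) × Fin (2 ^ m), F i.1 (i.2 : ℕ) = _
  rw [Fintype.sum_prod_type]
  refine Finset.sum_congr rfl fun w _ => ?_
  exact Fin.sum_univ_eq_sum_range (fun l => F w l) (2 ^ m)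

private theorem t2lfam_sum_le (k m : ℕ) (F : (Fin k → Fin 4) × (Fin k → Fin 4) → ℕ → ℝ) (A : ℝ)
    (h : ∀ w, ∑ l ∈ Finset.range (2 ^ m), F w l ≤ A) :
    ∑ i : Idx k m, F i.1 (i.2 : ℕ) ≤ 2 ^ (4 * k) * A := by
  rw [t2lfam_sum]
  calc ∑ w, ∑ l ∈ Finset.range (2 ^ m), F w l
      ≤ ∑ _w : (Fin k → Fin 4) × (Fin k → Fin 4), A := Finset.sum_le_sum fun w _ => h w
    _ = 2 ^ (4 * k) * A := by
        rw [Finset.sum_const, Finset.card_univ, t2lfam_card_w, nsmul_eq_mul]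
        push_cast
        rfl

private theorem t2lfam_le_sum (k m : ℕ) (F : (Fin k → Fin 4) × (Fin k → Fin 4) → ℕ → ℝ) (A : ℝ)
    (h : ∀ w, A ≤ ∑ l ∈ Finset.range (2 ^ m), F w l) :
    2 ^ (4 * k) * A ≤ ∑ i : Idx k m, F i.1 (i.2 : ℕ) := by
  rw [t2lfam_sum]
  calc 2 ^ (4 * k) * A = ∑ _w : (Fin k → Fin 4) × (Fin k → Fin 4), A := by
        rw [Finset.sum_const, Finset.card_univ, t2lfam_card_w, nsmul_eq_mul]
        push_cast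
        rfl
    _ ≤ ∑ w, ∑ l ∈ Finset.range (2 ^ m), F w l := Finset.sum_le_sum fun w _ => h w

/-- the involution of the index set -/
private def t2lfam_perm (k m : ℕ) : Equiv.Perm (Idx k m) where
  toFun i := ((fun s => i.1.1 s + 2, i.1.2), i.2)
  invFun i := ((fun s => i.1.1 s + 2, i.1.2), i.2)
  left_inv i := by
    have h : ∀ x : Fin 4, x + 2 + 2 = x := by decide
    simp only [h]
  right_inv i := by
    have h : ∀ x : Fin 4, x + 2 + 2 = x := by decide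
    simp only [h]

/-- the numeric hypotheses are exactly what the estimates of `T2LBa`, `T2LBb`, `T2LQ`, `T2LAbs`
need:
* lo: average of `psi r` at least `(1 - √u √N)/k ≥ 1/(2k) = 2t`;
* hi: at most `1/k = 4t`;
* proj: `2^(-m)/2 ≤ ε/(4k)`, i.e. `2k ≤ ε 2^m`;
* cross: `u^(-2)/(4k^2) ≤ ε/(4k)`, i.e. `1 ≤ ε u^2 k`;
* inv: `(2 c d + 2/c)/k ≤ ε/(4k)`, i.e. `8 c d + 8/c ≤ ε`;
* abs: `2 c' √(1/u) 2 √(N/2)/k + 7/c'^2 (4 u^(-2)/k^2 + 4 u^(-2)/(4k^2) + 2^(-m)/2) ≤ ε/(4k)`. -/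
theorem fam_QQ {E : Type u} [CStarAlgebra E] [PartialOrder E] [StarOrderedRing E]
    (γ : G →* (E ≃⋆ₐ[ℂ] E)) (K₀ K : Finset G) (hK : K.Nonempty) {k : ℕ} (hk : 1 ≤ k) (m l₀ : ℕ)
    (hl : 0 < l₀) (j : Matrix (Fin k) (Fin k) ℂ →⋆ₐ[ℂ] E) (ε c c' d : ℝ) (hε : 0 < ε)
    (hc : 0 < c) (hc' : 0 < c') (hd : 0 ≤ d)
    (hF : ∀ h ∈ K₀, (Nat.card {g : G // g ∉ K ∧ h⁻¹ * g ∈ K} : ℝ) ≤ d * K.card)
    (n1 : √((l₀ : ℝ) / 2 ^ m) * √(K.card : ℝ) ≤ 1 / 2)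
    (n2 : 2 * (k : ℝ) ≤ ε * 2 ^ m)
    (n3 : 1 ≤ ε * ((l₀ : ℝ) / 2 ^ m) ^ 2 * k)
    (n4 : 8 * c * d + 8 / c ≤ ε)
    (n5 : 2 * c' * (2 * √(((l₀ : ℝ) / 2 ^ m)⁻¹) * √((K.card : ℝ) / 2)) +
      7 / c' ^ 2 * (5 * (((l₀ : ℝ) / 2 ^ m)⁻¹) ^ 2 / k + k / (2 * 2 ^ m)) ≤ ε / 4) :
    Fam γ K₀ (1 / (4 * (k : ℝ))) ε (QQ γ K m l₀ j) := by
  have hkR : (0 : ℝ) < k := by exact_mod_cast hk
  have hm2 : (0 : ℝ) < 2 ^ m := by positivity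
  have hcard : (Fintype.card (Idx k m) : ℝ) = 2 ^ (4 * k) * 2 ^ m := by
    rw [card_Idx, pow_add]
    push_cast
    rfl
  have h4k : (0 : ℝ) < 2 ^ (4 * k) := by positivity
  set u : ℝ := (l₀ : ℝ) / 2 ^ m with hu
  have hu0 : 0 < u := by
    have : (0 : ℝ) < l₀ := by exact_mod_cast hl
    positivity
  have hb0 : ∀ w : (Fin k → Fin 4) × (Fin k → Fin 4), 0 ≤ bb γ K j w.1 w.2 :=
    fun w => bb_nonneg hk j w.1 w.2 γ K
  have hb1 : ∀ w : (Fin k → Fin 4) × (Fin k → Fin 4), bb γ K j w.1 w.2 ≤ 1 :=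
    fun w => bb_le_one hk j w.1 w.2 γ K
  have hQ0 : ∀ i : Idx k m, 0 ≤ QQ γ K m l₀ j i := fun i => Q_nonneg m l₀ _
  have hQ1 : ∀ i : Idx k m, QQ γ K m l₀ j i ≤ 1 := fun i => Q_le_one m l₀ _
  -- the three sums of the errors
  have hproj : ∀ ψ : E →ₗ[ℂ] ℂ, PTr ψ →
      ∑ i, (tr2 ψ (QQ γ K m l₀ j i - QQ γ K m l₀ j i * QQ γ K m l₀ j i)).re ≤
        2 ^ (4 * k) * ((ψ 1).re / 2) := by
    intro ψ hψ
    exact t2lfam_sum_le k m (fun w l => (tr2 ψ (cfc (HH m l₀ l) (bb γ K j w.1 w.2) -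
      cfc (HH m l₀ l) (bb γ K j w.1 w.2) * cfc (HH m l₀ l) (bb γ K j w.1 w.2))).re) _
      (fun w => sum_Q_proj m l₀ hψ (hb0 w) (hb1 w))
  have hcross : ∀ ψ : E →ₗ[ℂ] ℂ, PTr ψ →
      ∑ i, (ψ (ent (QQ γ K m l₀ j i) 1 1 * ent (QQ γ K m l₀ j i) 0 0)).re ≤
        2 ^ m * (u⁻¹ ^ 2 * (2 ^ (4 * k) * ((ψ 1).re / (4 * (k : ℝ) ^ 2)))) := by
    intro ψ hψ
    have h1 := t2lfam_sum k m (fun w l => (ψ (ent (cfc (HH m l₀ l) (bb γ K j w.1 w.2)) 1 1 *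
      ent (cfc (HH m l₀ l) (bb γ K j w.1 w.2)) 0 0)).re)
    have h2 : ∑ i, (ψ (ent (QQ γ K m l₀ j i) 1 1 * ent (QQ γ K m l₀ j i) 0 0)).re =
      ∑ w : (Fin k → Fin 4) × (Fin k → Fin 4), ∑ l ∈ Finset.range (2 ^ m),
        (ψ (ent (cfc (HH m l₀ l) (bb γ K j w.1 w.2)) 1 1 *
          ent (cfc (HH m l₀ l) (bb γ K j w.1 w.2)) 0 0)).re := h1
    rw [h2]
    calc ∑ w : (Fin k → Fin 4) × (Fin k → Fin 4), ∑ l ∈ Finset.range (2 ^ m),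
        (ψ (ent (cfc (HH m l₀ l) (bb γ K j w.1 w.2)) 1 1 *
          ent (cfc (HH m l₀ l) (bb γ K j w.1 w.2)) 0 0)).re
        ≤ ∑ w : (Fin k → Fin 4) × (Fin k → Fin 4), ∑ _l ∈ Finset.range (2 ^ m),
          u⁻¹ ^ 2 * (ψ (ent (bb γ K j w.1 w.2) 1 1 * ent (bb γ K j w.1 w.2) 0 0)).re :=
          Finset.sum_le_sum fun w _ => Finset.sum_le_sum fun l _ =>
            Q_cross m l₀ hψ (hb0 w) hl l
      _ = 2 ^ m * (u⁻¹ ^ 2 * ∑ w : (Fin k → Fin 4) × (Fin k → Fin 4),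
          (ψ (ent (bb γ K j w.1 w.2) 1 1 * ent (bb γ K j w.1 w.2) 0 0)).re) := by
          rw [Finset.mul_sum, Finset.mul_sum]
          refine Finset.sum_congr rfl fun w _ => ?_
          rw [Finset.sum_const, Finset.card_range, nsmul_eq_mul]
          push_cast
          rfl
      _ ≤ 2 ^ m * (u⁻¹ ^ 2 * (2 ^ (4 * k) * ((ψ 1).re / (4 * (k : ℝ) ^ 2)))) := by
          have h3 := sum_cross_bb hk hψ j γ K hK
          gcongr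
  have hrot : ∀ ψ : E →ₗ[ℂ] ℂ, PTr ψ →
      ∑ i, (ψ ((rr (QQ γ K m l₀ j i) + mm (QQ γ K m l₀ j i)) *
        (rr (QQ γ K m l₀ j i) - mm (QQ γ K m l₀ j i)))).re ≤
        2 ^ m * (u⁻¹ ^ 2 * (2 ^ (4 * k) * ((ψ 1).re / (k : ℝ) ^ 2))) := by
    intro ψ hψ
    have h1 := t2lfam_sum k m (fun w l => (ψ ((rr (cfc (HH m l₀ l) (bb γ K j w.1 w.2)) +
      mm (cfc (HH m l₀ l) (bb γ K j w.1 w.2))) * (rr (cfc (HH m l₀ l) (bb γ K j w.1 w.2)) -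
      mm (cfc (HH m l₀ l) (bb γ K j w.1 w.2))))).re)
    have h2 : ∑ i, (ψ ((rr (QQ γ K m l₀ j i) + mm (QQ γ K m l₀ j i)) *
        (rr (QQ γ K m l₀ j i) - mm (QQ γ K m l₀ j i)))).re =
      ∑ w : (Fin k → Fin 4) × (Fin k → Fin 4), ∑ l ∈ Finset.range (2 ^ m),
        (ψ ((rr (cfc (HH m l₀ l) (bb γ K j w.1 w.2)) +
          mm (cfc (HH m l₀ l) (bb γ K j w.1 w.2))) * (rr (cfc (HH m l₀ l) (bb γ K j w.1 w.2)) -
          mm (cfc (HH m l₀ l) (bb γ K j w.1 w.2))))).re := h1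
    rw [h2]
    calc ∑ w : (Fin k → Fin 4) × (Fin k → Fin 4), ∑ l ∈ Finset.range (2 ^ m),
        (ψ ((rr (cfc (HH m l₀ l) (bb γ K j w.1 w.2)) +
          mm (cfc (HH m l₀ l) (bb γ K j w.1 w.2))) * (rr (cfc (HH m l₀ l) (bb γ K j w.1 w.2)) -
          mm (cfc (HH m l₀ l) (bb γ K j w.1 w.2))))).re
        ≤ ∑ w : (Fin k → Fin 4) × (Fin k → Fin 4), ∑ _l ∈ Finset.range (2 ^ m),
          u⁻¹ ^ 2 * (ψ ((rr (bb γ K j w.1 w.2) + mm (bb γ K j w.1 w.2)) *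
            (rr (bb γ K j w.1 w.2) - mm (bb γ K j w.1 w.2)))).re :=
          Finset.sum_le_sum fun w _ => Finset.sum_le_sum fun l _ =>
            Q_rot m l₀ hψ (hb0 w) hl l
      _ = 2 ^ m * (u⁻¹ ^ 2 * ∑ w : (Fin k → Fin 4) × (Fin k → Fin 4),
          (ψ ((rr (bb γ K j w.1 w.2) + mm (bb γ K j w.1 w.2)) *
            (rr (bb γ K j w.1 w.2) - mm (bb γ K j w.1 w.2)))).re) := by
          rw [Finset.mul_sum, Finset.mul_sum]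
          refine Finset.sum_congr rfl fun w _ => ?_
          rw [Finset.sum_const, Finset.card_range, nsmul_eq_mul]
          push_cast
          rfl
      _ ≤ 2 ^ m * (u⁻¹ ^ 2 * (2 ^ (4 * k) * ((ψ 1).re / (k : ℝ) ^ 2))) := by
          have h3 := sum_rot_bb hk hψ j γ K hK
          gcongr
  refine ⟨hQ0, hQ1, ⟨t2lfam_perm k m, fun i => ?_⟩, ?_, ?_, ?_, ?_, ?_, ?_⟩
  · -- symmetry
    obtain ⟨h1, h2, h3, h4⟩ := bb_sym j i.1.1 i.1.2 γ K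
    exact cfc_sym (hb0 i.1) (HH m l₀ (i.2 : ℕ)) (HH_continuous m l₀ _) h1 h2 h3 h4
  · -- lower bound
    intro ψ hψ
    have hP := hψ.one_re
    have h1 := t2lfam_le_sum k m (fun w l => (ψ (rr (cfc (HH m l₀ l) (bb γ K j w.1 w.2)))).re)
      (2 ^ m * ((k : ℝ)⁻¹ * (ψ 1).re / 2)) (fun w => by
        refine le_trans ?_ (sum_Q_ge m l₀ hψ (hb0 w) (hb1 w))
        refine mul_le_mul_of_nonneg_left ?_ hm2.le
        rw [tr2_bb hk j w.1 w.2 γ K hψ hK]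
        have h2 := tr2_sqrt_bb hk j w.1 w.2 γ K hψ hK
        have h3 : √u * (tr2 ψ (cfc Real.sqrt (bb γ K j w.1 w.2))).re ≤
            1 / 2 * ((k : ℝ)⁻¹ * (ψ 1).re) := by
          calc √u * (tr2 ψ (cfc Real.sqrt (bb γ K j w.1 w.2))).re
              ≤ √u * (√(K.card : ℝ) * ((k : ℝ)⁻¹ * (ψ 1).re)) := by gcongr
            _ = (√u * √(K.card : ℝ)) * ((k : ℝ)⁻¹ * (ψ 1).re) := by ring
            _ ≤ 1 / 2 * ((k : ℝ)⁻¹ * (ψ 1).re) := by gcongr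
        linarith)
    refine le_trans (le_of_eq ?_) h1
    rw [hcard]
    field_simp
    ring
  · -- upper bound
    intro ψ hψ
    have h1 := t2lfam_sum_le k m (fun w l => (ψ (rr (cfc (HH m l₀ l) (bb γ K j w.1 w.2)))).re)
      (2 ^ m * ((k : ℝ)⁻¹ * (ψ 1).re)) (fun w => by
        have h2 := sum_Q_le m l₀ hψ (hb0 w) (hb1 w)
        rwa [tr2_bb hk j w.1 w.2 γ K hψ hK] at h2)
    refine le_trans h1 (le_of_eq ?_)
    rw [hcard]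
    field_simp
  · -- projections
    intro ψ hψ
    have hP := hψ.one_re
    refine (hproj ψ hψ).trans ?_
    rw [hcard, mul_assoc]
    refine mul_le_mul_of_nonneg_left ?_ h4k.le
    have h1 : (1 : ℝ) / 2 ≤ 2 ^ m * (ε * (1 / (4 * (k : ℝ)))) := by
      rw [mul_one_div, ← mul_div_assoc, le_div_iff₀ (by positivity)]
      linarith
    calc (ψ 1).re / 2 = (1 / 2) * (ψ 1).re := by ring
      _ ≤ (2 ^ m * (ε * (1 / (4 * (k : ℝ))))) * (ψ 1).re := by gcongr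
      _ = _ := by ring
  · -- cross terms
    intro ψ hψ
    have hP := hψ.one_re
    refine (hcross ψ hψ).trans ?_
    rw [hcard]
    have h1 : u⁻¹ ^ 2 / (k : ℝ) ≤ ε := by
      rw [div_le_iff₀ hkR, inv_pow, inv_le_iff_one_le_mul₀ (by positivity)]
      linarith
    calc 2 ^ m * (u⁻¹ ^ 2 * (2 ^ (4 * k) * ((ψ 1).re / (4 * (k : ℝ) ^ 2))))
        = 2 ^ (4 * k) * 2 ^ m * ((u⁻¹ ^ 2 / (k : ℝ)) * (1 / (4 * (k : ℝ))) * (ψ 1).re) := by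
          field_simp
      _ ≤ 2 ^ (4 * k) * 2 ^ m * (ε * (1 / (4 * (k : ℝ))) * (ψ 1).re) := by gcongr
  · -- `ab`
    intro ψ hψ
    have hP := hψ.one_re
    have hsq : ∀ i : Idx k m, (ψ (cfc Real.sqrt (rr (QQ γ K m l₀ j i)))).re ≤
        2 * √(u⁻¹) * (√((K.card : ℝ) / 2) * ((k : ℝ)⁻¹ * (ψ 1).re)) := by
      intro i
      have h2 := sqrt_bb_entries hk j i.1.1 i.1.2 γ K hψ hK
      exact Q_sqrt m l₀ hψ (hb0 i.1) hl _ _ h2.1 h2.2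
    have h1 : ∀ i : Idx k m, ab ψ (QQ γ K m l₀ j i) ≤
        2 * c' * (2 * √(u⁻¹) * (√((K.card : ℝ) / 2) * ((k : ℝ)⁻¹ * (ψ 1).re))) +
        7 / c' ^ 2 * (4 * (ψ ((rr (QQ γ K m l₀ j i) + mm (QQ γ K m l₀ j i)) *
          (rr (QQ γ K m l₀ j i) - mm (QQ γ K m l₀ j i)))).re +
        4 * (ψ (ent (QQ γ K m l₀ j i) 1 1 * ent (QQ γ K m l₀ j i) 0 0)).re +
        (tr2 ψ (QQ γ K m l₀ j i - QQ γ K m l₀ j i * QQ γ K m l₀ j i)).re) := by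
      intro i
      refine (ab_le hψ (hQ0 i) (hQ1 i) c' hc').trans ?_
      have h3 := hsq i
      gcongr
    refine (Finset.sum_le_sum fun i _ => h1 i).trans ?_
    rw [Finset.sum_add_distrib, Finset.sum_const, Finset.card_univ, nsmul_eq_mul,
      ← Finset.mul_sum, Finset.sum_add_distrib, Finset.sum_add_distrib, ← Finset.mul_sum,
      ← Finset.mul_sum]
    have h2 := hrot ψ hψ
    have h3 := hcross ψ hψ
    have h4 := hproj ψ hψ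
    rw [hcard]
    have h5 : 7 / c' ^ 2 * (4 * ∑ i, (ψ ((rr (QQ γ K m l₀ j i) + mm (QQ γ K m l₀ j i)) *
          (rr (QQ γ K m l₀ j i) - mm (QQ γ K m l₀ j i)))).re +
        4 * ∑ i, (ψ (ent (QQ γ K m l₀ j i) 1 1 * ent (QQ γ K m l₀ j i) 0 0)).re +
        ∑ i, (tr2 ψ (QQ γ K m l₀ j i - QQ γ K m l₀ j i * QQ γ K m l₀ j i)).re) ≤
        7 / c' ^ 2 * (4 * (2 ^ m * (u⁻¹ ^ 2 * (2 ^ (4 * k) * ((ψ 1).re / (k : ℝ) ^ 2)))) +
        4 * (2 ^ m * (u⁻¹ ^ 2 * (2 ^ (4 * k) * ((ψ 1).re / (4 * (k : ℝ) ^ 2))))) +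
        2 ^ (4 * k) * ((ψ 1).re / 2)) := by
      gcongr
    have h6 : 2 ^ (4 * k) * 2 ^ m *
        (2 * c' * (2 * √(u⁻¹) * (√((K.card : ℝ) / 2) * ((k : ℝ)⁻¹ * (ψ 1).re)))) +
        7 / c' ^ 2 * (4 * (2 ^ m * (u⁻¹ ^ 2 * (2 ^ (4 * k) * ((ψ 1).re / (k : ℝ) ^ 2)))) +
        4 * (2 ^ m * (u⁻¹ ^ 2 * (2 ^ (4 * k) * ((ψ 1).re / (4 * (k : ℝ) ^ 2))))) +
        2 ^ (4 * k) * ((ψ 1).re / 2)) =
        2 ^ (4 * k) * 2 ^ m * ((2 * c' * (2 * √(u⁻¹) * √((K.card : ℝ) / 2)) +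
          7 / c' ^ 2 * (5 * (u⁻¹) ^ 2 / k + k / (2 * 2 ^ m))) * ((k : ℝ)⁻¹ * (ψ 1).re)) := by
      field_simp
      ring
    have h7 : (2 * c' * (2 * √(u⁻¹) * √((K.card : ℝ) / 2)) +
          7 / c' ^ 2 * (5 * (u⁻¹) ^ 2 / k + k / (2 * 2 ^ m))) * ((k : ℝ)⁻¹ * (ψ 1).re) ≤
        ε / 4 * ((k : ℝ)⁻¹ * (ψ 1).re) := by
      gcongr
    calc _ ≤ 2 ^ (4 * k) * 2 ^ m *
        (2 * c' * (2 * √(u⁻¹) * (√((K.card : ℝ) / 2) * ((k : ℝ)⁻¹ * (ψ 1).re)))) +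
        7 / c' ^ 2 * (4 * (2 ^ m * (u⁻¹ ^ 2 * (2 ^ (4 * k) * ((ψ 1).re / (k : ℝ) ^ 2)))) +
        4 * (2 ^ m * (u⁻¹ ^ 2 * (2 ^ (4 * k) * ((ψ 1).re / (4 * (k : ℝ) ^ 2))))) +
        2 ^ (4 * k) * ((ψ 1).re / 2)) := by linarith
      _ = 2 ^ (4 * k) * 2 ^ m * ((2 * c' * (2 * √(u⁻¹) * √((K.card : ℝ) / 2)) +
          7 / c' ^ 2 * (5 * (u⁻¹) ^ 2 / k + k / (2 * 2 ^ m))) * ((k : ℝ)⁻¹ * (ψ 1).re)) := h6
      _ ≤ 2 ^ (4 * k) * 2 ^ m * (ε / 4 * ((k : ℝ)⁻¹ * (ψ 1).re)) := by gcongr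
      _ = 2 ^ (4 * k) * 2 ^ m * (ε * (1 / (4 * (k : ℝ))) * (ψ 1).re) := by
          field_simp
  · -- invariance
    intro ψ hψ h hh
    have hP := hψ.one_re
    have h1 := t2lfam_sum_le k m (fun w l => sq2 (tr2 ψ)
      (act2 (γ h) (cfc (HH m l₀ l) (bb γ K j w.1 w.2)) - cfc (HH m l₀ l) (bb γ K j w.1 w.2)))
      (2 ^ m * ((2 * c * d + 2 / c) * ((k : ℝ)⁻¹ * (ψ 1).re))) (fun w => by
        refine sum_Q_inv m l₀ hψ (hb0 w) (hb1 w) (γ h) c d _ hc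
          (tr2_bb hk j w.1 w.2 γ K hψ hK).le ?_ (sq2_sqrt_bb hk hψ j w.1 w.2 γ K hK h d (hF h hh))
        have h2 := tr2_bb hk j w.1 w.2 γ K (hψ.comp (γ h)) hK
        have h3 : (ψ ∘ₗ ((γ h : E →⋆ₐ[ℂ] E).toAlgHom.toLinearMap)) 1 = ψ 1 := by
          change ψ (γ h 1) = ψ 1
          rw [map_one]
        rw [h3] at h2
        rw [tr2_apply, ent_act2, ent_act2]
        exact le_of_eq h2)
    refine h1.trans ?_
    rw [hcard]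
    have h2 : 2 * c * d + 2 / c ≤ ε / 4 := by
      have h3 : 8 / c = 4 * (2 / c) := by ring
      linarith
    calc 2 ^ (4 * k) * (2 ^ m * ((2 * c * d + 2 / c) * ((k : ℝ)⁻¹ * (ψ 1).re)))
        ≤ 2 ^ (4 * k) * (2 ^ m * (ε / 4 * ((k : ℝ)⁻¹ * (ψ 1).re))) := by gcongr
      _ = 2 ^ (4 * k) * 2 ^ m * (ε * (1 / (4 * (k : ℝ))) * (ψ 1).re) := by
          field_simp

/-- Choice of the constants, in this order: `d = ε^2/256`, `c = 16/ε`; `K` Folner for `(K₀, d)`;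
`j₀` with `u = 2^(-j₀) ≤ 1/(4N)`; `c' = ε/(64 √(1/u) √(N/2))` (so the first term of `n5` is `≤ ε/16`);
`k` with `1 ≤ ε u^2 k` and `35 u^(-2)/(c'^2 k) ≤ ε/16`; `m ≥ j₀` with `2k ≤ ε 2^m` and
`7 k/(c'^2 2 2^m) ≤ ε/16`; `l₀ = 2^(m - j₀)`. -/
theorem exists_fam (hG : FolnerGroup G) (K₀ : Finset G) (ε : ℝ) (hε : 0 < ε) :
    ∃ (t : ℝ) (k n : ℕ), 0 < t ∧ t ≤ 1 ∧ 1 ≤ k ∧
      ∀ (E : Type u) [CStarAlgebra E] [PartialOrder E] [StarOrderedRing E]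
        (γ : G →* (E ≃⋆ₐ[ℂ] E)) (_ : Matrix (Fin k) (Fin k) ℂ →⋆ₐ[ℂ] E),
        ∃ (I : Type) (_ : Fintype I) (Q : I → D2 E), Fintype.card I = 2 ^ n ∧
          Fam γ K₀ t ε Q := by
  obtain ⟨K, hK, hF⟩ := hG K₀ (ε ^ 2 / 256) (by positivity)
  have hN : (1 : ℝ) ≤ (K.card : ℝ) := by exact_mod_cast hK.card_pos
  have hN0 : (0 : ℝ) < (K.card : ℝ) := by linarith
  -- `u = 1 / 2 ^ j₀`
  obtain ⟨j₀, hj₀⟩ : ∃ j₀ : ℕ, 4 * (K.card : ℝ) ≤ 2 ^ j₀ := by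
    refine ⟨4 * K.card, ?_⟩
    have h1 : 4 * K.card < 2 ^ (4 * K.card) := Nat.lt_two_pow_self
    exact_mod_cast h1.le
  set u : ℝ := 1 / 2 ^ j₀ with hu
  have hu0 : 0 < u := by positivity
  have huN : u * (K.card : ℝ) ≤ 1 / 4 := by
    rw [hu, one_div_mul_eq_div, div_le_iff₀ (by positivity)]
    linarith
  set s : ℝ := √(u⁻¹) * √((K.card : ℝ) / 2) with hs
  have hs0 : 0 < s := by positivity
  set c' : ℝ := ε / (64 * s) with hc'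
  have hc'0 : 0 < c' := by positivity
  obtain ⟨k, hk1⟩ := exists_nat_ge (max 1 (max (1 / (ε * u ^ 2))
    (16 * (35 * (u⁻¹) ^ 2 / c' ^ 2) / ε)))
  rw [max_le_iff, max_le_iff] at hk1
  obtain ⟨hk1, hk2, hk3⟩ := hk1
  have hk0 : (0 : ℝ) < k := by linarith
  have hk : 1 ≤ k := by exact_mod_cast hk1
  obtain ⟨m₀, hm₀⟩ := exists_nat_ge (max (2 * (k : ℝ) / ε) (16 * (7 * k / (c' ^ 2 * 2)) / ε))
  rw [max_le_iff] at hm₀
  obtain ⟨hm1, hm2⟩ := hm₀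
  set m : ℕ := max j₀ m₀ with hm
  have hmm : (m₀ : ℝ) ≤ 2 ^ m := by
    have h1 : m₀ ≤ m := le_max_right _ _
    have h2 : m < 2 ^ m := Nat.lt_two_pow_self
    exact_mod_cast (h1.trans h2.le)
  have hmp : (0 : ℝ) < 2 ^ m := by positivity
  have hjm : j₀ ≤ m := le_max_left _ _
  have hul : (((2 ^ (m - j₀) : ℕ) : ℝ)) / 2 ^ m = u := by
    rw [hu, div_eq_div_iff hmp.ne' (by positivity), one_mul]
    push_cast
    rw [← pow_add]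
    congr 1
    omega
  refine ⟨1 / (4 * (k : ℝ)), k, 4 * k + m, by positivity, ?_, hk, ?_⟩
  · rw [div_le_one (by positivity)]
    linarith
  intro E _ _ _ γ j
  refine ⟨Idx k m, inferInstance, QQ γ K m (2 ^ (m - j₀)) j, card_Idx k m, ?_⟩
  refine fam_QQ γ K₀ K hK hk m (2 ^ (m - j₀)) (by positivity) j ε (16 / ε) c' (ε ^ 2 / 256) hε
    (by positivity) hc'0 (by positivity) hF ?_ ?_ ?_ ?_ ?_
  · rw [hul, ← Real.sqrt_mul hu0.le]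
    have h1 : √(u * (K.card : ℝ)) ≤ √((1 / 2) ^ 2) := Real.sqrt_le_sqrt (by linarith)
    rwa [Real.sqrt_sq (by norm_num)] at h1
  · have h1 : 2 * (k : ℝ) / ε ≤ 2 ^ m := hm1.trans hmm
    rw [div_le_iff₀ hε] at h1
    linarith
  · rw [hul]
    rw [div_le_iff₀ (by positivity)] at hk2
    linarith
  · refine le_of_eq ?_
    field_simp
    norm_num
  · rw [hul]
    have h1 : 2 * c' * (2 * √(u⁻¹) * √((K.card : ℝ) / 2)) = ε / 16 := by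
      have h2 : 2 * c' * (2 * √(u⁻¹) * √((K.card : ℝ) / 2)) = 4 * c' * s := by
        rw [hs]
        ring
      rw [h2, hc']
      field_simp
      norm_num
    have h2 : 7 / c' ^ 2 * (5 * (u⁻¹) ^ 2 / k) ≤ ε / 16 := by
      rw [div_le_iff₀ hε] at hk3
      have h3 : 7 / c' ^ 2 * (5 * (u⁻¹) ^ 2 / k) = 35 * (u⁻¹) ^ 2 / c' ^ 2 / k := by ring
      rw [h3, div_le_iff₀ hk0]
      linarith
    have h3 : 7 / c' ^ 2 * (k / (2 * 2 ^ m)) ≤ ε / 16 := by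
      have h4 := hm2.trans hmm
      rw [div_le_iff₀ hε] at h4
      have h5 : 7 / c' ^ 2 * (k / (2 * 2 ^ m)) = 7 * k / (c' ^ 2 * 2) / 2 ^ m := by
        field_simp
      rw [h5, div_le_iff₀ hmp]
      linarith
    rw [mul_add, h1]
    linarith

end P095F
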