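import Mathlib
import Vale.Agent.Lib.P095F.T2LFam
import Vale.Agent.Lib.P095F.T2LCore
import Vale.Agent.Lib.P095F.T2LGlue

/-!
# P095F, part T2L: `exists_roundData`
-/

open scoped ENNReal Topology

namespace P095F

universe u v

variable {G : Type v} [Group G] {M : Type u} [CStarAlgebra M] {α : G →* (M ≃⋆ₐ[ℂ] M)}
  {T : Set (M →ₗ[ℂ] ℂ)}

theorem exists_roundData_le [Countable G] (hG : FolnerGroup G) (hT : TrSys α T) (hM : HasMat α)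
    (hE : GammaExact α T) (K₀ : Finset G) (ρ : ℝ) (hρ : 0 < ρ) (hρ1 : ρ ≤ 1) :
    ∃ t : ℝ, 0 < t ∧ t ≤ 1 ∧ RoundData α T K₀ ρ t := by
  obtain ⟨t, k, n, ht0, ht1, hk, hfam⟩ := exists_fam.{u} hG K₀ ((ρ / 2000) ^ 2) (by positivity)
  refine ⟨t, ht0, ht1, fun B hB => ?_⟩
  obtain ⟨γ, hγ⟩ := exists_resAct B hB
  obtain ⟨j0, hj0⟩ := hM B hB k hk
  obtain ⟨j⟩ := exists_matHom B j0 hj0
  letI : PartialOrder (relComm B) := CStarAlgebra.spectralOrder _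
  haveI : StarOrderedRing (relComm B) := CStarAlgebra.spectralOrderedRing _
  obtain ⟨I, _, Q, hI, hQ⟩ := hfam (relComm B) γ j
  exact round_of_core hT hE B hB γ hγ hI (coreOut_of_fam ht0.le hρ hρ1 hQ)

/-- **T2L** -/
theorem exists_roundData [Countable G] (hG : FolnerGroup G) (hT : TrSys α T) (hM : HasMat α)
    (hE : GammaExact α T) (K₀ : Finset G) (ρ : ℝ) (hρ : 0 < ρ) :
    ∃ t : ℝ, 0 < t ∧ t ≤ 1 ∧ RoundData α T K₀ ρ t := by
  obtain ⟨t, ht0, ht1, h⟩ := exists_roundData_le hG hT hM hE K₀ (min ρ 1) (by positivity)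
    (min_le_right _ _)
  refine ⟨t, ht0, ht1, fun B hB => ?_⟩
  obtain ⟨v, k, h1, h2, h3, h4, h5, h6, h7, h8⟩ := h B hB
  refine ⟨v, k, h1, h2, h3, h4, h5, h6, h7, fun τ hτ z hz => ?_⟩
  obtain ⟨a1, a2, a3, a4, a5, a6, a7⟩ := h8 τ hτ z hz
  have hs : 0 ≤ sq2 τ z := (hT.ptr τ hτ).sq2_nonneg z
  have hr : min ρ 1 * t ≤ ρ * t := mul_le_mul_of_nonneg_right (min_le_left _ _) ht0.le
  have e1 : min ρ 1 * t * sq2 τ z ≤ ρ * t * sq2 τ z := mul_le_mul_of_nonneg_right hr hs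
  have e2 : min ρ 1 * t * √(sq2 τ z) ≤ ρ * t * √(sq2 τ z) :=
    mul_le_mul_of_nonneg_right hr (Real.sqrt_nonneg _)
  refine ⟨a1, a2, a3, a4.trans e1, a5.trans e2, a6.trans e1, fun h' hh' => ?_⟩
  obtain ⟨b1, b2, b3⟩ := a7 h' hh'
  exact ⟨b1.trans e1, b2.trans e1, b3.trans e2⟩

end P095F
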