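import Vale.Agent.Lib.P095F.T2RAlg

/-!
# P095F, part T2R, module 2: estimates of one round for `E`, `Y`, `w²`
-/

open scoped Topology

namespace P095F

universe u v

variable {G : Type v} [Group G] {M : Type u} [CStarAlgebra M] [PartialOrder M] [StarOrderedRing M]
  {α : G →* (M ≃⋆ₐ[ℂ] M)} {T : Set (M →ₗ[ℂ] ℂ)} {K₀ : Finset G} {ρ t : ℝ}
  {B : StarSubalgebra ℂ M} {v k E w Y : M}

/-- elements `x` with `‖x‖ ≤ 1` have `sq2 τ x ≤ 1` (`PTr.sq2_le`) -/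
theorem TrSys.sq2_le_one (hT : TrSys α T) {τ : M →ₗ[ℂ] ℂ} (hτ : τ ∈ T) {x : M} (hx : ‖x‖ ≤ 1) :
    sq2 τ x ≤ 1 := by
  have h1 := (hT.ptr τ hτ).sq2_le x
  rw [hT.one τ hτ, Complex.one_re, mul_one] at h1
  exact h1.trans (pow_le_one₀ (norm_nonneg x) hx)

/-- `τ((E c)* (E c)) = τ(c E E c) = τ(E E c c) = τ(E*E) - τ(E* E (1 - c c)) ≤ (1 - t) τ(E* E)`
(`RoundBd.low` with `z = E`). -/
theorem est_E (hT : TrSys α T) (hs : St B E w Y) (h : RoundAlg B v k)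
    (hb : RoundBd α T K₀ ρ t B v k) {τ : M →ₗ[ℂ] ℂ} (hτ : τ ∈ T) :
    sq2 τ (E * (1 - k)) ≤ (1 - t) * sq2 τ E := by
  have hp := hT.ptr τ hτ
  have h1 := hb.low τ hτ E hs.memE
  have sc : star (1 - k) = 1 - k := by
    rw [star_sub, star_one, h.sk]
  generalize hc : (1 - k : M) = c at *
  have h2 : τ (star (E * c) * (E * c)) = τ (star E * E) - τ (star E * E * (1 - c * c)) := by
    rw [star_mul, sc, mul_assoc, hp.comm, ← map_sub]
    congr 1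
    noncomm_ring
  unfold sq2 at h1 ⊢
  rw [h2, Complex.sub_re]
  linarith

/-- `sq2(Y + E² y) = sq2(Y) + 2 Re τ(Y* E² y) + sq2(E² y)`; `|τ(Y* E² y)| ≤ ρ t √sq2(Y* E²)` by
`RoundBd.y1` with `z = Y* E²`, `sq2(Y* E²) ≤ ‖E²‖² sq2(Y*) ≤ sq2(Y) ≤ 1`;
`sq2(E² y) ≤ ρ t sq2(E²) ≤ ρ t` by `RoundBd.y2` with `z = E²`. -/
theorem est_Y (hT : TrSys α T) (hs : St B E w Y)
    (hb : RoundBd α T K₀ ρ t B v k) (hρ : 0 ≤ ρ) (ht : 0 ≤ t) {τ : M →ₗ[ℂ] ℂ} (hτ : τ ∈ T)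
    (hY : sq2 τ Y ≤ 1) :
    sq2 τ (Y + E * E * yyR v k) ≤ sq2 τ Y + 3 * ρ * t := by
  have hp := hT.ptr τ hτ
  have hρt : 0 ≤ ρ * t := mul_nonneg hρ ht
  have hEE : E * E ∈ B := mul_mem hs.memE hs.memE
  have nEE : ‖E * E‖ ≤ 1 := by
    calc ‖E * E‖ ≤ ‖E‖ * ‖E‖ := norm_mul_le _ _
      _ ≤ 1 * 1 := mul_le_mul hs.nE hs.nE (norm_nonneg _) zero_le_one
      _ = 1 := one_mul 1
  have h1 := hb.y1 τ hτ (star Y * (E * E)) (mul_mem (star_mem hs.memY) hEE)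
  have h2 : sq2 τ (star Y * (E * E)) ≤ 1 := by
    refine (hp.sq2_mul_le_right _ _).trans ?_
    rw [hp.sq2_star]
    have h3 : ‖E * E‖ ^ 2 ≤ 1 := pow_le_one₀ (norm_nonneg _) nEE
    calc ‖E * E‖ ^ 2 * sq2 τ Y ≤ 1 * 1 :=
          mul_le_mul h3 hY (hp.sq2_nonneg Y) zero_le_one
      _ = 1 := one_mul 1
  have h4 : √(sq2 τ (star Y * (E * E))) ≤ 1 := Real.sqrt_le_one.mpr h2
  have h5 : (τ (star Y * (E * E * yyR v k))).re ≤ ρ * t := by
    rw [← mul_assoc]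
    refine (Complex.re_le_norm _).trans (h1.trans ?_)
    calc ρ * t * √(sq2 τ (star Y * (E * E))) ≤ ρ * t * 1 := mul_le_mul_of_nonneg_left h4 hρt
      _ = ρ * t := mul_one _
  have h6 := hb.y2 τ hτ (E * E) hEE
  have h7 := hT.sq2_le_one hτ nEE
  have h8 : ρ * t * sq2 τ (E * E) ≤ ρ * t * 1 := mul_le_mul_of_nonneg_left h7 hρt
  rw [hp.sq2_add]
  linarith

/-- `w⁺² = w² + w E v + E v w + E v E v = w² + E² v²`; the cross term
`τ((w²)* E² v²) = τ(w* w* E E v v) = 0` as `w* E = (E w)* = 0`;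
`sq2(E² v²) = τ((v²)* E⁴ v²) = τ(E⁴ (v²)* v²) ≤ ρ t sq2(E²) ≤ ρ t` (`RoundBd.vv`, `z = E²`). -/
theorem est_w (hT : TrSys α T) (hs : St B E w Y) (h : RoundAlg B v k)
    (hb : RoundBd α T K₀ ρ t B v k) (hρ : 0 ≤ ρ) (ht : 0 ≤ t) {τ : M →ₗ[ℂ] ℂ} (hτ : τ ∈ T) :
    sq2 τ ((w + E * v) * (w + E * v)) ≤ sq2 τ (w * w) + ρ * t := by
  have hp := hT.ptr τ hτ
  have hρt : 0 ≤ ρ * t := mul_nonneg hρ ht
  have hEE : E * E ∈ B := mul_mem hs.memE hs.memE
  have nEE : ‖E * E‖ ≤ 1 := by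
    calc ‖E * E‖ ≤ ‖E‖ * ‖E‖ := norm_mul_le _ _
      _ ≤ 1 * 1 := mul_le_mul hs.nE hs.nE (norm_nonneg _) zero_le_one
      _ = 1 := one_mul 1
  have vE : v * E = E * v := (h.vc E hs.memE).eq
  have vw : v * w = w * v := (h.vc w hs.memw).eq
  have wsE : star w * E = 0 := by
    have h1 := congrArg star hs.Ew
    rwa [star_mul, hs.sE, star_zero] at h1
  have e1 : (w + E * v) * (w + E * v) = w * w + E * E * (v * v) := by
    have a1 : w * (E * v) = 0 := by rw [← mul_assoc, hs.wE, zero_mul]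
    have a2 : E * v * w = 0 := by rw [mul_assoc, vw, ← mul_assoc, hs.Ew, zero_mul]
    have a3 : E * v * (E * v) = E * E * (v * v) := by
      rw [mul_assoc E v, ← mul_assoc v, vE]
      simp only [mul_assoc]
    rw [add_mul, mul_add, mul_add, a1, a2, a3]
    abel
  have e2 : star (w * w) * (E * E * (v * v)) = 0 := by
    rw [star_mul, mul_assoc, ← mul_assoc (star w) (E * E), ← mul_assoc (star w) E E, wsE]
    simp
  have e3 : sq2 τ (E * E * (v * v)) =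
      (τ (star (E * E) * (E * E) * (star (v * v) * (v * v)))).re := by
    unfold sq2
    congr 2
    have hz : star (E * E) * (E * E) ∈ B := mul_mem (star_mem hEE) hEE
    have hc : Commute (star v * star v) (star (E * E) * (E * E)) :=
      (h.vsc _ hz).mul_left (h.vsc _ hz)
    rw [star_mul (E * E), star_mul v v]
    calc star v * star v * star (E * E) * (E * E * (v * v))
        = star v * star v * (star (E * E) * (E * E)) * (v * v) := by simp only [mul_assoc]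
      _ = star (E * E) * (E * E) * (star v * star v) * (v * v) := by rw [hc.eq]
      _ = star (E * E) * (E * E) * (star v * star v * (v * v)) := by simp only [mul_assoc]
  have h1 := hb.vv τ hτ (E * E) hEE
  have h7 := hT.sq2_le_one hτ nEE
  have h8 : ρ * t * sq2 τ (E * E) ≤ ρ * t * 1 := mul_le_mul_of_nonneg_left h7 hρt
  rw [e1, hp.sq2_add, e2, map_zero, Complex.zero_re, e3]
  linarith

end P095F
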