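import Mathlib.Topology.Order.Hom.Esakia
import Vale.Agent.Lib.P095F.T2REst

/-!
# P095F, part T2R, module 4: almost invariance of `w` in one round

`D = α_h w - w ∈ B`, `Δ = α_h E - E ∈ B`; `D⁺ = D + X`, `X = α_h(E) α_h(v) - E v
= α_h(E) (α_h v - v) + Δ v`.
-/

open scoped Topology

namespace P095F

universe u v

variable {G : Type v} [Group G] {M : Type u} [CStarAlgebra M] [PartialOrder M] [StarOrderedRing M]
  {α : G →* (M ≃⋆ₐ[ℂ] M)} {T : Set (M →ₗ[ℂ] ℂ)} {K₀ : Finset G} {ρ t : ℝ}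
  {B : StarSubalgebra ℂ M} {v k E w Y : M}

omit [PartialOrder M] [StarOrderedRing M] in
private theorem t2rw_inv (α : G →* (M ≃⋆ₐ[ℂ] M)) (g : G) (x : M) : α g (α g⁻¹ x) = x := by
  have h1 : (α g * α g⁻¹) x = x := by
    rw [← map_mul, mul_inv_cancel, map_one]
    rfl
  exact h1

/-- `sq2(Δ v) ≤ 32 t sq2(Δ)` for `Δ ∈ B` -/
private theorem t2rw_dv (hT : TrSys α T) (h : RoundAlg B v k)
    (hb : RoundBd α T K₀ ρ t B v k) {τ : M →ₗ[ℂ] ℂ} (hτ : τ ∈ T) {x : M} (hx : x ∈ B) :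
    sq2 τ (x * v) ≤ 32 * t * sq2 τ x := by
  have hp := hT.ptr τ hτ
  have e : sq2 τ (x * v) = (τ (star x * x * (v * star v))).re := by
    unfold sq2
    rw [star_mul, mul_assoc (star v), hp.comm (star v)]
    simp only [mul_assoc]
  rw [e]
  exact (hp.wmono x (h.vvs_le.trans h.kk_le)).trans (hb.up τ hτ x hx)

/-- `sq2(D⁺) = sq2(D) + 2 Re τ(D* X) + sq2(X)`.
* `τ(D* E v) = 0` (`RoundBd.mean`, `z = D* E`); `τ(D* α_h(E) α_h(v)) = τ(α_h(α_{h⁻¹}(D*) E v)) =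
  τ'(α_{h⁻¹}(D*) E v) = 0` with `τ' ∈ T` from `TrSys.inv`.  So `τ(D* X) = 0`.
* `sq2(X) ≤ 2 sq2(α_h(E) (α_h v - v)) + 2 sq2(Δ v)`; the first is `≤ ρ t sq2(α_h E) ≤ ρ t`
  (`RoundBd.av`); `sq2(Δ v) = τ(v* Δ* Δ v) = τ(Δ* Δ v v*) ≤ τ(Δ* Δ k k) ≤ τ(Δ* Δ k) ≤
  32 t sq2(Δ)` (`vvs_le`, `kk_le`, `PTr.wmono`, `RoundBd.up`). -/
theorem est_D (hT : TrSys α T) (hB : Adm α B) (hs : St B E w Y) (h : RoundAlg B v k)
    (hb : RoundBd α T K₀ ρ t B v k) (hρ : 0 ≤ ρ) (ht : 0 ≤ t)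
    {τ : M →ₗ[ℂ] ℂ} (hτ : τ ∈ T) {g : G} (hg : g ∈ K₀) :
    sq2 τ (α g (w + E * v) - (w + E * v)) ≤
      sq2 τ (α g w - w) + 2 * ρ * t + 64 * t * sq2 τ (α g E - E) := by
  have hp := hT.ptr τ hτ
  have hgE : α g E ∈ B := hB.inv g E hs.memE
  have hgw : α g w ∈ B := hB.inv g w hs.memw
  have hΔ : α g E - E ∈ B := sub_mem hgE hs.memE
  have hD : α g w - w ∈ B := sub_mem hgw hs.memw
  have e1 : α g (w + E * v) - (w + E * v) = (α g w - w) + (α g E * α g v - E * v) := by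
    rw [map_add, map_mul]
    abel
  have e2 : α g E * α g v - E * v = α g E * (α g v - v) + (α g E - E) * v := by
    rw [mul_sub, sub_mul]
    abel
  have c1 : τ (star (α g w - w) * (E * v)) = 0 := by
    rw [← mul_assoc]
    exact hb.mean τ hτ _ (mul_mem (star_mem hD) hs.memE)
  have c2 : τ (star (α g w - w) * (α g E * α g v)) = 0 := by
    obtain ⟨τ', hτ', h'⟩ := hT.inv τ hτ g
    have h1 : star (α g w - w) * (α g E * α g v) =
        α g (α g⁻¹ (star (α g w - w)) * E * v) := by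
      rw [map_mul, map_mul, t2rw_inv, mul_assoc]
    rw [h1, ← h']
    exact hb.mean τ' hτ' _ (mul_mem (hB.inv g⁻¹ _ (star_mem hD)) hs.memE)
  have c3 : τ (star (α g w - w) * (α g E * α g v - E * v)) = 0 := by
    rw [mul_sub, map_sub, c1, c2, sub_zero]
  rw [e1, hp.sq2_add, c3, Complex.zero_re, mul_zero, add_zero, e2]
  have h3 := hp.sq2_add_le (α g E * (α g v - v)) ((α g E - E) * v)
  have h4 := hb.av τ hτ (α g E) hgE g hg
  have h5 : sq2 τ (α g E) ≤ 1 := by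
    refine hT.sq2_le_one hτ ?_
    rw [aut_norm]
    exact hs.nE
  have h6 := t2rw_dv hT h hb hτ hΔ
  have h7 : ρ * t * sq2 τ (α g E) ≤ ρ * t * 1 :=
    mul_le_mul_of_nonneg_left h5 (mul_nonneg hρ ht)
  linarith

end P095F
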