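import Vale.Agent.Lib.P095F.T2RDelta
import Vale.Agent.Lib.P095F.T2RWInv

/-!
# P095F, part T2R: the iteration and `matApprox`
-/

open scoped Topology

namespace P095F

universe u v

variable {G : Type v} [Group G] {M : Type u} [CStarAlgebra M]
  {α : G →* (M ≃⋆ₐ[ℂ] M)} {T : Set (M →ₗ[ℂ] ℂ)} {K₀ : Finset G} {ρ t : ℝ}

/-- the state after `j` rounds -/
theorem exists_state [Countable G] [PartialOrder M] [StarOrderedRing M] (hT : TrSys α T)
    (hρ : 0 < ρ) (hρ1 : ρ ≤ 1) (ht : 0 < t) (ht1 : t ≤ 1) (hR : RoundData α T K₀ ρ t)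
    {R : ℝ} (hRρ : 3 * ρ * R ≤ 1) (j : ℕ) (hj : (j : ℝ) * t ≤ R) :
    ∃ (B : StarSubalgebra ℂ M) (E w Y : M), Adm α B ∧ St B E w Y ∧
      StBd α T K₀ ((1 - t) ^ j) (3 * ρ * t * j) (ρ * t * j) (29 * √ρ * t * j)
        ((2 * ρ * t + 64 * t * (29 * √ρ * R)) * j) E w Y := by
  induction j with
  | zero =>
    refine ⟨⊥, 1, 0, 0, adm_bot α, St.zero, ?_, ?_, ?_, ?_, ?_⟩
    · intro τ hτ
      rw [pow_zero]
      exact hT.sq2_le_one hτ St.zero.nE
    · intro τ hτ
      rw [sq2_zero]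
      simp
    · intro τ hτ
      rw [mul_zero, sq2_zero]
      simp
    · intro τ hτ g hg
      rw [map_one, sub_self, sq2_zero]
      simp
    · intro τ hτ g hg
      rw [map_zero, sub_self, sq2_zero]
      simp
  | succ j ih =>
    have hjt : (j : ℝ) * t ≤ R := by
      push_cast at hj
      nlinarith
    obtain ⟨B, E, w, Y, hB, hs, hb⟩ := ih hjt
    obtain ⟨v, k, h, hbd⟩ := hR.get hB
    obtain ⟨B', hB', hBB', hv, hk⟩ := exists_adm_two hB v k
    have hsρ : 0 ≤ √ρ := Real.sqrt_nonneg ρ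
    refine ⟨B', E * (1 - k), w + E * v, Y + E * E * yyR v k, hB', hs.step h hBB' hv hk,
      ?_, ?_, ?_, ?_, ?_⟩
    · intro τ hτ
      refine (est_E hT hs h hbd hτ).trans ?_
      rw [pow_succ, mul_comm]
      exact mul_le_mul_of_nonneg_right (hb.hE τ hτ) (by linarith)
    · intro τ hτ
      have h1 := hb.hY τ hτ
      have h2 : sq2 τ Y ≤ 1 := by
        refine h1.trans (le_trans ?_ hRρ)
        have h3 := mul_le_mul_of_nonneg_left hjt (by positivity : (0 : ℝ) ≤ 3 * ρ)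
        calc 3 * ρ * t * j = 3 * ρ * (j * t) := by ring
          _ ≤ _ := h3
      have h3 := est_Y hT hs hbd hρ.le ht.le hτ h2
      push_cast
      calc _ ≤ _ := h3
        _ ≤ 3 * ρ * t * j + 3 * ρ * t := by linarith
        _ = _ := by ring
    · intro τ hτ
      have h3 := est_w hT hs h hbd hρ.le ht.le hτ
      have h1 := hb.hw τ hτ
      push_cast
      calc _ ≤ _ := h3
        _ ≤ ρ * t * j + ρ * t := by linarith
        _ = _ := by ring
    · intro τ hτ g hg
      have h3 := est_d hT hB hs h hbd hρ hρ1 ht hτ hg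
      have h1 := hb.hd τ hτ g hg
      push_cast
      calc _ ≤ _ := h3
        _ ≤ 29 * √ρ * t * j + 29 * √ρ * t := by linarith
        _ = _ := by ring
    · intro τ hτ g hg
      have h3 := est_D hT hB hs h hbd hρ.le ht.le hτ hg
      have h1 := hb.hD τ hτ g hg
      have h2 := hb.hd τ hτ g hg
      have h4 : sq2 τ (α g E - E) ≤ 29 * √ρ * R := by
        refine h2.trans ?_
        have h5 := mul_le_mul_of_nonneg_left hjt (by positivity : (0 : ℝ) ≤ 29 * √ρ)
        calc 29 * √ρ * t * j = 29 * √ρ * (j * t) := by ring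
          _ ≤ _ := h5
      have h5 := mul_le_mul_of_nonneg_left h4 (by positivity : (0 : ℝ) ≤ 64 * t)
      push_cast
      calc _ ≤ _ := h3
        _ ≤ (2 * ρ * t + 64 * t * (29 * √ρ * R)) * j + (2 * ρ * t) + 64 * t * (29 * √ρ * R) := by
          linarith
        _ = _ := by ring

/-- **T2R** -/
theorem matApprox [Countable G] (hT : TrSys α T)
    (h : ∀ (K₀ : Finset G) (ρ : ℝ), 0 < ρ → ∃ t : ℝ, 0 < t ∧ t ≤ 1 ∧ RoundData α T K₀ ρ t) :
    MatApprox α T := by
  let _ := CStarAlgebra.spectralOrder M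
  have := CStarAlgebra.spectralOrderedRing M
  intro K₀ η hη
  -- the constants
  obtain ⟨L, hL0, hL⟩ : ∃ L : ℝ, 0 ≤ L ∧ Real.exp (-L) ≤ η / 4 := by
    refine ⟨max 0 (-Real.log (η / 4)), le_max_left _ _, ?_⟩
    have h1 : -(max 0 (-Real.log (η / 4))) ≤ Real.log (η / 4) := by
      have := le_max_right 0 (-Real.log (η / 4))
      linarith
    calc Real.exp (-(max 0 (-Real.log (η / 4)))) ≤ Real.exp (Real.log (η / 4)) :=
          Real.exp_le_exp.2 h1
      _ = η / 4 := Real.exp_log (by positivity)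
  set R : ℝ := L + 1 with hRdef
  have hR1 : 1 ≤ R := by linarith
  set r : ℝ := min 1 η / (2000 * R ^ 2) with hr
  have hm0 : 0 < min 1 η := lt_min one_pos hη
  have hr0 : 0 < r := by positivity
  have hrR2 : r * (2000 * R ^ 2) = min 1 η := by
    rw [hr]
    field_simp
  have hR2 : 1 ≤ R ^ 2 := by nlinarith
  have hr1 : r * 2000 ≤ 1 := by
    have h1 : r * 2000 ≤ r * (2000 * R ^ 2) := by nlinarith
    have h2 := min_le_left 1 η
    linarith
  set ρ : ℝ := r ^ 2 with hρdef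
  have hρ0 : 0 < ρ := by positivity
  have hsq : √ρ = r := Real.sqrt_sq hr0.le
  have hρr : ρ ≤ r := by nlinarith
  have hρ1 : ρ ≤ 1 := by nlinarith
  obtain ⟨t, ht0, ht1, hRd⟩ := h K₀ ρ hρ0
  -- number of rounds
  obtain ⟨N, hN1, hN2⟩ : ∃ N : ℕ, L ≤ N * t ∧ (N : ℝ) * t ≤ R := by
    refine ⟨⌈L / t⌉₊, ?_, ?_⟩
    · have h1 := Nat.le_ceil (L / t)
      rwa [div_le_iff₀ ht0] at h1
    · have h1 := (Nat.ceil_lt_add_one (div_nonneg hL0 ht0.le)).le
      have h2 := mul_le_mul_of_nonneg_right h1 ht0.le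
      rw [add_mul, div_mul_cancel₀ _ ht0.ne', one_mul] at h2
      linarith
  have hρR : ρ * R ≤ r * R ^ 2 := by
    have h1 : R ≤ R ^ 2 := by nlinarith
    calc ρ * R ≤ r * R := mul_le_mul_of_nonneg_right hρr (by linarith)
      _ ≤ r * R ^ 2 := mul_le_mul_of_nonneg_left h1 hr0.le
  have hmin1 := min_le_left 1 η
  have hmin2 := min_le_right 1 η
  obtain ⟨B, E, w, Y, hB, hs, hb⟩ := exists_state hT hρ0 hρ1 ht0 ht1 hRd
    (R := R) (by nlinarith) N hN2
  have hN0 : (0 : ℝ) ≤ N := Nat.cast_nonneg N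
  refine ⟨w, hs.norm_le, fun τ hτ => ⟨?_, ?_, ?_⟩⟩
  · refine (hb.hw τ hτ).trans ?_
    have h1 := mul_le_mul_of_nonneg_left hN2 hρ0.le
    have h2 : ρ * t * N = ρ * (N * t) := by ring
    rw [h2]
    nlinarith
  · have hp := hT.ptr τ hτ
    have h1 : star w * w + w * star w - 1 = Y - E * E := by
      rw [hs.id]
      abel
    rw [h1]
    refine (hp.sq2_sub_le Y (E * E)).trans ?_
    have h2 := hb.hY τ hτ
    have h3 : sq2 τ (E * E) ≤ sq2 τ E := by
      have h4 := hp.sq2_mul_le_left' E E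
      have h5 : ‖E‖ ^ 2 ≤ 1 := pow_le_one₀ (norm_nonneg _) hs.nE
      have h6 := hp.sq2_nonneg E
      nlinarith
    have h4 : (1 - t) ^ N ≤ η / 4 := by
      have h5 : (1 - t) ^ N ≤ Real.exp (-t) ^ N :=
        pow_le_pow_left₀ (by linarith) (Real.one_sub_le_exp_neg t) N
      rw [← Real.exp_nat_mul] at h5
      refine h5.trans (le_trans (Real.exp_le_exp.2 ?_) hL)
      have : (N : ℝ) * -t = -(N * t) := by ring
      rw [this]
      linarith
    have h5 := hb.hE τ hτ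
    have h6 : 3 * ρ * t * N ≤ 3 * ρ * R := by
      have h1 := mul_le_mul_of_nonneg_left hN2 (by positivity : (0 : ℝ) ≤ 3 * ρ)
      calc 3 * ρ * t * N = 3 * ρ * (N * t) := by ring
        _ ≤ _ := h1
    nlinarith
  · intro g hg
    refine (hb.hD τ hτ g hg).trans ?_
    rw [hsq]
    have h1 : (2 * ρ * t + 64 * t * (29 * r * R)) * N = (2 * ρ + 64 * (29 * r * R)) * (N * t) := by
      ring
    rw [h1]
    have h2 : (2 * ρ + 64 * (29 * r * R)) * (N * t) ≤ (2 * ρ + 64 * (29 * r * R)) * R :=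
      mul_le_mul_of_nonneg_left hN2 (by positivity)
    nlinarith

end P095F
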