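import Mathlib
import Vale.Agent.Lib.P095F.MGam
import Vale.Agent.Lib.P095F.MMat
import Vale.Agent.Lib.P095F.MUnit
import Vale.Agent.Lib.P095F.T1Final
import Vale.Agent.Lib.P095F.T2L
import Vale.Agent.Lib.P095F.T2R

/-!
# P095F, part M: the invariant element `v`
-/

open scoped ENNReal Topology
open Filter P101 P095E

namespace P095F

universe u v

theorem exists_v_fam {ω : Ultrafilter ℕ} (hω : (ω : Filter ℕ) ≤ Filter.cofinite)
    {A : Type u} [CStarAlgebra A] [Nontrivial A] [TopologicalSpace.SeparableSpace A]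
    {G : Type v} [Group G] [Countable G] (hG : FolnerGroup G) {α : G →* (A ≃⋆ₐ[ℂ] A)}
    {β : G →* (FOmega ω A ≃⋆ₐ[ℂ] FOmega ω A)} (hβ : ∀ g, Induces ω (α g) (β g))
    {κ : Type} [Countable κ] {S : κ → Set (A →ₗ[ℂ] ℂ)} (hS : StFam ω α S)
    (hD : DropJ ω S) :
    ∃ v : FOmega ω A, (∀ g, β g v = v) ∧ v * v ∈ JJ hS ∧
      star v * v + v * star v - 1 ∈ JJ hS := by
  obtain ⟨M, _, p, αM, hQ⟩ := exists_quo hS hβ
  have hT : TrSys αM (LT ω S p) := trSys_LT hS hβ hQ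
  have hM : HasMat αM := hasMat_of_drop hω hS hβ hQ hD
  have hGa : GammaExact αM (LT ω S p) :=
    gammaExact_of_approx hω hS hβ hQ (gammaApprox hG hT hM)
  have hMat : MatApprox αM (LT ω S p) :=
    matApprox hT fun K₀ ρ hρ => exists_roundData hG hT hM hGa K₀ ρ hρ
  obtain ⟨v₀, hv1, hv2, hv3⟩ := matExact_of_approx hω hS hβ hQ hMat
  obtain ⟨v', hv', -⟩ := hQ.surj v₀
  have hd : ∀ g, SmQ ω S (β g v' - v') 0 := by
    intro g
    refine (hQ.ker _).1 ?_
    rw [map_sub, ← hQ.equiv, hv', hv3, sub_self]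
  obtain ⟨e, he1, he2, he3⟩ := exists_inv_unit hω hG hS hβ (fun g => β g v' - v') hd
  have hpe : p e = 0 := (hQ.ker e).2 he1
  have hpv : p ((1 - e) * v') = v₀ := by
    rw [map_mul, map_sub, map_one, hpe, sub_zero, one_mul, hv']
  have hfix : ∀ g, β g ((1 - e) * v') = (1 - e) * v' := by
    intro g
    have h1 : β g v' = v' + (β g v' - v') := by abel
    rw [map_mul, map_sub, map_one, he2, sub_mul, sub_mul, one_mul, one_mul]
    conv_lhs => rw [h1]
    rw [mul_add, he3]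
    abel
  obtain ⟨x, hx⟩ : ∃ x, x = (1 - e) * v' := ⟨_, rfl⟩
  rw [← hx] at hpv hfix
  refine ⟨x, hfix, mem_JJ.2 ((hQ.ker _).1 ?_), mem_JJ.2 ((hQ.ker _).1 ?_)⟩
  · rw [map_mul, hpv, hv1]
  · rw [map_sub, map_add, map_mul, map_mul, map_star, hpv, map_one, hv2, sub_self]

end P095F
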