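import Mathlib
import Vale.Agent.Lib.P095F.MFinal
import Vale.Agent.Lib.P101.Copies
import Vale.Agent.Lib.P101.Corestrict

/-!
# P095F, part M: the unital case (`S = TState A`)

`dropJ_of_hom`: `f : dimDrop n (n+1) → F` unital; `D` = a closed separable star subalgebra containing the
range of `f` (`C([0,1], matrices)` is separable: countable dense set, `P101.exists_closed_separable`),
`θ : D → F` commuting with `C` (`P101.exists_hom_commuting`), `h x = θ (f x)`; all relations hold exactly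
(`SmQ.zero`).
-/

open scoped ENNReal Topology
open Filter P101 P095E

namespace P095F

universe u v

variable {ω : Ultrafilter ℕ} {A : Type u} [CStarAlgebra A] [Nontrivial A]

theorem munital_closed_drop (p q : ℕ) :
    IsClosed (dimDrop p q : Set C(unitInterval, Matrix (Fin p × Fin q) (Fin p × Fin q) ℂ)) := by
  let L : Matrix (Fin p) (Fin p) ℂ →ₗ[ℂ] Matrix (Fin p × Fin q) (Fin p × Fin q) ℂ :=
    { toFun := fun a => Matrix.kroneckerMap (· * ·) a 1
      map_add' := fun a b => Matrix.add_kronecker a b 1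
      map_smul' := fun r a => Matrix.smul_kronecker r a 1 }
  let R : Matrix (Fin q) (Fin q) ℂ →ₗ[ℂ] Matrix (Fin p × Fin q) (Fin p × Fin q) ℂ :=
    { toFun := fun b => Matrix.kroneckerMap (· * ·) 1 b
      map_add' := fun a b => Matrix.kronecker_add 1 a b
      map_smul' := fun r a => Matrix.kronecker_smul r 1 a }
  have hL : IsClosed (LinearMap.range L : Set (Matrix (Fin p × Fin q) (Fin p × Fin q) ℂ)) :=
    Submodule.closed_of_finiteDimensional _
  have hR : IsClosed (LinearMap.range R : Set (Matrix (Fin p × Fin q) (Fin p × Fin q) ℂ)) :=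
    Submodule.closed_of_finiteDimensional _
  have h0 : Continuous fun f : C(unitInterval, Matrix (Fin p × Fin q) (Fin p × Fin q) ℂ) => f 0 :=
    continuous_eval_const 0
  have h1 : Continuous fun f : C(unitInterval, Matrix (Fin p × Fin q) (Fin p × Fin q) ℂ) => f 1 :=
    continuous_eval_const 1
  have h : (dimDrop p q : Set C(unitInterval, Matrix (Fin p × Fin q) (Fin p × Fin q) ℂ)) =
      (fun f => f 0) ⁻¹' (LinearMap.range L : Set (Matrix (Fin p × Fin q) (Fin p × Fin q) ℂ)) ∩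
      (fun f => f 1) ⁻¹' (LinearMap.range R : Set (Matrix (Fin p × Fin q) (Fin p × Fin q) ℂ)) := by
    ext f
    constructor
    · rintro ⟨⟨a, ha⟩, ⟨b, hb⟩⟩
      exact ⟨⟨a, ha.symm⟩, ⟨b, hb.symm⟩⟩
    · rintro ⟨⟨a, ha⟩, ⟨b, hb⟩⟩
      exact ⟨⟨a, ha.symm⟩, ⟨b, hb.symm⟩⟩
  rw [h]
  exact (hL.preimage h0).inter (hR.preimage h1)

section

open scoped Matrix.Norms.L2Operator

theorem munital_continuous {F : Type u} [CStarAlgebra F] (p q : ℕ) (f : dimDrop p q →⋆ₐ[ℂ] F) :
    Continuous f := by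
  have : IsClosed (dimDrop p q : Set C(unitInterval, Matrix (Fin p × Fin q) (Fin p × Fin q) ℂ)) :=
    munital_closed_drop p q
  exact AddMonoidHomClass.continuous_of_bound f 1 fun a => by
    rw [one_mul]
    exact NonUnitalStarAlgHom.norm_apply_le f a

end

theorem munital_sep_range {F : Type u} [CStarAlgebra F] (p q : ℕ) (f : dimDrop p q →⋆ₐ[ℂ] F) :
    TopologicalSpace.IsSeparable (Set.range f) := by
  have h0 : SecondCountableTopology (Matrix (Fin p × Fin q) (Fin p × Fin q) ℂ) :=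
    inferInstanceAs (SecondCountableTopology ((Fin p × Fin q) → (Fin p × Fin q) → ℂ))
  have h1 : SecondCountableTopology (dimDrop p q) :=
    TopologicalSpace.Subtype.secondCountableTopology
      (dimDrop p q : Set C(unitInterval, Matrix (Fin p × Fin q) (Fin p × Fin q) ℂ))
  exact TopologicalSpace.isSeparable_range (munital_continuous p q f)

omit [Nontrivial A] in
theorem munital_pst {τ : A →ₗ[ℂ] ℂ} (h : τ ∈ TState A) : PSt τ :=
  ⟨h.1.nonneg, h.1.im_eq, h.2⟩

omit [Nontrivial A] in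
theorem munital_ptr_comp {τ : A →ₗ[ℂ] ℂ} (h : τ ∈ TState A) (a : A ≃⋆ₐ[ℂ] A) :
    ∃ τ' ∈ TState A, ∀ x, τ' x = τ (a x) := by
  let τ' : A →ₗ[ℂ] ℂ :=
    { toFun := fun x => τ (a x)
      map_add' := fun x y => by rw [map_add, map_add]
      map_smul' := fun r x => by rw [map_smul, map_smul, RingHom.id_apply] }
  have hτ' : ∀ x, τ' x = τ (a x) := fun x => rfl
  refine ⟨τ', ⟨⟨fun x => ?_, fun x => ?_, fun x y => ?_⟩, ?_⟩, hτ'⟩
  · rw [hτ', map_mul, map_star]
    exact h.1.nonneg _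
  · rw [hτ', map_mul, map_star]
    exact h.1.im_eq _
  · rw [hτ', hτ', map_mul a, map_mul a]
    exact h.1.comm _ _
  · rw [hτ', map_one]
    exact h.2

theorem stFam_unital {G : Type v} [Group G] (α : G →* (A ≃⋆ₐ[ℂ] A)) :
    StFam ω α (fun _ : Unit => TState A) where
  st := fun _ _ hs => munital_pst hs
  tr := fun _ x y _ _ ε hε => Filter.Eventually.of_forall fun n s hs => by
    rw [map_sub, hs.1.comm, sub_self, norm_zero]
    exact hε.le
  inv := fun g k => ⟨k, fun _ hs => munital_ptr_comp hs (α g)⟩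

theorem smQ_iff_inJ (x : FOmega ω A) : SmQ ω (fun _ : Unit => TState A) x 0 ↔ InJ ω x := by
  constructor
  · intro h
    obtain ⟨y, hy⟩ := mj_exists_rep x
    exact ⟨y, hy, fun ε hε => h () y hy ε hε⟩
  · rintro ⟨y, hy, h⟩
    exact SmQ.of_rep (stFam_unital (1 : PUnit.{1} →* (A ≃⋆ₐ[ℂ] A))) y hy fun _ ε' hε' => h ε' hε'

theorem dropJ_of_hom (hω : (ω : Filter ℕ) ≤ Filter.cofinite)
    [TopologicalSpace.SeparableSpace A]
    (hZ : ∀ n, 1 ≤ n → Nonempty (dimDrop n (n + 1) →⋆ₐ[ℂ] FOmega ω A))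
    {G : Type v} [Group G] {α : G →* (A ≃⋆ₐ[ℂ] A)} {κ : Type} {S : κ → Set (A →ₗ[ℂ] ℂ)}
    (hS : StFam ω α S) : DropJ ω S := by
  intro n hn C hC
  obtain ⟨f⟩ := hZ n hn
  obtain ⟨T, hT, hTd⟩ := munital_sep_range n (n + 1) f
  obtain ⟨D, hDc, hDs, hTD⟩ := exists_closed_separable T hT
  have hfD : ∀ x, f x ∈ D := by
    intro x
    have h1 : closure T ⊆ (D : Set (FOmega ω A)) := closure_minimal hTD hDc
    exact h1 (hTd ⟨x, rfl⟩)
  obtain ⟨θ, hθ⟩ := exists_hom_commuting ω hω A D hDc hDs C hC.isSeparable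
  let h : dimDrop n (n + 1) →⋆ₐ[ℂ] FOmega ω A := θ.comp (StarAlgHom.codRestrict f D hfD)
  have hh : ∀ x, ∀ c ∈ C, Commute (h x) c := fun x c hc => hθ (StarAlgHom.codRestrict f D hfD x) c hc
  have h0 : ∀ z : FOmega ω A, z = 0 → SmQ ω S z 0 := by
    rintro _ rfl
    exact SmQ.zero hS
  refine ⟨h, fun x y => h0 _ ?_, fun x y => h0 _ ?_, fun x => h0 _ ?_, fun r x => h0 _ ?_, h0 _ ?_,
    fun x c hc => h0 _ ?_⟩
  · rw [map_add, sub_self]
  · rw [map_mul, sub_self]
  · rw [map_star, sub_self]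
  · rw [map_smul, sub_self]
  · rw [map_one, sub_self]
  · rw [(hh x c hc).eq, sub_self]

/-- the unital case -/
theorem exists_v (hω : (ω : Filter ℕ) ≤ Filter.cofinite) [TopologicalSpace.SeparableSpace A]
    {G : Type v} [Group G] [Countable G] (hG : FolnerGroup G) {α : G →* (A ≃⋆ₐ[ℂ] A)}
    {β : G →* (FOmega ω A ≃⋆ₐ[ℂ] FOmega ω A)} (hβ : ∀ g, Induces ω (α g) (β g))
    (hZ : ∀ n, 1 ≤ n → Nonempty (dimDrop n (n + 1) →⋆ₐ[ℂ] FOmega ω A)) :
    ∃ v : FOmega ω A, (∀ g, β g v = v) ∧ InJ ω (v * v) ∧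
      InJ ω (star v * v + v * star v - 1) := by
  obtain ⟨v, h1, h2, h3⟩ := exists_v_fam hω hG hβ (stFam_unital α)
    (dropJ_of_hom hω hZ (stFam_unital α))
  exact ⟨v, h1, (smQ_iff_inJ _).1 (mem_JJ.1 h2), (smQ_iff_inJ _).1 (mem_JJ.1 h3)⟩

end P095F
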