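import Vale.Agent.Lib.P095F.CDefs

/-!
# P095F, part V (`VeryWeakComparison` is automatic), common definitions

Overview of part V (proof: `PROOF2V.md`, and the doc comments of the modules `V*.lean`).

* `PosM T`: the matrix `T : S → S → A` over `A` is positive (a Gram matrix).
* `VKer x g e'` (`x : Fin N → A`, `g : Fin N → Fin m → G`): the kernel
  `((a,h),(b,h')) ↦ ∑_{i,j : g i a * h = g j b * h'} x_i^* x_j - [(a,h) = (b,h')] e'`
  on `Fin m × G`, i.e. the matrix of `[s_a^* s_b] - e' ⊗ 1`, `s_a = ∑ x_i ⊗ λ(g i a)`.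
* `kerM T` (`T` in the group ring of `G` over the matrices indexed by `K`): the matrix
  `((p,g),(q,h)) ↦ T(g h⁻¹)_{p q}` on `K × G`.

V1 Cuntz-Pedersen: `V1_main`.  V2: `V2_main` (`VKer` is positive for free generators).
V3a: residual finiteness of free groups.  V3b: few large eigenvalues in finite quotients.
V3c: transfer to `A`.  V4: dimension drop comparison.  V5: assembly, `veryWeakComparison`.

Scalars in `A` are written `((r : ℂ) • (1 : A))`.  No order on `A` in the statements: positive elements
are `star c * c` (`CStarAlgebra.nonneg_iff_eq_star_mul_self` with the spectral order).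
-/

open scoped Topology

namespace P095F

universe u

section PosM

variable {A : Type u} [CStarAlgebra A]

/-- positive matrices over `A` (Gram matrices) -/
def PosM {S : Type} (T : S → S → A) : Prop :=
  ∃ (N : ℕ) (D : Fin N → S → A), ∀ s t, T s t = ∑ l, star (D l s) * D l t

/-- the kernel of `[s_a^* s_b] - e' ⊗ 1`, `s_a = ∑ x_i ⊗ λ(g i a)` -/
noncomputable def VKer {G : Type} [Group G] {N m : ℕ} (x : Fin N → A) (g : Fin N → Fin m → G)
    (e' : A) (s t : Fin m × G) : A := by
  classical
  exact (∑ i, ∑ j, if g i s.1 * s.2 = g j t.1 * t.2 then star (x i) * x j else 0) -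
    if s = t then e' else 0

/-- the standard generators of the free group on `Fin N × Fin m` -/
def gen (N m : ℕ) (i : Fin N) (a : Fin m) : FreeGroup (Fin N × Fin m) := FreeGroup.of (i, a)

theorem real_smul_one (r : ℝ) : ((r : ℂ) • (1 : A)) = algebraMap ℝ A r := by
  rw [Algebra.algebraMap_eq_smul_one, Complex.coe_smul]

end PosM

section Ker

variable {G K : Type} [Group G] [Fintype K] [DecidableEq K]

/-- the matrix (left convolution) of an element of the group ring over the `K × K` matrices -/
def kerM (T : MonoidAlgebra (Matrix K K ℂ) G) (x y : K × G) : ℂ :=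
  T.coeff (x.2 * y.2⁻¹) x.1 y.1

/-- `T(w⁻¹) = T(w)^*` -/
def HermK (T : MonoidAlgebra (Matrix K K ℂ) G) : Prop :=
  ∀ w, T.coeff w⁻¹ = (T.coeff w).conjTranspose

/-- the form of `T` is `≤ 0` on all finitely supported vectors -/
def NegK (T : MonoidAlgebra (Matrix K K ℂ) G) : Prop :=
  ∀ (H : Finset G) (v : K × G → ℂ),
    (∑ g ∈ H, ∑ h ∈ H, ∑ p, ∑ q, star (v (p, g)) * kerM T (p, g) (q, h) * v (q, h)).re ≤ 0

end Ker

end P095F
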