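import Mathlib.Data.Set.Finite.List
import Mathlib.GroupTheory.FreeGroup.Reduce
import Vale.Agent.Lib.P095F.VDefs

/-!
# P095F, part V, module V3a: free groups are residually finite (quantitative form)

`B` = the finite set of `w : FreeGroup ι` with `(w.toWord).length ≤ R` (finite: `ι` is finite;
`List.finite_length_le` or `Fintype` of lists of bounded length over `ι × Bool`, `toWord` is injective).
For a generator `i` the map `w ↦ of i * w` is a bijection from `{w ∈ B | of i * w ∈ B}` onto
`{w ∈ B | (of i)⁻¹ * w ∈ B}`; it extends to a permutation `σ i` of the finite set `B` (the complements have the same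
cardinality; `Equiv.extendSubtype` or `Equiv.Perm` version of `Function.Embedding`/`Fintype`
extension lemmas).  `π = FreeGroup.lift σ : FreeGroup ι →* Equiv.Perm B`.
Claim: `π w 1 = w` if `(w.toWord).length ≤ R`.  Induction on the word `l = w.toWord` from the right end (suffixes):
`w = FreeGroup.mk l`, `l = (i, b) :: l'` reduced, `w' = FreeGroup.mk l' ∈ B`, `π w' 1 = w'` and
`w = of i ^ (±1) * w'`, both in `B`, so `π (of i) ^ (±1) w' = w`.  (Suffixes of reduced words are reduced;
or do the induction over all lists `l` of length `≤ R`, reduced or not: `π (mk l) 1 = mk l`, since all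
partial products `mk l'` have norm `≤ l'.length ≤ R`: `FreeGroup.norm_mk_le`.)
So `π w = 1` implies `w = 1`.
-/

open scoped Topology

namespace P095F

theorem V3a_main {ι : Type} [Fintype ι] [DecidableEq ι] (R : ℕ) :
    ∃ (Q : Type) (_ : Group Q) (_ : Fintype Q) (_ : DecidableEq Q) (π : FreeGroup ι →* Q),
      ∀ w : FreeGroup ι, w.toWord.length ≤ R → π w = 1 → w = 1 := by
  classical
  obtain ⟨B, hB⟩ : ∃ B : Set (FreeGroup ι), B = {w | w.norm ≤ R} := ⟨_, rfl⟩
  have hmem : ∀ w, w ∈ B ↔ w.norm ≤ R := fun w => by rw [hB]; rfl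
  have hfin : B.Finite := by
    have h1 : (FreeGroup.toWord '' B).Finite := by
      refine (List.finite_length_le (ι × Bool) R).subset ?_
      rintro _ ⟨w, hw, rfl⟩
      exact (hmem w).1 hw
    exact h1.of_finite_image (FreeGroup.toWord_injective.injOn)
  have : Finite B := hfin.to_subtype
  have : Fintype B := Fintype.ofFinite B
  -- the partial bijection of a generator
  obtain ⟨e, he⟩ : ∃ e : ∀ i : ι, {w : B // FreeGroup.of i * (w : FreeGroup ι) ∈ B} ≃
      {w : B // (FreeGroup.of i)⁻¹ * (w : FreeGroup ι) ∈ B},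
      ∀ i w, (((e i w : B)) : FreeGroup ι) = FreeGroup.of i * ((w : B) : FreeGroup ι) := by
    refine ⟨fun i =>
      { toFun := fun w => ⟨⟨FreeGroup.of i * ((w : B) : FreeGroup ι), w.2⟩, by
          rw [inv_mul_cancel_left]
          exact w.1.2⟩
        invFun := fun w => ⟨⟨(FreeGroup.of i)⁻¹ * ((w : B) : FreeGroup ι), w.2⟩, by
          rw [mul_inv_cancel_left]
          exact w.1.2⟩
        left_inv := fun w => by
          apply Subtype.ext
          apply Subtype.ext
          exact inv_mul_cancel_left _ _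
        right_inv := fun w => by
          apply Subtype.ext
          apply Subtype.ext
          exact mul_inv_cancel_left _ _ }, fun i w => rfl⟩
  obtain ⟨σ, hσ⟩ : ∃ σ : ι → Equiv.Perm B, ∀ i (w : B), FreeGroup.of i * (w : FreeGroup ι) ∈ B →
      ((σ i w : B) : FreeGroup ι) = FreeGroup.of i * (w : FreeGroup ι) := by
    refine ⟨fun i => (e i).extendSubtype, fun i w hw => ?_⟩
    rw [Equiv.extendSubtype_apply_of_mem (e i) w hw, he]
  obtain ⟨π, hπ⟩ : ∃ π : FreeGroup ι →* Equiv.Perm B, π = FreeGroup.lift σ := ⟨_, rfl⟩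
  have hπof : ∀ i, π (FreeGroup.of i) = σ i := fun i => by rw [hπ, FreeGroup.lift_apply_of]
  have h1B : (1 : FreeGroup ι) ∈ B := by
    rw [hmem, FreeGroup.norm_one]
    exact Nat.zero_le R
  have key : ∀ l : List (ι × Bool), l.length ≤ R →
      ((π (FreeGroup.mk l) ⟨1, h1B⟩ : B) : FreeGroup ι) = FreeGroup.mk l := by
    intro l
    induction l with
    | nil =>
      intro _
      rw [← FreeGroup.one_eq_mk, map_one]
      rfl
    | cons x l ih =>
      intro hl
      rw [List.length_cons] at hl
      have hl' : l.length ≤ R := by omega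
      have h2 := ih hl'
      obtain ⟨i, b⟩ := x
      have hmB : FreeGroup.mk l ∈ B := by
        rw [hmem]
        exact FreeGroup.norm_mk_le.trans hl'
      have hcB : FreeGroup.mk ((i, b) :: l) ∈ B := by
        rw [hmem]
        exact FreeGroup.norm_mk_le.trans (by rw [List.length_cons]; exact hl)
      have h3 : π (FreeGroup.mk l) ⟨1, h1B⟩ = ⟨FreeGroup.mk l, hmB⟩ := Subtype.ext h2
      cases b with
      | true =>
        have e1 : FreeGroup.mk ((i, true) :: l) = FreeGroup.of i * FreeGroup.mk l := by
          rw [FreeGroup.of, FreeGroup.mul_mk]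
          rfl
        rw [e1] at hcB ⊢
        rw [map_mul, Equiv.Perm.mul_apply, h3, hπof]
        exact hσ i _ hcB
      | false =>
        have e1 : FreeGroup.mk ((i, false) :: l) = (FreeGroup.of i)⁻¹ * FreeGroup.mk l := by
          rw [FreeGroup.of, FreeGroup.inv_mk, FreeGroup.mul_mk]
          rfl
        rw [e1] at hcB ⊢
        rw [map_mul, Equiv.Perm.mul_apply, h3, map_inv, hπof]
        have h4 : FreeGroup.of i * ((FreeGroup.of i)⁻¹ * FreeGroup.mk l) ∈ B := by
          rw [mul_inv_cancel_left]
          exact hmB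
        have h5 := hσ i ⟨(FreeGroup.of i)⁻¹ * FreeGroup.mk l, hcB⟩ h4
        rw [mul_inv_cancel_left] at h5
        have h6 : σ i ⟨(FreeGroup.of i)⁻¹ * FreeGroup.mk l, hcB⟩ = ⟨FreeGroup.mk l, hmB⟩ :=
          Subtype.ext h5
        rw [← h6]
        change (((σ i).symm (σ i ⟨(FreeGroup.of i)⁻¹ * FreeGroup.mk l, hcB⟩) : B) :
          FreeGroup ι) = _
        rw [Equiv.symm_apply_apply]
  refine ⟨Equiv.Perm B, inferInstance, inferInstance, inferInstance, π, fun w hw h => ?_⟩
  have h2 := key w.toWord hw
  rw [FreeGroup.mk_toWord, h] at h2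
  exact h2.symm

/-- the form used later -/
theorem V3a_finset {ι : Type} [Fintype ι] [DecidableEq ι] (F : Finset (FreeGroup ι)) :
    ∃ (Q : Type) (_ : Group Q) (_ : Fintype Q) (_ : DecidableEq Q) (π : FreeGroup ι →* Q),
      ∀ w ∈ F, π w = 1 → w = 1 := by
  obtain ⟨Q, g, f, d, π, hπ⟩ := V3a_main (ι := ι) (F.sup fun w => w.toWord.length)
  exact ⟨Q, g, f, d, π, fun w hw h => hπ w (Finset.le_sup (f := fun w => w.toWord.length) hw) h⟩

end P095F
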