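import Mathlib.Analysis.Matrix.Hermitian
import Mathlib.LinearAlgebra.Matrix.PosDef
import Vale.Agent.Lib.P095F.VDefs

/-!
# P095F, part V, module V3b2: the regular representation of a finite group, matrix coefficients

* `repM` is `x ↦ Matrix.of (kerM x)`, a ring homomorphism: `(x * y)(g h⁻¹) = ∑_k x(g k⁻¹) y(k h⁻¹)` (`Q` is finite,
  `k ↦ g k⁻¹` is a bijection).
* `repM_map_trace`: the trace of `Matrix.of (kerM z)`, `z = π_* x`, is `∑_{g,p} z(1)_{pp} = |Q| Tr (z(1))`, and
  `z(1) = ∑_{w ∈ supp x, π w = 1} x(w) = x(1)`.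
* `repM_herm`: `HermK (π_* x)`, so the matrix is hermitian.
* `repM_bound`: a bound of the row sums independent of `Q`: for all `a` the sum over `b` of
  `‖kerM (π_* x) a b‖` is at most `C = ∑_{w ∈ supp x} ∑_{p,q} ‖x(w)_{pq}‖`.  And then `C • 1 ± S` are positive
  semidefinite for hermitian `S` (`|conj (v_a) S_ab v_b| ≤ ‖S_ab‖ (|v_a|² + |v_b|²) / 2`).
-/

open scoped Topology ComplexOrder Matrix

namespace P095F

variable {G Q K : Type} [Group G] [Group Q] [Fintype Q] [DecidableEq Q] [Fintype K] [DecidableEq K]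

/-- the push forward along `π` -/
noncomputable def pushM (π : G →* Q) :
    MonoidAlgebra (Matrix K K ℂ) G →+* MonoidAlgebra (Matrix K K ℂ) Q :=
  MonoidAlgebra.mapDomainRingHom _ π

theorem pushM_single (π : G →* Q) (w : G) (M : Matrix K K ℂ) :
    pushM π (MonoidAlgebra.single w M) = MonoidAlgebra.single (π w) M :=
  MonoidAlgebra.mapDomain_single

/-- `(x * y)(g h⁻¹) = ∑_k x(g k⁻¹) y(k h⁻¹)` -/
private theorem V3b2_mul (x y : MonoidAlgebra (Matrix K K ℂ) Q) (g h : Q) :
    (x * y).coeff (g * h⁻¹) = ∑ k, x.coeff (g * k⁻¹) * y.coeff (k * h⁻¹) := by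
  rw [MonoidAlgebra.coeff_mul_apply_left, Finsupp.sum_fintype _ _ (fun i => zero_mul _)]
  refine (Fintype.sum_equiv ((Equiv.inv Q).trans (Equiv.mulLeft g)) _ _ fun k => ?_).symm
  have h1 : ((Equiv.inv Q).trans (Equiv.mulLeft g)) k = g * k⁻¹ := rfl
  rw [h1]
  congr 2
  group

/-- the regular representation -/
theorem exists_repM : ∃ r : MonoidAlgebra (Matrix K K ℂ) Q →+* Matrix (K × Q) (K × Q) ℂ,
    ∀ x, r x = Matrix.of (kerM x) := by
  refine ⟨{ toFun := fun x => Matrix.of (kerM x), map_one' := ?_, map_mul' := ?_, map_zero' := ?_,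
            map_add' := ?_ }, fun x => rfl⟩
  · ext a b
    show (1 : MonoidAlgebra (Matrix K K ℂ) Q).coeff (a.2 * b.2⁻¹) a.1 b.1 = _
    rw [MonoidAlgebra.one_def, MonoidAlgebra.coeff_single, Finsupp.single_apply]
    by_cases h2 : a.2 = b.2
    · rw [h2, mul_inv_cancel, if_pos rfl]
      by_cases h1 : a.1 = b.1
      · rw [h1, Matrix.one_apply_eq, Prod.ext h1 h2, Matrix.one_apply_eq]
      · rw [Matrix.one_apply_ne h1, Matrix.one_apply_ne (fun h => h1 (congrArg Prod.fst h))]
    · have h3 : ¬ (1 : Q) = a.2 * b.2⁻¹ := fun h => h2 (mul_inv_eq_one.1 h.symm)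
      rw [if_neg h3, Matrix.one_apply_ne (fun h => h2 (congrArg Prod.snd h))]
      rfl
  · intro x y
    ext a b
    show (x * y).coeff (a.2 * b.2⁻¹) a.1 b.1 = ∑ c : K × Q, kerM x a c * kerM y c b
    rw [V3b2_mul, Matrix.sum_apply, Fintype.sum_prod_type_right]
    refine Finset.sum_congr rfl fun k _ => ?_
    rw [Matrix.mul_apply]
    rfl
  · ext a b
    rfl
  · intro x y
    ext a b
    rfl

private theorem V3b2_coeff [DecidableEq Q] (π : G →* Q) (x : MonoidAlgebra (Matrix K K ℂ) G)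
    (q : Q) : (pushM π x).coeff q = ∑ w ∈ x.coeff.support, if π w = q then x.coeff w else 0 := by
  have h1 : (pushM π x).coeff = Finsupp.mapDomain π x.coeff := rfl
  rw [h1, Finsupp.mapDomain, Finsupp.sum_apply, Finsupp.sum]
  refine Finset.sum_congr rfl fun w _ => ?_
  rw [Finsupp.single_apply]

theorem repM_map_trace (π : G →* Q) (x : MonoidAlgebra (Matrix K K ℂ) G)
    (h : ∀ w ∈ x.coeff.support, π w = 1 → w = 1) :
    Matrix.trace (Matrix.of (kerM (pushM π x))) = (Fintype.card Q : ℂ) *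
      Matrix.trace (x.coeff 1) := by
  have h1 : (pushM π x).coeff 1 = x.coeff 1 := by
    rw [V3b2_coeff]
    by_cases hs : (1 : G) ∈ x.coeff.support
    · rw [Finset.sum_eq_single_of_mem 1 hs, if_pos (map_one π)]
      intro w hw hw1
      exact if_neg fun h2 => hw1 (h w hw h2)
    · rw [Finsupp.notMem_support_iff.1 hs]
      refine Finset.sum_eq_zero fun w hw => if_neg fun h2 => hs ?_
      rw [← h w hw h2]
      exact hw
  have h2 : Matrix.trace (Matrix.of (kerM (pushM π x))) =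
      ∑ q : Q, ∑ p : K, (pushM π x).coeff (q * q⁻¹) p p := by
    rw [Matrix.trace, Fintype.sum_prod_type_right]
    rfl
  rw [h2]
  simp only [mul_inv_cancel, h1]
  rw [Finset.sum_const, Finset.card_univ, nsmul_eq_mul]
  rfl

private theorem V3b2_herm (π : G →* Q) {x : MonoidAlgebra (Matrix K K ℂ) G} (h : HermK x) :
    HermK (pushM π x) := by
  intro q
  rw [V3b2_coeff, V3b2_coeff, Matrix.conjTranspose_sum]
  have hsupp : ∀ w, w ∈ x.coeff.support → w⁻¹ ∈ x.coeff.support := by
    intro w hw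
    rw [Finsupp.mem_support_iff] at hw ⊢
    intro h0
    rw [h w, Matrix.conjTranspose_eq_zero] at h0
    exact hw h0
  refine Finset.sum_nbij' (fun w => w⁻¹) (fun w => w⁻¹) hsupp hsupp (fun w _ => inv_inv w)
    (fun w _ => inv_inv w) fun w _ => ?_
  have h1 : (π w = q⁻¹) ↔ (π w⁻¹ = q) := by
    rw [map_inv, inv_eq_iff_eq_inv]
  by_cases h2 : π w = q⁻¹
  · rw [if_pos h2, if_pos (h1.1 h2), h w, Matrix.conjTranspose_conjTranspose]
  · rw [if_neg h2, if_neg (fun h3 => h2 (h1.2 h3)), Matrix.conjTranspose_zero]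

private theorem V3b2_herm2 {x : MonoidAlgebra (Matrix K K ℂ) Q} (h : HermK x) :
    (Matrix.of (kerM x)).IsHermitian := by
  ext a b
  show star (x.coeff (b.2 * a.2⁻¹) b.1 a.1) = x.coeff (a.2 * b.2⁻¹) a.1 b.1
  have h1 : a.2 * b.2⁻¹ = (b.2 * a.2⁻¹)⁻¹ := by group
  rw [h1, h]
  rfl

theorem repM_herm (π : G →* Q) {x : MonoidAlgebra (Matrix K K ℂ) G} (h : HermK x) :
    (Matrix.of (kerM (pushM π x))).IsHermitian := V3b2_herm2 (V3b2_herm π h)

/-- diagonal dominance -/
private theorem V3b2_dom {n : Type} [Fintype n] [DecidableEq n] {S : Matrix n n ℂ}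
    (hS : S.IsHermitian) {C : ℝ} (hC : ∀ a, ∑ b, ‖S a b‖ ≤ C) :
    ((C : ℂ) • 1 + S).PosSemidef := by
  have hsym : ∀ a b, ‖S a b‖ = ‖S b a‖ := by
    intro a b
    rw [← hS.apply a b, norm_star]
  have hH : ((C : ℂ) • 1 + S).IsHermitian := by
    refine Matrix.IsHermitian.add ?_ hS
    rw [Matrix.IsHermitian, Matrix.conjTranspose_smul, Matrix.conjTranspose_one]
    congr 1
    exact Complex.conj_ofReal C
  refine Matrix.PosSemidef.of_dotProduct_mulVec_nonneg hH fun x => ?_
  rw [Complex.nonneg_iff]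
  refine ⟨?_, (hH.im_star_dotProduct_mulVec_self x).symm⟩
  have h1 : star x ⬝ᵥ (((C : ℂ) • 1 + S) *ᵥ x) =
      ((C * ∑ a, ‖x a‖ ^ 2 : ℝ) : ℂ) + ∑ a, ∑ b, star (x a) * S a b * x b := by
    rw [Matrix.add_mulVec, dotProduct_add, Matrix.smul_mulVec, Matrix.one_mulVec]
    congr 1
    · rw [dotProduct_smul, smul_eq_mul, dotProduct]
      push_cast
      congr 1
      refine Finset.sum_congr rfl fun a _ => ?_
      rw [Pi.star_apply]
      exact Complex.conj_mul' (x a)
    · rw [dotProduct]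
      refine Finset.sum_congr rfl fun a _ => ?_
      rw [Matrix.mulVec, dotProduct, Finset.mul_sum]
      refine Finset.sum_congr rfl fun b _ => ?_
      rw [Pi.star_apply, mul_assoc]
  rw [h1, Complex.add_re, Complex.ofReal_re]
  have h2 : ‖∑ a, ∑ b, star (x a) * S a b * x b‖ ≤ C * ∑ a, ‖x a‖ ^ 2 := by
    calc ‖∑ a, ∑ b, star (x a) * S a b * x b‖ ≤ ∑ a, ∑ b, ‖star (x a) * S a b * x b‖ :=
          (norm_sum_le _ _).trans (Finset.sum_le_sum fun a _ => norm_sum_le _ _)
      _ ≤ ∑ a, ∑ b, (‖S a b‖ * ‖x a‖ ^ 2 / 2 + ‖S a b‖ * ‖x b‖ ^ 2 / 2) := by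
          refine Finset.sum_le_sum fun a _ => Finset.sum_le_sum fun b _ => ?_
          rw [norm_mul, norm_mul, norm_star]
          nlinarith [mul_nonneg (norm_nonneg (S a b)) (sq_nonneg (‖x a‖ - ‖x b‖))]
      _ = ∑ a, (∑ b, ‖S a b‖) * ‖x a‖ ^ 2 / 2 + ∑ b, (∑ a, ‖S a b‖) * ‖x b‖ ^ 2 / 2 := by
          simp only [Finset.sum_add_distrib]
          congr 1
          · refine Finset.sum_congr rfl fun a _ => ?_
            rw [Finset.sum_mul, Finset.sum_div]
          · rw [Finset.sum_comm]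
            refine Finset.sum_congr rfl fun b _ => ?_
            rw [Finset.sum_mul, Finset.sum_div]
      _ ≤ ∑ a, C * ‖x a‖ ^ 2 / 2 + ∑ b, C * ‖x b‖ ^ 2 / 2 := by
          refine add_le_add (Finset.sum_le_sum fun a _ => ?_) (Finset.sum_le_sum fun b _ => ?_)
          · have := mul_le_mul_of_nonneg_right (hC a) (sq_nonneg ‖x a‖)
            linarith
          · have h3 : ∑ a, ‖S a b‖ ≤ C := by
              refine le_trans (le_of_eq ?_) (hC b)
              exact Finset.sum_congr rfl fun a _ => hsym a b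
            have := mul_le_mul_of_nonneg_right h3 (sq_nonneg ‖x b‖)
            linarith
      _ = C * ∑ a, ‖x a‖ ^ 2 := by
          rw [Finset.mul_sum, ← Finset.sum_add_distrib]
          refine Finset.sum_congr rfl fun a _ => ?_
          ring
  have h3 := (abs_le.1 ((Complex.abs_re_le_norm _).trans h2)).1
  linarith

theorem repM_bound (x : MonoidAlgebra (Matrix K K ℂ) G) (h : HermK x) : ∃ C : ℝ, 0 < C ∧
    ∀ (Q : Type) [Group Q] [Fintype Q] [DecidableEq Q] (π : G →* Q),
      ((C : ℂ) • 1 - Matrix.of (kerM (pushM π x))).PosSemidef ∧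
        ((C : ℂ) • 1 + Matrix.of (kerM (pushM π x))).PosSemidef := by
  have hC0 : 0 ≤ ∑ w ∈ x.coeff.support, ∑ p, ∑ q, ‖x.coeff w p q‖ :=
    Finset.sum_nonneg fun w _ => Finset.sum_nonneg fun p _ => Finset.sum_nonneg fun q _ =>
      norm_nonneg _
  refine ⟨1 + ∑ w ∈ x.coeff.support, ∑ p, ∑ q, ‖x.coeff w p q‖, by linarith, ?_⟩
  intro Q _ _ _ π
  have hH := repM_herm π h
  have hrow : ∀ a, ∑ b, ‖Matrix.of (kerM (pushM π x)) a b‖ ≤
      1 + ∑ w ∈ x.coeff.support, ∑ p, ∑ q, ‖x.coeff w p q‖ := by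
    intro a
    have h1 : ∑ b : K × Q, ‖Matrix.of (kerM (pushM π x)) a b‖ ≤
        ∑ q : K, ∑ w ∈ x.coeff.support, ‖x.coeff w a.1 q‖ := by
      rw [Fintype.sum_prod_type]
      refine Finset.sum_le_sum fun q _ => ?_
      calc ∑ k : Q, ‖Matrix.of (kerM (pushM π x)) a (q, k)‖
          ≤ ∑ k : Q, ∑ w ∈ x.coeff.support,
              (if π w = a.2 * k⁻¹ then ‖x.coeff w a.1 q‖ else 0) := by
            refine Finset.sum_le_sum fun k _ => ?_
            have h2 : Matrix.of (kerM (pushM π x)) a (q, k) =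
                ∑ w ∈ x.coeff.support, (if π w = a.2 * k⁻¹ then x.coeff w a.1 q else 0) := by
              show (pushM π x).coeff (a.2 * k⁻¹) a.1 q = _
              rw [V3b2_coeff, Matrix.sum_apply]
              refine Finset.sum_congr rfl fun w _ => ?_
              split_ifs <;> rfl
            rw [h2]
            refine (norm_sum_le _ _).trans (Finset.sum_le_sum fun w _ => ?_)
            split_ifs
            · exact le_rfl
            · rw [norm_zero]
        _ = ∑ w ∈ x.coeff.support, ∑ k : Q,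
              (if π w = a.2 * k⁻¹ then ‖x.coeff w a.1 q‖ else 0) := Finset.sum_comm
        _ = ∑ w ∈ x.coeff.support, ‖x.coeff w a.1 q‖ := by
            refine Finset.sum_congr rfl fun w _ => ?_
            rw [Finset.sum_eq_single ((π w)⁻¹ * a.2)]
            · rw [if_pos]
              group
            · intro k _ hk
              refine if_neg fun h3 => hk ?_
              rw [h3]
              group
            · intro h3
              exact absurd (Finset.mem_univ _) h3
    have h2 : ∑ q : K, ∑ w ∈ x.coeff.support, ‖x.coeff w a.1 q‖ ≤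
        ∑ w ∈ x.coeff.support, ∑ p, ∑ q, ‖x.coeff w p q‖ := by
      rw [Finset.sum_comm]
      refine Finset.sum_le_sum fun w _ => ?_
      exact Finset.single_le_sum (f := fun p => ∑ q, ‖x.coeff w p q‖)
        (fun p _ => Finset.sum_nonneg fun q _ => norm_nonneg _) (Finset.mem_univ a.1)
    linarith
  refine ⟨?_, V3b2_dom hH hrow⟩
  rw [sub_eq_add_neg]
  refine V3b2_dom hH.neg fun a => ?_
  refine le_trans (le_of_eq ?_) (hrow a)
  refine Finset.sum_congr rfl fun b _ => ?_
  rw [Matrix.neg_apply, norm_neg]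

end P095F
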