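import Mathlib.Analysis.Matrix.Spectrum
import Mathlib.LinearAlgebra.Matrix.PosDef
import Vale.Agent.Lib.P095F.VDefs

/-!
# P095F, part V, module V3b3: few large eigenvalues, linear algebra

`S` hermitian with eigenvalues `λ_i ∈ [-C, C]` (`Matrix.IsHermitian.eigenvalues`, spectral theorem
`S = U diag(λ) U^*`).
The trace is `∑ λ_i (λ_i + C)^(2j) ≤ 0`.  The terms with `λ_i < 0` are `≥ - C * C ^ (2j)`, the terms with
`0 ≤ λ_i ≤ θ` are `≥ 0`, the terms with `λ_i > θ` are `≥ θ (C + θ)^(2j)`; so the number `ρ` of `i` with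
`λ_i > θ` satisfies the bound.  `V` has the rows `√(λ_i - θ) u_i^*` for these `i`
(`u_i` the eigenvectors): `Vᴴ V = U diag((λ_i - θ)_+) U^*`, and `θ + Vᴴ V - S = U diag((θ - λ_i)_+) U^*`.
-/

open scoped Topology ComplexOrder

namespace P095F

/-- the functional calculus of the unitary `U` -/
def V3b3_D {I : Type} [Fintype I] [DecidableEq I] (U : Matrix I I ℂ) (f : I → ℝ) : Matrix I I ℂ :=
  U * Matrix.diagonal (fun i => (f i : ℂ)) * U.conjTranspose

section

variable {I : Type} [Fintype I] [DecidableEq I] {U : Matrix I I ℂ}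

theorem V3b3_add (f g : I → ℝ) : V3b3_D U f + V3b3_D U g = V3b3_D U (fun i => f i + g i) := by
  unfold V3b3_D
  rw [← Matrix.add_mul, ← Matrix.mul_add, Matrix.diagonal_add]
  simp

theorem V3b3_sub (f g : I → ℝ) : V3b3_D U f - V3b3_D U g = V3b3_D U (fun i => f i - g i) := by
  unfold V3b3_D
  rw [← Matrix.sub_mul, ← Matrix.mul_sub, Matrix.diagonal_sub]
  simp

theorem V3b3_mul (h : U.conjTranspose * U = 1) (f g : I → ℝ) :
    V3b3_D U f * V3b3_D U g = V3b3_D U (fun i => f i * g i) := by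
  unfold V3b3_D
  have e1 : U * Matrix.diagonal (fun i => (f i : ℂ)) * U.conjTranspose *
      (U * Matrix.diagonal (fun i => (g i : ℂ)) * U.conjTranspose) =
      U * Matrix.diagonal (fun i => (f i : ℂ)) * (U.conjTranspose * U) *
        Matrix.diagonal (fun i => (g i : ℂ)) * U.conjTranspose := by
    simp only [Matrix.mul_assoc]
  rw [e1, h, Matrix.mul_one, Matrix.mul_assoc U, Matrix.diagonal_mul_diagonal]
  simp

theorem V3b3_const (h : U * U.conjTranspose = 1) (c : ℝ) :
    V3b3_D U (fun _ => c) = (c : ℂ) • (1 : Matrix I I ℂ) := by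
  unfold V3b3_D
  have e1 : Matrix.diagonal (fun _ : I => (c : ℂ)) = (c : ℂ) • (1 : Matrix I I ℂ) := by
    rw [Matrix.smul_one_eq_diagonal]
  rw [e1, Matrix.mul_smul, Matrix.mul_one, Matrix.smul_mul, h]

theorem V3b3_pow (h : U.conjTranspose * U = 1) (h' : U * U.conjTranspose = 1) (f : I → ℝ) (n : ℕ) :
    V3b3_D U f ^ n = V3b3_D U (fun i => f i ^ n) := by
  induction n with
  | zero =>
    rw [pow_zero]
    simp only [pow_zero]
    rw [V3b3_const h']
    simp
  | succ n ih =>
    rw [pow_succ, ih, V3b3_mul h]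
    simp only [pow_succ]

theorem V3b3_trace (h : U.conjTranspose * U = 1) (f : I → ℝ) :
    (Matrix.trace (V3b3_D U f)).re = ∑ i, f i := by
  unfold V3b3_D
  rw [Matrix.trace_mul_comm, ← Matrix.mul_assoc, h, Matrix.one_mul, Matrix.trace_diagonal,
    Complex.re_sum]
  simp

theorem V3b3_psd {f : I → ℝ} (hf : ∀ i, 0 ≤ f i) : (V3b3_D U f).PosSemidef := by
  unfold V3b3_D
  refine Matrix.PosSemidef.mul_mul_conjTranspose_same ?_ U
  exact Matrix.PosSemidef.diagonal (fun i => by
    simpa using Complex.zero_le_real.2 (hf i))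

theorem V3b3_psd' (h : U.conjTranspose * U = 1) {f : I → ℝ} (hf : (V3b3_D U f).PosSemidef)
    (i : I) : 0 ≤ f i := by
  have h1 := hf.conjTranspose_mul_mul_same U
  have e1 : U.conjTranspose * V3b3_D U f * U = Matrix.diagonal (fun i => (f i : ℂ)) := by
    unfold V3b3_D
    have e2 : U.conjTranspose * (U * Matrix.diagonal (fun i => (f i : ℂ)) * U.conjTranspose) * U =
        (U.conjTranspose * U) * Matrix.diagonal (fun i => (f i : ℂ)) *
          (U.conjTranspose * U) := by
      simp only [Matrix.mul_assoc]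
    rw [e2, h, Matrix.one_mul, Matrix.mul_one]
  rw [e1] at h1
  have h2 := h1.diag_nonneg (i := i)
  rw [Matrix.diagonal_apply_eq] at h2
  exact Complex.zero_le_real.1 h2

end

theorem V3b3_lin {I : Type} [Fintype I] [DecidableEq I] (S : Matrix I I ℂ) (hS : S.IsHermitian)
    {C θ : ℝ} (hC : 0 < C) (hθ : 0 < θ) (h1 : ((C : ℂ) • 1 - S).PosSemidef)
    (h2 : ((C : ℂ) • 1 + S).PosSemidef) (j : ℕ)
    (htr : (Matrix.trace ((S + (C : ℂ) • 1) ^ j * S * (S + (C : ℂ) • 1) ^ j)).re ≤ 0) :
    ∃ (ρ : ℕ) (V : Matrix (Fin ρ) I ℂ),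
      (ρ : ℝ) * (θ * (C + θ) ^ (2 * j)) ≤ Fintype.card I * (C * C ^ (2 * j)) ∧
      ((θ : ℂ) • 1 + V.conjTranspose * V - S).PosSemidef := by
  obtain ⟨U, hU⟩ : ∃ U : Matrix I I ℂ, U = (hS.eigenvectorUnitary : Matrix I I ℂ) := ⟨_, rfl⟩
  obtain ⟨d, hd⟩ : ∃ d : I → ℝ, d = hS.eigenvalues := ⟨_, rfl⟩
  have hUU : U.conjTranspose * U = 1 := by
    rw [hU, ← Matrix.star_eq_conjTranspose]
    exact Unitary.coe_star_mul_self _
  have hUU' : U * U.conjTranspose = 1 := by
    rw [hU, ← Matrix.star_eq_conjTranspose]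
    exact Unitary.coe_mul_star_self _
  have hSD : S = V3b3_D U d := by
    have := hS.spectral_theorem
    rw [Unitary.conjStarAlgAut_apply] at this
    rw [hU, hd]
    exact this
  rw [← V3b3_const hUU' C, hSD, V3b3_sub] at h1
  rw [← V3b3_const hUU' C, hSD, V3b3_add] at h2
  have hd1 : ∀ i, 0 ≤ C - d i := V3b3_psd' hUU h1
  have hd2 : ∀ i, 0 ≤ C + d i := V3b3_psd' hUU h2
  rw [← V3b3_const hUU' C, hSD, V3b3_add, V3b3_pow hUU hUU', V3b3_mul hUU, V3b3_mul hUU,
    V3b3_trace hUU] at htr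
  obtain ⟨T, hT⟩ : ∃ T : Finset I, T = Finset.univ.filter (fun i => θ < d i) := ⟨_, rfl⟩
  have hTm : ∀ i, i ∈ T ↔ θ < d i := fun i => by
    rw [hT]
    simp
  obtain ⟨W, hW⟩ : ∃ W : Matrix I I ℂ, W = Matrix.diagonal
    (fun i => ((Real.sqrt (max (d i - θ) 0) : ℝ) : ℂ)) * U.conjTranspose := ⟨_, rfl⟩
  have hWW : W.conjTranspose * W = V3b3_D U (fun i => max (d i - θ) 0) := by
    rw [hW, Matrix.conjTranspose_mul, Matrix.conjTranspose_conjTranspose,
      Matrix.diagonal_conjTranspose]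
    unfold V3b3_D
    rw [Matrix.mul_assoc U, ← Matrix.mul_assoc (Matrix.diagonal _), Matrix.diagonal_mul_diagonal,
      ← Matrix.mul_assoc]
    congr 2
    congr 1
    funext i
    simp only [Pi.star_apply, Complex.star_def, Complex.conj_ofReal]
    rw [← Complex.ofReal_mul, Real.mul_self_sqrt (le_max_right _ _)]
  have hW0 : ∀ i, i ∉ T → ∀ b, W i b = 0 := fun i hi b => by
    rw [hW, Matrix.diagonal_mul]
    have h3 : max (d i - θ) 0 = 0 := max_eq_right (by
      have := not_lt.1 (fun h => hi ((hTm i).2 h))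
      linarith)
    rw [h3, Real.sqrt_zero]
    simp
  obtain ⟨σ⟩ : Nonempty (Fin T.card ≃ T) := ⟨T.equivFin.symm⟩
  obtain ⟨V, hV⟩ : ∃ V : Matrix (Fin T.card) I ℂ, ∀ a b, V a b = W (σ a) b :=
    ⟨fun a b => W (σ a) b, fun _ _ => rfl⟩
  refine ⟨T.card, V, ?_, ?_⟩
  · have h3 : ∀ i, (if i ∈ T then θ * (C + θ) ^ (2 * j) else 0) - C * C ^ (2 * j) ≤
        (d i + C) ^ j * d i * (d i + C) ^ j := by
      intro i
      have e1 : (d i + C) ^ j * d i * (d i + C) ^ j = d i * (d i + C) ^ (2 * j) := by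
        rw [two_mul, pow_add]
        ring
      rw [e1]
      have hC2 : 0 ≤ C * C ^ (2 * j) := by positivity
      have hdC : 0 ≤ d i + C := by
        have := hd2 i
        linarith
      by_cases hi : i ∈ T
      · rw [if_pos hi]
        have h4 := (hTm i).1 hi
        have h5 : (C + θ) ^ (2 * j) ≤ (d i + C) ^ (2 * j) :=
          pow_le_pow_left₀ (by linarith) (by linarith) _
        have h6 : θ * (C + θ) ^ (2 * j) ≤ d i * (d i + C) ^ (2 * j) :=
          mul_le_mul h4.le h5 (by positivity) (by linarith)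
        linarith
      · rw [if_neg hi]
        rcases le_total 0 (d i) with h4 | h4
        · have : 0 ≤ d i * (d i + C) ^ (2 * j) := mul_nonneg h4 (pow_nonneg hdC _)
          linarith
        · have h5 : (d i + C) ^ (2 * j) ≤ C ^ (2 * j) := pow_le_pow_left₀ hdC (by linarith) _
          have h6 : (-d i) * (d i + C) ^ (2 * j) ≤ C * C ^ (2 * j) :=
            mul_le_mul (by
              have := hd2 i
              linarith) h5 (pow_nonneg hdC _) hC.le
          linarith
    have h4 : ∑ i, ((if i ∈ T then θ * (C + θ) ^ (2 * j) else 0) - C * C ^ (2 * j)) ≤ 0 :=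
      (Finset.sum_le_sum fun i _ => h3 i).trans htr
    rw [Finset.sum_sub_distrib, Finset.sum_const, Finset.card_univ, nsmul_eq_mul,
      Finset.sum_ite_mem, Finset.univ_inter, Finset.sum_const, nsmul_eq_mul] at h4
    linarith
  · have hVV : V.conjTranspose * V = W.conjTranspose * W := by
      ext b c
      rw [Matrix.mul_apply, Matrix.mul_apply]
      simp only [Matrix.conjTranspose_apply, hV]
      rw [Equiv.sum_comp σ (fun i : T => star (W i b) * W i c),
        Finset.sum_coe_sort T (fun i => star (W i b) * W i c)]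
      refine Finset.sum_subset (Finset.subset_univ _) fun i _ hi => ?_
      rw [hW0 i hi c, mul_zero]
    rw [hVV, hWW, ← V3b3_const hUU' θ, V3b3_add, hSD, V3b3_sub]
    refine V3b3_psd fun i => ?_
    have := le_max_left (d i - θ) 0
    linarith

end P095F
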