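import Vale.Agent.Lib.P095F.V3b1
import Vale.Agent.Lib.P095F.V3b2
import Vale.Agent.Lib.P095F.V3b3

/-!
# P095F, part V, module V3b4: few large eigenvalues in finite quotients

`C` from `repM_bound`; `j` with `|K| C^(2j+1) ≤ κ θ (C+θ)^(2j)`
(`(C / (C + θ))^(2j) → 0`); `y = (T + C)^j` hermitian (`V3b1_pow`),
`x = y * T * y`; `Q`, `π` from the hypothesis `hG` for the support of `x`; `S = Matrix.of (kerM (π_* T))`.
`V3b1_trace` and `repM_map_trace`: `Tr (Matrix.of (kerM (π_* x))) = |Q| Tr (x(1))` has real part `≤ 0`; since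
`π_*` and the regular representation are ring homomorphisms (`exists_repM`),
`Matrix.of (kerM (π_* x)) = (S + C)^j * S * (S + C)^j`.  Then `V3b3_lin`: `ρ θ (C+θ)^(2j) ≤ |K| |Q| C^(2j+1)`.
-/

open scoped Topology ComplexOrder

namespace P095F

private theorem V3b4_num {C θ κ : ℝ} (hC : 0 < C) (hθ : 0 < θ) (hκ : 0 < κ) (N : ℕ) :
    ∃ j : ℕ, (N : ℝ) * (C * C ^ (2 * j)) ≤ κ * (θ * (C + θ) ^ (2 * j)) := by
  have hCt : 0 < C + θ := by linarith
  have h1 : C / (C + θ) < 1 := by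
    rw [div_lt_one hCt]
    linarith
  have h0 : 0 ≤ C / (C + θ) := by positivity
  have h2 : (C / (C + θ)) ^ 2 < 1 := pow_lt_one₀ h0 h1 (by norm_num)
  have hε : 0 < κ * θ / (N * C + 1) := by positivity
  obtain ⟨j, hj⟩ := exists_pow_lt_of_lt_one hε h2
  refine ⟨j, ?_⟩
  have hD : 0 < (C + θ) ^ (2 * j) := by positivity
  have hN : (0 : ℝ) < N * C + 1 := by positivity
  rw [← pow_mul, div_pow, div_lt_div_iff₀ hD hN] at hj
  have h3 : 0 < C ^ (2 * j) := by positivity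
  nlinarith

private theorem V3b4_one {Q K : Type} [Group Q] [Fintype Q] [DecidableEq Q] [Fintype K]
    [DecidableEq K] (C : ℝ) :
    Matrix.of (kerM (MonoidAlgebra.single (1 : Q) ((C : ℂ) • (1 : Matrix K K ℂ)))) =
      (C : ℂ) • (1 : Matrix (K × Q) (K × Q) ℂ) := by
  ext ⟨p, g⟩ ⟨q, h⟩
  rw [Matrix.of_apply]
  unfold kerM
  simp only [MonoidAlgebra.coeff_single]
  rw [Finsupp.single_apply, Matrix.smul_apply, Matrix.one_apply]
  by_cases hgh : g = h
  · subst hgh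
    rw [if_pos (by simp)]
    by_cases hpq : p = q
    · subst hpq
      simp
    · rw [Matrix.smul_apply, Matrix.one_apply, if_neg hpq, if_neg (by simpa using hpq)]
  · have : ¬ ((1 : Q) = g * h⁻¹) := by
      intro h0
      exact hgh (mul_inv_eq_one.1 h0.symm)
    rw [if_neg this, if_neg (by
      intro h0
      exact hgh (congrArg Prod.snd h0))]
    simp

theorem V3b_main {G K : Type} [Group G] [Fintype K] [DecidableEq K]
    (hG : ∀ F : Finset G, ∃ (Q : Type) (_ : Group Q) (_ : Fintype Q) (_ : DecidableEq Q)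
      (π : G →* Q), ∀ w ∈ F, π w = 1 → w = 1)
    (T : MonoidAlgebra (Matrix K K ℂ) G) (hT : HermK T) (hneg : NegK T) {θ κ : ℝ} (hθ : 0 < θ)
    (hκ : 0 < κ) :
    ∃ (Q : Type) (_ : Group Q) (_ : Fintype Q) (_ : DecidableEq Q) (π : G →* Q) (ρ : ℕ)
      (V : Matrix (Fin ρ) (K × Q) ℂ), (ρ : ℝ) ≤ κ * Fintype.card Q ∧
        ((θ : ℂ) • 1 + V.conjTranspose * V - Matrix.of (kerM (pushM π T))).PosSemidef := by
  obtain ⟨C, hC, hbound⟩ := repM_bound T hT
  obtain ⟨j, hj⟩ := V3b4_num hC hθ hκ (Fintype.card K)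
  set y := (T + MonoidAlgebra.single 1 ((C : ℂ) • 1)) ^ j with hy
  have hyH : HermK y := V3b1_pow hT C j
  have htr0 := V3b1_trace hneg hyH
  obtain ⟨Q, i1, i2, i3, π, hπ⟩ := hG (y * T * y).coeff.support
  obtain ⟨r, hr⟩ := exists_repM (Q := Q) (K := K)
  set S := Matrix.of (kerM (pushM π T)) with hS
  have hrT : r (pushM π T) = S := hr _
  have hr1 : r (pushM π (MonoidAlgebra.single 1 ((C : ℂ) • 1))) =
      (C : ℂ) • (1 : Matrix (K × Q) (K × Q) ℂ) := by
    rw [pushM_single, map_one, hr, V3b4_one]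
  have hx : Matrix.of (kerM (pushM π (y * T * y))) =
      (S + (C : ℂ) • 1) ^ j * S * (S + (C : ℂ) • 1) ^ j := by
    rw [← hr, hy]
    simp only [map_mul, map_pow, map_add, hrT, hr1]
  have htr : (Matrix.trace ((S + (C : ℂ) • 1) ^ j * S * (S + (C : ℂ) • 1) ^ j)).re ≤ 0 := by
    rw [← hx, repM_map_trace π _ hπ]
    have e : ((Fintype.card Q : ℂ) * Matrix.trace ((y * T * y).coeff 1)).re =
        (Fintype.card Q : ℝ) * (Matrix.trace ((y * T * y).coeff 1)).re := by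
      rw [← Complex.ofReal_natCast, Complex.re_ofReal_mul]
    rw [e]
    exact mul_nonpos_of_nonneg_of_nonpos (Nat.cast_nonneg _) htr0
  obtain ⟨ρ, V, h1, h2⟩ := V3b3_lin S (repM_herm π hT) hC hθ (hbound Q π).1 (hbound Q π).2 j htr
  refine ⟨Q, i1, i2, i3, π, ρ, V, ?_, h2⟩
  have hD : 0 < θ * (C + θ) ^ (2 * j) := by positivity
  have hQ : (0 : ℝ) ≤ Fintype.card Q := Nat.cast_nonneg _
  rw [Fintype.card_prod, Nat.cast_mul] at h1
  have h3 := mul_le_mul_of_nonneg_left hj hQ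
  have h4 : (ρ : ℝ) * (θ * (C + θ) ^ (2 * j)) ≤
      (κ * Fintype.card Q) * (θ * (C + θ) ^ (2 * j)) := by
    calc (ρ : ℝ) * (θ * (C + θ) ^ (2 * j))
        ≤ (Fintype.card K : ℝ) * Fintype.card Q * (C * C ^ (2 * j)) := h1
      _ = Fintype.card Q * (Fintype.card K * (C * C ^ (2 * j))) := by ring
      _ ≤ Fintype.card Q * (κ * (θ * (C + θ) ^ (2 * j))) := h3
      _ = _ := by ring
  exact le_of_mul_le_mul_right h4 hD

end P095F
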