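import Vale.Agent.Lib.P095F.V2a
import Vale.Agent.Lib.P095F.CAMat

/-!
# P095F, part V, module V2b: criteria for `PosM`

* `posM_of_form`.  First `star (T s t) = T t s`: the forms are self-adjoint; take `ξ = Pi.single s 1`,
  `Pi.single t 1` and `ξ = Pi.single s 1 + z • Pi.single t 1` (`s ≠ t`) with `z = 1`, `z = I`
  (`∑ = T s s + star z • T t s + z • T s t + T t t` (`‖z‖ = 1`) is self-adjoint).  Then reindex `S` by
  `Fin (Fintype.card S)` and apply `mat_alt` (file CAMat.lean): the second alternative with `a = 1` says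
  `∑ p, ∑ q, star (b p) * T p q * b q = -(star y * y)`, the left side is `star c * c`, so
  `star c * c + star y * y = 0`, `star y * y = 0` (spectral order), `y = 0`, a contradiction.
* `nonneg_iff_posM`: `0 ≤ M` iff `M = star C * C` (`CStarAlgebra.nonneg_iff_eq_star_mul_self`; the order
  on `CStarMatrix S S A` is the instance of Mathlib, `CStarMatrix.instPartialOrder`, a spectral order); and
  `M = ∑ l, star (C_l) * C_l` with `C_l` the matrix with first row (row `s₀`) `D l` and zero elsewhere.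
  (`S` empty: trivial.)  If the instance of Mathlib is awkward: the two orders agree since both are
  star ordered (`StarOrderedRing.nonneg_iff`); the statement only says `∃ C, M = star C * C`.
* `posM_schur`: by `posM_of_form`:
  `star a * x * b + star b * star x * a + ‖x‖ (star a * a + star b * b) = star c * c` (it is `≥ 0`:
  `‖x‖ star a * a + star a * x * b + star b * star x * a + ‖x‖ star b * b`
  `= star (√‖x‖ a + √‖x‖⁻¹ x b) * (√‖x‖ a + √‖x‖⁻¹ x b) + star b * (‖x‖ - ‖x‖⁻¹ star x * x) * b` and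
  `star x * x ≤ ‖x‖ ^ 2`; trivial for `x = 0`).  Sum over all pairs `(s, t)` with `x = T s t`, `a = ξ s`,
  `b = ξ t`: `2 ∑ star (ξ s) T s t ξ t + 2 ∑_s (∑_t ‖T s t‖) star (ξ s) ξ s ≥ 0`
  (`‖T s t‖ = ‖T t s‖`), and `∑_t ‖T s t‖ ≤ r`.
-/

open scoped Topology

namespace P095F

universe u

variable {A : Type u} [CStarAlgebra A]

section sq

variable {x y : A}

private theorem V2b_nonneg_sum {ι : Type} (I : Finset ι) {f : ι → A}
    (h : ∀ i ∈ I, ∃ c : A, f i = star c * c) : ∃ c : A, ∑ i ∈ I, f i = star c * c := by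
  let _ := CStarAlgebra.spectralOrder A
  let _ := CStarAlgebra.spectralOrderedRing A
  exact CStarAlgebra.nonneg_iff_eq_star_mul_self.1
    (Finset.sum_nonneg fun i hi => CStarAlgebra.nonneg_iff_eq_star_mul_self.2 (h i hi))

private theorem V2b_add (hx : ∃ c : A, x = star c * c) (hy : ∃ c : A, y = star c * c) :
    ∃ c : A, x + y = star c * c := by
  let _ := CStarAlgebra.spectralOrder A
  let _ := CStarAlgebra.spectralOrderedRing A
  exact CStarAlgebra.nonneg_iff_eq_star_mul_self.1
    (add_nonneg (CStarAlgebra.nonneg_iff_eq_star_mul_self.2 hx)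
      (CStarAlgebra.nonneg_iff_eq_star_mul_self.2 hy))

private theorem V2b_smul (hx : ∃ c : A, x = star c * c) {r : ℝ} (hr : 0 ≤ r) :
    ∃ c : A, (r : ℂ) • x = star c * c := by
  obtain ⟨c, rfl⟩ := hx
  refine ⟨((√r : ℝ) : ℂ) • c, ?_⟩
  rw [star_smul, smul_mul_smul_comm]
  congr 1
  rw [Complex.star_def, Complex.conj_ofReal, ← Complex.ofReal_mul, Real.mul_self_sqrt hr]

private theorem V2b_conj (hx : ∃ c : A, x = star c * c) (b : A) :
    ∃ c : A, star b * x * b = star c * c := by
  obtain ⟨c, rfl⟩ := hx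
  exact ⟨c * b, by simp only [star_mul, mul_assoc]⟩

private theorem V2b_norm (x : A) :
    ∃ c : A, ((‖x‖ ^ 2 : ℝ) : ℂ) • (1 : A) - star x * x = star c * c := by
  let _ := CStarAlgebra.spectralOrder A
  let _ := CStarAlgebra.spectralOrderedRing A
  rw [real_smul_one]
  exact CStarAlgebra.nonneg_iff_eq_star_mul_self.1
    (sub_nonneg.2 CStarAlgebra.star_mul_le_algebraMap_norm_sq)

private theorem V2b_pair (x a b : A) :
    ∃ c : A, star a * x * b + star b * star x * a +
      ((‖x‖ : ℂ) • (star a * a) + (‖x‖ : ℂ) • (star b * b)) = star c * c := by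
  rcases eq_or_ne x 0 with rfl | hx
  · refine ⟨0, ?_⟩
    simp
  · have hn : 0 < ‖x‖ := norm_pos_iff.2 hx
    have hnC : (‖x‖ : ℂ) ≠ 0 := by exact_mod_cast hn.ne'
    have h1 : ∃ c : A, star ((‖x‖ : ℂ) • a + x * b) * ((‖x‖ : ℂ) • a + x * b) +
        star b * (((‖x‖ ^ 2 : ℝ) : ℂ) • (1 : A) - star x * x) * b = star c * c :=
      V2b_add ⟨_, rfl⟩ (V2b_conj (V2b_norm x) b)
    have h2 := V2b_smul h1 (inv_nonneg.2 hn.le)
    have h3 : ((‖x‖⁻¹ : ℝ) : ℂ) • (star ((‖x‖ : ℂ) • a + x * b) * ((‖x‖ : ℂ) • a + x * b) +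
        star b * (((‖x‖ ^ 2 : ℝ) : ℂ) • (1 : A) - star x * x) * b) =
        star a * x * b + star b * star x * a +
      ((‖x‖ : ℂ) • (star a * a) + (‖x‖ : ℂ) • (star b * b)) := by
      have e1 : star ((‖x‖ : ℂ) • a + x * b) * ((‖x‖ : ℂ) • a + x * b) +
          star b * (((‖x‖ ^ 2 : ℝ) : ℂ) • (1 : A) - star x * x) * b =
          (‖x‖ : ℂ) • (star a * x * b + star b * star x * a +
            ((‖x‖ : ℂ) • (star a * a) + (‖x‖ : ℂ) • (star b * b))) := by
        rw [star_add, star_smul, Complex.star_def, Complex.conj_ofReal, star_mul]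
        simp only [add_mul, mul_add, mul_sub, sub_mul, smul_mul_assoc, mul_smul_comm, smul_add,
          mul_one, smul_smul, mul_assoc]
        rw [Complex.ofReal_pow, pow_two]
        abel
      rw [e1, smul_smul, Complex.ofReal_inv, inv_mul_cancel₀ hnC, one_smul]
    rw [h3] at h2
    exact h2

end sq

private theorem V2b_herm {S : Type} [Fintype S] {T : S → S → A}
    (h : ∀ ξ : S → A, ∃ c : A, ∑ s, ∑ t, star (ξ s) * T s t * ξ t = star c * c) (s t : S) :
    star (T s t) = T t s := by
  classical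
  set D : S → S → A := fun s t => T s t - star (T t s) with hD
  set B : (S → A) → (S → A) → A := fun ξ η => ∑ s, ∑ t, star (ξ s) * D s t * η t with hB
  have hB0 : ∀ ξ, B ξ ξ = 0 := by
    intro ξ
    have e1 : B ξ ξ = (∑ s, ∑ t, star (ξ s) * T s t * ξ t) -
        star (∑ s, ∑ t, star (ξ s) * T s t * ξ t) := by
      simp only [hB, hD, star_sum, star_mul, star_star, mul_sub, sub_mul, Finset.sum_sub_distrib]
      congr 1
      rw [Finset.sum_comm]
      simp only [mul_assoc]
    obtain ⟨c, hc⟩ := h ξ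
    rw [e1, hc, star_mul, star_star, sub_self]
  have hBadd : ∀ ξ η, B (ξ + η) (ξ + η) = B ξ ξ + B ξ η + B η ξ + B η η := by
    intro ξ η
    simp only [hB, Pi.add_apply, star_add, add_mul, mul_add, Finset.sum_add_distrib]
    abel
  have hBs : ∀ (s t : S) (a b : A), B (Pi.single s a) (Pi.single t b) = star a * D s t * b := by
    intro s t a b
    simp only [hB]
    rw [Finset.sum_eq_single s, Finset.sum_eq_single t]
    · simp
    · intro t' _ ht'
      rw [Pi.single_eq_of_ne ht', mul_zero]
    · intro h; exact absurd (Finset.mem_univ _) h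
    · intro s' _ hs'
      apply Finset.sum_eq_zero
      intro t' _
      rw [Pi.single_eq_of_ne hs', star_zero, zero_mul, zero_mul]
    · intro h; exact absurd (Finset.mem_univ _) h
  have hz : ∀ z : ℂ, z • D s t + star z • D t s = 0 := by
    intro z
    have h1 := hBadd (Pi.single s 1) (Pi.single t (z • 1))
    rw [hB0, hB0, hB0, hBs, hBs] at h1
    rw [star_one, one_mul, star_smul, star_one, mul_one, mul_smul_comm, mul_one, smul_mul_assoc,
      one_mul, zero_add, add_zero] at h1
    exact h1.symm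
  have h1 := hz 1
  have h2 := hz Complex.I
  rw [star_one, one_smul, one_smul] at h1
  have h3 : star Complex.I = -Complex.I := Complex.conj_I
  rw [h3, neg_smul, ← sub_eq_add_neg, ← smul_sub, smul_eq_zero] at h2
  have h4 : D s t - D t s = 0 := h2.resolve_left Complex.I_ne_zero
  have h5 : D t s = 0 := by
    have h6 : D s t = D t s := sub_eq_zero.1 h4
    rw [h6, ← two_smul ℂ, smul_eq_zero] at h1
    exact h1.resolve_left two_ne_zero
  exact (sub_eq_zero.1 h5).symm

theorem posM_of_form {S : Type} [Fintype S] {T : S → S → A}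
    (h : ∀ ξ : S → A, ∃ c : A, ∑ s, ∑ t, star (ξ s) * T s t * ξ t = star c * c) : PosM T := by
  classical
  let e := Fintype.equivFin S
  rcases mat_alt (fun p q => T (e.symm p) (e.symm q)) (fun p q => V2b_herm h _ _) with
    ⟨C, hC⟩ | ⟨y, b, hy, hb⟩
  · refine ⟨Fintype.card S, fun l s => C l (e s), fun s t => ?_⟩
    have := hC (e s) (e t)
    simpa using this
  · exfalso
    have h1 := hb 1
    simp only [star_one, mul_one, one_mul] at h1
    obtain ⟨c, hc⟩ := h (fun s => b (e s))
    have h2 : ∑ s, ∑ t, star (b (e s)) * T s t * b (e t) =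
        ∑ p, ∑ q, star (b p) * T (e.symm p) (e.symm q) * b q := by
      rw [← Equiv.sum_comp e]
      refine Finset.sum_congr rfl fun s _ => ?_
      rw [← Equiv.sum_comp e]
      simp
    rw [h2, h1] at hc
    let _ := CStarAlgebra.spectralOrder A
    let _ := CStarAlgebra.spectralOrderedRing A
    have h3 : 0 ≤ star c * c := star_mul_self_nonneg c
    have h4 : 0 ≤ star y * y := star_mul_self_nonneg y
    rw [← hc, neg_nonneg] at h3
    exact hy (CStarRing.star_mul_self_eq_zero_iff _ |>.1 (le_antisymm h3 h4))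

theorem posM_iff_matrix {S : Type} [Fintype S] [DecidableEq S] (T : S → S → A) :
    PosM T ↔ ∃ C : CStarMatrix S S A, CStarMatrix.ofMatrix (Matrix.of T) = star C * C := by
  constructor
  · rintro ⟨N, D, hD⟩
    rcases isEmpty_or_nonempty S with hS | ⟨⟨s₀⟩⟩
    · exact ⟨0, CStarMatrix.ext fun p => isEmptyElim p⟩
    · let _ := CStarAlgebra.spectralOrder A
      let _ := CStarAlgebra.spectralOrderedRing A
      let C : Fin N → CStarMatrix S S A := fun l =>
        CStarMatrix.ofMatrix (Matrix.of fun p q => if p = s₀ then D l q else 0)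
      have h1 : CStarMatrix.ofMatrix (Matrix.of T) = ∑ l, star (C l) * C l := by
        refine CStarMatrix.ext fun p q => ?_
        have h2 : (∑ l, star (C l) * C l) p q = ∑ l, (star (C l) * C l) p q := by
          let f : CStarMatrix S S A →+ A :=
            { toFun := fun M => M p q
              map_zero' := rfl
              map_add' := fun _ _ => rfl }
          exact map_sum f (fun l => star (C l) * C l) Finset.univ
        rw [h2]
        have h3 : ∀ l, (star (C l) * C l) p q = star (D l p) * D l q := by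
          intro l
          rw [CStarMatrix.mul_apply, Finset.sum_eq_single s₀]
          · rw [CStarMatrix.star_apply]
            simp [C]
          · intro j _ hj
            rw [CStarMatrix.star_apply]
            simp [C, hj]
          · intro h; exact absurd (Finset.mem_univ _) h
        simp only [h3]
        exact hD p q
      rw [h1]
      exact V2b_nonneg_sum (A := CStarMatrix S S A) Finset.univ fun l _ => ⟨C l, rfl⟩
  · rintro ⟨C, hC⟩
    have h1 := posM_gram (fun l s => C l s)
    have h2 : T = fun s t => ∑ l, star (C l s) * C l t := by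
      funext s t
      have h3 : T s t = (star C * C) s t := by rw [← hC]; rfl
      rw [h3, CStarMatrix.mul_apply]
      refine Finset.sum_congr rfl fun l _ => ?_
      rw [CStarMatrix.star_apply]
    rw [h2]
    exact h1

theorem posM_schur {S : Type} [Fintype S] [DecidableEq S] {T : S → S → A}
    (h : ∀ s t, star (T s t) = T t s) {r : ℝ} (hr : ∀ s, ∑ t, ‖T s t‖ ≤ r) :
    PosM (fun s t => T s t + if s = t then ((r : ℂ) • (1 : A)) else 0) := by
  apply posM_of_form
  intro ξ
  have hn : ∀ s t, ‖T s t‖ = ‖T t s‖ := fun s t => by rw [← h t s, norm_star]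
  have h1 : ∃ c : A, ∑ s, ∑ t, (star (ξ s) * T s t * ξ t + star (ξ t) * star (T s t) * ξ s +
      ((‖T s t‖ : ℂ) • (star (ξ s) * ξ s) + (‖T s t‖ : ℂ) • (star (ξ t) * ξ t))) = star c * c :=
    V2b_nonneg_sum _ fun s _ => V2b_nonneg_sum _ fun t _ => V2b_pair _ _ _
  have h2 : ∃ c : A, ∑ s, ((2 * (r - ∑ t, ‖T s t‖) : ℝ) : ℂ) • (star (ξ s) * ξ s) =
      star c * c :=
    V2b_nonneg_sum _ fun s _ => V2b_smul ⟨_, rfl⟩ (by linarith [hr s])
  have h3 := V2b_smul (V2b_add h1 h2) (r := 1 / 2) (by norm_num)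
  convert h3 using 4
  have e1 : ∑ s, ∑ t, star (ξ t) * star (T s t) * ξ s = ∑ s, ∑ t, star (ξ s) * T s t * ξ t := by
    rw [Finset.sum_comm]
    refine Finset.sum_congr rfl fun s _ => Finset.sum_congr rfl fun t _ => ?_
    rw [h]
  have e2 : ∑ s, ∑ t, (‖T s t‖ : ℂ) • (star (ξ t) * ξ t) =
      ∑ s, ∑ t, (‖T s t‖ : ℂ) • (star (ξ s) * ξ s) := by
    rw [Finset.sum_comm]
    refine Finset.sum_congr rfl fun s _ => Finset.sum_congr rfl fun t _ => ?_
    rw [hn]
  have e3 : ∑ s, ∑ t, (star (ξ s) * T s t * ξ t + star (ξ t) * star (T s t) * ξ s +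
      ((‖T s t‖ : ℂ) • (star (ξ s) * ξ s) + (‖T s t‖ : ℂ) • (star (ξ t) * ξ t))) =
      (2 : ℂ) • ((∑ s, ∑ t, star (ξ s) * T s t * ξ t) +
        ∑ s, ∑ t, (‖T s t‖ : ℂ) • (star (ξ s) * ξ s)) := by
    simp only [Finset.sum_add_distrib]
    rw [e1, e2, two_smul]
    abel
  have e4 : ∑ s, ((2 * (r - ∑ t, ‖T s t‖) : ℝ) : ℂ) • (star (ξ s) * ξ s) =
      (2 : ℂ) • ((∑ s, (r : ℂ) • (star (ξ s) * ξ s)) -
        ∑ s, ∑ t, (‖T s t‖ : ℂ) • (star (ξ s) * ξ s)) := by
    rw [← Finset.sum_sub_distrib, Finset.smul_sum]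
    refine Finset.sum_congr rfl fun s _ => ?_
    rw [← Finset.sum_smul, ← sub_smul, smul_smul]
    push_cast
    rfl
  have e5 : ∑ s, ∑ t, star (ξ s) * (T s t + if s = t then ((r : ℂ) • (1 : A)) else 0) * ξ t =
      (∑ s, ∑ t, star (ξ s) * T s t * ξ t) + ∑ s, (r : ℂ) • (star (ξ s) * ξ s) := by
    rw [← Finset.sum_add_distrib]
    refine Finset.sum_congr rfl fun s _ => ?_
    simp only [mul_add, add_mul, Finset.sum_add_distrib]
    congr 1
    rw [Finset.sum_eq_single s]
    · simp
    · intro t _ ht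
      rw [if_neg (Ne.symm ht), mul_zero, zero_mul]
    · intro h; exact absurd (Finset.mem_univ _) h
  rw [e3, e4, e5, ← smul_add, smul_smul]
  have e6 : (((1 / 2 : ℝ) : ℂ) * 2) = 1 := by push_cast; ring
  rw [e6, one_smul]
  abel

end P095F
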