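import Vale.Agent.Lib.P095F.VDefs

/-!
# P095F, part V, module V2a: elementary properties of positive matrices `PosM`

* `posM_gram`: index the sum by `Fin (Fintype.card R)` (`Fintype.equivFin`).
* `posM_add`: concatenate the rows (`posM_gram` with `R = Fin N ⊕ Fin N'`, `Fintype.sum_sum_type`).
* `posM_comp`: restrict the rows.
* `posM_smul`: multiply the rows by `√r`.
* `posM_diag`: `a = star c * c`; rows indexed by `S`: `D l s = if l = s then c else 0`.
* `posM_form`: `∑ s, ∑ t, star (ξ s) * T s t * ξ t = ∑ l, star (c l) * c l` with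
  `c l = ∑ s, D l s * ξ s`, and a sum of elements `star c * c` is of the form `star c * c`
  (spectral order, `CStarAlgebra.nonneg_iff_eq_star_mul_self`, `Finset.sum_nonneg`).
* `posM_herm`: from the formula.
* `gram_pad`: `e : R ↪ Fin M` (`Fintype.card R ≤ M`); `Z l = D r` if `l = e r`, otherwise `0`.
-/

open scoped Topology

namespace P095F

universe u

variable {A : Type u} [CStarAlgebra A]

theorem posM_gram {S R : Type} [Fintype R] (D : R → S → A) :
    PosM (fun s t => ∑ l, star (D l s) * D l t) := by
  refine ⟨Fintype.card R, fun l s => D ((Fintype.equivFin R).symm l) s, fun s t => ?_⟩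
  exact (Equiv.sum_comp (Fintype.equivFin R).symm fun l => star (D l s) * D l t).symm

theorem posM_zero {S : Type} : PosM (fun _ _ : S => (0 : A)) := by
  exact ⟨0, fun _ _ => 0, fun s t => by simp⟩

theorem posM_add {S : Type} {T T' : S → S → A} (h : PosM T) (h' : PosM T') :
    PosM (fun s t => T s t + T' s t) := by
  obtain ⟨N, D, hD⟩ := h
  obtain ⟨N', D', hD'⟩ := h'
  have h1 := posM_gram (fun (l : Fin N ⊕ Fin N') (s : S) => Sum.elim (fun l => D l s)
    (fun l => D' l s) l)
  obtain ⟨M, Z, hZ⟩ := h1
  refine ⟨M, Z, fun s t => ?_⟩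
  rw [← hZ s t]
  dsimp only
  rw [Fintype.sum_sum_type, hD, hD']
  rfl

theorem posM_sum {S ι : Type} (I : Finset ι) {T : ι → S → S → A} (h : ∀ i ∈ I, PosM (T i)) :
    PosM (fun s t => ∑ i ∈ I, T i s t) := by
  classical
  induction I using Finset.induction_on with
  | empty =>
    have h1 : (fun s t : S => ∑ i ∈ (∅ : Finset ι), T i s t) = fun _ _ => (0 : A) := by
      funext s t
      exact Finset.sum_empty
    rw [h1]
    exact posM_zero
  | insert a I ha ih =>
    have h1 : (fun s t : S => ∑ i ∈ insert a I, T i s t) =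
        fun s t => T a s t + ∑ i ∈ I, T i s t := by
      funext s t
      exact Finset.sum_insert ha
    rw [h1]
    exact posM_add (h a (Finset.mem_insert_self a I))
      (ih fun i hi => h i (Finset.mem_insert_of_mem hi))

theorem posM_comp {S S' : Type} {T : S → S → A} (h : PosM T) (f : S' → S) :
    PosM (fun s t => T (f s) (f t)) := by
  obtain ⟨N, D, hD⟩ := h
  exact ⟨N, fun l s => D l (f s), fun s t => hD (f s) (f t)⟩

theorem posM_smul {S : Type} {T : S → S → A} (h : PosM T) {r : ℝ} (hr : 0 ≤ r) :
    PosM (fun s t => (r : ℂ) • T s t) := by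
  obtain ⟨N, D, hD⟩ := h
  refine ⟨N, fun l s => ((√r : ℝ) : ℂ) • D l s, fun s t => ?_⟩
  dsimp only
  rw [hD, Finset.smul_sum]
  refine Finset.sum_congr rfl fun l _ => ?_
  rw [star_smul, smul_mul_smul_comm, RCLike.star_def, Complex.conj_ofReal, ← Complex.ofReal_mul,
    Real.mul_self_sqrt hr]

theorem posM_diag {S : Type} [Fintype S] [DecidableEq S] {a : A} (ha : ∃ c : A, a = star c * c) :
    PosM (fun s t : S => if s = t then a else 0) := by
  obtain ⟨c, rfl⟩ := ha
  have h1 := posM_gram (fun (l : S) (s : S) => if l = s then c else 0)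
  have h2 : (fun s t : S => if s = t then star c * c else 0) =
      fun s t : S => ∑ l : S, star (if l = s then c else 0) * (if l = t then c else 0) := by
    funext s t
    rw [Finset.sum_eq_single s]
    · rw [if_pos rfl]
      split_ifs
      · rfl
      · rw [mul_zero]
    · intro l _ hl
      rw [if_neg hl, star_zero, zero_mul]
    · intro h
      exact absurd (Finset.mem_univ s) h
  rw [h2]
  exact h1

theorem posM_herm {S : Type} {T : S → S → A} (h : PosM T) (s t : S) : star (T s t) = T t s := by
  obtain ⟨N, D, hD⟩ := h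
  rw [hD, hD, star_sum]
  refine Finset.sum_congr rfl fun l _ => ?_
  rw [star_mul, star_star]

theorem posM_form {S : Type} [Fintype S] {T : S → S → A} (h : PosM T) (ξ : S → A) :
    ∃ c : A, ∑ s, ∑ t, star (ξ s) * T s t * ξ t = star c * c := by
  obtain ⟨N, D, hD⟩ := h
  let _ := CStarAlgebra.spectralOrder A
  have := CStarAlgebra.spectralOrderedRing A
  have h1 : ∑ s, ∑ t, star (ξ s) * T s t * ξ t =
      ∑ l, star (∑ s, D l s * ξ s) * (∑ t, D l t * ξ t) := by
    have h2 : ∀ l, star (∑ s, D l s * ξ s) * (∑ t, D l t * ξ t) =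
        ∑ s, ∑ t, star (ξ s) * (star (D l s) * D l t) * ξ t := by
      intro l
      rw [star_sum, Finset.sum_mul]
      refine Finset.sum_congr rfl fun s _ => ?_
      rw [Finset.mul_sum]
      refine Finset.sum_congr rfl fun t _ => ?_
      rw [star_mul]
      simp only [mul_assoc]
    rw [Finset.sum_congr rfl fun l _ => h2 l]
    symm
    rw [Finset.sum_comm]
    refine Finset.sum_congr rfl fun s _ => ?_
    rw [Finset.sum_comm]
    refine Finset.sum_congr rfl fun t _ => ?_
    rw [hD, Finset.mul_sum, Finset.sum_mul]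
  rw [h1]
  exact CStarAlgebra.nonneg_iff_eq_star_mul_self.1
    (Finset.sum_nonneg fun (l : Fin N) _ => star_mul_self_nonneg (∑ s, D l s * ξ s))

/-- a Gram matrix with at most `M` rows has a Gram representation with exactly `M` rows -/
theorem gram_pad {S R : Type} [Fintype R] (D : R → S → A) {M : ℕ} (hM : Fintype.card R ≤ M) :
    ∃ Z : Fin M → S → A, ∀ s t, ∑ l, star (Z l s) * Z l t = ∑ l, star (D l s) * D l t := by
  obtain ⟨e⟩ : Nonempty (R ↪ Fin M) :=
    Function.Embedding.nonempty_of_card_le (by rwa [Fintype.card_fin])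
  refine ⟨fun l s => ∑ r : R, (if e r = l then D r s else 0 : A), fun s t => ?_⟩
  have key : ∀ l : Fin M, (star (∑ r : R, (if e r = l then D r s else 0 : A))) *
      (∑ r : R, (if e r = l then D r t else 0 : A)) =
      ∑ r : R, (if e r = l then star (D r s) * D r t else 0 : A) := by
    intro l
    by_cases h : ∃ r, e r = l
    · obtain ⟨r, rfl⟩ := h
      have h1 : ∀ f : R → A, (∑ r' : R, if e r' = e r then f r' else 0) = f r := by
        intro f
        rw [Finset.sum_eq_single r]
        · rw [if_pos rfl]
        · intro r' _ hr'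
          exact if_neg fun h => hr' (e.injective h)
        · intro h
          exact absurd (Finset.mem_univ r) h
      rw [h1, h1, h1]
    · have h1 : ∀ f : R → A, (∑ r' : R, if e r' = l then f r' else 0) = 0 := by
        intro f
        exact Finset.sum_eq_zero fun r' _ => if_neg fun h' => h ⟨r', h'⟩
      rw [h1, h1, h1, mul_zero]
  dsimp only
  rw [Finset.sum_congr rfl fun l _ => key l, Finset.sum_comm]
  refine Finset.sum_congr rfl fun r _ => ?_
  rw [Finset.sum_eq_single (e r)]
  · rw [if_pos rfl]
  · intro l _ hl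
    exact if_neg fun h => hl h.symm
  · intro h
    exact absurd (Finset.mem_univ _) h

end P095F
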