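import Mathlib.Analysis.Matrix.Order
import Vale.Agent.Lib.P095F.V2a
import Vale.Agent.Lib.P095F.CACP

/-!
# P095F, part V, module V2c: positive matrices and completely positive maps

* `posSemidef_cp`: `T s t = ∑ l, star (D l s) * D l t`.  For `v : Fin k × S → ℂ`:
  `∑ conj (v (p,s)) φ(T s t)_{pq} v (q,t) = ∑_l (entry (0,0) of ∑_{s,t} star (b s) * φ (star (D l s) * D l t) * b t)`
  where `b s` is the `k × k` matrix with column `0` equal to `(v (p,s))_p` and the other columns `0`;
  by `CPos φ` (index `s` by `Fin (Fintype.card S)`) it is the `(0,0)` entry of `star c * c`, so `≥ 0`.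
  (`k = 0`: everything is empty.)  Hermitian: `φ (star x) = star (φ x)` (next item), `T` hermitian.
* `cpos_star`: `CPos` with `n = 2`, `a = ![1, x]`, `b = ![1, z • 1]`, `z = 1, I`: `φ 1 + star z φ (star x) + z φ x +`
  `φ (star x * x)` is self-adjoint (`‖z‖ = 1`), and `φ 1`, `φ (star x * x)` are self-adjoint (`n = 1`).
* `gram_psi`: from `cp_kraus` (file CACP.lean): `ψ m = ∑ p, ∑ q, m p q • ∑ l, star (c l p) * c l q`.  If
  `X (p,s) (q,t) = ∑ r, conj (V r (p,s)) * V r (q,t)` then
  `ψ (X (·,s) (·,t)) = ∑ r, ∑ l, star (∑ p, V r (p,s) • c l p) * (∑ q, V r (q,t) • c l q)`; so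
  `Y (r, l) s = ∑ p, V r (p,s) • c l p`.
* `posM_psi`: a positive semidefinite `X` is `Vᴴ * V` (`Matrix.posSemidef_iff_eq_conjTranspose_mul_self`), then
  `gram_psi` and `posM_gram`.
-/

open scoped Topology ComplexOrder

namespace P095F

universe u

variable {A : Type u} [CStarAlgebra A]

private theorem V2c_herm {B : Type*} {D : Type*} [Ring B] [StarRing B] [Algebra ℂ B] [Ring D]
    [StarRing D] [Algebra ℂ D] {φ : B →ₗ[ℂ] D} (hφ : CPos φ) (z : B) :
    star (φ (star z * z)) = φ (star z * z) := by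
  obtain ⟨c, hc⟩ := hφ 1 (fun _ => z) (fun _ => 1)
  simp only [Finset.univ_unique, Finset.sum_singleton, star_one, one_mul, mul_one] at hc
  rw [hc, star_mul, star_star]

private theorem V2c_star {B : Type*} {D : Type*} [Ring B] [StarRing B] [Algebra ℂ B]
    [StarModule ℂ B] [Ring D] [StarRing D] [Algebra ℂ D] [StarModule ℂ D] {φ : B →ₗ[ℂ] D}
    (hφ : CPos φ) (z : B) : φ (star z) = star (φ z) := by
  have h1 := V2c_herm hφ (1 + z)
  have h2 := V2c_herm hφ (1 + Complex.I • z)
  have hz := V2c_herm hφ z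
  have h0 : star (φ 1) = φ 1 := by
    have := V2c_herm hφ 1
    rwa [star_one, one_mul] at this
  have e1 : star (1 + z) * (1 + z) = 1 + z + star z + star z * z := by
    rw [star_add, star_one, add_mul, mul_add, mul_add, one_mul, mul_one, one_mul]
    abel
  have e2 : star (1 + Complex.I • z) * (1 + Complex.I • z) =
      1 + Complex.I • z - Complex.I • star z + star z * z := by
    rw [star_add, star_one, star_smul, add_mul, mul_add, mul_add, one_mul, mul_one, one_mul,
      smul_mul_smul_comm]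
    simp only [RCLike.star_def, Complex.conj_I, neg_mul, Complex.I_mul_I, neg_neg, one_smul,
      neg_smul]
    abel
  rw [e1, map_add, map_add, map_add, star_add, star_add, star_add, h0, hz] at h1
  rw [e2, map_add, map_sub, map_add, map_smul, map_smul, star_add, star_sub, star_add, h0, hz,
    star_smul, star_smul] at h2
  have h3 : star (φ z) + star (φ (star z)) = φ z + φ (star z) := by
    have h4 := congrArg (fun t => t - φ 1 - φ (star z * z)) h1
    calc star (φ z) + star (φ (star z)) =
        φ 1 + star (φ z) + star (φ (star z)) + φ (star z * z) - φ 1 - φ (star z * z) := by abel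
      _ = φ 1 + φ z + φ (star z) + φ (star z * z) - φ 1 - φ (star z * z) := h4
      _ = _ := by abel
  have h5 : -(star (φ z) - star (φ (star z))) = φ z - φ (star z) := by
    have hI : star Complex.I = -Complex.I := by
      rw [RCLike.star_def, Complex.conj_I]
    rw [hI] at h2
    have h4 := congrArg (fun t => (-Complex.I) • (t - φ 1 - φ (star z * z))) h2
    have e3 : (-Complex.I) • (φ 1 + (-Complex.I) • star (φ z) - (-Complex.I) • star (φ (star z)) +
        φ (star z * z) - φ 1 - φ (star z * z)) = -(star (φ z) - star (φ (star z))) := by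
      have e4 : φ 1 + (-Complex.I) • star (φ z) - (-Complex.I) • star (φ (star z)) +
          φ (star z * z) - φ 1 - φ (star z * z) =
          (-Complex.I) • (star (φ z) - star (φ (star z))) := by
        rw [smul_sub]
        abel
      rw [e4, smul_smul, neg_mul_neg, Complex.I_mul_I, neg_one_smul]
    have e5 : (-Complex.I) • (φ 1 + Complex.I • φ z - Complex.I • φ (star z) +
        φ (star z * z) - φ 1 - φ (star z * z)) = φ z - φ (star z) := by
      have e4 : φ 1 + Complex.I • φ z - Complex.I • φ (star z) +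
          φ (star z * z) - φ 1 - φ (star z * z) = Complex.I • (φ z - φ (star z)) := by
        rw [smul_sub]
        abel
      rw [e4, smul_smul, neg_mul, Complex.I_mul_I, neg_neg, one_smul]
    rw [e3, e5] at h4
    exact h4
  have h6 : (2 : ℂ) • φ (star z) = (2 : ℂ) • star (φ z) := by
    rw [two_smul, two_smul]
    calc φ (star z) + φ (star z) = (φ z + φ (star z)) - (φ z - φ (star z)) := by abel
      _ = (star (φ z) + star (φ (star z))) - -(star (φ z) - star (φ (star z))) := by rw [h3, h5]
      _ = star (φ z) + star (φ z) := by abel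
  have h7 := congrArg (fun t => (2 : ℂ)⁻¹ • t) h6
  simp only [smul_smul, inv_mul_cancel₀ (two_ne_zero : (2 : ℂ) ≠ 0), one_smul] at h7
  exact h7

theorem cpos_star {k : ℕ} {φ : A →ₗ[ℂ] Matrix (Fin k) (Fin k) ℂ} (hφ : CPos φ) (x : A) :
    φ (star x) = (φ x).conjTranspose := by
  rw [V2c_star hφ x, Matrix.star_eq_conjTranspose]

theorem cpos_star' {k : ℕ} {ψ : Matrix (Fin k) (Fin k) ℂ →ₗ[ℂ] A} (hψ : CPos ψ)
    (x : Matrix (Fin k) (Fin k) ℂ) : ψ x.conjTranspose = star (ψ x) := by
  rw [← V2c_star hψ x, Matrix.star_eq_conjTranspose]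

private theorem V2c_form {k : ℕ} {φ : A →ₗ[ℂ] Matrix (Fin k) (Fin k) ℂ} (hφ : CPos φ) {S : Type}
    [Fintype S] (c : S → A) (v : Fin k → S → ℂ) :
    0 ≤ ∑ s, ∑ t, ∑ p, ∑ q, star (v p s) * φ (star (c s) * c t) p q * v q t := by
  rcases Nat.eq_zero_or_pos k with rfl | hk
  · simp
  have p0 : Fin k := ⟨0, hk⟩
  let e : Fin (Fintype.card S) ≃ S := (Fintype.equivFin S).symm
  obtain ⟨w, hw⟩ := hφ (Fintype.card S) (fun i => c (e i))
    (fun i => Matrix.of fun p j => if j = p0 then v p (e i) else 0)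
  have h1 : (star w * w) p0 p0 =
      ∑ s, ∑ t, ∑ p, ∑ q, star (v p s) * φ (star (c s) * c t) p q * v q t := by
    rw [← hw, Matrix.sum_apply, ← Equiv.sum_comp e]
    refine Finset.sum_congr rfl fun i _ => ?_
    rw [Matrix.sum_apply, ← Equiv.sum_comp e]
    refine Finset.sum_congr rfl fun j _ => ?_
    rw [Matrix.mul_apply]
    simp only [Matrix.mul_apply, Matrix.star_apply, Matrix.of_apply, if_true, Finset.sum_mul]
    rw [Finset.sum_comm]
  rw [← h1, Matrix.mul_apply]
  refine Finset.sum_nonneg fun i _ => ?_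
  rw [Matrix.star_apply]
  exact star_mul_self_nonneg _

theorem posSemidef_cp {k : ℕ} {φ : A →ₗ[ℂ] Matrix (Fin k) (Fin k) ℂ} (hφ : CPos φ) {S : Type}
    [Fintype S] [DecidableEq S] {T : S → S → A} (hT : PosM T) :
    (Matrix.of fun x y : Fin k × S => φ (T x.2 y.2) x.1 y.1).PosSemidef := by
  obtain ⟨N, D, hD⟩ := hT
  have h1 : (Matrix.of fun x y : Fin k × S => φ (T x.2 y.2) x.1 y.1) =
      ∑ l : Fin N, Matrix.of fun x y : Fin k × S => φ (star (D l x.2) * D l y.2) x.1 y.1 := by
    ext x y
    rw [Matrix.sum_apply]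
    simp only [Matrix.of_apply]
    rw [hD, map_sum, Matrix.sum_apply]
  rw [h1]
  refine Matrix.posSemidef_sum _ fun l _ => ?_
  refine Matrix.PosSemidef.of_dotProduct_mulVec_nonneg ?_ ?_
  · ext x y
    simp only [Matrix.conjTranspose_apply, Matrix.of_apply]
    rw [← Matrix.conjTranspose_apply, ← cpos_star hφ, star_mul, star_star]
  · intro v
    have h2 := V2c_form hφ (D l) (fun p s => v (p, s))
    have h3 : dotProduct (star v) (Matrix.mulVec (Matrix.of fun x y : Fin k × S =>
        φ (star (D l x.2) * D l y.2) x.1 y.1) v) =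
        ∑ s, ∑ t, ∑ p, ∑ q, star (v (p, s)) * φ (star (D l s) * D l t) p q * v (q, t) := by
      simp only [dotProduct, Matrix.mulVec, Matrix.of_apply, Pi.star_apply]
      rw [Fintype.sum_prod_type_right]
      refine Finset.sum_congr rfl fun s _ => ?_
      rw [Finset.sum_comm]
      refine Finset.sum_congr rfl fun p _ => ?_
      rw [Fintype.sum_prod_type_right, Finset.mul_sum]
      refine Finset.sum_congr rfl fun t _ => ?_
      rw [Finset.mul_sum]
      refine Finset.sum_congr rfl fun q _ => ?_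
      rw [mul_assoc]
    rw [h3]
    exact h2

theorem gram_psi {k : ℕ} {ψ : Matrix (Fin k) (Fin k) ℂ →ₗ[ℂ] A} (hψ : CPos ψ) {S R : Type}
    [Fintype R] (V : R → Fin k × S → ℂ) :
    ∃ Y : R × Fin k → S → A, ∀ s t,
      ψ (Matrix.of fun p q => ∑ r, star (V r (p, s)) * V r (q, t)) =
        ∑ l, star (Y l s) * Y l t := by
  obtain ⟨c, hc⟩ := cp_kraus ψ hψ
  refine ⟨fun rl s => ∑ p, V rl.1 (p, s) • c rl.2 p, fun s t => ?_⟩
  rw [hc]
  simp only [Matrix.of_apply]
  rw [Fintype.sum_prod_type]
  have h1 : ∀ r : R, ∑ l : Fin k, star (∑ p, V r (p, s) • c l p) * ∑ q, V r (q, t) • c l q =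
      ∑ p, ∑ q, (star (V r (p, s)) * V r (q, t)) • ∑ l, star (c l p) * c l q := by
    intro r
    have h2 : ∀ l : Fin k, star (∑ p, V r (p, s) • c l p) * ∑ q, V r (q, t) • c l q =
        ∑ p, ∑ q, (star (V r (p, s)) * V r (q, t)) • (star (c l p) * c l q) := by
      intro l
      rw [star_sum, Finset.sum_mul]
      refine Finset.sum_congr rfl fun p _ => ?_
      rw [Finset.mul_sum]
      refine Finset.sum_congr rfl fun q _ => ?_
      rw [star_smul, smul_mul_smul_comm]
    simp only [h2]
    rw [Finset.sum_comm]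
    refine Finset.sum_congr rfl fun p _ => ?_
    rw [Finset.sum_comm]
    refine Finset.sum_congr rfl fun q _ => ?_
    rw [Finset.smul_sum]
  simp only [h1]
  symm
  rw [Finset.sum_comm]
  refine Finset.sum_congr rfl fun p _ => ?_
  rw [Finset.sum_comm]
  refine Finset.sum_congr rfl fun q _ => ?_
  rw [Finset.sum_smul]

open scoped MatrixOrder in
theorem posM_psi {k : ℕ} {ψ : Matrix (Fin k) (Fin k) ℂ →ₗ[ℂ] A} (hψ : CPos ψ) {S : Type}
    [Fintype S] [DecidableEq S] {X : Matrix (Fin k × S) (Fin k × S) ℂ} (hX : X.PosSemidef) :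
    PosM (fun s t => ψ (Matrix.of fun p q => X (p, s) (q, t))) := by
  obtain ⟨V, hV⟩ := CStarAlgebra.nonneg_iff_eq_star_mul_self.mp hX.nonneg
  obtain ⟨Y, hY⟩ := gram_psi hψ V
  have h1 : (fun s t => ψ (Matrix.of fun p q => X (p, s) (q, t))) =
      fun s t => ∑ l, star (Y l s) * Y l t := by
    funext s t
    rw [← hY s t, hV]
    rfl
  rw [h1]
  exact posM_gram Y

end P095F
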