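import Mathlib.GroupTheory.FreeGroup.Reduce
import Vale.Agent.Lib.P095F.V2b
import Vale.Agent.Lib.P095F.V2c
import Vale.Agent.Lib.P095F.V3b2

/-!
# P095F, part V, module V3c: the group ring element and its kernels

`opT φ x e'` is the element `T` of the group ring of the free group over the matrices indexed by
`Fin k × Fin m`: `T = single 1 (1 ⊗ φ(e')) - ∑_{a,b,i,j} single (g(i,a)⁻¹ g(j,b)) (φ(x_i^* x_j) ⊗ E_ab)`.
* `kerM_opT`: for every homomorphism `π` to a group `Q`, the matrix of `π_* T` is `-φ(VKer x (π ∘ gen) e')`: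
  `(π_* T).coeff (g * h⁻¹) = ...`; `π (g(i,a))⁻¹ π (g(j,b)) = g h⁻¹` iff `π (g(i,a)) * g = π (g(j,b)) * h`
  (`Q` may be infinite here, so `pushM_single` of V3b2 does not apply as stated: use `MonoidAlgebra.mapDomain_single`;
  `map_sum`, `MonoidAlgebra.coeff_single`, `Finsupp.single_apply`).
* `opT_herm`: from the definition: `(φ(x_i^* x_j))^* = φ(x_j^* x_i)` (`cpos_star`), swap the indices; `e'` self-adjoint.
  (Or from `kerM_opT` with `π = MonoidHom.id`, and `star (VKer s t) = VKer t s`.)
* `opT_neg`: `kerM_opT` with `π = MonoidHom.id` (`pushM` of it is the identity, `MonoidAlgebra.mapDomain_id`): for `H`, `v` the form is minus the quadratic form of the positive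
  semidefinite matrix of `posSemidef_cp` for the kernel `VKer` on `Fin m × ↥H` (`V2_main` gives the hypothesis
  `hpos`), so its real part is `≤ 0`.
-/

open scoped Topology ComplexOrder

namespace P095F

universe u

variable {A : Type u} [CStarAlgebra A]

/-- the group ring element -/
noncomputable def opT {k : ℕ} (φ : A →ₗ[ℂ] Matrix (Fin k) (Fin k) ℂ) {N m : ℕ} (x : Fin N → A)
    (e' : A) : MonoidAlgebra (Matrix (Fin k × Fin m) (Fin k × Fin m) ℂ)
      (FreeGroup (Fin N × Fin m)) :=
  MonoidAlgebra.single 1 (Matrix.of fun y z => if y.2 = z.2 then φ e' y.1 z.1 else 0) -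
    ∑ a, ∑ b, ∑ i, ∑ j, MonoidAlgebra.single ((gen N m i a)⁻¹ * gen N m j b)
      (Matrix.of fun y z => if y.2 = a ∧ z.2 = b then φ (star (x i) * x j) y.1 z.1 else 0)

theorem V3c_push_single {K G Q : Type} [Fintype K] [DecidableEq K] [Group G] [Group Q] (π : G →* Q)
    (w : G) (M : Matrix K K ℂ) :
    pushM π (MonoidAlgebra.single w M) = MonoidAlgebra.single (π w) M :=
  MonoidAlgebra.mapDomain_single

open Classical in
theorem V3c_single {K Q : Type} [Fintype K] [DecidableEq K] (w g : Q) (M : Matrix K K ℂ)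
    (y z : K) : (MonoidAlgebra.single w M).coeff g y z = if w = g then M y z else 0 := by
  rw [MonoidAlgebra.coeff_single, Finsupp.single_apply]
  split_ifs <;> rfl

theorem V3c_push_id {K G : Type} [Fintype K] [DecidableEq K] [Group G]
    (T : MonoidAlgebra (Matrix K K ℂ) G) : pushM (MonoidHom.id G) T = T := by
  refine MonoidAlgebra.induction T ?_ ?_
  · rw [map_zero]
  · intro w M x _ _ ih
    rw [map_add, V3c_push_single, ih]
    rfl

theorem V3c_VKer_star {G : Type} [Group G] {N m : ℕ} (x : Fin N → A) (g : Fin N → Fin m → G)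
    {e' : A} (he' : star e' = e') (s t : Fin m × G) :
    star (VKer x g e' s t) = VKer x g e' t s := by
  unfold VKer
  rw [star_sub, star_sum]
  congr 1
  · rw [Finset.sum_comm]
    simp only [star_sum]
    refine Finset.sum_congr rfl fun i _ => Finset.sum_congr rfl fun j _ => ?_
    by_cases h : g i s.1 * s.2 = g j t.1 * t.2
    · rw [if_pos h, if_pos h.symm, star_mul, star_star]
    · rw [if_neg h, if_neg (fun h' => h h'.symm), star_zero]
  · by_cases h : s = t
    · rw [if_pos h, if_pos h.symm, he']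
    · rw [if_neg h, if_neg (fun h' => h h'.symm), star_zero]

theorem kerM_opT {k : ℕ} (φ : A →ₗ[ℂ] Matrix (Fin k) (Fin k) ℂ) {N m : ℕ} (x : Fin N → A)
    (e' : A) {Q : Type} [Group Q]
    (π : FreeGroup (Fin N × Fin m) →* Q) (p q : Fin k) (a b : Fin m) (g h : Q) :
    kerM (pushM π (opT φ x e')) ((p, a), g) ((q, b), h) =
      -φ (VKer x (fun i a => π (gen N m i a)) e' (a, g) (b, h)) p q := by
  classical
  have h1 : pushM π (opT φ x e') =
      MonoidAlgebra.single 1 (Matrix.of fun y z => if y.2 = z.2 then φ e' y.1 z.1 else 0) -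
      ∑ a, ∑ b, ∑ i, ∑ j, MonoidAlgebra.single ((π (gen N m i a))⁻¹ * π (gen N m j b))
        (Matrix.of fun y z => if y.2 = a ∧ z.2 = b then φ (star (x i) * x j) y.1 z.1 else 0) := by
    unfold opT
    rw [map_sub, V3c_push_single, map_one]
    simp only [map_sum, V3c_push_single, map_mul, map_inv]
  have hgh : ∀ (i j : Fin N) (a b : Fin m), (π (gen N m i a))⁻¹ * π (gen N m j b) = g * h⁻¹ ↔
      π (gen N m i a) * g = π (gen N m j b) * h := by
    intro i j a b
    constructor
    · intro h2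
      have h3 : π (gen N m j b) = π (gen N m i a) * (g * h⁻¹) := by
        rw [← h2, mul_inv_cancel_left]
      rw [h3]
      group
    · intro h2
      have h3 : π (gen N m j b) = π (gen N m i a) * g * h⁻¹ := by
        rw [h2, mul_inv_cancel_right]
      rw [h3]
      group
  have h2 : kerM (pushM π (opT φ x e')) ((p, a), g) ((q, b), h) =
      (if (1 : Q) = g * h⁻¹ then (if a = b then φ e' p q else 0) else 0) -
      ∑ i, ∑ j, if (π (gen N m i a))⁻¹ * π (gen N m j b) = g * h⁻¹ then
        φ (star (x i) * x j) p q else 0 := by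
    unfold kerM
    rw [h1, MonoidAlgebra.coeff_sub, Finsupp.sub_apply, Matrix.sub_apply, V3c_single]
    congr 1
    simp only [MonoidAlgebra.coeff_sum, Finsupp.finsetSum_apply, Matrix.sum_apply, V3c_single,
      Matrix.of_apply]
    rw [Finset.sum_eq_single a, Finset.sum_eq_single b]
    · simp
    · intro b' _ hb'
      simp [Ne.symm hb']
    · intro h; exact absurd (Finset.mem_univ _) h
    · intro a' _ ha'
      simp [Ne.symm ha']
    · intro h; exact absurd (Finset.mem_univ _) h
  rw [h2]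
  unfold VKer
  simp only [map_sub, map_sum, Matrix.sub_apply, Matrix.sum_apply, neg_sub, Prod.mk.injEq]
  congr 1
  · have h3 : (1 : Q) = g * h⁻¹ ↔ g = h := by
      rw [eq_comm, mul_inv_eq_one]
    by_cases hab : a = b
    · by_cases hgh' : g = h
      · simp [hab, hgh']
      · simp [hab, hgh', h3]
    · simp [hab]
  · refine Finset.sum_congr rfl fun i _ => Finset.sum_congr rfl fun j _ => ?_
    by_cases h4 : π (gen N m i a) * g = π (gen N m j b) * h
    · rw [if_pos h4, if_pos ((hgh i j a b).2 h4)]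
    · rw [if_neg h4, if_neg (fun h5 => h4 ((hgh i j a b).1 h5)), map_zero, Matrix.zero_apply]

theorem opT_herm {k : ℕ} {φ : A →ₗ[ℂ] Matrix (Fin k) (Fin k) ℂ} (hφ : CPos φ) {N : ℕ} (m : ℕ)
    (x : Fin N → A) {e' : A} (he' : star e' = e') : HermK (opT (m := m) φ x e') := by
  intro w
  ext y z
  obtain ⟨p, a⟩ := y
  obtain ⟨q, b⟩ := z
  have h1 : (opT (m := m) φ x e').coeff w⁻¹ (p, a) (q, b) =
      -φ (VKer x (gen N m) e' (a, 1) (b, w)) p q := by
    have h := kerM_opT (m := m) φ x e' (MonoidHom.id _) p q a b 1 w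
    rw [V3c_push_id] at h
    unfold kerM at h
    rw [one_mul] at h
    exact h
  have h2 : (opT (m := m) φ x e').coeff w (q, b) (p, a) =
      -φ (VKer x (gen N m) e' (b, w) (a, 1)) q p := by
    have h := kerM_opT (m := m) φ x e' (MonoidHom.id _) q p b a w 1
    rw [V3c_push_id] at h
    unfold kerM at h
    rw [inv_one, mul_one] at h
    exact h
  rw [h1, Matrix.conjTranspose_apply, h2, star_neg, ← Matrix.conjTranspose_apply,
    ← cpos_star hφ, V3c_VKer_star x _ he']

theorem opT_neg {k : ℕ} {φ : A →ₗ[ℂ] Matrix (Fin k) (Fin k) ℂ} (hφ : CPos φ) {N m : ℕ}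
    (x : Fin N → A) (e' : A)
    (hpos : ∀ H : Finset (FreeGroup (Fin N × Fin m)), PosM (fun s t : Fin m × ↥H =>
      VKer x (gen N m) e' (s.1, (s.2 : FreeGroup (Fin N × Fin m)))
        (t.1, (t.2 : FreeGroup (Fin N × Fin m))))) :
    NegK (opT (m := m) φ x e') := by
  classical
  intro H v
  have h1 := posSemidef_cp hφ (hpos H)
  have h2 := h1.dotProduct_mulVec_nonneg (fun y : Fin k × (Fin m × ↥H) =>
    v ((y.1, y.2.1), (y.2.2 : FreeGroup (Fin N × Fin m))))
  have h3 : (∑ g ∈ H, ∑ h ∈ H, ∑ p, ∑ q, star (v (p, g)) *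
      kerM (opT (m := m) φ x e') (p, g) (q, h) * v (q, h)) =
      -(dotProduct (star (fun y : Fin k × (Fin m × ↥H) =>
        v ((y.1, y.2.1), (y.2.2 : FreeGroup (Fin N × Fin m)))))
        (Matrix.mulVec (Matrix.of fun x' y : Fin k × (Fin m × ↥H) =>
          φ (VKer x (gen N m) e' (x'.2.1, (x'.2.2 : FreeGroup (Fin N × Fin m)))
            (y.2.1, (y.2.2 : FreeGroup (Fin N × Fin m)))) x'.1 y.1)
        (fun y : Fin k × (Fin m × ↥H) =>
          v ((y.1, y.2.1), (y.2.2 : FreeGroup (Fin N × Fin m)))))) := by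
    have hk : ∀ (g h : FreeGroup (Fin N × Fin m)) (y z : Fin k × Fin m),
        kerM (opT (m := m) φ x e') (y, g) (z, h) =
          -φ (VKer x (gen N m) e' (y.2, g) (z.2, h)) y.1 z.1 := by
      intro g h y z
      have h := kerM_opT (m := m) φ x e' (MonoidHom.id _) y.1 z.1 y.2 z.2 g h
      rw [V3c_push_id] at h
      exact h
    simp only [hk, dotProduct, Matrix.mulVec, Matrix.of_apply, Pi.star_apply]
    have hL : ∀ F : FreeGroup (Fin N × Fin m) → FreeGroup (Fin N × Fin m) → Fin k × Fin m →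
        Fin k × Fin m → ℂ, ∑ g ∈ H, ∑ h ∈ H, ∑ p, ∑ q, F g h p q =
        ∑ y : Fin k × (Fin m × ↥H), ∑ z : Fin k × (Fin m × ↥H),
          F y.2.2 z.2.2 (y.1, y.2.1) (z.1, z.2.1) := by
      intro F
      have e1 : ∀ f : FreeGroup (Fin N × Fin m) → ℂ, ∑ g ∈ H, f g = ∑ g : ↥H, f g := by
        intro f
        rw [Finset.sum_coe_sort]
      have e2 : ∀ f : Fin k × (Fin m × ↥H) → ℂ, ∑ y, f y =
          ∑ g : ↥H, ∑ p : Fin k × Fin m, f (p.1, (p.2, g)) := by
        intro f
        rw [← Fintype.sum_prod_type']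
        refine Fintype.sum_equiv (((Equiv.prodAssoc (Fin k) (Fin m) ↥H).symm).trans
          (Equiv.prodComm _ _)) _ _ fun y => rfl
      rw [e2, e1]
      refine Finset.sum_congr rfl fun g _ => ?_
      rw [e1, Finset.sum_comm]
      refine Finset.sum_congr rfl fun p _ => ?_
      rw [e2]
    rw [hL, ← Finset.sum_neg_distrib]
    refine Finset.sum_congr rfl fun y _ => ?_
    rw [Finset.mul_sum, ← Finset.sum_neg_distrib]
    refine Finset.sum_congr rfl fun z _ => ?_
    ring
  rw [h3, Complex.neg_re, neg_nonpos]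
  exact (Complex.le_def.1 h2).1

end P095F
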