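import Mathlib.Data.Int.Star
import Vale.Agent.Lib.P095F.V3a
import Vale.Agent.Lib.P095F.V3b4
import Vale.Agent.Lib.P095F.V3c

/-!
# P095F, part V, module V3d: transfer to `A`

`V3d_gram` (any finite group `Q` and `g i a ∈ Q`): `∑_{i,j : g i a h = g j b h'} x_i^* x_j = ∑_{u ∈ Q} star (X u (a,h)) * X u (b,h')`,
`X u (a,h) = ∑_i if g i a * h = u then x i else 0`.

`V3d_err`: Schur test (`posM_schur`) for the matrix
`E(s,t) = Δ(VKer x g e s t)` with `Δ(y) = ψ(φ y) - y`... precisely
`E(s,t) = (if s = t then Δ e else 0) - ∑_i ∑_j if g i s.1 * s.2 = g j t.1 * t.2 then Δ(x_i^* x_j) else 0`: hermitian (`Δ (star y) = star (Δ y)`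
by hypothesis), row sums `≤ d2 (1 + N² m)` (for given `s`, `i`, `j` and `b = t.1` there is exactly one `t.2`).
Stated for an arbitrary function `Δ` with `Δ (star y) = star (Δ y)`.

`V3d_main`.  `d2 = min 1 (δ / (8 (1 + N² m)))`, `CPAP A` for the finite set of `1`, `e`, all `x_i^* x_j` and `d2`:
`φ`, `ψ`, `k`.  `e' = e - c`, `θ > 0` with `θ ‖ψ 1‖ ≤ δ / 8`, `κ = 1 / (k + 1)`.  `V3b_main` for `T = opT φ x e'`
(`opT_herm`, `opT_neg`, `V3a_finset`): `Q`, `π`, `ρ`, `V` with `(k + 1) ρ ≤ |Q|`, and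
`θ + Vᴴ V - Matrix.of (kerM (π_* T))` positive semidefinite on `(Fin k × Fin m) × Q`; reindex by
`Fin k × (Fin m × Q)` (`Matrix.PosSemidef.submatrix`) and apply `posM_psi`: with `S = Fin m × Q`, `g i a = π (gen N m i a)`,
`PosM (s,t) ↦ [s = t] θ ψ(1) + ψ((Vᴴ V)(·s,·t)) + ψ(φ (VKer x g e' s t))` (`kerM_opT`; `ψ(1)` : the identity matrix).
`gram_psi` for `V` (rows `Fin ρ`): `ψ((Vᴴ V)(·s,·t)) = ∑ star (Y l s) * Y l t`, `l ∈ Fin ρ × Fin k`.
`ψ φ (VKer x g e' s t) = VKer x g e s t - E(s,t) ... `: with `V3d_err`,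
`ψ φ (VKer x g e' s t) = ∑_{ij}[..] x_i^* x_j - [s = t] e - E(s,t) + [s = t] c ψ φ 1`.
So `∑_{ij}[..] x_i^* x_j + ∑ star (Y l s) * Y l t + [s = t] (δ/2 - e)` is the sum of the positive matrix above, of
`E + [s = t] δ/8` (Schur), and of the diagonal matrix `δ/2 - δ/8 - θ ψ(1) - c ψ φ 1 ≥ 0` (norms: `θ ‖ψ 1‖ ≤ δ/8`,
`c ‖ψ φ 1‖ ≤ 2 c ≤ δ/4`; `posM_diag`).  The Gram matrix with the rows `Q ⊕ (Fin ρ × Fin k)`, of cardinality
`≤ 2 |Q|`, is padded by `gram_pad`.  `n = |Q|`, `card S = m n`.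
-/

open scoped Topology ComplexOrder

namespace P095F

universe u

variable {A : Type u} [CStarAlgebra A]

theorem V3d_gram {Q : Type} [Group Q] [Fintype Q] [DecidableEq Q] {N m : ℕ} (x : Fin N → A)
    (g : Fin N → Fin m → Q) (s t : Fin m × Q) :
    (∑ i, ∑ j, if g i s.1 * s.2 = g j t.1 * t.2 then star (x i) * x j else 0) =
      ∑ u : Q, star (∑ i, if g i s.1 * s.2 = u then x i else 0) *
        (∑ i, if g i t.1 * t.2 = u then x i else 0) := by
  have h1 : ∀ u : Q, star (∑ i, if g i s.1 * s.2 = u then x i else 0) *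
      (∑ i, if g i t.1 * t.2 = u then x i else 0) =
      ∑ i, if g i s.1 * s.2 = u then
        star (x i) * (∑ i, if g i t.1 * t.2 = u then x i else 0) else 0 := by
    intro u
    rw [star_sum, Finset.sum_mul]
    refine Finset.sum_congr rfl fun i _ => ?_
    split_ifs
    · rfl
    · rw [star_zero, zero_mul]
  refine Eq.trans ?_ (Finset.sum_congr rfl fun u _ => (h1 u).symm)
  conv_rhs => rw [Finset.sum_comm]
  refine Finset.sum_congr rfl fun i _ => ?_
  rw [Finset.sum_ite_eq, if_pos (Finset.mem_univ _), Finset.mul_sum]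
  refine Finset.sum_congr rfl fun j _ => ?_
  by_cases h : g i s.1 * s.2 = g j t.1 * t.2
  · rw [if_pos h, if_pos h.symm]
  · rw [if_neg h, if_neg (Ne.symm h), mul_zero]

theorem V3d_err {Q : Type} [Group Q] [Fintype Q] [DecidableEq Q] {N m : ℕ} (x : Fin N → A)
    (g : Fin N → Fin m → Q) (e : A) (he : star e = e) (Δ : A → A)
    (hΔ : ∀ y, Δ (star y) = star (Δ y)) {d r : ℝ} (hd : 0 ≤ d) (hde : ‖Δ e‖ ≤ d)
    (hdx : ∀ i j, ‖Δ (star (x i) * x j)‖ ≤ d) (hr : d * (1 + N ^ 2 * m) ≤ r) :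
    PosM (fun s t : Fin m × Q => ((if s = t then Δ e else 0) -
      (∑ i, ∑ j, if g i s.1 * s.2 = g j t.1 * t.2 then Δ (star (x i) * x j) else 0)) +
        if s = t then (r : ℂ) • (1 : A) else 0) := by
  refine posM_schur (T := fun s t : Fin m × Q => (if s = t then Δ e else 0) -
      (∑ i, ∑ j, if g i s.1 * s.2 = g j t.1 * t.2 then Δ (star (x i) * x j) else 0)) ?_ ?_
  · intro s t
    rw [star_sub]
    congr 1
    · by_cases h : s = t
      · rw [if_pos h, if_pos h.symm, ← hΔ, he]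
      · rw [if_neg h, if_neg (Ne.symm h), star_zero]
    · rw [star_sum, Finset.sum_congr rfl fun i _ => star_sum _ _, Finset.sum_comm]
      refine Finset.sum_congr rfl fun j _ => Finset.sum_congr rfl fun i _ => ?_
      by_cases h : g i s.1 * s.2 = g j t.1 * t.2
      · rw [if_pos h, if_pos h.symm, ← hΔ, star_mul, star_star]
      · rw [if_neg h, if_neg (Ne.symm h), star_zero]
  · intro s
    have h1 : ∀ t : Fin m × Q, ‖(if s = t then Δ e else 0) -
        (∑ i, ∑ j, if g i s.1 * s.2 = g j t.1 * t.2 then Δ (star (x i) * x j) else 0)‖ ≤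
        (if s = t then d else 0) +
          ∑ i, ∑ j, if g i s.1 * s.2 = g j t.1 * t.2 then d else 0 := by
      intro t
      refine (norm_sub_le _ _).trans (add_le_add ?_ ?_)
      · split_ifs
        · exact hde
        · rw [norm_zero]
      · refine (norm_sum_le _ _).trans (Finset.sum_le_sum fun i _ => ?_)
        refine (norm_sum_le _ _).trans (Finset.sum_le_sum fun j _ => ?_)
        split_ifs
        · exact hdx i j
        · rw [norm_zero]
    have h2 : ∀ i j : Fin N, ∑ t : Fin m × Q,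
        (if g i s.1 * s.2 = g j t.1 * t.2 then d else 0) = m * d := by
      intro i j
      rw [Fintype.sum_prod_type]
      have h3 : ∀ b : Fin m, ∑ h : Q, (if g i s.1 * s.2 = g j b * h then d else 0) = d := by
        intro b
        rw [Finset.sum_eq_single ((g j b)⁻¹ * (g i s.1 * s.2))]
        · rw [if_pos (mul_inv_cancel_left _ _).symm]
        · intro h _ hh
          refine if_neg fun h4 => hh ?_
          rw [h4, inv_mul_cancel_left]
        · intro h4
          exact absurd (Finset.mem_univ _) h4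
      rw [Finset.sum_congr rfl fun b _ => h3 b, Finset.sum_const, Finset.card_univ,
        Fintype.card_fin, nsmul_eq_mul]
    calc ∑ t : Fin m × Q, ‖(if s = t then Δ e else 0) -
        (∑ i, ∑ j, if g i s.1 * s.2 = g j t.1 * t.2 then Δ (star (x i) * x j) else 0)‖
        ≤ ∑ t : Fin m × Q, ((if s = t then d else 0) +
          ∑ i, ∑ j, if g i s.1 * s.2 = g j t.1 * t.2 then d else 0) :=
        Finset.sum_le_sum fun t _ => h1 t
      _ = d + ∑ i : Fin N, ∑ j : Fin N, ∑ t : Fin m × Q,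
          (if g i s.1 * s.2 = g j t.1 * t.2 then d else 0) := by
        rw [Finset.sum_add_distrib, Finset.sum_ite_eq, if_pos (Finset.mem_univ _)]
        congr 1
        rw [Finset.sum_comm]
        refine Finset.sum_congr rfl fun i _ => ?_
        rw [Finset.sum_comm]
      _ = d * (1 + N ^ 2 * m) := by
        rw [Finset.sum_congr rfl fun i _ => Finset.sum_congr rfl fun j _ => h2 i j]
        simp only [Finset.sum_const, Finset.card_univ, Fintype.card_fin, nsmul_eq_mul]
        ring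
      _ ≤ r := hr

private theorem V3d_sub {w : A} (hw : star w = w) {r : ℝ} (h : ‖w‖ ≤ r) :
    ∃ c : A, (r : ℂ) • (1 : A) - w = star c * c := by
  let _ := CStarAlgebra.spectralOrder A
  let _ := CStarAlgebra.spectralOrderedRing A
  rw [real_smul_one]
  refine CStarAlgebra.nonneg_iff_eq_star_mul_self.1 (sub_nonneg.2 ?_)
  have h1 : IsSelfAdjoint w := hw
  refine h1.le_algebraMap_norm_self.trans ?_
  rcases subsingleton_or_nontrivial A with hA | hA
  · exact (Subsingleton.elim _ _).le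
  · exact algebraMap_le_algebraMap.2 h

private theorem V3d_one : ‖(1 : A)‖ ≤ 1 := by
  rcases subsingleton_or_nontrivial A with h | h
  · rw [Subsingleton.elim (1 : A) 0, norm_zero]
    exact zero_le_one
  · exact CStarRing.norm_one.le

private theorem V3d_VKer {G : Type} [Group G] [DecidableEq G] {N m : ℕ} (x : Fin N → A)
    (g : Fin N → Fin m → G) (e' : A) (s t : Fin m × G) :
    VKer x g e' s t =
      (∑ i, ∑ j, if g i s.1 * s.2 = g j t.1 * t.2 then star (x i) * x j else 0) -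
        if s = t then e' else 0 := by
  unfold VKer
  congr!

theorem V3d_main (hA : CPAP A) {N m : ℕ} (x : Fin N → A) (e : A) (he : star e = e)
    {δ c : ℝ} (hδ : 0 < δ) (hc0 : 0 ≤ c) (hc : c ≤ δ / 8)
    (hpos : ∀ H : Finset (FreeGroup (Fin N × Fin m)), PosM (fun s t : Fin m × ↥H =>
      VKer x (gen N m) (e - (c : ℂ) • 1) (s.1, (s.2 : FreeGroup (Fin N × Fin m)))
        (t.1, (t.2 : FreeGroup (Fin N × Fin m))))) :
    ∃ (n : ℕ) (S : Type) (_ : Fintype S) (_ : DecidableEq S) (Z : Fin (2 * n) → S → A),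
      1 ≤ n ∧ Fintype.card S = n * m ∧
      PosM (fun s t => (∑ l, star (Z l s) * Z l t) +
        if s = t then (((δ / 2 : ℝ) : ℂ) • (1 : A) - e) else 0) := by
  classical
  have hNm : (0 : ℝ) < 1 + N ^ 2 * m := by positivity
  set d2 : ℝ := min 1 (δ / (8 * (1 + N ^ 2 * m))) with hd2
  have hd20 : 0 < d2 := lt_min one_pos (by positivity)
  have hd21 : d2 ≤ 1 := min_le_left _ _
  have hd22 : d2 * (1 + N ^ 2 * m) ≤ δ / 8 := by
    have h1 : d2 ≤ δ / (8 * (1 + N ^ 2 * m)) := min_le_right _ _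
    calc d2 * (1 + N ^ 2 * m) ≤ δ / (8 * (1 + N ^ 2 * m)) * (1 + N ^ 2 * m) :=
          mul_le_mul_of_nonneg_right h1 hNm.le
      _ = δ / 8 := by field_simp
  obtain ⟨k, φ, ψ, hφ, hψ, happ⟩ := hA (insert 1 (insert e
    (Finset.univ.image fun ij : Fin N × Fin N => star (x ij.1) * x ij.2))) d2 hd20
  have ha1 : ‖ψ (φ 1) - 1‖ ≤ d2 := happ 1 (Finset.mem_insert_self _ _)
  have hae : ‖ψ (φ e) - e‖ ≤ d2 :=
    happ e (Finset.mem_insert_of_mem (Finset.mem_insert_self _ _))
  have hax : ∀ i j, ‖ψ (φ (star (x i) * x j)) - star (x i) * x j‖ ≤ d2 := fun i j =>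
    happ _ (Finset.mem_insert_of_mem (Finset.mem_insert_of_mem
      (Finset.mem_image.2 ⟨(i, j), Finset.mem_univ _, rfl⟩)))
  set θ : ℝ := δ / (8 * (‖ψ 1‖ + 1)) with hθ
  have hψ0 : 0 ≤ ‖ψ 1‖ := norm_nonneg _
  have hθ0 : 0 < θ := by positivity
  have hθ1 : θ * ‖ψ 1‖ ≤ δ / 8 := by
    have h1 : θ * (‖ψ 1‖ + 1) = δ / 8 := by
      rw [hθ]
      field_simp
    nlinarith
  have he' : star (e - (c : ℂ) • (1 : A)) = e - (c : ℂ) • (1 : A) := by
    rw [star_sub, he, star_smul, star_one, Complex.star_def, Complex.conj_ofReal]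
  have hκ : (0 : ℝ) < 1 / (k + 1) := by positivity
  obtain ⟨Q, i1, i2, i3, π, ρ, V, hρ, hV⟩ := V3b_main
    (G := FreeGroup (Fin N × Fin m)) (K := Fin k × Fin m) (fun F => V3a_finset F)
    (opT φ x (e - (c : ℂ) • 1)) (opT_herm hφ m x he') (opT_neg hφ x _ hpos) hθ0 hκ
  set g : Fin N → Fin m → Q := fun i a => π (gen N m i a) with hg
  set f : Fin k × (Fin m × Q) → (Fin k × Fin m) × Q := fun y => ((y.1, y.2.1), y.2.2) with hf
  have hX := hV.submatrix f
  have hP := posM_psi hψ hX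
  obtain ⟨Y, hY⟩ := gram_psi hψ (S := Fin m × Q) (fun (r : Fin ρ) y => V r (f y))
  have hPeq : ∀ s t : Fin m × Q, ψ (Matrix.of fun p q => ((θ : ℂ) • 1 + V.conjTranspose * V -
      Matrix.of (kerM (pushM π (opT φ x (e - (c : ℂ) • 1))))).submatrix f f (p, s) (q, t)) =
      (if s = t then (θ : ℂ) • ψ 1 else 0) + (∑ l, star (Y l s) * Y l t) +
        ψ (φ (VKer x g (e - (c : ℂ) • 1) s t)) := by
    intro s t
    have h1 : (Matrix.of fun p q => ((θ : ℂ) • 1 + V.conjTranspose * V -
      Matrix.of (kerM (pushM π (opT φ x (e - (c : ℂ) • 1))))).submatrix f f (p, s) (q, t)) =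
      (if s = t then (θ : ℂ) • (1 : Matrix (Fin k) (Fin k) ℂ) else 0) +
        (Matrix.of fun p q => ∑ r, star (V r (f (p, s))) * V r (f (q, t))) +
        φ (VKer x g (e - (c : ℂ) • 1) s t) := by
      ext p q
      rw [Matrix.add_apply, Matrix.add_apply, Matrix.of_apply, Matrix.of_apply,
        Matrix.submatrix_apply, Matrix.sub_apply, Matrix.add_apply, Matrix.of_apply,
        kerM_opT, sub_neg_eq_add, Matrix.mul_apply]
      congr 1
      congr 1
      rw [Matrix.smul_apply, Matrix.one_apply]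
      by_cases hst : s = t
      · rw [if_pos hst, Matrix.smul_apply, Matrix.one_apply]
        congr 1
        by_cases hpq : p = q
        · rw [if_pos hpq, if_pos (by rw [hpq, hst])]
        · rw [if_neg hpq, if_neg fun h => hpq (congrArg (fun y => y.1.1) h)]
      · rw [if_neg hst, if_neg fun h => hst ?_, smul_zero, Matrix.zero_apply]
        exact Prod.ext (congrArg (fun y => y.1.2) h) (congrArg (fun y => y.2) h)
    rw [h1, map_add, map_add, hY]
    congr 2
    split_ifs
    · rw [map_smul]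
    · rw [map_zero]
  have hΔ : ∀ y, ψ (φ (star y)) - star y = star (ψ (φ y) - y) := by
    intro y
    rw [star_sub, cpos_star hφ, cpos_star' hψ]
  have hE := V3d_err x g e he (fun y => ψ (φ y) - y) hΔ hd20.le hae hax hd22
  have hψ1 : star (ψ 1) = ψ 1 := by
    rw [← cpos_star' hψ, Matrix.conjTranspose_one]
  have hψφ1 : star (ψ (φ 1)) = ψ (φ 1) := by
    rw [← cpos_star' hψ, ← cpos_star hφ, star_one]
  have hD : ∃ b : A, ((3 * δ / 8 : ℝ) : ℂ) • (1 : A) - ((θ : ℂ) • ψ 1 + (c : ℂ) • ψ (φ 1)) =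
      star b * b := by
    apply V3d_sub
    · rw [star_add, star_smul, star_smul, hψ1, hψφ1]
      simp only [Complex.star_def, Complex.conj_ofReal]
    · have h1 : ‖ψ (φ 1)‖ ≤ 2 := by
        calc ‖ψ (φ 1)‖ = ‖(ψ (φ 1) - 1) + 1‖ := by rw [sub_add_cancel]
          _ ≤ ‖ψ (φ 1) - 1‖ + ‖(1 : A)‖ := norm_add_le _ _
          _ ≤ 1 + 1 := add_le_add (ha1.trans hd21) V3d_one
          _ = 2 := by norm_num
      refine (norm_add_le _ _).trans ?_
      rw [norm_smul, norm_smul, Complex.norm_real, Complex.norm_real, Real.norm_of_nonneg hθ0.le,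
        Real.norm_of_nonneg hc0]
      nlinarith
  have hDiag := posM_diag (S := Fin m × Q) hD
  -- the rows
  have hcard : Fintype.card (Q ⊕ (Fin ρ × Fin k)) ≤ 2 * Fintype.card Q := by
    rw [Fintype.card_sum, Fintype.card_prod, Fintype.card_fin, Fintype.card_fin]
    have h1 : (ρ : ℝ) * (k + 1) ≤ Fintype.card Q := by
      have h2 : (0 : ℝ) < k + 1 := by positivity
      calc (ρ : ℝ) * (k + 1) ≤ 1 / (k + 1) * Fintype.card Q * (k + 1) :=
            mul_le_mul_of_nonneg_right hρ h2.le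
        _ = Fintype.card Q := by field_simp
    have h3 : ρ * (k + 1) ≤ Fintype.card Q := by exact_mod_cast h1
    nlinarith
  obtain ⟨Z, hZ⟩ := gram_pad (S := Fin m × Q) (R := Q ⊕ (Fin ρ × Fin k))
    (fun l s => Sum.elim (fun u : Q => ∑ i, if g i s.1 * s.2 = u then x i else 0)
      (fun l => Y l s) l) hcard
  refine ⟨Fintype.card Q, Fin m × Q, inferInstance, inferInstance, Z, Fintype.card_pos, ?_, ?_⟩
  · rw [Fintype.card_prod, Fintype.card_fin, mul_comm]
  · have hsum := posM_add (posM_add hP hE) hDiag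
    convert hsum using 3 with s t
    rw [hPeq, hZ, Fintype.sum_sum_type]
    simp only [Sum.elim_inl, Sum.elim_inr]
    rw [← V3d_gram x g s t, V3d_VKer]
    have hlin : ψ (φ ((∑ i, ∑ j, if g i s.1 * s.2 = g j t.1 * t.2 then star (x i) * x j else 0) -
        if s = t then e - (c : ℂ) • 1 else 0)) =
        (∑ i, ∑ j, if g i s.1 * s.2 = g j t.1 * t.2 then star (x i) * x j else 0) +
        (∑ i, ∑ j, if g i s.1 * s.2 = g j t.1 * t.2 then
          (ψ (φ (star (x i) * x j)) - star (x i) * x j) else 0) -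
        (if s = t then ψ (φ e) - (c : ℂ) • ψ (φ 1) else 0) := by
      rw [map_sub, map_sub]
      congr 1
      · rw [map_sum, map_sum, ← Finset.sum_add_distrib]
        refine Finset.sum_congr rfl fun i _ => ?_
        rw [map_sum, map_sum, ← Finset.sum_add_distrib]
        refine Finset.sum_congr rfl fun j _ => ?_
        split_ifs
        · rw [add_sub_cancel]
        · rw [map_zero, map_zero, add_zero]
      · split_ifs
        · rw [map_sub, map_sub, map_smul, map_smul]
        · rw [map_zero, map_zero]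
    rw [hlin]
    by_cases hst : s = t
    · simp only [if_pos hst]
      have e1 : ((δ / 2 : ℝ) : ℂ) • (1 : A) =
          ((3 * δ / 8 : ℝ) : ℂ) • (1 : A) + ((δ / 8 : ℝ) : ℂ) • (1 : A) := by
        rw [← add_smul, ← Complex.ofReal_add]
        congr 2
        ring
      rw [e1]
      abel
    · simp only [if_neg hst]
      abel

end P095F
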