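import Vale.Agent.Lib.P095F.V4a
import Vale.Agent.Lib.P101.Final
import Vale.Agent.Lib.P101.Copies
import Vale.Agent.Lib.P101.Reduce
import Vale.Agent.Lib.P101.Chars

/-!
# P095F, part V, module V4b: the dimension drop comparison in `A`

`F = FOmega ω A`.  `P101.hasCopies_FOmega`, `P101.inIdeal_one_of_no_characters`, `P101.exists_one_full`,
`P101.exists_comparison` (with `n = q`) give `ψ0 : OZ (Fin q) F`, `r1 : F`, `star r1 * r1 = 1 - ψ0(1)`,
`ψ0(e_00) * r1 = r1`.  `U = Ultrapower ω A`, `ψ = ψ0.comp (subtype)` (the inclusion of the *-subalgebra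
`centralSeq ω A`, `StarSubalgebra.subtype`), `r0 = (r1 : U)`, `j : A →⋆ₐ[ℂ] U`, `j a = toUltrapower ω A (constSeq A a)`;
elements of `centralSeq` commute with `j a` (`StarSubalgebra.mem_centralizer_iff`).
`V4a_main` with `δ = (ε' - ε) / 2` gives `r : U`; `r = toUltrapower ω A y` (`quotMk_surjective`);
`star r * j f * r - j a = toUltrapower ω A (star y * constSeq f * y - constSeq a)` has norm `< ε'`, so by
`P101.eventually_norm_lt` (P101/CopiesA.lean) `‖star (y n) * f * y n - a‖ < ε'` for almost all `n`; `ω` is proper.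
-/

open scoped Topology ENNReal

namespace P095F

open P101

universe u

variable {A : Type u} [CStarAlgebra A]

/-- the constant sequences, as a *-homomorphism -/
noncomputable def V4_const (A : Type u) [CStarAlgebra A] [Nontrivial A] :
    A →⋆ₐ[ℂ] lp (fun _ : ℕ => A) ∞ where
  toFun a := constSeq A a
  map_one' := rfl
  map_mul' _ _ := rfl
  map_zero' := rfl
  map_add' _ _ := rfl
  commutes' _ := rfl
  map_star' _ := rfl

theorem V4_nontrivial [Nontrivial A] (ω : Ultrafilter ℕ) : Nontrivial (FOmega ω A) := by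
  refine ⟨⟨0, 1, fun h01 => ?_⟩⟩
  have h1 : toUltrapower ω A 1 = 0 := by
    rw [map_one]
    exact (congrArg (fun x : FOmega ω A => (x : Ultrapower ω A)) h01).symm
  have h2 : (1 : lp (fun _ : ℕ => A) ∞) ∈ cNull ω A := (quotMk_eq_zero_iff (cNull ω A) _).1 h1
  rw [mem_cNull] at h2
  have h3 : Filter.Tendsto (fun _ : ℕ => (1 : ℝ)) (ω : Filter ℕ) (𝓝 0) := by
    refine h2.congr fun m => ?_
    have : (1 : lp (fun _ : ℕ => A) ∞) m = (1 : A) := rfl
    rw [this, norm_one]
  exact one_ne_zero (tendsto_nhds_unique tendsto_const_nhds h3)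

theorem V4_main [Nontrivial A] [TopologicalSpace.SeparableSpace A] {ω : Ultrafilter ℕ}
    (hω : (ω : Filter ℕ) ≤ Filter.cofinite) (hF : IsEmpty (FOmega ω A →⋆ₐ[ℂ] ℂ))
    {q : ℕ} (hq : 1 ≤ q) (a f : A) (B : Fin q → Fin (q + 1) → A) {ε ε' : ℝ} (hε : 0 ≤ ε)
    (hε' : ε < ε')
    (hp : PosM (fun s t => (if s = t then (ε : ℂ) • (1 : A) else 0) +
      ((∑ i, star (B i s) * f * B i t) - if s = t then a else 0)))
    (hm : PosM (fun s t => (if s = t then (ε : ℂ) • (1 : A) else 0) -
      ((∑ i, star (B i s) * f * B i t) - if s = t then a else 0))) :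
    ∃ r : A, ‖star r * f * r - a‖ ≤ ε' := by
  classical
  have hq0 : NeZero q := ⟨by omega⟩
  have hnt : Nontrivial (FOmega ω A) := V4_nontrivial ω
  obtain ⟨φ, hφ⟩ := exists_one_full (hasCopies_FOmega ω hω A) (inIdeal_one_of_no_characters hF)
  obtain ⟨ψ0, r1, h1, h2⟩ := exists_comparison (hasCopies_FOmega ω hω A) φ hφ q
  let j : A →⋆ₐ[ℂ] Ultrapower ω A := (toUltrapower ω A).comp (V4_const A)
  have hj : ∀ b, j b = toUltrapower ω A (constSeq A b) := fun _ => rfl
  have hcomm : ∀ (b : A) (x : FOmega ω A), Commute (j b) (x : Ultrapower ω A) := fun b x =>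
    ((StarSubalgebra.mem_centralizer_iff ℂ).1 x.2 _ ⟨b, rfl⟩).1
  have hδ : 0 < (ε' - ε) / 2 := by linarith
  obtain ⟨r, hr⟩ := V4a_main j (ψ0.comp (centralSeq ω A).subtype) (r1 : Ultrapower ω A)
    (congrArg (fun x : FOmega ω A => (x : Ultrapower ω A)) h1)
    (congrArg (fun x : FOmega ω A => (x : Ultrapower ω A)) h2)
    (fun b m => hcomm b (ψ0.map m)) (fun b => hcomm b r1) a f B hε hp hm hδ
  obtain ⟨y, rfl⟩ : ∃ y, toUltrapower ω A y = r := quotMk_surjective (cNull ω A) r
  have hlt : ‖toUltrapower ω A (star y * constSeq A f * y - constSeq A a)‖ < ε' := by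
    have he : toUltrapower ω A (star y * constSeq A f * y - constSeq A a) =
        star (toUltrapower ω A y) * j f * toUltrapower ω A y - j a := by
      rw [map_sub, map_mul, map_mul, map_star, hj, hj]
    rw [he]
    linarith
  obtain ⟨n, hn⟩ := (eventually_norm_lt ω A _ hlt).exists
  exact ⟨y n, hn.le⟩

end P095F
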