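import Vale.Agent.Lib.P095F.V2b

/-!
# P095F, part V, module V5a: cutting down (functional calculus)

* `V5a_cut` (`M` a C*-algebra).  Spectral order on `M` inside the proof.  `W = g * P * g ≥ γ g * g`, `W ≥ 0`.
  For `κ' > 0`: `v = (W + κ')^{-1/2}` (`cfc (fun t => (√(t + κ'))⁻¹) W`), `D = g * v * g`.
  `star D * P * D = g v (g P g) v g = g (W / (W + κ')) g`, `g * g - star D * P * D = g (κ' / (W + κ')) g`,
  of norm `= ‖(√κ' v g)^* (√κ' v g)‖ = κ' ‖v g g v‖ ≤ (κ' / γ) ‖v W v‖ ≤ κ' / γ` (`v g g v ≤ γ⁻¹ v W v`, norms of positive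
  elements are monotone).  Take `κ' = γ κ`.
* `V5a_scalar`: `g = cfc (fun t => √(max (t - δ) 0)) e`, `0 ≤ e`, `‖e‖ ≤ 1` (spectrum in `[0, 1]`):
  `‖g * g - e‖ ≤ δ`, `δ g * g ≤ g * e * g`.
* `V5a_main`.  `M = CStarMatrix S S A`.  `P = ofMatrix (of fun s t => ∑ l, star (Z l s) * Z l t)` is `≥ 0`
  (`posM_gram`, `posM_iff_matrix`), `G` = diagonal matrix with entries `g`, `E` = diagonal matrix with entries `e`
  (`if s = t then g else 0`).  `P + (δ/2 - E) ≥ 0` (`posM_iff_matrix`) so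
  `G P G ≥ G E G - (δ/2) G G ≥ (δ/2) G G` (`G E G - δ G G` is diagonal with positive entries: `posM_diag`,
  `posM_iff_matrix`).  `V5a_cut` with `γ = δ / 2`: `D : M` with `‖star D * P * D - G * G‖ ≤ κ`; self-adjoint, so
  `κ ± (star D * P * D - G * G) ≥ 0`; `Y l s = ∑ s', Z l s' * D s' s`; entries of `star D * P * D` are
  `∑ l, star (Y l s) * Y l t`.  `a = g * g`.
-/

open scoped Topology

namespace P095F

universe u

/-- functional calculus for the cut: `v` self-adjoint, `v * W * v = 1 - κ' v * v` -/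
private theorem V5a_inv {M : Type u} [CStarAlgebra M] (W : M) (hW : ∃ c, W = star c * c)
    {κ' : ℝ} (hκ : 0 < κ') :
    ∃ v : M, star v = v ∧ v * W * v = 1 - κ' • (v * v) := by
  let _ := CStarAlgebra.spectralOrder M
  let _ := CStarAlgebra.spectralOrderedRing M
  have hW0 : 0 ≤ W := CStarAlgebra.nonneg_iff_eq_star_mul_self.2 hW
  have hWs : IsSelfAdjoint W := IsSelfAdjoint.of_nonneg hW0
  have hc : Continuous (fun t : ℝ => (√(max t 0 + κ'))⁻¹) := by
    refine Continuous.inv₀ (by fun_prop) fun t => ?_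
    have : 0 < max t 0 + κ' := by positivity
    exact (Real.sqrt_pos.2 this).ne'
  refine ⟨cfc (fun t : ℝ => (√(max t 0 + κ'))⁻¹) W, ?_, ?_⟩
  · exact (cfc_predicate (fun t : ℝ => (√(max t 0 + κ'))⁻¹) W : IsSelfAdjoint _)
  · have h1 : cfc (fun t : ℝ => (√(max t 0 + κ'))⁻¹) W * W *
        cfc (fun t : ℝ => (√(max t 0 + κ'))⁻¹) W =
        cfc (fun t : ℝ => (√(max t 0 + κ'))⁻¹ * t * (√(max t 0 + κ'))⁻¹) W := by
      rw [cfc_mul (fun t : ℝ => (√(max t 0 + κ'))⁻¹ * t) (fun t : ℝ => (√(max t 0 + κ'))⁻¹) W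
        (hc.mul continuous_id).continuousOn hc.continuousOn,
        cfc_mul (fun t : ℝ => (√(max t 0 + κ'))⁻¹) (fun t : ℝ => t) W
        hc.continuousOn continuous_id.continuousOn, cfc_id' ℝ W]
    have h2 : (1 : M) - κ' • (cfc (fun t : ℝ => (√(max t 0 + κ'))⁻¹) W *
        cfc (fun t : ℝ => (√(max t 0 + κ'))⁻¹) W) =
        cfc (fun t : ℝ => 1 - κ' * ((√(max t 0 + κ'))⁻¹ * (√(max t 0 + κ'))⁻¹)) W := by
      rw [cfc_sub (fun _ : ℝ => (1 : ℝ))
        (fun t : ℝ => κ' * ((√(max t 0 + κ'))⁻¹ * (√(max t 0 + κ'))⁻¹)) W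
        continuous_const.continuousOn (continuous_const.mul (hc.mul hc)).continuousOn,
        cfc_const (1 : ℝ) W, map_one,
        cfc_const_mul κ' (fun t : ℝ => (√(max t 0 + κ'))⁻¹ * (√(max t 0 + κ'))⁻¹) W
        (hc.mul hc).continuousOn,
        cfc_mul (fun t : ℝ => (√(max t 0 + κ'))⁻¹) (fun t : ℝ => (√(max t 0 + κ'))⁻¹) W
        hc.continuousOn hc.continuousOn]
    rw [h1, h2]
    refine cfc_congr fun t ht => ?_
    have ht0 : 0 ≤ t := spectrum_nonneg_of_nonneg hW0 ht
    rw [max_eq_left ht0]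
    have hp : 0 < t + κ' := by positivity
    have h3 : (√(t + κ'))⁻¹ * (√(t + κ'))⁻¹ = (t + κ')⁻¹ := by
      rw [← mul_inv, Real.mul_self_sqrt hp.le]
    rw [mul_right_comm, h3]
    field_simp
    ring

theorem V5a_cut {M : Type u} [CStarAlgebra M] (P g : M) (hP : ∃ c, P = star c * c)
    (hg : star g = g) {γ : ℝ} (hγ : 0 < γ)
    (h : ∃ c, g * P * g - (γ : ℂ) • (g * g) = star c * c) {κ : ℝ} (hκ : 0 < κ) :
    ∃ D : M, ‖star D * P * D - g * g‖ ≤ κ := by
  have hW : ∃ c, g * P * g = star c * c := by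
    obtain ⟨c, hc⟩ := hP
    refine ⟨c * g, ?_⟩
    rw [hc, star_mul, hg]
    simp only [mul_assoc]
  obtain ⟨v, hv, hvW⟩ := V5a_inv (g * P * g) hW (mul_pos hγ hκ)
  refine ⟨g * v * g, ?_⟩
  let _ := CStarAlgebra.spectralOrder M
  let _ := CStarAlgebra.spectralOrderedRing M
  have h1 : star (g * v * g) * P * (g * v * g) = g * (v * (g * P * g) * v) * g := by
    rw [star_mul, star_mul, hg, hv]
    simp only [mul_assoc]
  have h2 : star (g * v * g) * P * (g * v * g) - g * g =
      -((γ * κ) • (star (v * g) * (v * g))) := by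
    rw [h1, hvW, star_mul, hv, hg]
    simp only [mul_sub, sub_mul, mul_one, mul_smul_comm, smul_mul_assoc, mul_assoc]
    abel
  have h3 : ‖v * g‖ * ‖v * g‖ ≤ γ⁻¹ := by
    have e0 : (0 : M) ≤ γ • (v * g * star (v * g)) :=
      smul_nonneg hγ.le (mul_star_self_nonneg _)
    have e1 : γ • (v * g * star (v * g)) ≤ 1 := by
      have e2 : v * ((γ : ℂ) • (g * g)) * v ≤ v * (g * P * g) * v := by
        have e3 : (γ : ℂ) • (g * g) ≤ g * P * g :=
          sub_nonneg.1 (CStarAlgebra.nonneg_iff_eq_star_mul_self.2 h)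
        have e4 := star_left_conjugate_le_conjugate e3 v
        rwa [hv] at e4
      have e5 : v * ((γ : ℂ) • (g * g)) * v = γ • (v * g * star (v * g)) := by
        rw [star_mul, hv, hg, mul_smul_comm, smul_mul_assoc, Complex.coe_smul]
        simp only [mul_assoc]
      rw [e5, hvW] at e2
      refine e2.trans ?_
      rw [sub_le_self_iff]
      refine smul_nonneg (mul_pos hγ hκ).le ?_
      have := star_mul_self_nonneg v
      rwa [hv] at this
    have e6 := (CStarAlgebra.norm_le_one_iff_of_nonneg _ e0).2 e1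
    rw [norm_smul, CStarRing.norm_self_mul_star, Real.norm_of_nonneg hγ.le] at e6
    rw [inv_eq_one_div, le_div_iff₀ hγ]
    linarith
  rw [h2, norm_neg, norm_smul, CStarRing.norm_star_mul_self,
    Real.norm_of_nonneg (mul_pos hγ hκ).le]
  calc γ * κ * (‖v * g‖ * ‖v * g‖) ≤ γ * κ * γ⁻¹ :=
        mul_le_mul_of_nonneg_left h3 (mul_pos hγ hκ).le
    _ = κ := by field_simp

variable {A : Type u} [CStarAlgebra A]

theorem V5a_scalar (e : A) (he : ∃ c, e = star c * c) (he1 : ‖e‖ ≤ 1) {δ : ℝ} (hδ : 0 < δ) :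
    ∃ g : A, star g = g ∧ ‖g * g - e‖ ≤ δ ∧
      ∃ c, g * e * g - (δ : ℂ) • (g * g) = star c * c := by
  let _ := CStarAlgebra.spectralOrder A
  let _ := CStarAlgebra.spectralOrderedRing A
  have he0 : 0 ≤ e := CStarAlgebra.nonneg_iff_eq_star_mul_self.2 he
  have hes : IsSelfAdjoint e := IsSelfAdjoint.of_nonneg he0
  have hgg : cfc (fun t : ℝ => √(max (t - δ) 0)) e * cfc (fun t : ℝ => √(max (t - δ) 0)) e =
      cfc (fun t : ℝ => max (t - δ) 0) e := by
    rw [← cfc_mul (fun t : ℝ => √(max (t - δ) 0)) (fun t : ℝ => √(max (t - δ) 0)) e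
      (by fun_prop) (by fun_prop)]
    refine cfc_congr fun t _ => ?_
    exact Real.mul_self_sqrt (le_max_right _ _)
  refine ⟨cfc (fun t : ℝ => √(max (t - δ) 0)) e, ?_, ?_, cfc (fun t : ℝ => max (t - δ) 0) e, ?_⟩
  · exact (cfc_predicate (fun t : ℝ => √(max (t - δ) 0)) e : IsSelfAdjoint _)
  · rw [hgg]
    have h1 : cfc (fun t : ℝ => max (t - δ) 0) e - e = cfc (fun t : ℝ => max (t - δ) 0 - t) e := by
      rw [cfc_sub (fun t : ℝ => max (t - δ) 0) (fun t : ℝ => t) e (by fun_prop) (by fun_prop),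
        cfc_id' ℝ e]
    rw [h1]
    refine norm_cfc_le hδ.le fun t ht => ?_
    have ht0 : 0 ≤ t := spectrum_nonneg_of_nonneg he0 ht
    rw [Real.norm_eq_abs, abs_le]
    rcases le_total (t - δ) 0 with h | h
    · rw [max_eq_right h]; constructor <;> linarith
    · rw [max_eq_left h]; constructor <;> linarith
  · have hs : star (cfc (fun t : ℝ => max (t - δ) 0) e) = cfc (fun t : ℝ => max (t - δ) 0) e :=
      (cfc_predicate (fun t : ℝ => max (t - δ) 0) e : IsSelfAdjoint _)
    rw [hs, hgg, Complex.coe_smul]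
    have h1 : cfc (fun t : ℝ => √(max (t - δ) 0)) e * e * cfc (fun t : ℝ => √(max (t - δ) 0)) e =
        cfc (fun t : ℝ => √(max (t - δ) 0) * t * √(max (t - δ) 0)) e := by
      rw [cfc_mul (fun t : ℝ => √(max (t - δ) 0) * t) (fun t : ℝ => √(max (t - δ) 0)) e
        (by fun_prop) (by fun_prop),
        cfc_mul (fun t : ℝ => √(max (t - δ) 0)) (fun t : ℝ => t) e
        (by fun_prop) (by fun_prop), cfc_id' ℝ e]
    rw [h1, ← cfc_const_mul δ (fun t : ℝ => max (t - δ) 0) e (by fun_prop),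
      ← cfc_sub (fun t : ℝ => √(max (t - δ) 0) * t * √(max (t - δ) 0))
        (fun t : ℝ => δ * max (t - δ) 0) e (by fun_prop) (by fun_prop),
      ← cfc_mul (fun t : ℝ => max (t - δ) 0) (fun t : ℝ => max (t - δ) 0) e
        (by fun_prop) (by fun_prop)]
    refine cfc_congr fun t _ => ?_
    rw [mul_right_comm, Real.mul_self_sqrt (le_max_right _ _)]
    rcases le_total (t - δ) 0 with h | h
    · rw [max_eq_right h]; ring
    · rw [max_eq_left h]; ring

private def V5aDg (S : Type) [DecidableEq S] (x : A) : CStarMatrix S S A :=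
  CStarMatrix.ofMatrix (Matrix.of fun s t => if s = t then x else 0)

private theorem V5aDg_apply {S : Type} [DecidableEq S] (x : A) (s t : S) :
    V5aDg S x s t = if s = t then x else 0 := rfl

private theorem V5aDg_mul {S : Type} [Fintype S] [DecidableEq S] (x y : A) :
    V5aDg S x * V5aDg S y = V5aDg S (x * y) := by
  refine CStarMatrix.ext fun s t => ?_
  rw [CStarMatrix.mul_apply, Finset.sum_eq_single s]
  · simp only [V5aDg_apply]
    split_ifs <;> simp
  · intro j _ hj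
    simp only [V5aDg_apply]
    rw [if_neg (Ne.symm hj), zero_mul]
  · intro h; exact absurd (Finset.mem_univ _) h

private theorem V5aDg_star {S : Type} [DecidableEq S] (x : A) :
    star (V5aDg S x) = V5aDg S (star x) := by
  refine CStarMatrix.ext fun s t => ?_
  rw [CStarMatrix.star_apply]
  simp only [V5aDg_apply]
  by_cases h : s = t
  · rw [if_pos h, if_pos h.symm]
  · rw [if_neg h, if_neg (Ne.symm h), star_zero]

private theorem V5aDg_add {S : Type} [DecidableEq S] (x y : A) :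
    V5aDg S (x + y) = V5aDg S x + V5aDg S y := by
  refine CStarMatrix.ext fun s t => ?_
  rw [CStarMatrix.add_apply]
  simp only [V5aDg_apply]
  split_ifs <;> simp

private theorem V5aDg_sub {S : Type} [DecidableEq S] (x y : A) :
    V5aDg S (x - y) = V5aDg S x - V5aDg S y := by
  refine CStarMatrix.ext fun s t => ?_
  rw [CStarMatrix.sub_apply]
  simp only [V5aDg_apply]
  split_ifs <;> simp

private theorem V5aDg_smul {S : Type} [DecidableEq S] (c : ℂ) (x : A) :
    V5aDg S (c • x) = c • V5aDg S x := by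
  refine CStarMatrix.ext fun s t => ?_
  rw [CStarMatrix.smul_apply]
  simp only [V5aDg_apply]
  split_ifs <;> simp

private theorem V5aDg_one {S : Type} [DecidableEq S] :
    V5aDg S (1 : A) = 1 := by
  refine CStarMatrix.ext fun s t => ?_
  rw [CStarMatrix.one_apply]
  rfl

private theorem V5a_add {x y : A} (hx : ∃ c : A, x = star c * c) (hy : ∃ c : A, y = star c * c) :
    ∃ c : A, x + y = star c * c := by
  let _ := CStarAlgebra.spectralOrder A
  let _ := CStarAlgebra.spectralOrderedRing A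
  exact CStarAlgebra.nonneg_iff_eq_star_mul_self.1
    (add_nonneg (CStarAlgebra.nonneg_iff_eq_star_mul_self.2 hx)
      (CStarAlgebra.nonneg_iff_eq_star_mul_self.2 hy))

/-- a self-adjoint element of norm at most `κ` -/
private theorem V5a_sa {M : Type u} [CStarAlgebra M] (x : M) (hx : star x = x) {κ : ℝ}
    (h : ‖x‖ ≤ κ) :
    (∃ c : M, (κ : ℂ) • (1 : M) + x = star c * c) ∧
      ∃ c : M, (κ : ℂ) • (1 : M) - x = star c * c := by
  let _ := CStarAlgebra.spectralOrder M
  let _ := CStarAlgebra.spectralOrderedRing M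
  have hs : IsSelfAdjoint x := hx
  have h1 := hs.neg_algebraMap_norm_le_self
  have h2 := hs.le_algebraMap_norm_self
  have h3 : algebraMap ℝ M ‖x‖ ≤ algebraMap ℝ M κ := algebraMap_mono M h
  rw [real_smul_one]
  refine ⟨CStarAlgebra.nonneg_iff_eq_star_mul_self.1 ?_,
    CStarAlgebra.nonneg_iff_eq_star_mul_self.1 ?_⟩
  · have h4 : -(algebraMap ℝ M κ) ≤ x := (neg_le_neg h3).trans h1
    have := neg_le_iff_add_nonneg.1 h4
    rwa [add_comm] at this
  · exact sub_nonneg.2 (h2.trans h3)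

theorem V5a_main (e : A) (he : ∃ c, e = star c * c) (he1 : ‖e‖ ≤ 1) {δ : ℝ} (hδ : 0 < δ) :
    ∃ a : A, ‖a - e‖ ≤ δ ∧ ∀ {S : Type} [Fintype S] [DecidableEq S] {R : ℕ} (Z : Fin R → S → A),
      PosM (fun s t => (∑ l, star (Z l s) * Z l t) +
        if s = t then (((δ / 2 : ℝ) : ℂ) • (1 : A) - e) else 0) →
      ∀ κ : ℝ, 0 < κ → ∃ Y : Fin R → S → A,
        PosM (fun s t => (if s = t then (κ : ℂ) • (1 : A) else 0) +
          ((∑ l, star (Y l s) * Y l t) - if s = t then a else 0)) ∧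
        PosM (fun s t => (if s = t then (κ : ℂ) • (1 : A) else 0) -
          ((∑ l, star (Y l s) * Y l t) - if s = t then a else 0)) := by
  obtain ⟨g, hg, hge, b, hb⟩ := V5a_scalar e he he1 hδ
  refine ⟨g * g, hge, ?_⟩
  intro S _ _ R Z hZ κ hκ
  let _ := CStarAlgebra.spectralOrder A
  let _ := CStarAlgebra.spectralOrderedRing A
  obtain ⟨P, hPd⟩ : ∃ P : CStarMatrix S S A,
    P = CStarMatrix.ofMatrix (Matrix.of fun s t => ∑ l, star (Z l s) * Z l t) := ⟨_, rfl⟩
  have hP : ∃ c, P = star c * c := by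
    rw [hPd]
    exact (posM_iff_matrix _).1 (posM_gram Z)
  have hH : ∃ C : CStarMatrix S S A, P + V5aDg S (((δ / 2 : ℝ) : ℂ) • (1 : A) - e) = star C * C := by
    obtain ⟨C, hC⟩ := (posM_iff_matrix _).1 hZ
    refine ⟨C, ?_⟩
    rw [← hC, hPd]
    rfl
  have hGs : star (V5aDg S g) = V5aDg S g := by rw [V5aDg_star, hg]
  have hcut : ∃ c : CStarMatrix S S A, V5aDg S g * P * V5aDg S g -
      (((δ / 2 : ℝ)) : ℂ) • (V5aDg S g * V5aDg S g) = star c * c := by
    obtain ⟨C, hC⟩ := hH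
    have h1 : V5aDg S g * P * V5aDg S g - (((δ / 2 : ℝ)) : ℂ) • (V5aDg S g * V5aDg S g) =
        star (C * V5aDg S g) * (C * V5aDg S g) + star (V5aDg S b) * V5aDg S b := by
      have e1 : star (C * V5aDg S g) * (C * V5aDg S g) =
          V5aDg S g * (P + V5aDg S (((δ / 2 : ℝ) : ℂ) • (1 : A) - e)) * V5aDg S g := by
        rw [star_mul, hGs, hC]
        simp only [mul_assoc]
      have e2 : star (V5aDg S b) * V5aDg S b = V5aDg S (g * e * g - (δ : ℂ) • (g * g)) := by
        rw [V5aDg_star, V5aDg_mul, hb]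
      rw [e1, e2, mul_add, add_mul, V5aDg_mul, V5aDg_mul, V5aDg_mul, ← V5aDg_smul, add_assoc,
        ← V5aDg_add, sub_eq_add_neg]
      congr 1
      have e3 : g * (((δ / 2 : ℝ) : ℂ) • (1 : A) - e) * g + (g * e * g - (δ : ℂ) • (g * g)) =
          (-1 : ℂ) • ((((δ / 2 : ℝ)) : ℂ) • (g * g)) := by
        have e4 : (δ : ℂ) • (g * g) = (((δ / 2 : ℝ)) : ℂ) • (g * g) + (((δ / 2 : ℝ)) : ℂ) • (g * g) := by
          rw [← add_smul]
          congr 1
          push_cast
          ring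
        rw [e4, mul_sub, sub_mul, mul_smul_comm, smul_mul_assoc, mul_one, neg_one_smul]
        abel
      rw [e3, V5aDg_smul (-1 : ℂ), neg_one_smul]
    rw [h1]
    exact V5a_add ⟨_, rfl⟩ ⟨_, rfl⟩
  obtain ⟨D, hD⟩ := V5a_cut P (V5aDg S g) hP hGs (half_pos hδ) hcut hκ
  have hX : star (star D * P * D - V5aDg S g * V5aDg S g) =
      star D * P * D - V5aDg S g * V5aDg S g := by
    obtain ⟨c, hc⟩ := hP
    rw [star_sub, star_mul, star_mul, star_mul, hGs, star_star, hc, star_mul, star_star]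
    simp only [mul_assoc]
  obtain ⟨hX1, hX2⟩ := V5a_sa _ hX hD
  have hY : ∀ s t, (star D * P * D) s t =
      ∑ l, star (∑ s', Z l s' * D s' s) * (∑ t', Z l t' * D t' t) := by
    intro s t
    rw [CStarMatrix.mul_apply]
    have e1 : ∀ j, (star D * P) s j = ∑ l, star (∑ s', Z l s' * D s' s) * Z l j := by
      intro j
      rw [CStarMatrix.mul_apply]
      have e2 : ∀ i, star D s i * P i j = ∑ l, star (Z l i * D i s) * Z l j := by
        intro i
        have e3 : P i j = ∑ l, star (Z l i) * Z l j := by rw [hPd]; rfl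
        rw [CStarMatrix.star_apply, e3, Finset.mul_sum]
        refine Finset.sum_congr rfl fun l _ => ?_
        rw [star_mul, mul_assoc]
      simp only [e2]
      rw [Finset.sum_comm]
      refine Finset.sum_congr rfl fun l _ => ?_
      rw [star_sum, Finset.sum_mul]
    simp only [e1]
    simp only [Finset.sum_mul]
    rw [Finset.sum_comm]
    refine Finset.sum_congr rfl fun l _ => ?_
    rw [Finset.mul_sum]
    refine Finset.sum_congr rfl fun j _ => ?_
    rw [mul_assoc]
  have hone : ∀ s t, ((κ : ℂ) • (1 : CStarMatrix S S A)) s t =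
      if s = t then (κ : ℂ) • (1 : A) else 0 := by
    intro s t
    rw [CStarMatrix.smul_apply, CStarMatrix.one_apply]
    split_ifs <;> simp
  have hgg : ∀ s t, (V5aDg S g * V5aDg S g) s t = if s = t then g * g else 0 := by
    intro s t
    rw [V5aDg_mul]
    rfl
  refine ⟨fun l s => ∑ s', Z l s' * D s' s, ?_, ?_⟩
  · refine (posM_iff_matrix _).2 ?_
    obtain ⟨c, hc⟩ := hX1
    refine ⟨c, ?_⟩
    rw [← hc]
    refine CStarMatrix.ext fun s t => ?_
    rw [CStarMatrix.add_apply, CStarMatrix.sub_apply, hY, hone, hgg]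
    rfl
  · refine (posM_iff_matrix _).2 ?_
    obtain ⟨c, hc⟩ := hX2
    refine ⟨c, ?_⟩
    rw [← hc]
    refine CStarMatrix.ext fun s t => ?_
    rw [CStarMatrix.sub_apply, CStarMatrix.sub_apply, hY, hone, hgg]
    rfl

end P095F
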