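import Vale.Agent.Lib.P095F.V1

/-!
# P095F, V1Final: the Cuntz-Pedersen theorem without order instances in the statement
-/

open scoped Topology

namespace P095F

universe u

theorem V1_main {A : Type u} [CStarAlgebra A] (e : A) (he : ∃ c : A, e = star c * c) (η : ℝ)
    (hη : 0 ≤ η) (hτ : ∀ τ ∈ TState A, (τ e).re ≤ η) (δ : ℝ) (hδ : 0 < δ) :
    ∃ (N : ℕ) (x : Fin N → A), ‖∑ i, star (x i) * x i - e‖ ≤ δ ∧
      ‖∑ i, x i * star (x i)‖ ≤ η + δ := by
  let _ : PartialOrder A := CStarAlgebra.spectralOrder A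
  have _ : StarOrderedRing A := CStarAlgebra.spectralOrderedRing A
  have he' : 0 ≤ e := by
    obtain ⟨c, rfl⟩ := he
    exact star_mul_self_nonneg c
  obtain ⟨N, x, h1, h2⟩ := cuntz_pedersen he' hη hτ hδ
  refine ⟨N, x, h1, ?_⟩
  have h3 : 0 ≤ ∑ i, x i * star (x i) := Finset.sum_nonneg fun i _ => mul_star_self_nonneg (x i)
  have h4 := (CStarAlgebra.norm_le_iff_le_algebraMap (∑ i, x i * star (x i))
    (by linarith : (0 : ℝ) ≤ η + δ) h3).2 h2
  exact h4

end P095F
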