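import Mathlib.Data.Int.Star
import Vale.Agent.Lib.P095F.V1Final
import Vale.Agent.Lib.P095F.V2a
import Vale.Agent.Lib.P095F.CAFull

/-!
# P095F, part V, module V5b: small pieces, rows

* `V5b_split`: `V1_main` (with `δ = min d1 η0`, `η = η0`) gives `y : Fin N' → A`; take `M ≥ 1` copies of
  `((√M)⁻¹ : ℂ) • y i` with `‖y i‖² ≤ M d1` for all `i`, index `Fin N' × Fin M ≃ Fin (N' * M)`
  (`finProdFinEquiv`); the sums do not change.
* `V5b_rows`: `Y l s = 1 * Y l s` with `1 = ∑ k, star (r k) * f * r k` (`f = star y * y`): the rows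
  `B (l, k) s = r k * Y l s`, `(l, k) ∈ Fin (2 n) × Fin L ≃ Fin (2 n L)`; restrict the columns along an
  injection `ι : Fin (2 n L + 1) → S` (`2 n L + 1 ≤ n (2 L + 1) = card S`); `if ι s = ι t` is
  `if s = t`; `posM_comp`.
-/

open scoped Topology

namespace P095F

universe u

variable {A : Type u} [CStarAlgebra A]

theorem V5b_split (e : A) (he : ∃ c : A, e = star c * c) {η0 : ℝ} (hη0 : 0 < η0)
    (hτ : ∀ τ ∈ TState A, (τ e).re ≤ η0) {d1 : ℝ} (hd1 : 0 < d1) :
    ∃ (N : ℕ) (x : Fin N → A), ‖∑ i, star (x i) * x i - e‖ ≤ d1 ∧ (∀ i, ‖x i‖ ^ 2 ≤ d1) ∧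
      ‖∑ i, x i * star (x i)‖ ≤ 2 * η0 := by
  obtain ⟨N', y, h1, h2⟩ := V1_main e he η0 hη0.le hτ (min d1 η0) (lt_min hd1 hη0)
  obtain ⟨M, hM1, hM⟩ : ∃ M : ℕ, 1 ≤ M ∧ ∀ i, ‖y i‖ ^ 2 ≤ M * d1 := by
    obtain ⟨M, hM⟩ := exists_nat_gt ((∑ i, ‖y i‖ ^ 2) / d1)
    refine ⟨M + 1, Nat.succ_le_succ (Nat.zero_le _), fun i => ?_⟩
    rw [div_lt_iff₀ hd1] at hM
    have h3 : ‖y i‖ ^ 2 ≤ ∑ i, ‖y i‖ ^ 2 :=
      Finset.single_le_sum (f := fun i => ‖y i‖ ^ 2) (fun i _ => sq_nonneg _) (Finset.mem_univ i)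
    push_cast
    linarith
  have hMr : (0 : ℝ) < M := by exact_mod_cast hM1
  have hsq : √(M : ℝ) * √(M : ℝ) = M := Real.mul_self_sqrt hMr.le
  have hs0 : 0 < √(M : ℝ) := Real.sqrt_pos.2 hMr
  have hcc : star ((((√(M : ℝ))⁻¹ : ℝ) : ℂ)) * (((√(M : ℝ))⁻¹ : ℝ) : ℂ) = ((M : ℂ))⁻¹ := by
    rw [RCLike.star_def, Complex.conj_ofReal, ← Complex.ofReal_mul, ← mul_inv, hsq]
    push_cast
    rfl
  have hcc' : (((√(M : ℝ))⁻¹ : ℝ) : ℂ) * star ((((√(M : ℝ))⁻¹ : ℝ) : ℂ)) = ((M : ℂ))⁻¹ := by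
    rw [mul_comm, hcc]
  have hMc : (M : ℂ) ≠ 0 := by exact_mod_cast hMr.ne'
  have key : ∀ z : Fin N' → A, ∑ k : Fin (N' * M), ((M : ℂ))⁻¹ • z (finProdFinEquiv.symm k).1 =
      ∑ i, z i := by
    intro z
    rw [Equiv.sum_comp finProdFinEquiv.symm (fun p : Fin N' × Fin M => ((M : ℂ))⁻¹ • z p.1),
      Fintype.sum_prod_type]
    refine Finset.sum_congr rfl fun i _ => ?_
    dsimp only
    rw [Finset.sum_const, Finset.card_univ, Fintype.card_fin, ← Nat.cast_smul_eq_nsmul ℂ,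
      smul_smul, mul_inv_cancel₀ hMc, one_smul]
  refine ⟨N' * M, fun k => (((√(M : ℝ))⁻¹ : ℝ) : ℂ) • y (finProdFinEquiv.symm k).1, ?_, ?_, ?_⟩
  · have h3 : ∑ k : Fin (N' * M), star ((((√(M : ℝ))⁻¹ : ℝ) : ℂ) • y (finProdFinEquiv.symm k).1) *
        ((((√(M : ℝ))⁻¹ : ℝ) : ℂ) • y (finProdFinEquiv.symm k).1) = ∑ i, star (y i) * y i := by
      rw [← key (fun i => star (y i) * y i)]
      refine Finset.sum_congr rfl fun k _ => ?_
      rw [star_smul, smul_mul_smul_comm, hcc]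
    rw [h3]
    exact h1.trans (min_le_left _ _)
  · intro k
    rw [norm_smul, mul_pow, Complex.norm_real, Real.norm_of_nonneg (inv_nonneg.2 hs0.le), inv_pow,
      Real.sq_sqrt hMr.le, inv_mul_le_iff₀ hMr]
    exact hM _
  · have h3 : ∑ k : Fin (N' * M), ((((√(M : ℝ))⁻¹ : ℝ) : ℂ) • y (finProdFinEquiv.symm k).1) *
        star ((((√(M : ℝ))⁻¹ : ℝ) : ℂ) • y (finProdFinEquiv.symm k).1) = ∑ i, y i * star (y i) := by
      rw [← key (fun i => y i * star (y i))]
      refine Finset.sum_congr rfl fun k _ => ?_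
      rw [star_smul, smul_mul_smul_comm, hcc']
    rw [h3]
    have h4 : min d1 η0 ≤ η0 := min_le_right _ _
    linarith

theorem V5b_rows {f : A} {L : ℕ} (r : Fin L → A) (hr : ∑ k, star (r k) * f * r k = 1) {n : ℕ}
    (hn : 1 ≤ n) {S : Type} [Fintype S] [DecidableEq S] (hS : Fintype.card S = n * (2 * L + 1))
    (Y : Fin (2 * n) → S → A) (a : A) {κ : ℝ}
    (hp : PosM (fun s t => (if s = t then (κ : ℂ) • (1 : A) else 0) +
      ((∑ l, star (Y l s) * Y l t) - if s = t then a else 0)))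
    (hm : PosM (fun s t => (if s = t then (κ : ℂ) • (1 : A) else 0) -
      ((∑ l, star (Y l s) * Y l t) - if s = t then a else 0))) :
    ∃ B : Fin (2 * n * L) → Fin (2 * n * L + 1) → A,
      PosM (fun s t => (if s = t then (κ : ℂ) • (1 : A) else 0) +
        ((∑ i, star (B i s) * f * B i t) - if s = t then a else 0)) ∧
      PosM (fun s t => (if s = t then (κ : ℂ) • (1 : A) else 0) -
        ((∑ i, star (B i s) * f * B i t) - if s = t then a else 0)) := by
  classical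
  have hcard : 2 * n * L + 1 ≤ Fintype.card S := by
    rw [hS]
    nlinarith
  obtain ⟨ι⟩ : Nonempty (Fin (2 * n * L + 1) ↪ S) :=
    Function.Embedding.nonempty_of_card_le (by rwa [Fintype.card_fin])
  have key : ∀ s t : Fin (2 * n * L + 1),
      ∑ i : Fin (2 * n * L), star (r (finProdFinEquiv.symm i).2 * Y (finProdFinEquiv.symm i).1 (ι s)) *
        f * (r (finProdFinEquiv.symm i).2 * Y (finProdFinEquiv.symm i).1 (ι t)) =
      ∑ l, star (Y l (ι s)) * Y l (ι t) := by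
    intro s t
    rw [Equiv.sum_comp finProdFinEquiv.symm (fun p : Fin (2 * n) × Fin L =>
      star (r p.2 * Y p.1 (ι s)) * f * (r p.2 * Y p.1 (ι t))), Fintype.sum_prod_type]
    refine Finset.sum_congr rfl fun l _ => ?_
    have h1 : star (Y l (ι s)) * Y l (ι t) =
        star (Y l (ι s)) * (∑ k, star (r k) * f * r k) * Y l (ι t) := by
      rw [hr, mul_one]
    rw [h1, Finset.mul_sum, Finset.sum_mul]
    refine Finset.sum_congr rfl fun k _ => ?_
    rw [star_mul]
    simp only [mul_assoc]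
  have hif : ∀ (b : A) (s t : Fin (2 * n * L + 1)),
      (if ι s = ι t then b else 0) = if s = t then b else 0 := by
    intro b s t
    by_cases h : s = t
    · rw [if_pos h, if_pos (by rw [h])]
    · rw [if_neg h, if_neg fun h' => h (ι.injective h')]
  refine ⟨fun i s => r (finProdFinEquiv.symm i).2 * Y (finProdFinEquiv.symm i).1 (ι s), ?_, ?_⟩
  · have h1 := posM_comp hp ι
    have h2 : (fun s t : Fin (2 * n * L + 1) => (if s = t then (κ : ℂ) • (1 : A) else 0) +
        ((∑ i : Fin (2 * n * L),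
          star (r (finProdFinEquiv.symm i).2 * Y (finProdFinEquiv.symm i).1 (ι s)) *
          f * (r (finProdFinEquiv.symm i).2 * Y (finProdFinEquiv.symm i).1 (ι t))) -
          if s = t then a else 0)) =
        fun s t => (if ι s = ι t then (κ : ℂ) • (1 : A) else 0) +
          ((∑ l, star (Y l (ι s)) * Y l (ι t)) - if ι s = ι t then a else 0) := by
      funext s t
      rw [key, hif, hif]
    rw [h2]
    exact h1
  · have h1 := posM_comp hm ι
    have h2 : (fun s t : Fin (2 * n * L + 1) => (if s = t then (κ : ℂ) • (1 : A) else 0) -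
        ((∑ i : Fin (2 * n * L),
          star (r (finProdFinEquiv.symm i).2 * Y (finProdFinEquiv.symm i).1 (ι s)) *
          f * (r (finProdFinEquiv.symm i).2 * Y (finProdFinEquiv.symm i).1 (ι t))) -
          if s = t then a else 0)) =
        fun s t => (if ι s = ι t then (κ : ℂ) • (1 : A) else 0) -
          ((∑ l, star (Y l (ι s)) * Y l (ι t)) - if ι s = ι t then a else 0) := by
      funext s t
      rw [key, hif, hif]
    rw [h2]
    exact h1

end P095F
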