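import Vale.Agent.Lib.P095F.V2f
import Vale.Agent.Lib.P095F.V3d
import Vale.Agent.Lib.P095F.V4b
import Vale.Agent.Lib.P095F.V5a
import Vale.Agent.Lib.P095F.V5b

/-!
# P095F, part V, module V5: `VeryWeakComparison` is automatic

`y ≠ 0`, `ε > 0`, `f = star y * y`; `exists_sum_eq_one`: `L`, `r` (`L ≥ 1` since `A` is nontrivial);
`m = 2 L + 1`, `δ = min 1 (ε / 4)`, `t = δ / 32`, `η0 = δ² / (4096 m)`, `d1 = δ / 64`:
`2 d1 + t + m (2 η0) / t ≤ δ / 8 =: c`.  `η := η0`.  For `e = star x * x`, `‖e‖ ≤ 1`: `V5b_split`, `V2_main`, `V3d_main`,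
`V5a_main` (with `κ = ε / 4`), `V5b_rows` and `V4_main` (`q = 2 n L`, `ε := κ`, `ε' = ε / 2`) give `r` with
`‖star r * f * r - a‖ ≤ ε / 2`, and `‖a - e‖ ≤ δ ≤ ε / 4`.
-/

open scoped Topology

namespace P095F

open P101

universe u

variable {A : Type u} [CStarAlgebra A]

theorem veryWeakComparison [IsSimpleRing A] [Nontrivial A] [TopologicalSpace.SeparableSpace A]
    (hA : CPAP A) {ω : Ultrafilter ℕ} (hω : (ω : Filter ℕ) ≤ Filter.cofinite)
    (hF : IsEmpty (FOmega ω A →⋆ₐ[ℂ] ℂ)) : VeryWeakComparison A := by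
  intro y hy ε hε
  obtain ⟨L, r, hr⟩ := exists_sum_eq_one (A := A) hy
  have hL : 1 ≤ L := by
    rcases Nat.eq_zero_or_pos L with h | h
    · subst h
      simp at hr
    · exact h
  set δ : ℝ := min 1 (ε / 4) with hδdef
  have hδ : 0 < δ := by positivity
  have hδ1 : δ ≤ 1 := min_le_left _ _
  have hδε : δ ≤ ε / 4 := min_le_right _ _
  set m : ℕ := 2 * L + 1 with hm
  have hm0 : (0 : ℝ) < (m : ℝ) := by
    rw [hm]
    positivity
  set η0 : ℝ := δ ^ 2 / (4096 * m) with hη0def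
  have hη0 : 0 < η0 := by positivity
  refine ⟨η0, hη0, fun x hx hτ => ?_⟩
  have he : ∃ c : A, star x * x = star c * c := ⟨x, rfl⟩
  have he1 : ‖star x * x‖ ≤ 1 := by
    rw [CStarRing.norm_star_mul_self]
    nlinarith [norm_nonneg x]
  obtain ⟨N, z, h1, h2, h3⟩ := V5b_split (star x * x) he hη0 hτ (d1 := δ / 64) (by positivity)
  have hc : 2 * (δ / 64) + δ / 32 + m * (2 * η0) / (δ / 32) ≤ δ / 8 := by
    have h4 : m * (2 * η0) / (δ / 32) = δ / 64 := by
      rw [hη0def]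
      field_simp
      ring
    rw [h4]
    linarith
  have hpos := V2_main (m := m) z (star x * x) he he1 h1 h2 h3 (t := δ / 32) (by positivity)
    (by linarith) hc
  have hes : star (star x * x) = star x * x := by rw [star_mul, star_star]
  obtain ⟨n, S, hS1, hS2, Z, hn, hcard, hZ⟩ := V3d_main hA z (star x * x) hes hδ
    (c := δ / 8) (by positivity) le_rfl hpos
  obtain ⟨a, ha, hcut⟩ := V5a_main (star x * x) he he1 hδ
  obtain ⟨Y, hY1, hY2⟩ := hcut Z hZ (ε / 4) (by positivity)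
  obtain ⟨B, hB1, hB2⟩ := V5b_rows r hr hn hcard Y a hY1 hY2
  have hq : 1 ≤ 2 * n * L := Nat.one_le_iff_ne_zero.2 (by positivity)
  obtain ⟨s, hs⟩ := V4_main hω hF hq a (star y * y) B (ε := ε / 4) (ε' := ε / 2) (by positivity)
    (by linarith) hB1 hB2
  refine ⟨s, ?_⟩
  have h5 : star s * (star y * y) * s - star x * x =
      (star s * (star y * y) * s - a) + (a - star x * x) := by abel
  rw [h5]
  refine (norm_add_le _ _).trans ?_
  linarith

end P095F
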