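import Mathlib
import Vale.Agent.Lib.P095F.LFinalA
import Vale.Agent.Lib.P095F.V5
import Vale.Agent.Lib.P095F.MUnital

/-!
# P095 stage 2: the final theorem for unital algebras
-/

open scoped ENNReal Topology TensorProduct
open Filter P101 P095E

namespace P095F

universe u v

theorem final {G : Type v} [Group G] [Countable G] {A Z B : Type u} [CStarAlgebra A]
    [CStarAlgebra Z] [CStarAlgebra B] [TopologicalSpace.SeparableSpace A] [Nontrivial A]
    [IsSimpleRing A] (hcp : NuclearCPAP A) (hG : AmenableGroup G)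
    (hZ : IsJiangSu Z) (m : A ⊗[ℂ] Z →⋆ₐ[ℂ] B) (hm : Function.Injective m) (hd : DenseRange m)
    (hA : Nonempty (A ≃⋆ₐ[ℂ] B)) (α : G →* (A ≃⋆ₐ[ℂ] A)) :
    ∃ γ : G →* (B ≃⋆ₐ[ℂ] B), IsTensorAction m α γ ∧ CocycleConjugate α γ := by
  refine final_of (fun ω hω hch => veryWeakComparison hcp hω hch) ?_ hcp hG hZ m hm hd hA α
  intro ω hω hch _ α β hβ
  have hcopies : HasCopies (FOmega ω A) := hasCopies_FOmega ω hω A
  have hZ' : ∀ n, 1 ≤ n → Nonempty (dimDrop n (n + 1) →⋆ₐ[ℂ] FOmega ω A) := by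
    intro n hn
    have : NeZero n := ⟨by omega⟩
    exact exists_hom_of_no_characters hcopies hch n
  have hS : StFam ω α (fun _ : Unit => TState A) := stFam_unital α
  obtain ⟨v, h1, h2, h3⟩ := exists_v hω hG hβ hZ'
  refine ⟨JJ hS, inferInstance, fun x => ?_, v, h1, ?_, ?_⟩
  · rw [mem_JJ]
    exact smQ_iff_inJ x
  · exact mem_JJ.2 ((smQ_iff_inJ _).2 h2)
  · exact mem_JJ.2 ((smQ_iff_inJ _).2 h3)

end P095F
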