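import Vale.Agent.Lib.P095F.MState

/-!
# P095F, part M: calculus of `SmQ`, `SmL` on `F`

* Independence of the representing sequence: if `[y] = [y']` then `‖y n - y' n‖ → 0`
  (`toUltrapower_eq_zero_iff`), the norms `‖y n‖, ‖y' n‖` are bounded (`lp.norm_apply_le_norm`), so by
  `PSt.diff_le` (resp. `PSt.norm_le`) the differences tend to `0` uniformly in the states.
* sums: `PSt.add_le`; left multiples: `PSt.mul_left_le` with `‖a n‖ ≤ ‖a‖`; `x ↦ star x`: `StFam.tr` applied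
  to `star y`, `y`; right multiples: `x a = star (star a * star x)`.
* action: `[y] = x` implies `[lpMap (α g) y] = β g x` (`Induces`), and `s ∘ α g ∈ S k'` (`StFam.inv`).
* closedness: if `x_j → x` choose `j` with `‖x - x_j‖ < δ`, representing sequences `y` of `x - x_j` and `z` of
  `x_j`, `‖y n‖ < δ` eventually (`eventually_norm_lt`); `PSt.add_le`, `PSt.sq_le`: the sum is `≤ 2 δ^2 + 2 δ`.
-/

open scoped ENNReal Topology
open Filter P101 P095E

namespace P095F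

universe u v

variable {ω : Ultrafilter ℕ} {A : Type u} [CStarAlgebra A] [Nontrivial A]
  {G : Type v} [Group G] {α : G →* (A ≃⋆ₐ[ℂ] A)} {κ : Type} {S : κ → Set (A →ₗ[ℂ] ℂ)}

/-- two representing sequences are close -/
theorem mj_close {y y' : lp (fun _ : ℕ => A) ∞} (h : toUltrapower ω A y = toUltrapower ω A y')
    {ε : ℝ} (hε : 0 < ε) : ∀ᶠ n in (ω : Filter ℕ), ‖y n - y' n‖ < ε := by
  have h1 : toUltrapower ω A (y - y') = 0 := by rw [map_sub, h, sub_self]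
  have h2 := (toUltrapower_eq_zero_iff ω A _).1 h1
  have h3 := (Metric.tendsto_nhds.1 h2) ε hε
  filter_upwards [h3] with n hn
  have h4 : (y - y') n = y n - y' n := rfl
  rw [h4] at hn
  simpa using hn

omit [Nontrivial A] in
theorem mj_bd (y : lp (fun _ : ℕ => A) ∞) (n : ℕ) : ‖y n‖ ≤ ‖y‖ :=
  lp.norm_apply_le_norm (by simp) y n

theorem mj_exists_rep (x : FOmega ω A) :
    ∃ y : lp (fun _ : ℕ => A) ∞, toUltrapower ω A y = (x : Ultrapower ω A) :=
  toUltrapower_surjective ω A _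

theorem SmQ.of_rep (hS : StFam ω α S) {x : FOmega ω A} {ε : ℝ} (y : lp (fun _ : ℕ => A) ∞)
    (hy : toUltrapower ω A y = (x : Ultrapower ω A))
    (h : ∀ k, ∀ ε' : ℝ, ε < ε' → ∀ᶠ n in (ω : Filter ℕ), ∀ s ∈ S k,
      (s (star (y n) * y n)).re ≤ ε') : SmQ ω S x ε := by
  intro k y' hy' ε' hε'
  have hC : 0 < ‖y'‖ + ‖y‖ + 1 := by positivity
  have hδ : 0 < (ε' - ε) / 2 := by linarith
  filter_upwards [h k (ε + (ε' - ε) / 2) (by linarith),
    mj_close (hy'.trans hy.symm) (div_pos hδ hC)] with n hn1 hn2 s hs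
  have h1 := (hS.st k s hs).diff_le (y' n) (y n)
  have h2 : (‖y' n‖ + ‖y n‖) * ‖y' n - y n‖ ≤ (ε' - ε) / 2 := by
    calc (‖y' n‖ + ‖y n‖) * ‖y' n - y n‖
        ≤ (‖y'‖ + ‖y‖ + 1) * ((ε' - ε) / 2 / (‖y'‖ + ‖y‖ + 1)) := by
          refine mul_le_mul ?_ hn2.le (norm_nonneg _) hC.le
          linarith [mj_bd y' n, mj_bd y n]
      _ = (ε' - ε) / 2 := by field_simp
  have h3 := (abs_le.1 (h1.trans h2)).2
  linarith [hn1 s hs]

theorem SmL.of_rep (hS : StFam ω α S) {x : FOmega ω A} {ε : ℝ} (y : lp (fun _ : ℕ => A) ∞)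
    (hy : toUltrapower ω A y = (x : Ultrapower ω A))
    (h : ∀ k, ∀ ε' : ℝ, ε < ε' → ∀ᶠ n in (ω : Filter ℕ), ∀ s ∈ S k, ‖s (y n)‖ ≤ ε') :
    SmL ω S x ε := by
  intro k y' hy' ε' hε'
  have hδ : 0 < (ε' - ε) / 2 := by linarith
  filter_upwards [h k (ε + (ε' - ε) / 2) (by linarith),
    mj_close (hy'.trans hy.symm) hδ] with n hn1 hn2 s hs
  have h1 := (hS.st k s hs).norm_le (y' n - y n)
  have h2 : s (y' n) = s (y n) + s (y' n - y n) := by rw [← map_add, add_sub_cancel]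
  rw [h2]
  refine (norm_add_le _ _).trans ?_
  linarith [hn1 s hs]

theorem SmQ.zero (hS : StFam ω α S) : SmQ ω S (0 : FOmega ω A) 0 := by
  refine SmQ.of_rep hS 0 (by rw [map_zero]; rfl) fun k ε' hε' => ?_
  refine Filter.Eventually.of_forall fun n s _ => ?_
  have : ((0 : lp (fun _ : ℕ => A) ∞)) n = 0 := rfl
  rw [this, mul_zero, map_zero, Complex.zero_re]
  exact hε'.le

theorem SmQ.add (hS : StFam ω α S) {x x' : FOmega ω A} (hx : SmQ ω S x 0)
    (hx' : SmQ ω S x' 0) : SmQ ω S (x + x') 0 := by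
  obtain ⟨y, hy⟩ := mj_exists_rep x
  obtain ⟨y', hy'⟩ := mj_exists_rep x'
  refine SmQ.of_rep hS (y + y') (by rw [map_add, hy, hy']; rfl) fun k ε' hε' => ?_
  filter_upwards [hx k y hy (ε' / 4) (by linarith), hx' k y' hy' (ε' / 4) (by linarith)]
    with n h1 h2 s hs
  have h3 := (hS.st k s hs).add_le (y n) (y' n)
  have h4 : (y + y') n = y n + y' n := rfl
  rw [h4]
  linarith [h1 s hs, h2 s hs]

theorem SmQ.mul_left (hS : StFam ω α S) (a : FOmega ω A) {x : FOmega ω A}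
    (hx : SmQ ω S x 0) : SmQ ω S (a * x) 0 := by
  obtain ⟨z, hz⟩ := mj_exists_rep a
  obtain ⟨y, hy⟩ := mj_exists_rep x
  have hC : 0 < ‖z‖ ^ 2 + 1 := by positivity
  refine SmQ.of_rep hS (z * y) (by rw [map_mul, hz, hy]; rfl) fun k ε' hε' => ?_
  filter_upwards [hx k y hy (ε' / (‖z‖ ^ 2 + 1)) (by positivity)] with n h1 s hs
  have h3 := (hS.st k s hs).mul_left_le (z n) (y n)
  have h4 : (z * y) n = z n * y n := rfl
  rw [h4]
  have h5 : ‖z n‖ ^ 2 ≤ ‖z‖ ^ 2 + 1 := by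
    have := pow_le_pow_left₀ (norm_nonneg _) (mj_bd z n) 2
    linarith
  have h6 := (hS.st k s hs).nonneg (y n)
  calc (s (star (z n * y n) * (z n * y n))).re ≤ ‖z n‖ ^ 2 * (s (star (y n) * y n)).re := h3
    _ ≤ (‖z‖ ^ 2 + 1) * (ε' / (‖z‖ ^ 2 + 1)) := mul_le_mul h5 (h1 s hs) h6 hC.le
    _ = ε' := by field_simp

theorem SmQ.star (hS : StFam ω α S) {x : FOmega ω A} (hx : SmQ ω S x 0) :
    SmQ ω S (star x) 0 := by
  obtain ⟨y, hy⟩ := mj_exists_rep x
  have hy' : toUltrapower ω A (Star.star y) = ((Star.star x : FOmega ω A) : Ultrapower ω A) := by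
    rw [map_star, hy]
    rfl
  refine SmQ.of_rep hS (Star.star y) hy' fun k ε' hε' => ?_
  have h0 := hS.tr k y (Star.star y) (by rw [hy]; exact x.2)
    (by rw [hy']; exact (Star.star x).2) (ε' / 2) (by linarith)
  filter_upwards [hx k y hy (ε' / 2) (by linarith), h0] with n h1 h2 s hs
  have h4 : (Star.star y) n = Star.star (y n) := rfl
  have h5 := h2 s hs
  rw [h4] at h5
  rw [h4, star_star]
  have h6 := (Complex.abs_re_le_norm _).trans h5
  rw [map_sub, Complex.sub_re] at h6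
  linarith [(abs_le.1 h6).2, h1 s hs]

theorem SmQ.mul_right (hS : StFam ω α S) (a : FOmega ω A) {x : FOmega ω A}
    (hx : SmQ ω S x 0) : SmQ ω S (x * a) 0 := by
  have h1 : x * a = Star.star (Star.star a * Star.star x) := by rw [star_mul, star_star, star_star]
  rw [h1]
  exact SmQ.star hS (SmQ.mul_left hS _ (SmQ.star hS hx))

theorem SmQ.equiv (hS : StFam ω α S) {β : G →* (FOmega ω A ≃⋆ₐ[ℂ] FOmega ω A)}
    (hβ : ∀ g, Induces ω (α g) (β g)) (g : G) {x : FOmega ω A} {ε : ℝ} (hx : SmQ ω S x ε) :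
    SmQ ω S (β g x) ε := by
  obtain ⟨y, hy⟩ := mj_exists_rep x
  refine SmQ.of_rep hS (lpMap ((α g : A ≃⋆ₐ[ℂ] A) : A →⋆ₐ[ℂ] A) y) (hβ g x y hy).symm
    fun k ε' hε' => ?_
  obtain ⟨k', hk'⟩ := hS.inv g k
  filter_upwards [hx k' y hy ε' hε'] with n h1 s hs
  obtain ⟨s', hs', hss⟩ := hk' s hs
  have h2 := h1 s' hs'
  rw [hss, map_mul, map_star] at h2
  exact h2

theorem smQ_isClosed (hS : StFam ω α S) : IsClosed {x : FOmega ω A | SmQ ω S x 0} := by
  rw [← isSeqClosed_iff_isClosed]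
  intro u x hu hux
  rw [Metric.tendsto_atTop] at hux
  obtain ⟨y, hy⟩ := mj_exists_rep x
  refine SmQ.of_rep hS y hy fun k ε' hε' => ?_
  have hδ : 0 < min 1 (ε' / 4) := lt_min one_pos (by linarith)
  obtain ⟨N, hN⟩ := hux (min 1 (ε' / 4)) hδ
  have h1 := hN N le_rfl
  obtain ⟨z, hz⟩ := mj_exists_rep (u N)
  have h2 : ‖toUltrapower ω A (y - z)‖ < min 1 (ε' / 4) := by
    rw [map_sub, hy, hz]
    rw [dist_comm, dist_eq_norm] at h1
    exact h1
  have h3 : SmQ ω S (u N) 0 := hu N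
  filter_upwards [eventually_norm_lt ω A (y - z) h2, h3 k z hz (ε' / 4) (by linarith)]
    with n h4 h5 s hs
  have h6 : (y - z) n = y n - z n := rfl
  rw [h6] at h4
  have h7 := (hS.st k s hs).add_le (y n - z n) (z n)
  rw [sub_add_cancel] at h7
  have h8 := (hS.st k s hs).sq_le (y n - z n)
  have h9 : ‖y n - z n‖ ^ 2 ≤ ε' / 4 := by
    have h10 : ‖y n - z n‖ ≤ 1 := h4.le.trans (min_le_left _ _)
    have h11 : ‖y n - z n‖ ≤ ε' / 4 := h4.le.trans (min_le_right _ _)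
    nlinarith [norm_nonneg (y n - z n)]
  linarith [h5 s hs]

end P095F
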