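import Vale.Agent.Lib.P095F.MDefs

/-!
# P095F, part M: liftable maps

Closure properties.  For constants `b : F` choose a representing sequence `yb` and take
`cn n _ = yb n`; for products the sequence `z * z'`, etc.; for the automorphisms `β g` the sequence
`lpMap (α g) z` (`Induces`).  M-level: compose (constants by `Quo.surj`, automorphisms by `Quo.equiv`).
-/

open scoped ENNReal Topology
open Filter P101 P095E

namespace P095F

universe u v

variable {ω : Ultrafilter ℕ} {A : Type u} [CStarAlgebra A] [Nontrivial A] {V : Type}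
  {c c' : (V → FOmega ω A) → FOmega ω A}

theorem Liftable.proj (v : V) : Liftable ω (fun x : V → FOmega ω A => x v) :=
  ⟨fun _ y => y v, fun _ y hy => ⟨y v, fun _ => rfl, hy v⟩⟩

theorem Liftable.const (b : FOmega ω A) : Liftable ω (fun _ : V → FOmega ω A => b) := by
  obtain ⟨z, hz⟩ := quotMk_surjective (cNull ω A) (b : Ultrapower ω A)
  exact ⟨fun n _ => z n, fun _ _ _ => ⟨z, fun _ => rfl, hz⟩⟩

theorem Liftable.star (hc : Liftable ω c) : Liftable ω (fun x => star (c x)) := by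
  obtain ⟨cn, h⟩ := hc
  refine ⟨fun n y => Star.star (cn n y), fun x y hy => ?_⟩
  obtain ⟨z, hz, hz'⟩ := h x y hy
  refine ⟨Star.star z, fun n => ?_, ?_⟩
  · beta_reduce
    rw [← hz n]
    rfl
  · rw [map_star, hz']
    rfl

theorem Liftable.add (hc : Liftable ω c) (hc' : Liftable ω c') :
    Liftable ω (fun x => c x + c' x) := by
  obtain ⟨cn, h⟩ := hc
  obtain ⟨cn', h'⟩ := hc'
  refine ⟨fun n y => cn n y + cn' n y, fun x y hy => ?_⟩
  obtain ⟨z, hz, hz1⟩ := h x y hy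
  obtain ⟨z', hz', hz1'⟩ := h' x y hy
  refine ⟨z + z', fun n => ?_, ?_⟩
  · beta_reduce
    rw [← hz n, ← hz' n]
    rfl
  · rw [map_add, hz1, hz1']
    rfl

theorem Liftable.sub (hc : Liftable ω c) (hc' : Liftable ω c') :
    Liftable ω (fun x => c x - c' x) := by
  obtain ⟨cn, h⟩ := hc
  obtain ⟨cn', h'⟩ := hc'
  refine ⟨fun n y => cn n y - cn' n y, fun x y hy => ?_⟩
  obtain ⟨z, hz, hz1⟩ := h x y hy
  obtain ⟨z', hz', hz1'⟩ := h' x y hy
  refine ⟨z - z', fun n => ?_, ?_⟩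
  · beta_reduce
    rw [← hz n, ← hz' n]
    rfl
  · rw [map_sub, hz1, hz1']
    rfl

theorem Liftable.mul (hc : Liftable ω c) (hc' : Liftable ω c') :
    Liftable ω (fun x => c x * c' x) := by
  obtain ⟨cn, h⟩ := hc
  obtain ⟨cn', h'⟩ := hc'
  refine ⟨fun n y => cn n y * cn' n y, fun x y hy => ?_⟩
  obtain ⟨z, hz, hz1⟩ := h x y hy
  obtain ⟨z', hz', hz1'⟩ := h' x y hy
  refine ⟨z * z', fun n => ?_, ?_⟩
  · beta_reduce
    rw [← hz n, ← hz' n]
    rfl
  · rw [map_mul, hz1, hz1']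
    rfl

theorem Liftable.smul (r : ℂ) (hc : Liftable ω c) : Liftable ω (fun x => r • c x) := by
  obtain ⟨cn, h⟩ := hc
  refine ⟨fun n y => r • cn n y, fun x y hy => ?_⟩
  obtain ⟨z, hz, hz1⟩ := h x y hy
  refine ⟨r • z, fun n => ?_, ?_⟩
  · beta_reduce
    rw [← hz n]
    rfl
  · rw [map_smul, hz1]
    rfl

theorem Liftable.aut {a : A ≃⋆ₐ[ℂ] A} {b : FOmega ω A ≃⋆ₐ[ℂ] FOmega ω A} (h : Induces ω a b)
    (hc : Liftable ω c) : Liftable ω (fun x => b (c x)) := by
  obtain ⟨cn, hcn⟩ := hc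
  refine ⟨fun n y => a (cn n y), fun x y hy => ?_⟩
  obtain ⟨z, hz, hz1⟩ := hcn x y hy
  refine ⟨lpMap (a : A →⋆ₐ[ℂ] A) z, fun n => ?_, ?_⟩
  · beta_reduce
    rw [← hz n]
    rfl
  · exact (h (c x) z hz1).symm

theorem Liftable.sum {ι : Type} (s : Finset ι) (d : ι → (V → FOmega ω A) → FOmega ω A)
    (hd : ∀ i, Liftable ω (d i)) : Liftable ω (fun x => ∑ i ∈ s, d i x) := by
  classical
  induction s using Finset.induction_on with
  | empty =>
    simp only [Finset.sum_empty]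
    exact Liftable.const 0
  | insert i s hi ih =>
    simp only [Finset.sum_insert hi]
    exact (hd i).add ih

section M

variable {M : Type u} [CStarAlgebra M] {p : FOmega ω A →⋆ₐ[ℂ] M} {d d' : (V → M) → M}

theorem MLiftable.proj (v : V) : MLiftable ω p (fun x : V → M => x v) :=
  ⟨fun x => x v, Liftable.proj v, fun _ => rfl⟩

theorem MLiftable.const (hp : Function.Surjective p) (b : M) :
    MLiftable ω p (fun _ : V → M => b) := by
  obtain ⟨b', hb'⟩ := hp b
  exact ⟨fun _ => b', Liftable.const b', fun _ => hb'.symm⟩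

theorem MLiftable.star (hd : MLiftable ω p d) : MLiftable ω p (fun x => star (d x)) := by
  obtain ⟨e, he, h⟩ := hd
  refine ⟨_, he.star, fun x => ?_⟩
  simp only [h x, map_star]

theorem MLiftable.add (hd : MLiftable ω p d) (hd' : MLiftable ω p d') :
    MLiftable ω p (fun x => d x + d' x) := by
  obtain ⟨e, he, h⟩ := hd
  obtain ⟨e', he', h'⟩ := hd'
  refine ⟨_, he.add he', fun x => ?_⟩
  simp only [h x, h' x, map_add]

theorem MLiftable.sub (hd : MLiftable ω p d) (hd' : MLiftable ω p d') :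
    MLiftable ω p (fun x => d x - d' x) := by
  obtain ⟨e, he, h⟩ := hd
  obtain ⟨e', he', h'⟩ := hd'
  refine ⟨_, he.sub he', fun x => ?_⟩
  simp only [h x, h' x, map_sub]

theorem MLiftable.mul (hd : MLiftable ω p d) (hd' : MLiftable ω p d') :
    MLiftable ω p (fun x => d x * d' x) := by
  obtain ⟨e, he, h⟩ := hd
  obtain ⟨e', he', h'⟩ := hd'
  refine ⟨_, he.mul he', fun x => ?_⟩
  simp only [h x, h' x, map_mul]

theorem MLiftable.smul (r : ℂ) (hd : MLiftable ω p d) : MLiftable ω p (fun x => r • d x) := by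
  obtain ⟨e, he, h⟩ := hd
  refine ⟨_, he.smul r, fun x => ?_⟩
  simp only [h x, map_smul]

theorem MLiftable.sum {ι : Type} (s : Finset ι) (e : ι → (V → M) → M)
    (he : ∀ i, MLiftable ω p (e i)) : MLiftable ω p (fun x => ∑ i ∈ s, e i x) := by
  classical
  choose f hf h using he
  refine ⟨_, Liftable.sum s f hf, fun x => ?_⟩
  simp only [h _ x, map_sum]

theorem MLiftable.aut {G : Type v} [Group G] {α : G →* (A ≃⋆ₐ[ℂ] A)} {κ : Type}
    {S : κ → Set (A →ₗ[ℂ] ℂ)} {β : G →* (FOmega ω A ≃⋆ₐ[ℂ] FOmega ω A)}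
    (hβ : ∀ g, Induces ω (α g) (β g)) {αM : G →* (M ≃⋆ₐ[ℂ] M)} (hQ : Quo ω S β p αM) (g : G)
    (hd : MLiftable ω p d) : MLiftable ω p (fun x => αM g (d x)) := by
  obtain ⟨e, he, h⟩ := hd
  refine ⟨_, he.aut (hβ g), fun x => ?_⟩
  simp only [h x]
  exact hQ.equiv g (e x)

end M

end P095F
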