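import Vale.Agent.Lib.P095F.MTest
import Vale.Agent.Lib.P095F.MJ
import Vale.Agent.Lib.P095F.MLift

/-!
# P095F, part M: saturation of `F`

`eps_test_prop` with `B = V → A` and the conditions (`a : ℕ → A` a dense sequence)
* `‖s v‖ ≤ R + ε` (`v : V`), `‖s v * a j - a j * s v‖ ≤ ε` (`v : V`, `j : ℕ`),
* for `i` of kind `N`: `‖cn i n s‖ ≤ ε`, of kind `Q` and `k : κ`: `(st (star (cn i n s) * cn i n s)).re ≤ ε` for all `st ∈ S k`,
  of kind `L` and `k : κ`: `‖st (cn i n s)‖ ≤ ε` for all `st ∈ S k`, where `cn i` is from `Liftable (c i)`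
  (for example one index type `V ⊕ (V × ℕ) ⊕ (ι × Option κ)`).
For finitely many conditions and `ε` take `x` from the hypothesis (for `ε/2`), representing sequences `y v`
of `x v`: `‖y v n‖ < R + ε` eventually (`eventually_norm_lt`), the commutators: `eventually_comm_lt`, and the
conditions of kind N, Q, L hold eventually for the sequence `z` of `Liftable`.
Conversely from the sequence `s` of the test define `y v n = s n v` if `‖s n v‖ ≤ R + 1`, and `0`
otherwise; in `lp`; for `ω`-all `n`: `y v n = s n v` for all `v`.  Its class is in `F`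
(`mem_centralSeq_of_commute`, `commute_of_eventually`, density of `a`), and `norm_toUltrapower_le`,
`SmQ.of_rep`, `SmL.of_rep` for the sequence `z` of `Liftable`.
-/

open scoped ENNReal Topology
open Filter P101 P095E

namespace P095F

universe u v w

/-- the condition on one element of `A` -/
def msat_cond {A : Type u} [CStarAlgebra A] {κ : Type} (S : κ → Set (A →ₗ[ℂ] ℂ)) :
    Kind → Option κ → A → ℝ → Prop
  | Kind.N, none, x, ε => ‖x‖ ≤ ε
  | Kind.Q, some k, x, ε => ∀ s ∈ S k, (s (star x * x)).re ≤ ε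
  | Kind.L, some k, x, ε => ∀ s ∈ S k, ‖s x‖ ≤ ε
  | _, _, _, _ => True

theorem msat_cond_mono {A : Type u} [CStarAlgebra A] {κ : Type} {S : κ → Set (A →ₗ[ℂ] ℂ)}
    (kd : Kind) (o : Option κ) (x : A) {ε ε' : ℝ} (h : ε ≤ ε') (hx : msat_cond S kd o x ε) :
    msat_cond S kd o x ε' := by
  rcases kd with _ | _ | _ <;> rcases o with _ | k
  · exact le_trans hx h
  · trivial
  · trivial
  · exact fun s hs => (hx s hs).trans h
  · trivial
  · exact fun s hs => (hx s hs).trans h

/-- the conditions of the test -/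
def msat_P {A : Type u} [CStarAlgebra A] {κ : Type} (S : κ → Set (A →ₗ[ℂ] ℂ)) {V : Type}
    {ι : Type w} (kd : ι → Kind) (R : ℝ) (a : ℕ → A) (cn : ι → ℕ → (V → A) → A) :
    (V ⊕ ((V × ℕ) ⊕ (ι × Option κ))) → ℕ → ℝ → (V → A) → Prop
  | Sum.inl v, _, ε, s => ‖s v‖ ≤ R + ε
  | Sum.inr (Sum.inl (v, j)), _, ε, s => ‖s v * a j - a j * s v‖ ≤ ε
  | Sum.inr (Sum.inr (i, o)), n, ε, s => msat_cond S (kd i) o (cn i n s) ε

variable {ω : Ultrafilter ℕ} {A : Type u} [CStarAlgebra A] [Nontrivial A]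
  {G : Type v} [Group G] {α : G →* (A ≃⋆ₐ[ℂ] A)} {κ : Type} {S : κ → Set (A →ₗ[ℂ] ℂ)}

/-- small elements satisfy the conditions eventually -/
theorem msat_cond_of_small {kd : Kind} {x : FOmega ω A} {ε ε' : ℝ} (hε : ε < ε')
    (hx : Small ω S kd x ε) (o : Option κ) (z : lp (fun _ : ℕ => A) ∞)
    (hz : toUltrapower ω A z = (x : Ultrapower ω A)) :
    ∀ᶠ n in (ω : Filter ℕ), msat_cond S kd o (z n) ε' := by
  rcases kd with _ | _ | _ <;> rcases o with _ | k
  · have h1 : ‖toUltrapower ω A z‖ < ε' := by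
      rw [hz]
      exact lt_of_le_of_lt hx hε
    filter_upwards [eventually_norm_lt ω A z h1] with n hn
    exact hn.le
  · exact Filter.Eventually.of_forall fun _ => trivial
  · exact Filter.Eventually.of_forall fun _ => trivial
  · exact hx k z hz ε' hε
  · exact Filter.Eventually.of_forall fun _ => trivial
  · exact hx k z hz ε' hε

/-- and conversely -/
theorem msat_small_of_cond (hS : StFam ω α S) {kd : Kind} {x : FOmega ω A}
    (z : lp (fun _ : ℕ => A) ∞) (hz : toUltrapower ω A z = (x : Ultrapower ω A))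
    (h : ∀ (o : Option κ) (ε : ℝ), 0 < ε → ∀ᶠ n in (ω : Filter ℕ), msat_cond S kd o (z n) ε) :
    Small ω S kd x 0 := by
  rcases kd with _ | _ | _
  · change ‖x‖ ≤ 0
    have h1 : ‖toUltrapower ω A z‖ ≤ 0 := by
      refine norm_toUltrapower_le ω A z le_rfl fun ε hε => ?_
      filter_upwards [h none ε hε] with n hn
      rw [zero_add]
      exact hn
    rw [hz] at h1
    exact h1
  · exact SmQ.of_rep hS z hz fun k ε' hε' => h (some k) ε' hε'
  · exact SmL.of_rep hS z hz fun k ε' hε' => h (some k) ε' hε'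

omit [Nontrivial A] in
theorem msat_memlp (R : ℝ) (s : ℕ → A) :
    Memℓp (fun n => if ‖s n‖ ≤ R then s n else (0 : A)) ∞ := by
  refine memℓp_infty ⟨max R 0, ?_⟩
  rintro _ ⟨n, rfl⟩
  by_cases hn : ‖s n‖ ≤ R
  · simp only [hn, if_true]
    exact le_max_of_le_left hn
  · simp only [hn, if_false, norm_zero]
    exact le_max_right _ _

/-- the class of `y` is central if `y` almost commutes with a dense sequence -/
theorem msat_central (a : ℕ → A) (ha : DenseRange a) (y : lp (fun _ : ℕ => A) ∞)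
    (h : ∀ (j : ℕ) (ε : ℝ), 0 < ε → ∀ᶠ n in (ω : Filter ℕ), ‖y n * a j - a j * y n‖ ≤ ε) :
    toUltrapower ω A y ∈ centralSeq ω A := by
  refine mem_centralSeq_of_commute ω A fun b => commute_of_eventually ω A fun ε hε => ?_
  have hC : 0 < ‖y‖ + 1 := by positivity
  obtain ⟨j, hj⟩ := ha.exists_dist_lt b (show 0 < ε / (4 * (‖y‖ + 1)) by positivity)
  rw [dist_eq_norm] at hj
  filter_upwards [h j (ε / 4) (by linarith)] with n hn
  have h1 : (constSeq A b) n = b := rfl
  rw [h1]
  have h2 : y n * b - b * y n = (y n * a j - a j * y n) + (y n * (b - a j) - (b - a j) * y n) := by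
    noncomm_ring
  rw [h2]
  have h3 : ‖y n * (b - a j)‖ ≤ ε / 4 := by
    refine (norm_mul_le _ _).trans ?_
    calc ‖y n‖ * ‖b - a j‖ ≤ (‖y‖ + 1) * (ε / (4 * (‖y‖ + 1))) :=
          mul_le_mul (by linarith [mj_bd y n]) hj.le (norm_nonneg _) hC.le
      _ = ε / 4 := by field_simp
  have h4 : ‖(b - a j) * y n‖ ≤ ε / 4 := by
    refine (norm_mul_le _ _).trans ?_
    calc ‖b - a j‖ * ‖y n‖ ≤ (ε / (4 * (‖y‖ + 1))) * (‖y‖ + 1) :=
          mul_le_mul hj.le (by linarith [mj_bd y n]) (norm_nonneg _) (by positivity)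
      _ = ε / 4 := by field_simp
  calc ‖(y n * a j - a j * y n) + (y n * (b - a j) - (b - a j) * y n)‖
      ≤ ‖y n * a j - a j * y n‖ + (‖y n * (b - a j)‖ + ‖(b - a j) * y n‖) :=
        (norm_add_le _ _).trans (by gcongr; exact norm_sub_le _ _)
    _ ≤ ε / 4 + (ε / 4 + ε / 4) := by linarith
    _ < ε := by linarith

/-- saturation of `F` -/
theorem sat (hω : (ω : Filter ℕ) ≤ Filter.cofinite) [TopologicalSpace.SeparableSpace A]
    [Countable κ] (hS : StFam ω α S) {V : Type} [Finite V] {ι : Type w} [Countable ι]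
    (kd : ι → Kind) (c : ι → (V → FOmega ω A) → FOmega ω A) (hc : ∀ i, Liftable ω (c i)) (R : ℝ)
    (h : ∀ (I : Finset ι) (ε : ℝ), 0 < ε → ∃ x : V → FOmega ω A, (∀ v, ‖x v‖ ≤ R) ∧
      ∀ i ∈ I, Small ω S (kd i) (c i x) ε) :
    ∃ x : V → FOmega ω A, (∀ v, ‖x v‖ ≤ R + 1) ∧ ∀ i, Small ω S (kd i) (c i x) 0 := by
  classical
  obtain ⟨a, ha⟩ := TopologicalSpace.exists_dense_seq A
  choose cn hcn using hc
  obtain ⟨s, hs⟩ := eps_test_prop hω (msat_P S kd R a cn)
    (by
      rintro (v | ⟨v, j⟩ | ⟨i, o⟩) n ε ε' b hε hb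
      · exact le_trans hb (by linarith)
      · exact le_trans hb hε
      · exact msat_cond_mono _ _ _ hε hb)
    (by
      intro I ε hε
      obtain ⟨x, hx1, hx2⟩ := h
        (I.biUnion fun q => match q with
          | Sum.inr (Sum.inr (i, _)) => {i}
          | _ => ∅) (ε / 2) (half_pos hε)
      choose y hy using fun v => mj_exists_rep (x v)
      refine ⟨fun n v => y v n, ?_⟩
      rintro (v | ⟨v, j⟩ | ⟨i, o⟩) hq
      · have h1 : ‖toUltrapower ω A (y v)‖ < R + ε := by
          rw [hy v]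
          have := hx1 v
          have h2 : ‖((x v : FOmega ω A) : Ultrapower ω A)‖ = ‖x v‖ := rfl
          rw [h2]
          linarith
        filter_upwards [eventually_norm_lt ω A (y v) h1] with n hn
        exact hn.le
      · filter_upwards [eventually_comm_lt ω A (by rw [hy v]; exact (x v).2) (a j) hε] with n hn
        exact hn.le
      · have hi : Small ω S (kd i) (c i x) (ε / 2) := by
          refine hx2 i (Finset.mem_biUnion.2 ⟨_, hq, ?_⟩)
          exact Finset.mem_singleton_self i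
        obtain ⟨z, hz1, hz2⟩ := hcn i x y hy
        filter_upwards [msat_cond_of_small (half_lt_self hε) hi o z hz2] with n hn
        rw [hz1 n] at hn
        exact hn)
  let y : V → lp (fun _ : ℕ => A) ∞ := fun v =>
    ⟨fun n => if ‖s n v‖ ≤ R + 1 then s n v else 0, msat_memlp (R + 1) fun n => s n v⟩
  have hyn : ∀ v n, y v n = if ‖s n v‖ ≤ R + 1 then s n v else 0 := fun v n => rfl
  have hev : ∀ᶠ n in (ω : Filter ℕ), ∀ v, y v n = s n v := by
    rw [Filter.eventually_all]
    intro v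
    filter_upwards [hs (Sum.inl v) 1 one_pos] with n hn
    rw [hyn, if_pos (show ‖s n v‖ ≤ R + 1 from hn)]
  have hcen : ∀ v, toUltrapower ω A (y v) ∈ centralSeq ω A := by
    intro v
    refine msat_central a ha (y v) fun j ε hε => ?_
    filter_upwards [hev, hs (Sum.inr (Sum.inl (v, j))) ε hε] with n h1 h2
    rw [h1 v]
    exact h2
  refine ⟨fun v => ⟨toUltrapower ω A (y v), hcen v⟩, fun v => ?_, fun i => ?_⟩
  · have hR : 0 ≤ R := by
      obtain ⟨x, hx, -⟩ := h ∅ 1 one_pos
      exact (norm_nonneg _).trans (hx v)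
    change ‖toUltrapower ω A (y v)‖ ≤ R + 1
    refine norm_toUltrapower_le ω A (y v) (by linarith) fun ε hε => ?_
    refine Filter.Eventually.of_forall fun n => ?_
    rw [hyn]
    split_ifs with h1
    · linarith
    · rw [norm_zero]; linarith
  · obtain ⟨z, hz1, hz2⟩ := hcn i (fun v => ⟨toUltrapower ω A (y v), hcen v⟩) y (fun v => rfl)
    refine msat_small_of_cond hS z hz2 fun o ε hε => ?_
    filter_upwards [hev, hs (Sum.inr (Sum.inr (i, o))) ε hε] with n h1 h2
    rw [hz1 n]
    have h3 : (fun v => y v n) = s n := funext h1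
    rw [h3]
    exact h2

end P095F
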