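import Vale.Agent.Lib.P095F.MDefs
import Vale.Agent.Lib.P095F.PTrBasic

/-!
# P095F, part M: facts on states
-/

open scoped Topology ComplexConjugate

namespace P095F

universe u v

variable {A : Type u} [CStarAlgebra A] {s : A →ₗ[ℂ] ℂ}

theorem PSt.one_im (h : PSt s) : (s 1).im = 0 := by
  rw [h.one, Complex.one_im]

theorem PSt.star_map (h : PSt s) (x : A) : s (star x) = conj (s x) := by
  have h1 := h.im_eq (1 + x)
  have h2 := h.im_eq (1 + Complex.I • x)
  have hx := h.im_eq x
  have h0 := h.one_im
  have e1 : star (1 + x) * (1 + x) = 1 + x + star x + star x * x := by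
    rw [star_add, star_one, add_mul, mul_add, mul_add, one_mul, mul_one, one_mul]
    abel
  have e2 : star (1 + Complex.I • x) * (1 + Complex.I • x) =
      1 + Complex.I • x - Complex.I • star x + star x * x := by
    rw [star_add, star_one, star_smul, add_mul, mul_add, mul_add, one_mul, mul_one, one_mul,
      smul_mul_smul_comm]
    simp only [RCLike.star_def, Complex.conj_I, neg_mul, Complex.I_mul_I, neg_neg, one_smul,
      neg_smul]
    abel
  rw [e1, map_add, map_add, map_add, Complex.add_im, Complex.add_im, Complex.add_im, h0, hx] at h1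
  rw [e2, map_add, map_sub, map_add, map_smul, map_smul, Complex.add_im, Complex.sub_im,
    Complex.add_im, h0, hx] at h2
  simp only [smul_eq_mul, Complex.mul_im, Complex.I_re, Complex.I_im, zero_mul, one_mul,
    zero_add, add_zero] at h1 h2
  apply Complex.ext
  · rw [Complex.conj_re]
    linarith
  · rw [Complex.conj_im]
    linarith

/-- the semi-inner product `s(x* y)` -/
@[instance_reducible]
noncomputable def PSt.core (h : PSt s) : PreInnerProductSpace.Core ℂ A where
  inner x y := s (star x * y)
  conj_inner_symm x y := by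
    rw [← h.star_map, star_mul, star_star]
  re_inner_nonneg x := h.nonneg x
  add_left x y z := by
    rw [star_add, add_mul, map_add]
  smul_left x y r := by
    rw [star_smul, smul_mul_assoc, map_smul]
    rfl

/-- Cauchy-Schwarz -/
theorem PSt.cs_sq (h : PSt s) (x y : A) :
    ‖s (star x * y)‖ ^ 2 ≤ (s (star x * x)).re * (s (star y * y)).re := by
  have h1 := @InnerProductSpace.Core.inner_mul_inner_self_le ℂ A _ _ _ h.core x y
  have h2 : ‖s (star y * x)‖ = ‖s (star x * y)‖ := by
    have : star y * x = star (star x * y) := by rw [star_mul, star_star]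
    rw [this, h.star_map, Complex.norm_conj]
  have h3 : ‖s (star x * y)‖ * ‖s (star y * x)‖ ≤ (s (star x * x)).re * (s (star y * y)).re := h1
  rw [h2] at h3
  rw [pow_two]
  exact h3

theorem PSt.norm_sq_le (h : PSt s) (x : A) : ‖s x‖ ^ 2 ≤ (s (star x * x)).re := by
  have h1 := h.cs_sq 1 x
  rwa [star_one, one_mul, one_mul, h.one, Complex.one_re, one_mul] at h1

theorem PSt.mul_left_le (h : PSt s) (a x : A) :
    (s (star (a * x) * (a * x))).re ≤ ‖a‖ ^ 2 * (s (star x * x)).re := by
  let _ : PartialOrder A := CStarAlgebra.spectralOrder A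
  have : StarOrderedRing A := CStarAlgebra.spectralOrderedRing A
  have h1 : star x * (star a * a) * x ≤ star x * (algebraMap ℝ A (‖a‖ ^ 2)) * x :=
    star_left_conjugate_le_conjugate (star_mul_self_le_norm a) x
  have h2 : 0 ≤ star x * (algebraMap ℝ A (‖a‖ ^ 2)) * x - star x * (star a * a) * x :=
    sub_nonneg.2 h1
  obtain ⟨w, hw⟩ := CStarAlgebra.nonneg_iff_eq_star_mul_self.1 h2
  have h3 := h.nonneg w
  rw [← hw, map_sub, Complex.sub_re] at h3
  have h4 : (s (star x * (algebraMap ℝ A (‖a‖ ^ 2)) * x)).re =
      ‖a‖ ^ 2 * (s (star x * x)).re := by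
    rw [Algebra.algebraMap_eq_smul_one, ← Complex.coe_smul, mul_smul_comm, mul_one,
      smul_mul_assoc, map_smul, smul_eq_mul, Complex.re_ofReal_mul]
  have h5 : star (a * x) * (a * x) = star x * (star a * a) * x := by
    rw [star_mul]
    simp only [mul_assoc]
  rw [h5]
  linarith

theorem PSt.sq_le (h : PSt s) (x : A) : (s (star x * x)).re ≤ ‖x‖ ^ 2 := by
  have h1 := h.mul_left_le x 1
  rwa [mul_one, star_one, one_mul, h.one, Complex.one_re, mul_one] at h1

theorem PSt.norm_le (h : PSt s) (x : A) : ‖s x‖ ≤ ‖x‖ :=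
  abs_le_of_sq_le_sq' ((h.norm_sq_le x).trans (h.sq_le x)) (norm_nonneg x) |>.2

theorem PSt.add_le (h : PSt s) (x y : A) : (s (star (x + y) * (x + y))).re ≤
    2 * (s (star x * x)).re + 2 * (s (star y * y)).re := by
  have h1 : star (x + y) * (x + y) + star (x - y) * (x - y) =
      (2 : ℂ) • (star x * x) + (2 : ℂ) • (star y * y) := by
    rw [star_add, star_sub, two_smul, two_smul]
    noncomm_ring
  have h2 := congrArg (fun z => (s z).re) h1
  simp only [map_add, map_smul, smul_eq_mul, Complex.add_re] at h2
  have h3 := h.nonneg (x - y)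
  have h4 : ∀ z : ℂ, (2 * z).re = 2 * z.re := fun z => by simp
  rw [h4, h4] at h2
  linarith

/-- continuity of `s(x* x)` in `x` -/
theorem PSt.diff_le (h : PSt s) (x y : A) :
    |(s (star x * x)).re - (s (star y * y)).re| ≤ (‖x‖ + ‖y‖) * ‖x - y‖ := by
  have h1 : star x * x - star y * y = star x * (x - y) + star (x - y) * y := by
    rw [star_sub]
    noncomm_ring
  rw [← Complex.sub_re, ← map_sub, h1]
  refine (Complex.abs_re_le_norm _).trans ((h.norm_le _).trans ((norm_add_le _ _).trans ?_))
  have h2 := norm_mul_le (star x) (x - y)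
  have h3 := norm_mul_le (star (x - y)) y
  rw [norm_star] at h2 h3
  linarith [mul_comm (‖x - y‖) (‖y‖)]

end P095F
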