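import Vale.Agent.Lib.P095F.CDefs

/-!
# P095F, part M: the epsilon test for predicates
-/

open scoped ENNReal Topology
open Filter

namespace P095F

universe u v w

theorem eps_test_prop {ω : Ultrafilter ℕ} (hω : (ω : Filter ℕ) ≤ Filter.cofinite) {B : Type u}
    {ι : Type w} [Countable ι] (P : ι → ℕ → ℝ → B → Prop)
    (hmono : ∀ i n (ε ε' : ℝ) b, ε ≤ ε' → P i n ε b → P i n ε' b)
    (h : ∀ (I : Finset ι) (ε : ℝ), 0 < ε →
      ∃ s : ℕ → B, ∀ i ∈ I, ∀ᶠ n in (ω : Filter ℕ), P i n ε (s n)) :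
    ∃ s : ℕ → B, ∀ (i : ι) (ε : ℝ), 0 < ε → ∀ᶠ n in (ω : Filter ℕ), P i n ε (s n) := by
  classical
  rcases isEmpty_or_nonempty ι with hι | hι
  · obtain ⟨s, -⟩ := h ∅ 1 one_pos
    exact ⟨s, fun i => (hι.false i).elim⟩
  obtain ⟨f, hf⟩ := exists_surjective_nat ι
  choose s hs using fun m : ℕ => h ((Finset.range (m + 1)).image f) (1 / (m + 1)) (by positivity)
  let U : ℕ → Set ℕ := fun m => {n | m ≤ n ∧ ∀ k ≤ m, P (f k) n (1 / (m + 1)) (s m n)}
  have hU : ∀ m, U m ∈ (ω : Filter ℕ) := by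
    intro m
    have h1 : ∀ᶠ n in (ω : Filter ℕ), m ≤ n := by
      have : ∀ᶠ n in (Filter.cofinite : Filter ℕ), m ≤ n := by
        rw [Nat.cofinite_eq_atTop]
        exact Filter.eventually_ge_atTop m
      exact hω this
    have h2 : ∀ᶠ n in (ω : Filter ℕ), ∀ k ∈ Finset.range (m + 1),
        P (f k) n (1 / (m + 1)) (s m n) := by
      rw [Filter.eventually_all_finset]
      intro k hk
      exact hs m (f k) (Finset.mem_image_of_mem f hk)
    filter_upwards [h1, h2] with n hn1 hn2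
    exact ⟨hn1, fun k hk => hn2 k (by simpa [Nat.lt_succ_iff] using hk)⟩
  let j : ℕ → ℕ := fun n => Nat.findGreatest (fun m => n ∈ U m) n
  refine ⟨fun n => s (j n) n, fun i ε hε => ?_⟩
  obtain ⟨k, rfl⟩ := hf i
  obtain ⟨m, hm⟩ := exists_nat_one_div_lt hε
  filter_upwards [hU (max k m)] with n hn
  have hle : max k m ≤ n := hn.1
  have hj1 : max k m ≤ j n := Nat.le_findGreatest hle hn
  have hj2 : n ∈ U (j n) := Nat.findGreatest_spec (P := fun m => n ∈ U m) hle hn
  refine hmono _ _ _ _ _ ?_ (hj2.2 k ((le_max_left k m).trans hj1))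
  refine (one_div_le_one_div_of_le (by positivity) ?_).trans hm.le
  have : m ≤ j n := (le_max_right k m).trans hj1
  exact_mod_cast Nat.succ_le_succ this

end P095F
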