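import Vale.Agent.Lib.P095F.PTrBasic
import Vale.Agent.Lib.P095F.AdmBasic

/-!
# P095F, part T1 (equivariant property Gamma): definitions

See `PROOF2.md`, part T1.
-/

open scoped Topology

namespace P095F

universe u v

section One

variable {E : Type u} [CStarAlgebra E]

/-- the unitary orbit -/
def orb (ξ : E) : Set E := {x | ∃ u ∈ unitary E, x = u * ξ * star u}

/-- tracial linear functionals (no positivity) -/
def Trc (φ : E →ₗ[ℂ] ℂ) : Prop := ∀ x y, φ (x * y) = φ (y * x)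

theorem PTr.trc {ψ : E →ₗ[ℂ] ℂ} (h : PTr ψ) : Trc ψ := h.comm

end One

section Act

variable {G : Type v} [Group G] {E : Type u} [CStarAlgebra E]

/-- the average over `K` of the translates of `p` -/
noncomputable def avP (γ : G →* (E ≃⋆ₐ[ℂ] E)) (K : Finset G) (p : E) : E :=
  ((K.card : ℂ)⁻¹) • ∑ g ∈ K, γ g p

/-- its square root -/
noncomputable def xiP (γ : G →* (E ≃⋆ₐ[ℂ] E)) (K : Finset G) (p : E) : E :=
  cfc Real.sqrt (avP γ K p)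

/-- one good direction (`T1.5`), in an abstract C*-algebra `E` -/
structure DirOut (γ : G →* (E ≃⋆ₐ[ℂ] E)) (K₀ : Finset G) (σ κ : ℝ) (X : E) : Prop where
  sa : star X = X
  norm : κ * ‖X‖ ≤ 1 / 2
  mean : ∀ φ : E →ₗ[ℂ] ℂ, Trc φ → φ X = 0
  lo : ∀ ψ : E →ₗ[ℂ] ℂ, PTr ψ → (1 - σ) * (ψ 1).re ≤ sq2 ψ X
  hi : ∀ ψ : E →ₗ[ℂ] ℂ, PTr ψ → sq2 ψ X ≤ (1 + σ) * (ψ 1).re
  inv : ∀ ψ : E →ₗ[ℂ] ℂ, PTr ψ → ∀ h ∈ K₀, sq2 ψ (γ h X - X) ≤ σ * (ψ 1).re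

end Act

section Sys

variable {G : Type v} [Group G] {M : Type u} [CStarAlgebra M]

/-- good directions in all relative commutants -/
def DirData (α : G →* (M ≃⋆ₐ[ℂ] M)) (T : Set (M →ₗ[ℂ] ℂ)) (K₀ : Finset G) (σ κ : ℝ) : Prop :=
  ∀ B : StarSubalgebra ℂ M, Adm α B → ∃ X : M, star X = X ∧ κ * ‖X‖ ≤ 1 / 2 ∧
    (∀ b ∈ B, Commute X b) ∧ ∀ τ ∈ T, ∀ z ∈ B, τ (z * X) = 0 ∧
      (1 - σ) * sq2 τ z ≤ sq2 τ (z * X) ∧ sq2 τ (z * X) ≤ (1 + σ) * sq2 τ z ∧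
      ∀ h ∈ K₀, sq2 τ (z * (α h X - X)) ≤ σ * sq2 τ z

/-- the state of the martingale after some steps: `m` in `D`, commuting with `B ⊆ D` -/
structure Mart (α : G →* (M ≃⋆ₐ[ℂ] M)) (T : Set (M →ₗ[ℂ] ℂ)) (B D : StarSubalgebra ℂ M)
    (m : M) : Prop where
  adm : Adm α D
  le : B ≤ D
  mem : m ∈ D
  sa : star m = m
  norm : ‖m‖ ≤ 1
  comm : ∀ b ∈ B, Commute m b
  mean : ∀ τ ∈ T, ∀ b ∈ B, τ (b * m) = 0

end Sys

end P095F
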