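import Mathlib.Analysis.CStarAlgebra.Unitary.Span
import Vale.Agent.Lib.P095F.T1Defs

/-!
# P095F, part T1: centering for one tracial state (`T1.4 (a)`)

Let `m2 = inf {sq2 τ z : z ∈ conv (orb ξ)}`, `z_n` a minimizing sequence, `C = conv (orb ξ)`.
Facts on `C` (first theorem): elements are self-adjoint, `0 ≤ z ≤ b` if `0 ≤ ξ ≤ b` (`b` real), `φ z = φ ξ` for
`φ` tracial; `u z u^* ∈ C` for `u` unitary; all by `convexHull_induction`/`convexHull_min` (the set of
the `z` with the property is convex and contains the orbit).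

`sq2 (x - y) + sq2 (x + y) = 2 sq2 x + 2 sq2 y` (`PTr.sq2_add`, `PTr.sq2_sub`), so for `x, y ∈ C`
`sq2 (x - y) = 2 sq2 x + 2 sq2 y - 4 sq2 ((x+y)/2) ≤ 2 sq2 x + 2 sq2 y - 4 m2`.  Hence
(i) `sq2 (z_n - z_m) → 0`, (ii) `sq2 (u z_n u^* - z_n) → 0` for all unitaries `u`.
`φ_n x = τ (z_n x)`: by Cauchy-Schwarz (`PTr.cs_mul`) and (i) a Cauchy sequence for each `x`, let `ψ x` be the
limit: linear, positive (`τ (z_n x^* x) = τ (x z_n x^*) ≥ 0`, `PTr.mul_nonneg`; imaginary part zero), and
`ψ (u^* x u) = lim τ (z_n u^* x u) = lim τ (u z_n u^* x) = ψ x` by (ii).  So `ψ (u y) = ψ (y u)` (put `x = u y`), and unitaries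
span `E` (`CStarAlgebra.exists_sum_four_unitary` or `CStarAlgebra.span_unitary`), so `PTr ψ`.
`ψ 1 = lim τ z_n = τ ξ ≤ c τ 1 = c`.  `ψ ξ = ψ z_m` (`z_m ∈ C`, `ψ` tracial) and
`|ψ z_m - τ (z_m z_m)| ≤ lim_n |τ ((z_n - z_m) z_m)|` small, so `ψ ξ = m2`.  So `m2 = ψ ξ ≤ c ψ 1 ≤ c^2 < c^2 + η`.
-/

open scoped Topology
open Filter

namespace P095F

universe u v

variable {E : Type u} [CStarAlgebra E]

/-- elements of the convex hull of the orbit -/
theorem star_of_mem_orb {ξ z : E} (hξ : star ξ = ξ) (hz : z ∈ convexHull ℝ (orb ξ)) :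
    star z = z := by
  have hsub : orb ξ ⊆ {z : E | star z = z} := by
    rintro x ⟨u, hu, rfl⟩
    simp only [Set.mem_ofPred_eq, star_mul, star_star, hξ, mul_assoc]
  have hconv : Convex ℝ {z : E | star z = z} := by
    intro x hx y hy a b ha hb hab
    simp only [Set.mem_ofPred_eq] at hx hy ⊢
    rw [star_add, star_smul, star_smul, hx, hy, star_trivial, star_trivial]
  exact convexHull_min hsub hconv hz

theorem trc_of_mem_orb {ξ z : E} {φ : E →ₗ[ℂ] ℂ} (hφ : Trc φ) (hz : z ∈ convexHull ℝ (orb ξ)) :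
    φ z = φ ξ := by
  have hsub : orb ξ ⊆ {z : E | φ z = φ ξ} := by
    rintro x ⟨u, hu, rfl⟩
    change φ (u * ξ * star u) = φ ξ
    rw [hφ, ← mul_assoc, (Unitary.mem_iff.1 hu).1, one_mul]
  have hconv : Convex ℝ {z : E | φ z = φ ξ} := by
    intro x hx y hy a b ha hb hab
    simp only [Set.mem_ofPred_eq] at hx hy ⊢
    rw [map_add, ← Complex.coe_smul, ← Complex.coe_smul, map_smul, map_smul, hx, hy, ← add_smul,
      ← Complex.ofReal_add, hab, Complex.ofReal_one, one_smul]
  exact convexHull_min hsub hconv hz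

theorem comm_of_mem_orb {ξ z u : E} (hu : u ∈ unitary E) (hz : z ∈ convexHull ℝ (orb ξ)) :
    u * z * star u ∈ convexHull ℝ (orb ξ) := by
  have hsub : orb ξ ⊆ {z : E | u * z * star u ∈ convexHull ℝ (orb ξ)} := by
    rintro x ⟨v, hv, rfl⟩
    refine subset_convexHull ℝ _ ⟨u * v, mul_mem hu hv, ?_⟩
    simp only [star_mul, mul_assoc]
  have hconv : Convex ℝ {z : E | u * z * star u ∈ convexHull ℝ (orb ξ)} := by
    intro x hx y hy a b ha hb hab
    simp only [Set.mem_ofPred_eq] at hx hy ⊢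
    have e : u * (a • x + b • y) * star u = a • (u * x * star u) + b • (u * y * star u) := by
      rw [mul_add, add_mul, mul_smul_comm, mul_smul_comm, smul_mul_assoc, smul_mul_assoc]
    rw [e]
    exact convex_convexHull ℝ _ hx hy ha hb hab
  exact convexHull_min hsub hconv hz

theorem nonneg_of_mem_orb [PartialOrder E] [StarOrderedRing E] {ξ z : E} (hξ : 0 ≤ ξ)
    (hz : z ∈ convexHull ℝ (orb ξ)) : 0 ≤ z := by
  have hsub : orb ξ ⊆ {z : E | 0 ≤ z} := by
    rintro x ⟨u, hu, rfl⟩
    exact star_right_conjugate_nonneg hξ u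
  have hconv : Convex ℝ {z : E | 0 ≤ z} := by
    intro x hx y hy a b ha hb hab
    simp only [Set.mem_ofPred_eq] at hx hy ⊢
    exact add_nonneg (smul_nonneg ha hx) (smul_nonneg hb hy)
  exact convexHull_min hsub hconv hz

theorem le_one_of_mem_orb [PartialOrder E] [StarOrderedRing E] {ξ z : E} (hξ : ξ ≤ 1)
    (hz : z ∈ convexHull ℝ (orb ξ)) : z ≤ 1 := by
  have hsub : orb ξ ⊆ {z : E | 0 ≤ 1 - z} := by
    rintro x ⟨u, hu, rfl⟩
    have h1 := star_right_conjugate_le_conjugate hξ u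
    rw [mul_one, (Unitary.mem_iff.1 hu).2] at h1
    exact sub_nonneg.2 h1
  have hconv : Convex ℝ {z : E | 0 ≤ 1 - z} := by
    intro x hx y hy a b ha hb hab
    simp only [Set.mem_ofPred_eq] at hx hy ⊢
    have e : 1 - (a • x + b • y) = a • (1 - x) + b • (1 - y) := by
      rw [smul_sub, smul_sub]
      have : (1 : E) = a • (1 : E) + b • (1 : E) := by rw [← add_smul, hab, one_smul]
      nth_rw 1 [this]
      abel
    rw [e]
    exact add_nonneg (smul_nonneg ha hx) (smul_nonneg hb hy)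
  exact sub_nonneg.1 (convexHull_min hsub hconv hz)

/-- parallelogram -/
private theorem t1centa_par {τ : E →ₗ[ℂ] ℂ} (hτ : PTr τ) (x y : E) :
    sq2 τ (x - y) = 2 * sq2 τ x + 2 * sq2 τ y - 4 * sq2 τ ((1 / 2 : ℝ) • x + (1 / 2 : ℝ) • y) := by
  have h1 := hτ.sq2_add x y
  have h2 := hτ.sq2_sub x y
  have h3 : x + y = (2 : ℂ) • ((1 / 2 : ℝ) • x + (1 / 2 : ℝ) • y) := by
    rw [← smul_add, ← Complex.coe_smul, smul_smul]
    norm_num
  have h4 : sq2 τ (x + y) = 4 * sq2 τ ((1 / 2 : ℝ) • x + (1 / 2 : ℝ) • y) := by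
    conv_lhs => rw [h3]
    rw [sq2_smul]
    norm_num
  linarith

private theorem t1centa_conj {τ : E →ₗ[ℂ] ℂ} (hτ : PTr τ) {u : E} (hu : u ∈ unitary E) (z : E) :
    sq2 τ (u * z * star u) = sq2 τ z := by
  have h1 : star (u * z * star u) * (u * z * star u) = u * (star z * z) * star u := by
    rw [star_mul, star_mul, star_star]
    have : u * (star z * star u) * (u * z * star u) = u * star z * (star u * u) * z * star u := by
      simp only [mul_assoc]
    rw [this, (Unitary.mem_iff.1 hu).1]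
    simp only [mul_assoc, mul_one]
  unfold sq2
  rw [h1, hτ.comm, ← mul_assoc, (Unitary.mem_iff.1 hu).1, one_mul]

/-- centering for one tracial state -/
theorem cent_one [PartialOrder E] [StarOrderedRing E] {ξ : E} (hξ : 0 ≤ ξ) {c : ℝ} (hc : 0 ≤ c)
    (h : ∀ ψ : E →ₗ[ℂ] ℂ, PTr ψ → (ψ ξ).re ≤ c * (ψ 1).re) {τ : E →ₗ[ℂ] ℂ} (hτ : PTr τ)
    (h1 : (τ 1).re = 1) {η : ℝ} (hη : 0 < η) :
    ∃ z ∈ convexHull ℝ (orb ξ), sq2 τ z < c ^ 2 + η := by
  have hξs : star ξ = ξ := (IsSelfAdjoint.of_nonneg hξ).star_eq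
  set C := convexHull ℝ (orb ξ) with hC
  set S := sq2 τ '' C with hS
  have hCne : C.Nonempty := by
    refine ⟨ξ, subset_convexHull ℝ _ ⟨1, one_mem _, ?_⟩⟩
    rw [one_mul, star_one, mul_one]
  have hSne : S.Nonempty := hCne.image _
  have hSb : BddBelow S := by
    refine ⟨0, ?_⟩
    rintro _ ⟨x, _, rfl⟩
    exact hτ.sq2_nonneg x
  set m2 := sInf S with hm2
  have hm2le : ∀ z ∈ C, m2 ≤ sq2 τ z := fun z hz => csInf_le hSb ⟨z, hz, rfl⟩
  have hm20 : 0 ≤ m2 := by
    refine le_csInf hSne ?_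
    rintro _ ⟨x, _, rfl⟩
    exact hτ.sq2_nonneg x
  have hpar : ∀ x ∈ C, ∀ y ∈ C, sq2 τ (x - y) ≤ 2 * sq2 τ x + 2 * sq2 τ y - 4 * m2 := by
    intro x hx y hy
    rw [t1centa_par hτ]
    have hw : (1 / 2 : ℝ) • x + (1 / 2 : ℝ) • y ∈ C :=
      convex_convexHull ℝ _ hx hy (by norm_num) (by norm_num) (by norm_num)
    linarith [hm2le _ hw]
  -- minimizing sequence
  have hex : ∀ n : ℕ, ∃ z ∈ C, sq2 τ z < m2 + 1 / ((n : ℝ) + 1) := by
    intro n
    have hlt : sInf S < m2 + 1 / ((n : ℝ) + 1) := by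
      have : 0 < 1 / ((n : ℝ) + 1) := by positivity
      linarith
    obtain ⟨_, ⟨z, hz, rfl⟩, hlt'⟩ := exists_lt_of_csInf_lt hSne hlt
    exact ⟨z, hz, hlt'⟩
  choose z hzC hzlt using hex
  set e : ℕ → ℝ := fun n => √(4 * (1 / ((n : ℝ) + 1))) with he
  have he0 : Tendsto e atTop (𝓝 0) := by
    have h2 : Tendsto (fun n : ℕ => 4 * (1 / ((n : ℝ) + 1))) atTop (𝓝 (4 * 0)) :=
      tendsto_one_div_add_atTop_nhds_zero_nat.const_mul 4
    have h3 := (Real.continuous_sqrt.tendsto (4 * 0)).comp h2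
    rw [mul_zero, Real.sqrt_zero] at h3
    exact h3
  have hd1 : ∀ n m, n ≤ m → √(sq2 τ (z n - z m)) ≤ e n := by
    intro n m hnm
    refine Real.sqrt_le_sqrt ?_
    have h2 := hpar _ (hzC n) _ (hzC m)
    have h3 : 1 / ((m : ℝ) + 1) ≤ 1 / ((n : ℝ) + 1) := by
      apply one_div_le_one_div_of_le (by positivity)
      have : (n : ℝ) ≤ m := by exact_mod_cast hnm
      linarith
    linarith [hzlt n, hzlt m]
  have hd2 : ∀ u ∈ unitary E, ∀ n, √(sq2 τ (u * z n * star u - z n)) ≤ e n := by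
    intro u hu n
    refine Real.sqrt_le_sqrt ?_
    have h2 := hpar _ (comm_of_mem_orb hu (hzC n)) _ (hzC n)
    rw [t1centa_conj hτ hu] at h2
    linarith [hzlt n]
  have hcauchy : ∀ x, CauchySeq fun n => τ (z n * x) := by
    intro x
    refine cauchySeq_of_le_tendsto_0' (fun n => e n * √(sq2 τ x)) ?_ ?_
    · intro n m hnm
      rw [dist_eq_norm, ← map_sub, ← sub_mul]
      exact (hτ.cs_mul _ _).trans
        (mul_le_mul_of_nonneg_right (hd1 n m hnm) (Real.sqrt_nonneg _))
    · have := he0.mul_const (√(sq2 τ x))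
      rwa [zero_mul] at this
  have hlim : ∀ x, ∃ y, Tendsto (fun n => τ (z n * x)) atTop (𝓝 y) := fun x =>
    cauchySeq_tendsto_of_complete (hcauchy x)
  choose f hf using hlim
  let ψ : E →ₗ[ℂ] ℂ :=
    { toFun := f
      map_add' := by
        intro x y
        refine tendsto_nhds_unique (hf (x + y)) ?_
        have := (hf x).add (hf y)
        refine this.congr fun n => ?_
        rw [mul_add, map_add]
      map_smul' := by
        intro r x
        refine tendsto_nhds_unique (hf (r • x)) ?_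
        have := (hf x).const_mul r
        refine this.congr fun n => ?_
        rw [mul_smul_comm, map_smul, smul_eq_mul] }
  have hψf : ∀ x, Tendsto (fun n => τ (z n * x)) atTop (𝓝 (ψ x)) := hf
  have hz0 : ∀ n, 0 ≤ z n := fun n => nonneg_of_mem_orb hξ (hzC n)
  have hconj : ∀ u ∈ unitary E, ∀ x, ψ (star u * x * u) = ψ x := by
    intro u hu x
    refine tendsto_nhds_unique (hψf _) ?_
    have h2 : Tendsto (fun n => τ ((u * z n * star u - z n) * x)) atTop (𝓝 0) := by
      refine squeeze_zero_norm (a := fun n => e n * √(sq2 τ x)) (fun n => ?_) ?_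
      · exact (hτ.cs_mul _ _).trans
          (mul_le_mul_of_nonneg_right (hd2 u hu n) (Real.sqrt_nonneg _))
      · have := he0.mul_const (√(sq2 τ x))
        rwa [zero_mul] at this
    have h3 := h2.add (hψf x)
    rw [zero_add] at h3
    refine h3.congr fun n => ?_
    rw [← map_add, ← add_mul, sub_add_cancel]
    have e1 : z n * (star u * x * u) = z n * star u * x * u := by simp only [mul_assoc]
    rw [e1, hτ.comm (z n * star u * x) u]
    simp only [mul_assoc]
  have huni : ∀ u ∈ unitary E, ∀ y, ψ (u * y) = ψ (y * u) := by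
    intro u hu y
    have h2 := hconj u hu (u * y)
    rw [← mul_assoc (star u), (Unitary.mem_iff.1 hu).1, one_mul] at h2
    exact h2.symm
  have hψ : PTr ψ := by
    refine ⟨fun x => ?_, fun x => ?_, fun x y => ?_⟩
    · have h2 := (Complex.continuous_re.tendsto _).comp (hψf (star x * x))
      refine ge_of_tendsto' h2 fun n => ?_
      exact hτ.mul_nonneg (hz0 n) (star_mul_self_nonneg x)
    · have h2 := (Complex.continuous_im.tendsto _).comp (hψf (star x * x))
      refine tendsto_nhds_unique h2 ?_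
      have h3 : ∀ n, (τ (z n * (star x * x))).im = 0 := by
        intro n
        rw [← mul_assoc, hτ.comm]
        apply hτ.im_eq_zero
        have hsa : star (z n) = z n := (IsSelfAdjoint.of_nonneg (hz0 n)).star_eq
        change star (x * (z n * star x)) = x * (z n * star x)
        rw [star_mul, star_mul, star_star, hsa, mul_assoc]
      refine (tendsto_const_nhds (x := (0 : ℝ))).congr fun n => ?_
      exact (h3 n).symm
    · have hx : x ∈ Submodule.span ℂ (unitary E : Set E) := by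
        rw [CStarAlgebra.span_unitary]
        trivial
      induction hx using Submodule.span_induction with
      | mem u hu => exact huni u hu y
      | zero => rw [zero_mul, mul_zero]
      | add a b _ _ ha hb => rw [add_mul, mul_add, map_add, map_add, ha, hb]
      | smul r a _ ha => rw [smul_mul_assoc, mul_smul_comm, map_smul, map_smul, ha]
  have hψ1 : (ψ 1).re ≤ c := by
    have h2 : ψ 1 = τ ξ := by
      refine tendsto_nhds_unique (hψf 1) ?_
      refine (tendsto_const_nhds (x := τ ξ)).congr fun n => ?_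
      rw [mul_one, trc_of_mem_orb hτ.trc (hzC n)]
    rw [h2]
    have h3 := h τ hτ
    rwa [h1, mul_one] at h3
  have hψξ : (ψ ξ).re ≤ c ^ 2 := by
    have h2 := h ψ hψ
    nlinarith
  have hm2c : m2 ≤ c ^ 2 := by
    have hkey : ∀ m : ℕ, m2 ≤ (ψ ξ).re + e m * √(m2 + 1) := by
      intro m
      have h2 : ψ (z m) = ψ ξ := trc_of_mem_orb hψ.trc (hzC m)
      have hsq : √(sq2 τ (z m)) ≤ √(m2 + 1) := by
        refine Real.sqrt_le_sqrt ?_
        have h3 : 1 / ((m : ℝ) + 1) ≤ 1 := by
          rw [div_le_one (by positivity)]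
          have : (0 : ℝ) ≤ m := Nat.cast_nonneg m
          linarith
        linarith [hzlt m]
      have h4 : ‖ψ (z m) - τ (z m * z m)‖ ≤ e m * √(m2 + 1) := by
        have h5 : Tendsto (fun n => ‖τ (z n * z m) - τ (z m * z m)‖) atTop
            (𝓝 ‖ψ (z m) - τ (z m * z m)‖) := ((hψf (z m)).sub_const _).norm
        refine le_of_tendsto h5 ?_
        filter_upwards [eventually_ge_atTop m] with n hn
        rw [← map_sub, ← sub_mul]
        refine (hτ.cs_mul _ _).trans ?_
        have h6 : √(sq2 τ (z n - z m)) ≤ e m := by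
          have h7 : z n - z m = -(z m - z n) := by abel
          rw [h7, sq2_neg]
          exact hd1 m n hn
        exact mul_le_mul h6 hsq (Real.sqrt_nonneg _) (Real.sqrt_nonneg _)
      have h8 : (τ (z m * z m)).re ≤ (ψ ξ).re + e m * √(m2 + 1) := by
        have h9 := (Complex.abs_re_le_norm (ψ (z m) - τ (z m * z m))).trans h4
        rw [Complex.sub_re, h2] at h9
        have := (abs_le.1 h9).1
        linarith
      have h10 : sq2 τ (z m) = (τ (z m * z m)).re := by
        unfold sq2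
        rw [star_of_mem_orb hξs (hzC m)]
      have h11 := hm2le _ (hzC m)
      linarith
    have h12 : Tendsto (fun m => (ψ ξ).re + e m * √(m2 + 1)) atTop (𝓝 (ψ ξ).re) := by
      have h13 := (he0.mul_const (√(m2 + 1))).const_add (ψ ξ).re
      rwa [zero_mul, add_zero] at h13
    have h14 := ge_of_tendsto' h12 hkey
    linarith
  have hlt : sInf S < c ^ 2 + η := by linarith
  obtain ⟨_, ⟨w, hw, rfl⟩, hlt'⟩ := exists_lt_of_csInf_lt hSne hlt
  exact ⟨w, hw, hlt'⟩

end P095F
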