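import Mathlib.Topology.Sion
import Vale.Agent.Lib.P095F.T1CentA

/-!
# P095F, part T1: centering for all tracial states at once (`T1.4 (b), (c)`)

`X` = the set of the functions `f : E → ℂ` (product topology) which are of the form `⇑τ`, `τ` a tracial state
(`PTr τ`, `τ 1 = 1`): convex, and compact: closed (pointwise conditions: additive, homogeneous,
`0 ≤ re f (x^* x)`, `im f (x^* x) = 0`, `f (x y) = f (y x)`, `f 1 = 1`) in the product of the closed balls of radius `‖x‖`
(`PTr.norm_map_le'`, `isCompact_univ_pi`).  If `X` is empty, every PTr is `0` at `1` (normalize), and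
then `sq2 ψ z ≤ ‖z‖^2 ψ 1 = 0` (`PTr.sq2_le'`): any `z` in the (nonempty) orbit does it.
`Y = convexHull ℝ (orb ξ)` in `E` (norm topology), `f x y = - re (x (star y * y))`: continuous and affine in `x`, and
concave (parallelogram: `sq2 τ` is convex) and continuous in `y` (`|τ w| ≤ ‖w‖`) for `x ∈ X`.
By `cent_one` every `τ ∈ X` has `z_τ ∈ Y` with `- (c^2 + η) < f τ z_τ`; by compactness finitely many
`z` suffice (`IsCompact.elim_finite_subcover`), then `Sion.exists_lt_iInf_of_lt_iInf_of_finite`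
(`Mathlib.Topology.Sion`) gives one `z ∈ Y` with `sq2 τ z < c^2 + η` for all `τ ∈ X`.
For `PTr ψ` with `ψ 1 > 0` normalize; if `ψ 1 = 0` then `sq2 ψ z ≤ ‖z‖^2 ψ 1 = 0`.
-/

open scoped Topology

namespace P095F

universe u v

variable {E : Type u} [CStarAlgebra E]

/-- the tracial states as functions -/
private def t1cent_X (E : Type u) [CStarAlgebra E] : Set (E → ℂ) :=
  {f | (∀ x y, f (x + y) = f x + f y) ∧ (∀ (c : ℂ) x, f (c • x) = c * f x) ∧
    (∀ x, 0 ≤ (f (star x * x)).re) ∧ (∀ x, (f (star x * x)).im = 0) ∧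
    (∀ x y, f (x * y) = f (y * x)) ∧ f 1 = 1}

private def t1cent_lin {f : E → ℂ} (hf : f ∈ t1cent_X E) : E →ₗ[ℂ] ℂ where
  toFun := f
  map_add' := hf.1
  map_smul' c x := by
    rw [hf.2.1 c x]
    rfl

private theorem t1cent_ptr {f : E → ℂ} (hf : f ∈ t1cent_X E) : PTr (t1cent_lin hf) :=
  ⟨hf.2.2.1, hf.2.2.2.1, hf.2.2.2.2.1⟩

private theorem t1cent_one {f : E → ℂ} (hf : f ∈ t1cent_X E) : (t1cent_lin hf 1).re = 1 := by
  change (f 1).re = 1
  rw [hf.2.2.2.2.2]
  rfl

private theorem t1cent_norm {f : E → ℂ} (hf : f ∈ t1cent_X E) (x : E) : ‖f x‖ ≤ ‖x‖ := by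
  have h := (t1cent_ptr hf).norm_map_le' x
  rw [t1cent_one hf, mul_one] at h
  exact h

private theorem t1cent_closed : IsClosed (t1cent_X E) := by
  have e : t1cent_X E = {f : E → ℂ | ∀ x y, f (x + y) = f x + f y} ∩
      ({f : E → ℂ | ∀ (c : ℂ) x, f (c • x) = c * f x} ∩
      ({f : E → ℂ | ∀ x, 0 ≤ (f (star x * x)).re} ∩
      ({f : E → ℂ | ∀ x, (f (star x * x)).im = 0} ∩
      ({f : E → ℂ | ∀ x y, f (x * y) = f (y * x)} ∩ {f : E → ℂ | f 1 = 1})))) := by
    ext f
    rfl
  have hc : ∀ x : E, Continuous fun f : E → ℂ => f x := fun x => continuous_apply x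
  rw [e]
  refine IsClosed.inter ?_ (IsClosed.inter ?_ (IsClosed.inter ?_ (IsClosed.inter ?_
    (IsClosed.inter ?_ ?_))))
  · simp only [Set.ofPred_forall]
    exact isClosed_iInter fun x => isClosed_iInter fun y =>
      isClosed_eq (hc _) ((hc _).add (hc _))
  · simp only [Set.ofPred_forall]
    exact isClosed_iInter fun c => isClosed_iInter fun x =>
      isClosed_eq (hc _) (continuous_const.mul (hc _))
  · simp only [Set.ofPred_forall]
    exact isClosed_iInter fun x => isClosed_le continuous_const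
      (Complex.continuous_re.comp (hc _))
  · simp only [Set.ofPred_forall]
    exact isClosed_iInter fun x => isClosed_eq (Complex.continuous_im.comp (hc _))
      continuous_const
  · simp only [Set.ofPred_forall]
    exact isClosed_iInter fun x => isClosed_iInter fun y => isClosed_eq (hc _) (hc _)
  · exact isClosed_eq (hc _) continuous_const

private theorem t1cent_compact : IsCompact (t1cent_X E) := by
  refine IsCompact.of_isClosed_subset
    (isCompact_univ_pi fun x : E => isCompact_closedBall (0 : ℂ) ‖x‖) t1cent_closed ?_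
  intro f hf x _
  rw [mem_closedBall_zero_iff]
  exact t1cent_norm hf x

private theorem t1cent_convex : Convex ℝ (t1cent_X E) := by
  intro f hf g hg a b ha hb hab
  obtain ⟨f1, f2, f3, f4, f5, f6⟩ := hf
  obtain ⟨g1, g2, g3, g4, g5, g6⟩ := hg
  have e : ∀ x, (a • f + b • g) x = (a : ℂ) * f x + (b : ℂ) * g x := by
    intro x
    simp only [Pi.add_apply, Pi.smul_apply, Complex.real_smul]
  refine ⟨fun x y => ?_, fun c x => ?_, fun x => ?_, fun x => ?_, fun x y => ?_, ?_⟩
  · rw [e, e, e, f1, g1]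
    ring
  · rw [e, e, f2, g2]
    ring
  · rw [e, Complex.add_re, Complex.re_ofReal_mul, Complex.re_ofReal_mul]
    exact add_nonneg (mul_nonneg ha (f3 x)) (mul_nonneg hb (g3 x))
  · rw [e, Complex.add_im, Complex.im_ofReal_mul, Complex.im_ofReal_mul, f4, g4]
    simp
  · rw [e, e, f5, g5]
  · rw [e, f6, g6, mul_one, mul_one, ← Complex.ofReal_add, hab, Complex.ofReal_one]

private theorem t1cent_sq2_convex {ψ : E →ₗ[ℂ] ℂ} (h : PTr ψ) (x y : E) {a b : ℝ} (ha : 0 ≤ a)
    (hb : 0 ≤ b) (hab : a + b = 1) : sq2 ψ (a • x + b • y) ≤ a * sq2 ψ x + b * sq2 ψ y := by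
  have h1 := h.sq2_add (a • x) (b • y)
  have h2 : sq2 ψ (a • x) = a ^ 2 * sq2 ψ x := by
    rw [← Complex.coe_smul, sq2_smul, Complex.norm_real, Real.norm_eq_abs, sq_abs]
  have h3 : sq2 ψ (b • y) = b ^ 2 * sq2 ψ y := by
    rw [← Complex.coe_smul, sq2_smul, Complex.norm_real, Real.norm_eq_abs, sq_abs]
  have h4 : (ψ (star (a • x) * (b • y))).re = a * b * (ψ (star x * y)).re := by
    rw [star_smul, smul_mul_smul_comm, star_trivial, ← Complex.coe_smul, map_smul, smul_eq_mul,
      Complex.re_ofReal_mul]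
  have h5 := h.sq2_sub x y
  have h6 := h.sq2_nonneg (x - y)
  have h7 : 2 * (ψ (star x * y)).re ≤ sq2 ψ x + sq2 ψ y := by linarith
  rw [h1, h2, h3, h4]
  have h8 : a * b * (2 * (ψ (star x * y)).re) ≤ a * b * (sq2 ψ x + sq2 ψ y) :=
    mul_le_mul_of_nonneg_left h7 (mul_nonneg ha hb)
  have h9 : b = 1 - a := by linarith
  subst h9
  nlinarith

private theorem t1cent_normalize {ψ : E →ₗ[ℂ] ℂ} (h : PTr ψ) (h1 : 0 < (ψ 1).re) :
    (fun x => (((ψ 1).re⁻¹ : ℝ) : ℂ) * ψ x) ∈ t1cent_X E := by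
  refine ⟨fun x y => ?_, fun c x => ?_, fun x => ?_, fun x => ?_, fun x y => ?_, ?_⟩
  · simp only [map_add, mul_add]
  · simp only [map_smul, smul_eq_mul]
    ring
  · simp only [Complex.re_ofReal_mul]
    exact mul_nonneg (inv_nonneg.2 h1.le) (h.nonneg x)
  · simp only [Complex.im_ofReal_mul, h.im_eq x, mul_zero]
  · simp only [h.comm x y]
  · have h2 : ψ 1 = (((ψ 1).re : ℝ) : ℂ) := by
      apply Complex.ext
      · simp
      · simp [h.one_im]
    change (((ψ 1).re⁻¹ : ℝ) : ℂ) * ψ 1 = 1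
    rw [h2, ← Complex.ofReal_mul, Complex.ofReal_re, inv_mul_cancel₀ h1.ne', Complex.ofReal_one]

/-- centering -/
theorem exists_center [PartialOrder E] [StarOrderedRing E] {ξ : E} (hξ : 0 ≤ ξ) {c : ℝ}
    (hc : 0 ≤ c) (h : ∀ ψ : E →ₗ[ℂ] ℂ, PTr ψ → (ψ ξ).re ≤ c * (ψ 1).re) {η : ℝ} (hη : 0 < η) :
    ∃ z ∈ convexHull ℝ (orb ξ), ∀ ψ : E →ₗ[ℂ] ℂ, PTr ψ → sq2 ψ z ≤ (c ^ 2 + η) * (ψ 1).re := by
  have hzero : ∀ (z : E) (ψ : E →ₗ[ℂ] ℂ), PTr ψ → (ψ 1).re = 0 →
      sq2 ψ z ≤ (c ^ 2 + η) * (ψ 1).re := by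
    intro z ψ hψ h0
    have := hψ.sq2_le' z
    rw [h0, mul_zero] at this ⊢
    exact this
  have hξm : ξ ∈ convexHull ℝ (orb ξ) := by
    apply subset_convexHull ℝ (orb ξ)
    exact ⟨1, one_mem _, by rw [star_one, one_mul, mul_one]⟩
  rcases Set.eq_empty_or_nonempty (t1cent_X E) with hX | hX
  · refine ⟨ξ, hξm, fun ψ hψ => ?_⟩
    rcases hψ.one_re.eq_or_lt with h0 | h0
    · exact hzero ξ ψ hψ h0.symm
    · have := t1cent_normalize hψ h0
      rw [hX] at this
      exact absurd this (Set.notMem_empty _)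
  · let F : (E → ℂ) → E → ℝ := fun f y => -(f (star y * y)).re
    have hcont : ∀ y : E, Continuous fun f : E → ℂ => F f y := fun y =>
      (Complex.continuous_re.comp (continuous_apply (star y * y))).neg
    have hfy : ∀ y ∈ convexHull ℝ (orb ξ), LowerSemicontinuousOn (fun f => F f y) (t1cent_X E) :=
      fun y _ => (hcont y).lowerSemicontinuous.lowerSemicontinuousOn _
    have hfy' : ∀ y ∈ convexHull ℝ (orb ξ), QuasiconvexOn ℝ (t1cent_X E) fun f => F f y := by
      intro y _
      apply ConvexOn.quasiconvexOn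
      refine ⟨t1cent_convex, fun f _ g _ a b _ _ _ => le_of_eq ?_⟩
      simp only [F, Pi.add_apply, Pi.smul_apply, Complex.real_smul, Complex.add_re,
        Complex.re_ofReal_mul, smul_eq_mul]
      ring
    have hfx : ∀ f ∈ t1cent_X E, UpperSemicontinuousOn (fun y => F f y)
        (convexHull ℝ (orb ξ)) := by
      intro f hf
      have hfc : Continuous f := by
        have h1 : Continuous (LinearMap.mkContinuous (t1cent_lin hf) 1 fun x => by
          rw [one_mul]
          exact t1cent_norm hf x) := ContinuousLinearMap.continuous _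
        exact h1
      have h2 : Continuous fun y => F f y :=
        (Complex.continuous_re.comp (hfc.comp (continuous_star.mul continuous_id))).neg
      exact h2.upperSemicontinuous.upperSemicontinuousOn _
    have hfx' : ∀ f ∈ t1cent_X E, QuasiconcaveOn ℝ (convexHull ℝ (orb ξ)) fun y => F f y := by
      intro f hf
      apply ConcaveOn.quasiconcaveOn
      refine ⟨convex_convexHull ℝ _, fun x _ y _ a b ha hb hab => ?_⟩
      have h1 := t1cent_sq2_convex (t1cent_ptr hf) x y ha hb hab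
      change a * (-sq2 (t1cent_lin hf) x) + b * (-sq2 (t1cent_lin hf) y)
        ≤ -sq2 (t1cent_lin hf) (a • x + b • y)
      linarith
    have hcover : t1cent_X E ⊆ ⋃ z ∈ convexHull ℝ (orb ξ), {f | -(c ^ 2 + η) < F f z} := by
      intro f hf
      obtain ⟨z, hz, hz'⟩ := cent_one hξ hc h (t1cent_ptr hf) (t1cent_one hf) hη
      simp only [Set.mem_iUnion]
      refine ⟨z, hz, ?_⟩
      have e : F f z = -sq2 (t1cent_lin hf) z := rfl
      change -(c ^ 2 + η) < F f z
      rw [e]
      linarith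
    obtain ⟨b', hb', hfin, hsub⟩ := t1cent_compact.elim_finite_subcover_image
      (fun z _ => isOpen_lt continuous_const (hcont z)) hcover
    obtain ⟨y0, hy0, hy⟩ := Sion.exists_lt_iInf_of_lt_iInf_of_finite hX t1cent_compact hfy hfy'
      (convex_convexHull ℝ _) hfx hfx' t1cent_convex hfin hb' (t := -(c ^ 2 + η)) (by
        intro f hf
        have := hsub hf
        simp only [Set.mem_iUnion] at this
        obtain ⟨z, hz, hz'⟩ := this
        exact ⟨z, hz, hz'⟩)
    refine ⟨y0, hy0, fun ψ hψ => ?_⟩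
    rcases hψ.one_re.eq_or_lt with h0 | h0
    · exact hzero y0 ψ hψ h0.symm
    · have h1 := hy _ (t1cent_normalize hψ h0)
      have e : F (fun x => (((ψ 1).re⁻¹ : ℝ) : ℂ) * ψ x) y0 = -((ψ 1).re⁻¹ * sq2 ψ y0) := by
        simp only [F, Complex.re_ofReal_mul]
        rfl
      rw [e] at h1
      have h2 : (ψ 1).re⁻¹ * sq2 ψ y0 < c ^ 2 + η := by linarith
      have h3 := mul_lt_mul_of_pos_right h2 h0
      rw [mul_comm ((ψ 1).re⁻¹), mul_assoc, inv_mul_cancel₀ h0.ne', mul_one] at h3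
      exact h3.le

end P095F
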