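import Vale.Agent.Lib.P095F.T1Defs
import Vale.Agent.Lib.P095F.T2LSqrt
import Vale.Agent.Lib.P095F.T2LMat

/-!
# P095F, part T1: the square root of an average of projections (`T1.5`, first half)

`b = avP γ K p = N⁻¹ sum_{g in K} γ_g p`, `N = |K|`, `ξ = xiP γ K p = √b`, `p` a projection with
`ψ (γ_g p) = w` for all `g`.
* `0 ≤ b ≤ 1` (average of projections, `0 ≤ γ_g p ≤ 1`), so `0 ≤ ξ ≤ 1`, `ξ^2 = b`.
* `sq2 ψ ξ = ψ b = w`.
* `ψ ξ ≤ sum_g ψ (√(N⁻¹ γ_g p)) = sum_g √(N⁻¹) w = √N w` (`re_sqrt_sum_le`, `sqrt_smul_proj`).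
* invariance: `γ_h ξ = √(γ_h b)` (`aut_cfc` in T2LMat), `γ_h b = N⁻¹ sum_{g in hK} γ_g p`.  With
  `c = N⁻¹ sum_{K ∩ hK}`, `x = N⁻¹ sum_{K \ hK}`, `y = N⁻¹ sum_{hK \ K}`: `b = c + x`, `γ_h b = c + y`,
  `|K \ hK| = |hK \ K| ≤ d N`, so `ψ x, ψ y ≤ d w`, and `sq2_sqrt_sub_le` with `sq2 (u - v) ≤ 2 sq2 u + 2 sq2 v`
  gives `4 d w`.
* (F3) for a unital star homomorphism `j` of the `k x k` matrices: `ψ (γ (j e_ii)) = ψ 1 / k`
  (`e_ii = e_i0 e_0i`, `e_00 = e_0i e_i0`, the sum of the `e_ii` is `1`).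
-/

open scoped Topology

namespace P095F

universe u v

variable {G : Type v} [Group G] {E : Type u} [CStarAlgebra E]

/-- F3 -/
theorem ptr_unit {ψ : E →ₗ[ℂ] ℂ} (hψ : PTr ψ) {k : ℕ} (s : E ≃⋆ₐ[ℂ] E)
    (j : Matrix (Fin k) (Fin k) ℂ →⋆ₐ[ℂ] E) (i : Fin k) :
    (ψ (s (j (Matrix.single i i 1)))).re = (k : ℝ)⁻¹ * (ψ 1).re := by
  have hk : (k : ℝ) ≠ 0 := by
    have : 0 < k := lt_of_le_of_lt (Nat.zero_le _) i.2
    exact_mod_cast this.ne'
  have h1 : ∀ i', ψ (s (j (Matrix.single i' i' 1))) = ψ (s (j (Matrix.single i i 1))) := by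
    intro i'
    have e1 : (Matrix.single i' i' 1 : Matrix (Fin k) (Fin k) ℂ) =
        Matrix.single i' i 1 * Matrix.single i i' 1 := by
      rw [Matrix.single_mul_single_same, mul_one]
    have e2 : (Matrix.single i i 1 : Matrix (Fin k) (Fin k) ℂ) =
        Matrix.single i i' 1 * Matrix.single i' i 1 := by
      rw [Matrix.single_mul_single_same, mul_one]
    rw [e1, e2, map_mul j, map_mul j, map_mul s, map_mul s, hψ.comm]
  have h2 : ∑ i' : Fin k, ψ (s (j (Matrix.single i' i' 1))) = ψ 1 := by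
    rw [← map_sum, ← map_sum, ← map_sum]
    have e1 : ∑ i' : Fin k, (Matrix.single i' i' 1 : Matrix (Fin k) (Fin k) ℂ) = 1 := by
      ext a b
      rw [Matrix.sum_apply]
      by_cases hab : a = b
      · subst hab
        rw [Matrix.one_apply_eq, Finset.sum_eq_single a]
        · rw [Matrix.single_apply_same]
        · intro c _ hc
          rw [Matrix.single_apply_of_ne]
          exact fun h => hc h.1
        · intro h
          exact absurd (Finset.mem_univ a) h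
      · rw [Matrix.one_apply_ne hab]
        refine Finset.sum_eq_zero fun c _ => ?_
        rw [Matrix.single_apply_of_ne]
        exact fun h => hab (h.1.symm.trans h.2)
    rw [e1, map_one, map_one]
  have h3 : (k : ℂ) * ψ (s (j (Matrix.single i i 1))) = ψ 1 := by
    rw [← h2, Finset.sum_congr rfl fun i' _ => h1 i', Finset.sum_const, Finset.card_univ,
      Fintype.card_fin, nsmul_eq_mul]
  have h4 := congrArg Complex.re h3
  have h5 : ((k : ℂ) * ψ (s (j (Matrix.single i i 1)))).re =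
      (k : ℝ) * (ψ (s (j (Matrix.single i i 1)))).re := by
    rw [← Complex.ofReal_natCast, Complex.re_ofReal_mul]
  rw [h5] at h4
  rw [← h4, ← mul_assoc, inv_mul_cancel₀ hk, one_mul]

variable [PartialOrder E] [StarOrderedRing E] {ψ : E →ₗ[ℂ] ℂ} {γ : G →* (E ≃⋆ₐ[ℂ] E)}
  {K : Finset G} {p : E}

omit [PartialOrder E] [StarOrderedRing E] in
private theorem t1xi_coe (n : ℕ) (x : E) :
    ((n : ℂ)⁻¹) • x = (((n : ℝ)⁻¹ : ℝ) : ℂ) • x := by
  rw [Complex.ofReal_inv, Complex.ofReal_natCast]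

omit [PartialOrder E] [StarOrderedRing E] in
private theorem t1xi_coe' (n : ℕ) (x : E) : ((n : ℂ)⁻¹) • x = ((n : ℝ)⁻¹ : ℝ) • x := by
  rw [t1xi_coe, Complex.coe_smul]

omit [PartialOrder E] [StarOrderedRing E] in
private theorem t1xi_star (hp : star p = p) (g : G) : star (γ g p) = γ g p := by
  rw [← map_star, hp]

omit [PartialOrder E] [StarOrderedRing E] in
private theorem t1xi_idem (hp2 : p * p = p) (g : G) : γ g p * γ g p = γ g p := by
  rw [← map_mul, hp2]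

private theorem t1xi_proj_nonneg {q : E} (hq : star q = q) (hq2 : q * q = q) : 0 ≤ q := by
  have h1 : q = star q * q := by rw [hq, hq2]
  rw [h1]
  exact star_mul_self_nonneg q

private theorem t1xi_proj_le_one {q : E} (hq : star q = q) (hq2 : q * q = q) : q ≤ 1 := by
  rw [← sub_nonneg]
  refine t1xi_proj_nonneg ?_ ?_
  · rw [star_sub, star_one, hq]
  · rw [sub_mul, mul_sub, mul_sub, hq2, mul_one, mul_one, one_mul]
    abel

private theorem t1xi_pos (hp : star p = p) (hp2 : p * p = p) (g : G) : 0 ≤ γ g p :=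
  t1xi_proj_nonneg (t1xi_star hp g) (t1xi_idem hp2 g)

private theorem t1xi_sum_pos (hp : star p = p) (hp2 : p * p = p) (n : ℕ) (S : Finset G) :
    0 ≤ ((n : ℂ)⁻¹) • ∑ g ∈ S, γ g p := by
  rw [t1xi_coe']
  exact smul_nonneg (by positivity) (Finset.sum_nonneg fun g _ => t1xi_pos hp hp2 g)

theorem avP_nonneg (hp : star p = p) (hp2 : p * p = p) : 0 ≤ avP γ K p :=
  t1xi_sum_pos hp hp2 _ _

theorem avP_le_one (hp : star p = p) (hp2 : p * p = p) : avP γ K p ≤ 1 := by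
  unfold avP
  rw [t1xi_coe']
  rcases K.eq_empty_or_nonempty with rfl | hK
  · rw [Finset.sum_empty, smul_zero]
    exact zero_le_one
  have hN : (0 : ℝ) < K.card := by exact_mod_cast hK.card_pos
  have h1 : ∑ g ∈ K, γ g p ≤ (K.card : ℝ) • (1 : E) := by
    have h2 : ∑ g ∈ K, γ g p ≤ ∑ _g ∈ K, (1 : E) :=
      Finset.sum_le_sum fun g _ => t1xi_proj_le_one (t1xi_star hp g) (t1xi_idem hp2 g)
    rw [Finset.sum_const] at h2
    rwa [← Nat.cast_smul_eq_nsmul ℝ] at h2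
  have h3 := smul_le_smul_of_nonneg_left h1 (inv_nonneg.2 hN.le)
  rwa [smul_smul, inv_mul_cancel₀ hN.ne', one_smul] at h3

theorem xiP_nonneg (hp : star p = p) (hp2 : p * p = p) : 0 ≤ xiP γ K p :=
  cfc_nonneg fun s _ => Real.sqrt_nonneg s

private theorem t1xi_sqrt {x : E} (hx : 0 ≤ x) : cfc Real.sqrt x = CFC.sqrt x := by
  rw [CFC.sqrt_eq_real_sqrt x hx, cfcₙ_eq_cfc]

theorem xiP_le_one (hp : star p = p) (hp2 : p * p = p) : xiP γ K p ≤ 1 := by
  unfold xiP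
  rw [t1xi_sqrt (avP_nonneg hp hp2)]
  have h := CFC.sqrt_le_sqrt (avP γ K p) 1 (avP_le_one hp hp2)
  rwa [CFC.sqrt_one] at h

theorem xiP_sq (hp : star p = p) (hp2 : p * p = p) : xiP γ K p * xiP γ K p = avP γ K p := by
  unfold xiP
  rw [t1xi_sqrt (avP_nonneg hp hp2)]
  exact CFC.sqrt_mul_sqrt_self _ (avP_nonneg hp hp2)

omit [PartialOrder E] [StarOrderedRing E] in
private theorem t1xi_re_sum {w : ℝ} (hw : ∀ g, (ψ (γ g p)).re = w) (n : ℕ) (S : Finset G) :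
    (ψ (((n : ℂ)⁻¹) • ∑ g ∈ S, γ g p)).re = (n : ℝ)⁻¹ * (S.card * w) := by
  rw [t1xi_coe, map_smul, smul_eq_mul, Complex.re_ofReal_mul, map_sum, Complex.re_sum,
    Finset.sum_congr rfl fun g _ => hw g, Finset.sum_const, nsmul_eq_mul]

theorem sq2_xiP (hp : star p = p) (hp2 : p * p = p) (hK : K.Nonempty) {w : ℝ}
    (hw : ∀ g, (ψ (γ g p)).re = w) : sq2 ψ (xiP γ K p) = w := by
  have hN : (0 : ℝ) < K.card := by exact_mod_cast hK.card_pos
  unfold sq2
  rw [(IsSelfAdjoint.of_nonneg (xiP_nonneg hp hp2)).star_eq, xiP_sq hp hp2]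
  unfold avP
  rw [t1xi_re_sum hw, ← mul_assoc, inv_mul_cancel₀ hN.ne', one_mul]

theorem re_xiP (hψ : PTr ψ) (hp : star p = p) (hp2 : p * p = p) (hK : K.Nonempty) {w : ℝ}
    (hw : ∀ g, (ψ (γ g p)).re = w) : (ψ (xiP γ K p)).re ≤ √(K.card : ℝ) * w := by
  have hN : (0 : ℝ) < K.card := by exact_mod_cast hK.card_pos
  have h1 : xiP γ K p = cfc Real.sqrt (∑ g ∈ K, ((K.card : ℂ)⁻¹) • γ g p) := by
    unfold xiP avP
    rw [Finset.smul_sum]
  rw [h1]
  refine (re_sqrt_sum_le hψ K _ fun g _ => ?_).trans (le_of_eq ?_)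
  · rw [t1xi_coe']
    exact smul_nonneg (by positivity) (t1xi_pos hp hp2 g)
  · have h2 : ∀ g ∈ K, (ψ (cfc Real.sqrt (((K.card : ℂ)⁻¹) • γ g p))).re =
        √((K.card : ℝ)⁻¹) * w := by
      intro g _
      rw [t1xi_coe, sqrt_smul_proj (t1xi_star hp g) (t1xi_idem hp2 g) _ (by positivity),
        map_smul, smul_eq_mul, Complex.re_ofReal_mul, hw g]
    rw [Finset.sum_congr rfl h2, Finset.sum_const, nsmul_eq_mul, ← mul_assoc]
    congr 1
    rw [Real.sqrt_inv]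
    have h3 : (K.card : ℝ) = √(K.card : ℝ) * √(K.card : ℝ) := (Real.mul_self_sqrt hN.le).symm
    have h4 : 0 < √(K.card : ℝ) := Real.sqrt_pos.2 hN
    calc (K.card : ℝ) * (√(K.card : ℝ))⁻¹ =
        √(K.card : ℝ) * √(K.card : ℝ) * (√(K.card : ℝ))⁻¹ := by rw [← h3]
      _ = √(K.card : ℝ) := by rw [mul_assoc, mul_inv_cancel₀ h4.ne', mul_one]

theorem sq2_xiP_inv (hψ : PTr ψ) (hp : star p = p) (hp2 : p * p = p) (hK : K.Nonempty) {w : ℝ}
    (hw : ∀ g, (ψ (γ g p)).re = w) (h : G) (d : ℝ)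
    (hd : (Nat.card {g : G // g ∉ K ∧ h⁻¹ * g ∈ K} : ℝ) ≤ d * K.card) :
    sq2 ψ (γ h (xiP γ K p) - xiP γ K p) ≤ 4 * d * w := by
  classical
  have hN : (0 : ℝ) < K.card := by exact_mod_cast hK.card_pos
  have hw0 : 0 ≤ w := by
    rw [← hw 1]
    exact hψ.re_nonneg (t1xi_pos hp hp2 1)
  set K' : Finset G := K.map (mulLeftEmbedding h) with hK'
  have hmem : ∀ g, g ∈ K' ↔ h⁻¹ * g ∈ K := by
    intro g
    rw [hK', Finset.mem_map]
    constructor
    · rintro ⟨a, ha, rfl⟩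
      change h⁻¹ * (h * a) ∈ K
      rwa [inv_mul_cancel_left]
    · intro hg
      exact ⟨h⁻¹ * g, hg, mul_inv_cancel_left h g⟩
  have hcard : K'.card = K.card := Finset.card_map _
  set n := K.card with hn
  have e1 : γ h (xiP γ K p) = cfc Real.sqrt (((n : ℂ)⁻¹) • ∑ g ∈ K', γ g p) := by
    unfold xiP
    rw [aut_cfc (γ h) Real.sqrt Real.continuous_sqrt
      (IsSelfAdjoint.of_nonneg (avP_nonneg hp hp2))]
    congr 1
    unfold avP
    rw [map_smul, map_sum, hK', Finset.sum_map]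
    congr 1
    refine Finset.sum_congr rfl fun g _ => ?_
    change γ h (γ g p) = γ (h * g) p
    rw [map_mul]
    rfl
  have e2 : ((n : ℂ)⁻¹) • ∑ g ∈ K', γ g p = ((n : ℂ)⁻¹) • ∑ g ∈ K ∩ K', γ g p +
      ((n : ℂ)⁻¹) • ∑ g ∈ K' \ K, γ g p := by
    rw [← smul_add, ← Finset.sum_inter_add_sum_sdiff K' K, Finset.inter_comm]
  have e3 : xiP γ K p = cfc Real.sqrt (((n : ℂ)⁻¹) • ∑ g ∈ K ∩ K', γ g p +
      ((n : ℂ)⁻¹) • ∑ g ∈ K \ K', γ g p) := by
    unfold xiP avP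
    rw [← smul_add, Finset.sum_inter_add_sum_sdiff K K']
  have c1 : ((K' \ K).card : ℝ) ≤ d * n := by
    refine le_trans (le_of_eq ?_) hd
    have : (K' \ K).card = Nat.card {g : G // g ∉ K ∧ h⁻¹ * g ∈ K} := by
      symm
      refine Nat.subtype_card (K' \ K) fun g => ?_
      rw [Finset.mem_sdiff, hmem]
      exact and_comm
    rw [this]
  have c2 : (K \ K').card = (K' \ K).card := by
    have h1 := Finset.card_sdiff_add_card_inter K K'
    have h2 := Finset.card_sdiff_add_card_inter K' K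
    rw [Finset.inter_comm] at h2
    omega
  rw [e1, e2, e3]
  set c := ((n : ℂ)⁻¹) • ∑ g ∈ K ∩ K', γ g p with hc
  set y := ((n : ℂ)⁻¹) • ∑ g ∈ K' \ K, γ g p with hy
  set x := ((n : ℂ)⁻¹) • ∑ g ∈ K \ K', γ g p with hx
  have hc0 : 0 ≤ c := t1xi_sum_pos hp hp2 _ _
  have hy0 : 0 ≤ y := t1xi_sum_pos hp hp2 _ _
  have hx0 : 0 ≤ x := t1xi_sum_pos hp hp2 _ _
  have r1 : (ψ y).re ≤ d * w := by
    rw [hy, t1xi_re_sum hw]
    have : (n : ℝ)⁻¹ * (((K' \ K).card : ℝ) * w) ≤ (n : ℝ)⁻¹ * ((d * n) * w) :=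
      mul_le_mul_of_nonneg_left (mul_le_mul_of_nonneg_right c1 hw0) (by positivity)
    refine this.trans (le_of_eq ?_)
    field_simp
  have r2 : (ψ x).re ≤ d * w := by
    rw [hx, t1xi_re_sum hw, c2]
    have : (n : ℝ)⁻¹ * (((K' \ K).card : ℝ) * w) ≤ (n : ℝ)⁻¹ * ((d * n) * w) :=
      mul_le_mul_of_nonneg_left (mul_le_mul_of_nonneg_right c1 hw0) (by positivity)
    refine this.trans (le_of_eq ?_)
    field_simp
  have s1 := sq2_sqrt_sub_le hψ hc0 hy0
  have s2 := sq2_sqrt_sub_le hψ hc0 hx0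
  have s3 := hψ.sq2_sub_le (cfc Real.sqrt (c + y) - cfc Real.sqrt c)
    (cfc Real.sqrt (c + x) - cfc Real.sqrt c)
  have s4 : cfc Real.sqrt (c + y) - cfc Real.sqrt c - (cfc Real.sqrt (c + x) - cfc Real.sqrt c) =
      cfc Real.sqrt (c + y) - cfc Real.sqrt (c + x) := by abel
  rw [s4] at s3
  linarith

end P095F
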