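import Vale.Agent.Lib.P095F.T1Cent
import Vale.Agent.Lib.P095F.T1Xi

/-!
# P095F, part T1: one good direction (`T1.5`)

Constants: `s = min σ 1`, `K` Folner for `(K₀, s/16)`, `N = |K|`, `k ≥ 1` with `2 N / k ≤ s^2/16`,
`c = √N / k`, `η = N / k^2`, `κ = 1/(2 √k)`.
Given `E`, `γ`, `j`: spectral order on `E`, `p = j e_00`, `ψ (γ_g p) = ψ 1 / k` (`ptr_unit`),
`ξ = xiP γ K p`, `z` from `exists_center` for `ξ, c, η`, `X = √k (ξ - z)`.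
* self-adjoint; `0 ≤ ξ, z ≤ 1` so `‖ξ - z‖ ≤ 1` and `κ ‖X‖ ≤ 1/2`; `φ z = φ ξ` for `φ` tracial (`trc_of_mem_orb`).
* `r^2 := k (c^2 + η) = 2 N / k ≤ s^2/16`, `r ≤ s/4`.  `sq2 ψ (√k ξ) = ψ 1`, `sq2 ψ (√k z) ≤ r^2 ψ 1`, so with
  `PTr.sqrt_sq2_add_le`, `PTr.sqrt_sq2_sub_le`: `(1 - r) √(ψ 1) ≤ √(sq2 ψ X) ≤ (1 + r) √(ψ 1)`; squares:
  `(1 - r)^2 ≥ 1 - 2r ≥ 1 - σ`, `(1 + r)^2 ≤ 1 + 3r ≤ 1 + σ`.
* `γ_h X - X = √k [(γ_h ξ - ξ) - (γ_h z - z)]`, `sq2 ψ (γ_h ξ - ξ) ≤ 4 (s/16) ψ 1 / k`,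
  `sq2 ψ (γ_h z) = sq2 (ψ ∘ γ_h) z ≤ (c^2 + η) ψ 1` (`PTr.comp`).  So
  `sq2 ψ (γ_h X - X) ≤ k [2 (4 (s/16)/k) + 2 (2 (c^2+η) + 2 (c^2+η))] ψ 1 = [s/2 + 8 r^2] ψ 1 ≤ [s/2 + s/2] ψ 1`.
-/

open scoped Topology

namespace P095F

universe u v

variable {G : Type v} [Group G]

private theorem t1dir_norm {E : Type u} [CStarAlgebra E] [PartialOrder E] [StarOrderedRing E]
    {x y : E} (hx0 : 0 ≤ x) (hx1 : x ≤ 1) (hy0 : 0 ≤ y) (hy1 : y ≤ 1) : ‖x - y‖ ≤ 1 := by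
  rcases subsingleton_or_nontrivial E with hE | hE
  · rw [Subsingleton.elim (x - y) 0, norm_zero]
    exact zero_le_one
  have hsa : IsSelfAdjoint (x - y) := (IsSelfAdjoint.of_nonneg hx0).sub (IsSelfAdjoint.of_nonneg hy0)
  have h1 : x - y ≤ algebraMap ℝ E 1 := by
    rw [map_one]
    exact (sub_le_self x hy0).trans hx1
  have h2 : algebraMap ℝ E (-1) ≤ x - y := by
    rw [map_neg, map_one]
    have : -1 ≤ -y := neg_le_neg hy1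
    calc -1 ≤ -y := this
      _ ≤ x - y := by rw [sub_eq_add_neg]; exact le_add_of_nonneg_left hx0
  rcases CStarAlgebra.norm_or_neg_norm_mem_spectrum hsa with h3 | h3
  · exact (le_algebraMap_iff_spectrum_le hsa).1 h1 _ h3
  · have h4 := (algebraMap_le_iff_le_spectrum hsa).1 h2 _ h3
    linarith

private theorem t1dir_core {E : Type u} [CStarAlgebra E] [PartialOrder E] [StarOrderedRing E]
    (γ : G →* (E ≃⋆ₐ[ℂ] E)) (K₀ : Finset G) {σ s k r e : ℝ} (hs0 : 0 < s) (hs1 : s ≤ 1)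
    (hsσ : s ≤ σ) (hkR : 1 ≤ k) (hr1 : 0 ≤ r) (hr4 : r ≤ s / 4) (hre : k * e = r ^ 2)
    {ξ z : E} (hξ0 : 0 ≤ ξ) (hξ1 : ξ ≤ 1) (hz0 : 0 ≤ z) (hz1 : z ≤ 1)
    (hsqξ : ∀ ψ : E →ₗ[ℂ] ℂ, PTr ψ → sq2 ψ ξ = k⁻¹ * (ψ 1).re)
    (hz2 : ∀ ψ : E →ₗ[ℂ] ℂ, PTr ψ → sq2 ψ z ≤ e * (ψ 1).re)
    (htr : ∀ φ : E →ₗ[ℂ] ℂ, Trc φ → φ z = φ ξ)
    (hinv : ∀ ψ : E →ₗ[ℂ] ℂ, PTr ψ → ∀ h ∈ K₀,
      sq2 ψ (γ h ξ - ξ) ≤ 4 * (s / 16) * (k⁻¹ * (ψ 1).re)) :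
    DirOut γ K₀ σ (1 / (2 * √k)) (((√k : ℝ) : ℂ) • ξ - ((√k : ℝ) : ℂ) • z) := by
  have hkp : 0 < k := by linarith
  have hsk : 1 ≤ √k := by
    rw [Real.one_le_sqrt]
    exact hkR
  have hsk2 : √k ^ 2 = k := Real.sq_sqrt hkp.le
  have hξs : star ξ = ξ := (IsSelfAdjoint.of_nonneg hξ0).star_eq
  have hzs : star z = z := (IsSelfAdjoint.of_nonneg hz0).star_eq
  obtain ⟨a, ha⟩ : ∃ a : ℂ, a = ((√k : ℝ) : ℂ) := ⟨_, rfl⟩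
  rw [← ha]
  have hna : ‖a‖ = √k := by
    rw [ha, Complex.norm_real, Real.norm_of_nonneg (Real.sqrt_nonneg _)]
  have hna2 : ‖a‖ ^ 2 = k := by rw [hna, hsk2]
  have hT0 : ∀ ψ : E →ₗ[ℂ] ℂ, PTr ψ → 0 ≤ (ψ 1).re := fun ψ hψ => hψ.one_re
  have hA : ∀ ψ : E →ₗ[ℂ] ℂ, PTr ψ → sq2 ψ (a • ξ) = (ψ 1).re := by
    intro ψ hψ
    rw [sq2_smul, hna2, hsqξ ψ hψ]
    field_simp
  have hB : ∀ ψ : E →ₗ[ℂ] ℂ, PTr ψ → sq2 ψ (a • z) ≤ r ^ 2 * (ψ 1).re := by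
    intro ψ hψ
    rw [sq2_smul, hna2, ← hre]
    calc k * sq2 ψ z ≤ k * (e * (ψ 1).re) :=
          mul_le_mul_of_nonneg_left (hz2 ψ hψ) hkp.le
      _ = k * e * (ψ 1).re := by ring
  have hB' : ∀ ψ : E →ₗ[ℂ] ℂ, PTr ψ → √(sq2 ψ (a • z)) ≤ r * √((ψ 1).re) := by
    intro ψ hψ
    have h1 := Real.sqrt_le_sqrt (hB ψ hψ)
    rwa [Real.sqrt_mul (sq_nonneg r), Real.sqrt_sq hr1] at h1
  refine ⟨?_, ?_, ?_, ?_, ?_, ?_⟩
  · rw [star_sub, star_smul, star_smul, hξs, hzs, ha, Complex.star_def, Complex.conj_ofReal]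
  · rw [← smul_sub, norm_smul, hna]
    have h1 := t1dir_norm hξ0 hξ1 hz0 hz1
    have h2 : 1 / (2 * √k) * (√k * ‖ξ - z‖) = 1 / 2 * ‖ξ - z‖ := by
      have : √k ≠ 0 := by positivity
      field_simp
    rw [h2]
    linarith
  · intro φ hφ
    rw [map_sub, map_smul, map_smul, htr φ hφ, sub_self]
  · intro ψ hψ
    have h1 := hψ.sqrt_sq2_add_le (a • ξ - a • z) (a • z)
    rw [sub_add_cancel, hA ψ hψ] at h1
    have h2 := hB' ψ hψ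
    have h3 : (1 - r) * √((ψ 1).re) ≤ √(sq2 ψ (a • ξ - a • z)) := by linarith
    have h4 : 0 ≤ (1 - r) * √((ψ 1).re) :=
      mul_nonneg (by linarith) (Real.sqrt_nonneg _)
    have h5 := pow_le_pow_left₀ h4 h3 2
    rw [mul_pow, Real.sq_sqrt (hT0 ψ hψ), Real.sq_sqrt (hψ.sq2_nonneg _)] at h5
    refine le_trans (mul_le_mul_of_nonneg_right ?_ (hT0 ψ hψ)) h5
    nlinarith
  · intro ψ hψ
    have h1 := hψ.sqrt_sq2_sub_le (a • ξ) (a • z)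
    rw [hA ψ hψ] at h1
    have h2 := hB' ψ hψ
    have h3 : √(sq2 ψ (a • ξ - a • z)) ≤ (1 + r) * √((ψ 1).re) := by linarith
    have h5 := pow_le_pow_left₀ (Real.sqrt_nonneg _) h3 2
    rw [mul_pow, Real.sq_sqrt (hT0 ψ hψ), Real.sq_sqrt (hψ.sq2_nonneg _)] at h5
    refine h5.trans (mul_le_mul_of_nonneg_right ?_ (hT0 ψ hψ))
    nlinarith
  · intro ψ hψ h hh
    have hT := hT0 ψ hψ
    have e1 : γ h (a • ξ - a • z) - (a • ξ - a • z) = a • ((γ h ξ - ξ) - (γ h z - z)) := by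
      rw [map_sub, map_smul, map_smul, smul_sub, smul_sub, smul_sub]
      abel
    rw [e1, sq2_smul, hna2]
    have h1 := hψ.sq2_sub_le (γ h ξ - ξ) (γ h z - z)
    have h2 := hinv ψ hψ h hh
    have h3 := hψ.sq2_sub_le (γ h z) z
    have h4 : sq2 ψ (γ h z) ≤ e * (ψ 1).re := by
      have h5 := hz2 _ (hψ.comp (γ h))
      have h6 : sq2 (ψ ∘ₗ ((γ h : E →⋆ₐ[ℂ] E).toAlgHom.toLinearMap)) z = sq2 ψ (γ h z) := by
        unfold sq2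
        change (ψ (γ h (star z * z))).re = _
        rw [map_mul, map_star]
      have h7 : (ψ ∘ₗ ((γ h : E →⋆ₐ[ℂ] E).toAlgHom.toLinearMap)) 1 = ψ 1 := by
        change ψ (γ h 1) = ψ 1
        rw [map_one]
      rwa [h6, h7] at h5
    have h5 := hz2 ψ hψ
    have h6 : sq2 ψ ((γ h ξ - ξ) - (γ h z - z))
        ≤ 2 * (4 * (s / 16) * (k⁻¹ * (ψ 1).re)) + 8 * (e * (ψ 1).re) := by
      linarith
    calc k * sq2 ψ ((γ h ξ - ξ) - (γ h z - z))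
        ≤ k * (2 * (4 * (s / 16) * (k⁻¹ * (ψ 1).re))
            + 8 * (e * (ψ 1).re)) := mul_le_mul_of_nonneg_left h6 hkp.le
      _ = (s / 2 * (k * k⁻¹) + 8 * (k * e)) * (ψ 1).re := by ring
      _ ≤ σ * (ψ 1).re := by
          refine mul_le_mul_of_nonneg_right ?_ hT
          rw [hre, mul_inv_cancel₀ hkp.ne', mul_one]
          nlinarith

/-- one good direction -/
theorem exists_dir (hG : FolnerGroup G) (K₀ : Finset G) {σ : ℝ} (hσ : 0 < σ) :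
    ∃ (k : ℕ) (κ : ℝ), 1 ≤ k ∧ 0 < κ ∧ κ ≤ 1 ∧
      ∀ (E : Type u) [CStarAlgebra E] (γ : G →* (E ≃⋆ₐ[ℂ] E))
        (_ : Matrix (Fin k) (Fin k) ℂ →⋆ₐ[ℂ] E), ∃ X : E, DirOut γ K₀ σ κ X := by
  obtain ⟨s, hs⟩ : ∃ s : ℝ, s = min σ 1 := ⟨_, rfl⟩
  have hs0 : 0 < s := by rw [hs]; exact lt_min hσ one_pos
  have hs1 : s ≤ 1 := by rw [hs]; exact min_le_right _ _
  have hsσ : s ≤ σ := by rw [hs]; exact min_le_left _ _
  obtain ⟨K, hKne, hK⟩ := hG K₀ (s / 16) (by positivity)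
  have hN1 : (1 : ℝ) ≤ (K.card : ℝ) := by
    have : 1 ≤ K.card := Finset.card_pos.2 hKne
    exact_mod_cast this
  have hN0 : (0 : ℝ) < (K.card : ℝ) := by linarith
  obtain ⟨k0, hk0⟩ := exists_nat_ge (32 * (K.card : ℝ) / s ^ 2)
  obtain ⟨k, hk⟩ : ∃ k : ℕ, k = k0 + 1 := ⟨_, rfl⟩
  have hk1 : 1 ≤ k := by omega
  have hkR : (1 : ℝ) ≤ (k : ℝ) := by exact_mod_cast hk1
  have hkp : (0 : ℝ) < (k : ℝ) := by linarith
  have hkN : 2 * (K.card : ℝ) / k ≤ s ^ 2 / 16 := by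
    have h1 : 32 * (K.card : ℝ) / s ^ 2 ≤ (k : ℝ) := by
      rw [hk]
      push_cast
      linarith
    rw [div_le_iff₀ (by positivity)] at h1
    rw [div_le_div_iff₀ hkp (by norm_num)]
    linarith
  have hsk : 1 ≤ √(k : ℝ) := by
    rw [Real.one_le_sqrt]
    exact hkR
  have hcη : (k : ℝ) * ((√(K.card : ℝ) / k) ^ 2 + (K.card : ℝ) / (k : ℝ) ^ 2)
      = 2 * (K.card : ℝ) / k := by
    have h1 : √(K.card : ℝ) ^ 2 = (K.card : ℝ) := Real.sq_sqrt hN0.le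
    rw [div_pow, h1]
    field_simp
    ring
  have hr0 : 0 ≤ 2 * (K.card : ℝ) / (k : ℝ) := by positivity
  have hr2 : √(2 * (K.card : ℝ) / (k : ℝ)) ^ 2 = 2 * (K.card : ℝ) / k := Real.sq_sqrt hr0
  have hr4 : √(2 * (K.card : ℝ) / (k : ℝ)) ≤ s / 4 := by
    have h1 : √(2 * (K.card : ℝ) / (k : ℝ)) ^ 2 ≤ (s / 4) ^ 2 := by
      rw [hr2]
      refine hkN.trans (le_of_eq ?_)
      ring
    exact (abs_le_of_sq_le_sq' h1 (by positivity)).2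
  refine ⟨k, 1 / (2 * √(k : ℝ)), hk1, by positivity, ?_, ?_⟩
  · rw [div_le_one (by positivity)]
    linarith
  intro E _ γ j
  let _ := CStarAlgebra.spectralOrder E
  have := CStarAlgebra.spectralOrderedRing E
  obtain ⟨p, hp⟩ : ∃ p : E, p = j (Matrix.single ⟨0, by omega⟩ ⟨0, by omega⟩ 1) := ⟨_, rfl⟩
  have hps : star p = p := by
    rw [hp, ← map_star, Matrix.star_eq_conjTranspose, Matrix.conjTranspose_single, star_one]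
  have hpp : p * p = p := by
    rw [hp, ← map_mul, Matrix.single_mul_single_same, one_mul]
  have hξ0 : 0 ≤ xiP γ K p := xiP_nonneg hps hpp
  have hξ1 : xiP γ K p ≤ 1 := xiP_le_one hps hpp
  have hw : ∀ ψ : E →ₗ[ℂ] ℂ, PTr ψ → ∀ g, (ψ (γ g p)).re = (k : ℝ)⁻¹ * (ψ 1).re := by
    intro ψ hψ g
    rw [hp]
    exact ptr_unit hψ (γ g) j ⟨0, by omega⟩
  have hreξ : ∀ ψ : E →ₗ[ℂ] ℂ, PTr ψ →
      (ψ (xiP γ K p)).re ≤ √(K.card : ℝ) / k * (ψ 1).re := by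
    intro ψ hψ
    refine (re_xiP hψ hps hpp hKne (hw ψ hψ)).trans (le_of_eq ?_)
    ring
  obtain ⟨z, hz, hz2⟩ := exists_center hξ0 (by positivity) hreξ
    (η := (K.card : ℝ) / (k : ℝ) ^ 2) (by positivity)
  exact ⟨_, t1dir_core γ K₀ hs0 hs1 hsσ hkR (Real.sqrt_nonneg _) hr4 (hcη.trans hr2.symm)
    hξ0 hξ1 (nonneg_of_mem_orb hξ0 hz) (le_one_of_mem_orb hξ1 hz)
    (fun ψ hψ => sq2_xiP hps hpp hKne (hw ψ hψ)) hz2 (fun φ hφ => trc_of_mem_orb hφ hz)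
    (fun ψ hψ h hh => sq2_xiP_inv hψ hps hpp hKne (hw ψ hψ) h (s / 16) (hK h hh))⟩

end P095F
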