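import Vale.Agent.Lib.P095F.T1Defs

/-!
# P095F, part T1: one step of the martingale (`T1.6`)

`X` from `DirData` for `D`, `m' = m + κ (1 - m^2) X`, `D'` admissible, containing `D` and `X` (`exists_adm_two`).
`m`, `X` commute and are self-adjoint.
* `1 - m' = (1 - m)(1 - κ (1 + m) X)`, `1 + m' = (1 + m)(1 + κ (1 - m) X)`: commuting positive factors
  (`‖κ (1 ± m) X‖ ≤ 2 κ ‖X‖ ≤ 1`), so `-1 ≤ m' ≤ 1`, `‖m'‖ ≤ 1`.
* `τ (b m') = τ (b m) + κ τ (b (1 - m^2) X) = 0` for `b ∈ B` (`b (1 - m^2) ∈ D`).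
* `sq2 τ m' = sq2 τ m + 2 κ re τ (m (1 - m^2) X) + κ^2 sq2 τ ((1 - m^2) X)`, the middle term is `0`, the last
  one at least `κ^2 (1 - σ) sq2 τ (1 - m^2) ≥ (κ^2/2) sq2 τ (1 - m^2)`, and
  `sq2 τ (1 - m^2) ≥ (re τ (1 - m^2))^2 = (1 - sq2 τ m)^2` (Cauchy-Schwarz, `τ 1 = 1`).
* `δ = α_h m - m ∈ D`.  `α_h m' - m' = δ + κ R`, `R = (1 - α_h(m)^2) α_h(X) - (1 - m^2) X
  = (1 - α_h(m)^2)(α_h X - X) + (m^2 - α_h(m)^2) X`.
  `τ (star δ R) = 0`: `δ (1 - α_h(m)^2) = α_h b'` with `b' ∈ D` (`Adm.inv` for `h⁻¹`), `τ (α_h (b' X)) = τ' (b' X) = 0`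
  (`TrSys.inv`), and `τ (δ (1 - m^2) X) = 0`.
  `sq2 τ R ≤ 2 sq2 τ ((1 - α_h(m)^2)(α_h X - X)) + 2 sq2 τ ((m^2 - α_h(m)^2) X)
     ≤ 2 σ sq2 τ (1 - α_h(m)^2) + 2 (1 + σ) sq2 τ (m^2 - α_h(m)^2) ≤ 2 σ + 16 sq2 τ δ`,
  since `‖1 - α_h(m)^2‖ ≤ 1` and `m^2 - α_h(m)^2 = - (m δ + δ α_h m)`, `sq2 ≤ 4 sq2 δ`; `σ ≤ 1`.
-/

open scoped Topology

namespace P095F

universe u v

variable {G : Type v} [Group G] {M : Type u} [CStarAlgebra M] {α : G →* (M ≃⋆ₐ[ℂ] M)}
  {T : Set (M →ₗ[ℂ] ℂ)}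

/-- `1 + w ≥ 0` for a self-adjoint contraction `w` -/
private theorem t1step_pos [PartialOrder M] [StarOrderedRing M] {w : M} (hw : IsSelfAdjoint w)
    (hn : ‖w‖ ≤ 1) : 0 ≤ 1 + w := by
  have h1 : algebraMap ℝ M (-‖w‖) ≤ w := by
    rw [map_neg]
    exact IsSelfAdjoint.neg_algebraMap_norm_le_self hw
  have h2 : algebraMap ℝ M (-1) ≤ algebraMap ℝ M (-‖w‖) := algebraMap_mono M (by linarith)
  have h3 : (-1 : M) ≤ w := by
    have := h2.trans h1
    rwa [map_neg, map_one] at this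
  have h4 := sub_nonneg.2 h3
  rwa [sub_neg_eq_add, add_comm] at h4

theorem mart_norm_step {m X : M} (hm : star m = m) (hm1 : ‖m‖ ≤ 1) (hX : star X = X)
    (hc : Commute m X) {κ : ℝ} (hκ : 0 < κ) (hX1 : κ * ‖X‖ ≤ 1 / 2) :
    ‖m + (κ : ℂ) • ((1 - m * m) * X)‖ ≤ 1 := by
  let _ : PartialOrder M := CStarAlgebra.spectralOrder M
  have : StarOrderedRing M := CStarAlgebra.spectralOrderedRing M
  rcases subsingleton_or_nontrivial M with hs | hs
  · rw [Subsingleton.elim (m + (κ : ℂ) • ((1 - m * m) * X)) 0, norm_zero]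
    exact zero_le_one
  have hcX1 : Commute (1 + m) X := (Commute.one_left X).add_left hc
  have hcX2 : Commute (1 - m) X := (Commute.one_left X).sub_left hc
  have hs1 : star (1 + m) = 1 + m := by rw [star_add, star_one, hm]
  have hs2 : star (1 - m) = 1 - m := by rw [star_sub, star_one, hm]
  have hκs : star (κ : ℂ) = κ := Complex.conj_ofReal κ
  have hb : ∀ y : M, ‖y‖ ≤ 2 → ‖(κ : ℂ) • (y * X)‖ ≤ 1 := by
    intro y hy
    rw [norm_smul, Complex.norm_real, Real.norm_of_nonneg hκ.le]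
    calc κ * ‖y * X‖ ≤ κ * (‖y‖ * ‖X‖) := mul_le_mul_of_nonneg_left (norm_mul_le _ _) hκ.le
      _ ≤ κ * (2 * ‖X‖) := mul_le_mul_of_nonneg_left
          (mul_le_mul_of_nonneg_right hy (norm_nonneg _)) hκ.le
      _ = 2 * (κ * ‖X‖) := by ring
      _ ≤ 1 := by linarith
  have hn1 : ‖1 + m‖ ≤ 2 := (norm_add_le _ _).trans (by rw [norm_one]; linarith)
  have hn2 : ‖1 - m‖ ≤ 2 := (norm_sub_le _ _).trans (by rw [norm_one]; linarith)
  set a : M := (κ : ℂ) • ((1 + m) * X) with ha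
  set b : M := (κ : ℂ) • ((1 - m) * X) with hb'
  have sa : IsSelfAdjoint a := by
    change star a = a
    rw [ha, star_smul, star_mul, hs1, hX, hκs, hcX1.eq]
  have sb : IsSelfAdjoint b := by
    change star b = b
    rw [hb', star_smul, star_mul, hs2, hX, hκs, hcX2.eq]
  have p1 : 0 ≤ 1 - a := by
    have := t1step_pos sa.neg (by rw [norm_neg]; exact hb _ hn1)
    rwa [← sub_eq_add_neg] at this
  have p2 : 0 ≤ 1 + b := t1step_pos sb (hb _ hn2)
  have p3 : 0 ≤ 1 + m := t1step_pos hm hm1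
  have p4 : 0 ≤ 1 - m := by
    have := t1step_pos (w := -m) (IsSelfAdjoint.neg hm) (by rw [norm_neg]; exact hm1)
    rwa [← sub_eq_add_neg] at this
  have cm1 : Commute (1 - m) (1 + m) :=
    ((Commute.one_left _).sub_left ((Commute.one_right m).add_right (Commute.refl m)))
  have c1 : Commute (1 - m) (1 - a) :=
    (Commute.one_right _).sub_right ((cm1.mul_right hcX2).smul_right _)
  have c2 : Commute (1 + m) (1 + b) :=
    (Commute.one_right _).add_right ((cm1.symm.mul_right hcX1).smul_right _)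
  have q1 : 0 ≤ (1 - m) * (1 - a) := c1.mul_nonneg p4 p1
  have q2 : 0 ≤ (1 + m) * (1 + b) := c2.mul_nonneg p3 p2
  set m' : M := m + (κ : ℂ) • ((1 - m * m) * X) with hm'
  have e1 : (1 - m) * (1 - a) = 1 - m' := by
    rw [ha, hm', mul_sub, mul_one, mul_smul_comm, ← mul_assoc]
    have : (1 - m) * (1 + m) = 1 - m * m := by noncomm_ring
    rw [this]
    abel
  have e2 : (1 + m) * (1 + b) = 1 + m' := by
    rw [hb', hm', mul_add, mul_one, mul_smul_comm, ← mul_assoc]
    have : (1 + m) * (1 - m) = 1 - m * m := by noncomm_ring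
    rw [this]
    abel
  rw [e1] at q1
  rw [e2] at q2
  have sm' : IsSelfAdjoint m' := by
    have h1 : IsSelfAdjoint (1 - m') := IsSelfAdjoint.of_nonneg q1
    have h2 : m' = 1 - (1 - m') := by abel
    rw [h2]
    exact (IsSelfAdjoint.one M).sub h1
  have r1 : m' ≤ 1 := sub_nonneg.1 q1
  have r2 : -1 ≤ m' := by
    have : 0 ≤ m' - (-1) := by
      rw [sub_neg_eq_add, add_comm]
      exact q2
    exact sub_nonneg.1 this
  have h3 : star m' * m' ≤ 1 := by
    rw [sm'.star_eq]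
    have h4 : 0 ≤ (1 - m') * (1 + m') := by
      have hc' : Commute (1 - m') (1 + m') :=
        ((Commute.one_left _).sub_left ((Commute.one_right m').add_right (Commute.refl m')))
      exact hc'.mul_nonneg q1 q2
    have h5 : (1 - m') * (1 + m') = 1 - m' * m' := by noncomm_ring
    rw [h5] at h4
    exact sub_nonneg.1 h4
  have h6 : ‖star m' * m'‖ ≤ 1 :=
    (CStarAlgebra.norm_le_iff_le_algebraMap (star m' * m') zero_le_one
      (star_mul_self_nonneg _)).2 (by rw [map_one]; exact h3)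
  rw [CStarRing.norm_star_mul_self] at h6
  nlinarith [norm_nonneg m']

/-- one step -/
theorem mart_step [Countable G] (hT : TrSys α T) {K₀ : Finset G} {σ κ : ℝ} (hσ : 0 < σ)
    (hσ1 : σ ≤ 1 / 2) (hκ : 0 < κ) (hD : DirData α T K₀ σ κ) {B D : StarSubalgebra ℂ M} {m : M}
    (h : Mart α T B D m) :
    ∃ (D' : StarSubalgebra ℂ M) (m' : M), Mart α T B D' m' ∧ ∀ τ ∈ T,
      sq2 τ m + κ ^ 2 / 2 * (1 - sq2 τ m) ^ 2 ≤ sq2 τ m' ∧
      ∀ h ∈ K₀, sq2 τ (α h m' - m') ≤ (1 + 16 * κ ^ 2) * sq2 τ (α h m - m) + 2 * κ ^ 2 * σ := by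
  obtain ⟨X, hX, hXn, hXc, hXd⟩ := hD D h.adm
  obtain ⟨D', hD', hDD, hXD, -⟩ := exists_adm_two h.adm X X
  have hmX : Commute m X := (hXc m h.mem).symm
  have hmD : (1 - m * m) ∈ D := sub_mem (one_mem _) (mul_mem h.mem h.mem)
  have hκs : star (κ : ℂ) = κ := Complex.conj_ofReal κ
  have hs1 : star (1 - m * m) = 1 - m * m := by rw [star_sub, star_one, star_mul, h.sa]
  have hcY : Commute (1 - m * m) X := (hXc _ hmD).symm
  have sY : star ((1 - m * m) * X) = (1 - m * m) * X := by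
    rw [star_mul, hs1, hX, hcY.eq]
  have hnm : ‖1 - m * m‖ ≤ 1 := by
    let _ : PartialOrder M := CStarAlgebra.spectralOrder M
    have : StarOrderedRing M := CStarAlgebra.spectralOrderedRing M
    have h0 : 0 ≤ m * m := by
      have := star_mul_self_nonneg m
      rwa [h.sa] at this
    have h1 : m * m ≤ 1 := by
      have h2 := star_mul_self_le_norm m
      rw [h.sa] at h2
      refine h2.trans ?_
      have h3 : algebraMap ℝ M (‖m‖ ^ 2) ≤ algebraMap ℝ M 1 :=
        algebraMap_mono M (pow_le_one₀ (norm_nonneg _) h.norm)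
      rwa [map_one] at h3
    have h2 : 0 ≤ 1 - m * m := sub_nonneg.2 h1
    refine (CStarAlgebra.norm_le_iff_le_algebraMap (1 - m * m) zero_le_one h2).2 ?_
    rw [map_one]
    exact sub_le_self _ h0
  refine ⟨D', m + (κ : ℂ) • ((1 - m * m) * X), ⟨hD', h.le.trans hDD, ?_, ?_, ?_, ?_, ?_⟩, ?_⟩
  · exact add_mem (hDD h.mem) (SMulMemClass.smul_mem _ (mul_mem (hDD hmD) hXD))
  · rw [star_add, h.sa, star_smul, hκs, sY]
  · exact mart_norm_step h.sa h.norm hX hmX hκ hXn
  · intro b hb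
    have c1 := h.comm b hb
    have c2 := hXc b (h.le hb)
    exact c1.add_left ((((Commute.one_left b).sub_left (c1.mul_left c1)).mul_left c2).smul_left _)
  · intro τ hτ b hb
    have h1 := (hXd τ hτ (b * (1 - m * m)) (mul_mem (h.le hb) hmD)).1
    rw [mul_add, map_add, h.mean τ hτ b hb, mul_smul_comm, ← mul_assoc, map_smul, h1, smul_zero,
      add_zero]
  · intro τ hτ
    have hp := hT.ptr τ hτ
    have hone : sq2 τ (1 : M) = 1 := by
      unfold sq2
      rw [star_one, one_mul, hT.one τ hτ, Complex.one_re]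
    refine ⟨?_, ?_⟩
    · have h1 := (hXd τ hτ (m * (1 - m * m)) (mul_mem h.mem hmD)).1
      obtain ⟨_, h2, _, _⟩ := hXd τ hτ (1 - m * m) hmD
      rw [hp.sq2_add, h.sa, mul_smul_comm, ← mul_assoc, map_smul, h1, smul_zero, Complex.zero_re,
        mul_zero, add_zero, sq2_smul, Complex.norm_real, Real.norm_of_nonneg hκ.le]
      have h3 : (1 - sq2 τ m) ^ 2 ≤ sq2 τ (1 - m * m) := by
        have h4 := hp.cs_sq 1 (1 - m * m)
        rw [hone, one_mul, star_one, one_mul] at h4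
        have h5 : 1 - sq2 τ m = (τ (1 - m * m)).re := by
          rw [map_sub, hT.one τ hτ, Complex.sub_re, Complex.one_re]
          unfold sq2
          rw [h.sa]
        rw [h5]
        have h6 := Complex.abs_re_le_norm (τ (1 - m * m))
        calc (τ (1 - m * m)).re ^ 2 = |(τ (1 - m * m)).re| ^ 2 := (sq_abs _).symm
          _ ≤ ‖τ (1 - m * m)‖ ^ 2 := pow_le_pow_left₀ (abs_nonneg _) h6 2
          _ ≤ sq2 τ (1 - m * m) := h4
      have h7 : 1 / 2 * (1 - sq2 τ m) ^ 2 ≤ sq2 τ ((1 - m * m) * X) := by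
        refine le_trans ?_ h2
        have h8 : 0 ≤ sq2 τ (1 - m * m) := hp.sq2_nonneg _
        calc 1 / 2 * (1 - sq2 τ m) ^ 2 ≤ 1 / 2 * sq2 τ (1 - m * m) := by linarith
          _ ≤ (1 - σ) * sq2 τ (1 - m * m) := mul_le_mul_of_nonneg_right (by linarith) h8
      have h9 := mul_le_mul_of_nonneg_left h7 (sq_nonneg κ)
      linarith
    · intro g hg
      set δ : M := α g m - m with hδ
      have sam : star (α g m) = α g m := by rw [← map_star, h.sa]
      have hδs : star δ = δ := by rw [hδ, star_sub, sam, h.sa]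
      have hgm : α g m ∈ D := h.adm.inv g m h.mem
      have hδD : δ ∈ D := sub_mem hgm h.mem
      set z₁ : M := 1 - α g m * α g m with hz₁
      set z₂ : M := m * m - α g m * α g m with hz₂
      have hz₁D : z₁ ∈ D := sub_mem (one_mem _) (mul_mem hgm hgm)
      have hz₂D : z₂ ∈ D := sub_mem (mul_mem h.mem h.mem) (mul_mem hgm hgm)
      set R : M := z₁ * α g X - (1 - m * m) * X with hR
      have hR2 : R = z₁ * (α g X - X) + z₂ * X := by
        rw [hR, hz₁, hz₂]
        noncomm_ring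
      have hdiff : α g (m + (κ : ℂ) • ((1 - m * m) * X)) - (m + (κ : ℂ) • ((1 - m * m) * X)) =
          δ + (κ : ℂ) • R := by
        rw [map_add, map_smul, map_mul, map_sub, map_one, map_mul, hδ, hR, hz₁, smul_sub]
        abel
      have hcross : τ (star δ * R) = 0 := by
        rw [hδs, hR, mul_sub, map_sub]
        have e1 : τ (δ * (z₁ * α g X)) = 0 := by
          obtain ⟨τ', hτ', hττ⟩ := hT.inv τ hτ g
          have hmem : α g⁻¹ (δ * z₁) ∈ D := h.adm.inv _ _ (mul_mem hδD hz₁D)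
          have hinv : α g (α g⁻¹ (δ * z₁)) = δ * z₁ := by
            have : (α g * α g⁻¹) (δ * z₁) = δ * z₁ := by
              rw [← map_mul, mul_inv_cancel, map_one]
              rfl
            exact this
          have h1 := (hXd τ' hτ' _ hmem).1
          rw [hττ, map_mul, hinv] at h1
          rw [← mul_assoc]
          exact h1
        have e2 : τ (δ * ((1 - m * m) * X)) = 0 := by
          rw [← mul_assoc]
          exact (hXd τ hτ _ (mul_mem hδD hmD)).1
        rw [e1, e2, sub_zero]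
      have hz₁n : sq2 τ z₁ ≤ 1 := by
        have h1 : z₁ = α g (1 - m * m) := by rw [map_sub, map_one, map_mul]
        have h2 : ‖z₁‖ ≤ 1 := by
          rw [h1, aut_norm]
          exact hnm
        have h3 := hp.sq2_le' z₁
        rw [hT.one τ hτ, Complex.one_re, mul_one] at h3
        exact h3.trans (pow_le_one₀ (norm_nonneg _) h2)
      have hz₂n : sq2 τ z₂ ≤ 4 * sq2 τ δ := by
        have h1 : z₂ = -(m * δ + δ * α g m) := by
          rw [hz₂, hδ]
          noncomm_ring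
        rw [h1, sq2_neg]
        have h2 := hp.sq2_add_le (m * δ) (δ * α g m)
        have h3 := hp.sq2_mul_le_left' m δ
        have h4 := hp.sq2_mul_le_right' δ (α g m)
        have h5 : ‖m‖ ^ 2 ≤ 1 := pow_le_one₀ (norm_nonneg _) h.norm
        have h6 : ‖α g m‖ ^ 2 ≤ 1 := by
          rw [aut_norm]
          exact h5
        have h7 := hp.sq2_nonneg δ
        have h8 := mul_le_mul_of_nonneg_right h5 h7
        have h9 := mul_le_mul_of_nonneg_right h6 h7
        linarith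
      have hRn : sq2 τ R ≤ 2 * σ + 16 * sq2 τ δ := by
        rw [hR2]
        have h1 := hp.sq2_add_le (z₁ * (α g X - X)) (z₂ * X)
        have h2 := (hXd τ hτ z₁ hz₁D).2.2.2 g hg
        have h3 := (hXd τ hτ z₂ hz₂D).2.2.1
        have h4 : σ * sq2 τ z₁ ≤ σ * 1 := mul_le_mul_of_nonneg_left hz₁n hσ.le
        have h5 : (1 + σ) * sq2 τ z₂ ≤ 2 * (4 * sq2 τ δ) := by
          refine mul_le_mul (by linarith) hz₂n (hp.sq2_nonneg _) (by norm_num)
        linarith
      rw [hdiff, hp.sq2_add, mul_smul_comm, map_smul, hcross, smul_zero, Complex.zero_re,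
        mul_zero, add_zero, sq2_smul, Complex.norm_real, Real.norm_of_nonneg hκ.le]
      have h9 := mul_le_mul_of_nonneg_left hRn (sq_nonneg κ)
      linarith

end P095F
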