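import Vale.Agent.Lib.P095F.T2LDefs

/-!
# P095F, part T2L: scalar inequalities

With `x = 2^m s`, `clamp y = max 0 (min 1 y)`:
`sum_{l < L} clamp (x - l) = min x L` for `x >= 0`; at most one `l` has `0 < clamp (x - l) < 1`.
-/

namespace P095F

theorem t2lscalar_clamp_sum (x : ℝ) (hx : 0 ≤ x) (L : ℕ) :
    ∑ l ∈ Finset.range L, max 0 (min 1 (x - (l : ℝ))) = min x L := by
  induction L with
  | zero => simp [hx]
  | succ L ih =>
    rw [Finset.sum_range_succ, ih]
    push_cast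
    rcases le_total x L with h | h
    · rw [min_eq_left h, min_eq_left (by linarith : x ≤ (L : ℝ) + 1),
        max_eq_left (le_trans (min_le_right _ _) (by linarith))]
      ring
    · rw [min_eq_right h, max_eq_right (le_min zero_le_one (by linarith))]
      rcases le_total x ((L : ℝ) + 1) with h' | h'
      · rw [min_eq_left h', min_eq_right (by linarith : x - (L : ℝ) ≤ 1)]
        ring
      · rw [min_eq_right h', min_eq_left (by linarith : (1 : ℝ) ≤ x - (L : ℝ))]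

theorem t2lscalar_HH_le (m l₀ l : ℕ) (s : ℝ) :
    HH m l₀ l s ≤ max 0 (min 1 (2 ^ m * s - (l : ℝ))) := by
  unfold HH
  split
  · exact le_max_left _ _
  · exact le_rfl

theorem HH_continuous (m l₀ l : ℕ) : Continuous (HH m l₀ l) := by
  unfold HH
  split
  · exact continuous_const
  · exact continuous_const.max (continuous_const.min ((continuous_const.mul continuous_id).sub
      continuous_const))

theorem HH_nonneg (m l₀ l : ℕ) (s : ℝ) : 0 ≤ HH m l₀ l s := by
  unfold HH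
  split
  · exact le_rfl
  · exact le_max_left _ _

theorem HH_le_one (m l₀ l : ℕ) (s : ℝ) : HH m l₀ l s ≤ 1 := by
  unfold HH
  split
  · exact zero_le_one
  · exact max_le zero_le_one (min_le_left _ _)

theorem HH_sum_le (m l₀ : ℕ) (s : ℝ) (hs : 0 ≤ s) :
    ∑ l ∈ Finset.range (2 ^ m), HH m l₀ l s ≤ 2 ^ m * s := by
  have hx : (0 : ℝ) ≤ 2 ^ m * s := by positivity
  calc ∑ l ∈ Finset.range (2 ^ m), HH m l₀ l s
      ≤ ∑ l ∈ Finset.range (2 ^ m), max 0 (min 1 (2 ^ m * s - (l : ℝ))) :=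
        Finset.sum_le_sum (fun l _ => t2lscalar_HH_le m l₀ l s)
    _ = min (2 ^ m * s) ((2 ^ m : ℕ) : ℝ) := t2lscalar_clamp_sum _ hx _
    _ ≤ 2 ^ m * s := min_le_left _ _

theorem t2lscalar_low (m l₀ : ℕ) (s : ℝ) (hs : 0 ≤ s) (L : ℕ) :
    ∑ l ∈ Finset.range L, (max 0 (min 1 (2 ^ m * s - (l : ℝ))) - HH m l₀ l s) ≤
      min (2 ^ m * s) l₀ := by
  have hx : (0 : ℝ) ≤ 2 ^ m * s := by positivity
  have h1 : ∀ l : ℕ, max 0 (min 1 (2 ^ m * s - (l : ℝ))) - HH m l₀ l s =
      if l < l₀ then max 0 (min 1 (2 ^ m * s - (l : ℝ))) else 0 := by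
    intro l
    unfold HH
    split <;> simp
  rw [Finset.sum_congr rfl (fun l _ => h1 l), ← Finset.sum_filter,
    ← t2lscalar_clamp_sum _ hx l₀]
  apply Finset.sum_le_sum_of_subset_of_nonneg
  · intro l hl
    rw [Finset.mem_filter] at hl
    exact Finset.mem_range.2 hl.2
  · intro l _ _
    exact le_max_left _ _

/-- the sum is `x - min x l₀`, `x = 2^m s`, and `min x l₀ ≤ √(l₀ x)` -/
theorem HH_sum_ge (m l₀ : ℕ) (s : ℝ) (hs : 0 ≤ s) (hs1 : s ≤ 1) :
    2 ^ m * (s - √((l₀ : ℝ) / 2 ^ m) * √s) ≤ ∑ l ∈ Finset.range (2 ^ m), HH m l₀ l s := by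
  have hp : (0 : ℝ) < 2 ^ m := by positivity
  have hx : (0 : ℝ) ≤ 2 ^ m * s := by positivity
  have h1 := t2lscalar_low m l₀ s hs (2 ^ m)
  rw [Finset.sum_sub_distrib, t2lscalar_clamp_sum _ hx] at h1
  have h2 : min (2 ^ m * s) (((2 ^ m : ℕ) : ℝ)) = 2 ^ m * s := by
    apply min_eq_left
    push_cast
    nlinarith
  rw [h2] at h1
  have h3 : min (2 ^ m * s) (l₀ : ℝ) ≤ √((l₀ : ℝ) * (2 ^ m * s)) := by
    apply Real.le_sqrt_of_sq_le
    have ha : min (2 ^ m * s) (l₀ : ℝ) ≤ 2 ^ m * s := min_le_left _ _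
    have hb : min (2 ^ m * s) (l₀ : ℝ) ≤ l₀ := min_le_right _ _
    have hc : 0 ≤ min (2 ^ m * s) (l₀ : ℝ) := le_min hx (Nat.cast_nonneg _)
    rw [sq]
    exact mul_le_mul hb ha hc (Nat.cast_nonneg _)
  have h4 : 2 ^ m * (√((l₀ : ℝ) / 2 ^ m) * √s) = √((l₀ : ℝ) * (2 ^ m * s)) := by
    have e1 : (2 : ℝ) ^ m = √((2 ^ m) ^ 2) := (Real.sqrt_sq hp.le).symm
    rw [← Real.sqrt_mul (by positivity)]
    nth_rewrite 1 [e1]
    rw [← Real.sqrt_mul (by positivity)]
    congr 1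
    field_simp
  rw [mul_sub, h4]
  linarith

theorem HH_sum_proj (m l₀ : ℕ) (s : ℝ) :
    ∑ l ∈ Finset.range (2 ^ m), (HH m l₀ l s - HH m l₀ l s ^ 2) ≤ 1 / 4 := by
  by_cases hex : ∃ l ∈ Finset.range (2 ^ m), 0 < 2 ^ m * s - (l : ℝ) ∧ 2 ^ m * s - (l : ℝ) < 1
  · obtain ⟨l', hl', h1, h2⟩ := hex
    rw [Finset.sum_eq_single l']
    · nlinarith [sq_nonneg (HH m l₀ l' s - 1 / 2)]
    · intro l _ hne
      unfold HH
      split
      · simp
      · rcases lt_or_gt_of_ne hne with h | h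
        · have h3 : (l : ℝ) + 1 ≤ l' := by exact_mod_cast h
          rw [min_eq_left (by linarith), max_eq_right zero_le_one]
          ring
        · have h3 : (l' : ℝ) + 1 ≤ l := by exact_mod_cast h
          rw [max_eq_left (le_trans (min_le_right _ _) (by linarith))]
          ring
    · intro h
      exact absurd hl' h
  · push Not at hex
    rw [Finset.sum_eq_zero]
    · norm_num
    · intro l hl
      unfold HH
      split
      · simp
      · rcases le_or_gt (2 ^ m * s - (l : ℝ)) 0 with h | h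
        · rw [max_eq_left (le_trans (min_le_right _ _) h)]
          ring
        · rw [min_eq_left (hex l hl h), max_eq_right zero_le_one]
          ring

theorem t2lscalar_diff_le (m l₀ : ℕ) (s t : ℝ) (ht : 0 ≤ t) (hts : t ≤ s) :
    ∑ l ∈ Finset.range (2 ^ m), (HH m l₀ l s - HH m l₀ l t) ^ 2 ≤ 2 ^ m * (s - t) := by
  have hs : 0 ≤ s := ht.trans hts
  have hp : (0 : ℝ) < 2 ^ m := by positivity
  have hx : (0 : ℝ) ≤ 2 ^ m * s := by positivity
  have hy : (0 : ℝ) ≤ 2 ^ m * t := by positivity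
  have hxy : 2 ^ m * t ≤ 2 ^ m * s := by nlinarith
  have hterm : ∀ l : ℕ, (HH m l₀ l s - HH m l₀ l t) ^ 2 ≤
      max 0 (min 1 (2 ^ m * s - (l : ℝ))) - max 0 (min 1 (2 ^ m * t - (l : ℝ))) := by
    intro l
    have hmono : max 0 (min 1 (2 ^ m * t - (l : ℝ))) ≤ max 0 (min 1 (2 ^ m * s - (l : ℝ))) :=
      max_le_max le_rfl (min_le_min le_rfl (by linarith))
    unfold HH
    split
    · simp only [sub_self]
      have : (0 : ℝ) ^ 2 = 0 := by norm_num
      rw [this]
      linarith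
    · have h0 : 0 ≤ max 0 (min 1 (2 ^ m * t - (l : ℝ))) := le_max_left _ _
      have h1 : max 0 (min 1 (2 ^ m * s - (l : ℝ))) ≤ 1 := max_le zero_le_one (min_le_left _ _)
      nlinarith
  calc ∑ l ∈ Finset.range (2 ^ m), (HH m l₀ l s - HH m l₀ l t) ^ 2
      ≤ ∑ l ∈ Finset.range (2 ^ m), (max 0 (min 1 (2 ^ m * s - (l : ℝ))) -
          max 0 (min 1 (2 ^ m * t - (l : ℝ)))) := Finset.sum_le_sum (fun l _ => hterm l)
    _ = min (2 ^ m * s) ((2 ^ m : ℕ) : ℝ) - min (2 ^ m * t) ((2 ^ m : ℕ) : ℝ) := by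
        rw [Finset.sum_sub_distrib, t2lscalar_clamp_sum _ hx, t2lscalar_clamp_sum _ hy]
    _ ≤ 2 ^ m * s - 2 ^ m * t := by
        rcases le_total (2 ^ m * s) ((2 ^ m : ℕ) : ℝ) with h | h
        · rw [min_eq_left h, min_eq_left (hxy.trans h)]
        · rw [min_eq_right h]
          rcases le_total (2 ^ m * t) ((2 ^ m : ℕ) : ℝ) with h' | h'
          · rw [min_eq_left h']
            linarith
          · rw [min_eq_right h']
            linarith
    _ = 2 ^ m * (s - t) := by ring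

theorem t2lscalar_amgm (s t : ℝ) (hs : 0 ≤ s) (ht : 0 ≤ t) (c : ℝ) (hc : 0 < c) :
    s - t ≤ c / 2 * (√s - √t) ^ 2 + 1 / (2 * c) * (√s + √t) ^ 2 := by
  have h1 : s - t = (√s - √t) * (√s + √t) := by
    have := Real.mul_self_sqrt hs
    have := Real.mul_self_sqrt ht
    nlinarith
  rw [h1]
  have h2 : c / 2 * (√s - √t) ^ 2 + 1 / (2 * c) * (√s + √t) ^ 2 - (√s - √t) * (√s + √t) =
      (c * (√s - √t) - (√s + √t)) ^ 2 / (2 * c) := by
    field_simp
    ring
  have h3 : 0 ≤ (c * (√s - √t) - (√s + √t)) ^ 2 / (2 * c) := by positivity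
  linarith

/-- `sum (H_l s - H_l t)^2 ≤ sum |H_l s - H_l t| ≤ 2^m |s - t|` and
`|s - t| = |√s - √t| (√s + √t)` -/
theorem HH_sum_diff (m l₀ : ℕ) (s t : ℝ) (hs : 0 ≤ s) (ht : 0 ≤ t) (c : ℝ) (hc : 0 < c) :
    ∑ l ∈ Finset.range (2 ^ m), (HH m l₀ l s - HH m l₀ l t) ^ 2 ≤
      2 ^ m * (c / 2 * (√s - √t) ^ 2 + 1 / (2 * c) * (√s + √t) ^ 2) := by
  have hp : (0 : ℝ) < 2 ^ m := by positivity
  rcases le_total t s with h | h
  · exact (t2lscalar_diff_le m l₀ s t ht h).trans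
      (mul_le_mul_of_nonneg_left (t2lscalar_amgm s t hs ht c hc) hp.le)
  · have h1 := (t2lscalar_diff_le m l₀ t s hs h).trans
      (mul_le_mul_of_nonneg_left (t2lscalar_amgm t s ht hs c hc) hp.le)
    have h2 : ∑ l ∈ Finset.range (2 ^ m), (HH m l₀ l s - HH m l₀ l t) ^ 2 =
        ∑ l ∈ Finset.range (2 ^ m), (HH m l₀ l t - HH m l₀ l s) ^ 2 :=
      Finset.sum_congr rfl (fun l _ => by ring)
    have h3 : c / 2 * (√s - √t) ^ 2 + 1 / (2 * c) * (√s + √t) ^ 2 =
        c / 2 * (√t - √s) ^ 2 + 1 / (2 * c) * (√t + √s) ^ 2 := by ring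
    rw [h2, h3]
    exact h1

theorem HH_le_div (m l₀ l : ℕ) (hl : 0 < l₀) (s : ℝ) (hs : 0 ≤ s) :
    HH m l₀ l s ≤ ((l₀ : ℝ) / 2 ^ m)⁻¹ * s := by
  have hp : (0 : ℝ) < 2 ^ m := by positivity
  have hl0 : (0 : ℝ) < l₀ := by exact_mod_cast hl
  have hr : 0 ≤ ((l₀ : ℝ) / 2 ^ m)⁻¹ * s := by positivity
  unfold HH
  split
  · exact hr
  · rename_i hll
    have h1 : (l₀ : ℝ) ≤ l := by
      have : l₀ ≤ l := not_lt.1 hll
      exact_mod_cast this
    rcases le_or_gt (2 ^ m * s) l with h | h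
    · rw [max_eq_left (le_trans (min_le_right _ _) (by linarith))]
      exact hr
    · refine (max_le zero_le_one (min_le_left _ _)).trans ?_
      rw [inv_div, div_mul_eq_mul_div, le_div_iff₀ hl0]
      linarith

theorem phi_continuous : Continuous phi := by
  unfold phi
  exact continuous_const.max (continuous_const.min ((continuous_const.mul continuous_id).sub
      continuous_const))

theorem gg_continuous : Continuous gg := by
  unfold gg
  exact continuous_const.max (continuous_const.min (continuous_const.mul continuous_id))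

theorem phi_nonneg (s : ℝ) : 0 ≤ phi s := le_max_left _ _

theorem phi_le_one (s : ℝ) : phi s ≤ 1 := max_le zero_le_one (min_le_left _ _)

theorem gg_nonneg (s : ℝ) : 0 ≤ gg s := le_max_left _ _

theorem gg_le_one (s : ℝ) : gg s ≤ 1 := max_le zero_le_one (min_le_left _ _)

theorem t2lscalar_gg_one {s : ℝ} (h : 1 / 8 ≤ s) : gg s = 1 := by
  unfold gg
  rw [min_eq_left (by linarith), max_eq_right zero_le_one]

theorem t2lscalar_gg_low {s : ℝ} (h0 : 0 ≤ s) (h : s ≤ 1 / 8) : gg s = 8 * s := by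
  unfold gg
  rw [min_eq_right (by linarith), max_eq_right (by linarith)]

theorem t2lscalar_phi_one {s : ℝ} (h : 1 / 4 ≤ s) : phi s = 1 := by
  unfold phi
  rw [min_eq_left (by linarith), max_eq_right zero_le_one]

theorem t2lscalar_phi_zero {s : ℝ} (h : s ≤ 1 / 8) : phi s = 0 := by
  unfold phi
  rw [max_eq_left (le_trans (min_le_right _ _) (by linarith))]

theorem phi_gg (s : ℝ) : phi s * gg s = phi s := by
  rcases le_total s (1 / 8) with h | h
  · rw [t2lscalar_phi_zero h, zero_mul]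
  · rw [t2lscalar_gg_one h, mul_one]

theorem t2lscalar_clamp_lip (a b : ℝ) : |max 0 (min 1 a) - max 0 (min 1 b)| ≤ |a - b| := by
  have h1 : |max 0 (min 1 a) - max 0 (min 1 b)| ≤ |min 1 a - min 1 b| := by
    have := abs_max_sub_max_le_abs (min 1 a) (min 1 b) (0 : ℝ)
    rwa [max_comm (min 1 a), max_comm (min 1 b)] at this
  have h2 : |min 1 a - min 1 b| ≤ |a - b| := by
    rcases le_total 1 a with ha | ha <;> rcases le_total 1 b with hb | hb
    · rw [min_eq_left ha, min_eq_left hb]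
      simp
    · rw [min_eq_left ha, min_eq_right hb, abs_of_nonneg (by linarith),
        abs_of_nonneg (by linarith)]
      linarith
    · rw [min_eq_right ha, min_eq_left hb, abs_of_nonpos (by linarith),
        abs_of_nonpos (by linarith)]
      linarith
    · rw [min_eq_right ha, min_eq_right hb]
  exact h1.trans h2

theorem phi_lip (s t : ℝ) : |phi s - phi t| ≤ 8 * |s - t| := by
  have h := t2lscalar_clamp_lip (8 * s - 1) (8 * t - 1)
  have e : 8 * s - 1 - (8 * t - 1) = 8 * (s - t) := by ring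
  rw [e, abs_mul, abs_of_pos (by norm_num : (0 : ℝ) < 8)] at h
  exact h

theorem gg_lip (s t : ℝ) : |gg s - gg t| ≤ 8 * |s - t| := by
  have h := t2lscalar_clamp_lip (8 * s) (8 * t)
  have e : 8 * s - 8 * t = 8 * (s - t) := by ring
  rw [e, abs_mul, abs_of_pos (by norm_num : (0 : ℝ) < 8)] at h
  exact h

theorem gg_le (s : ℝ) (hs : 0 ≤ s) : gg s ≤ 8 * s := by
  unfold gg
  exact max_le (by linarith) (min_le_right _ _)

theorem gg_ge (s : ℝ) (hs : 0 ≤ s) (hs2 : s ≤ 2) : s / 2 ≤ gg s := by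
  rcases le_total s (1 / 8) with h | h
  · rw [t2lscalar_gg_low hs h]
    linarith
  · rw [t2lscalar_gg_one h]
    linarith

theorem t2lscalar_f {s : ℝ} (hs : 0 ≤ s) : |2 * s ^ 2 - s| = s * |2 * s - 1| := by
  have e : 2 * s ^ 2 - s = s * (2 * s - 1) := by ring
  rw [e, abs_mul, abs_of_nonneg hs]

theorem bd_phi_sq (s : ℝ) (hs : 0 ≤ s) (hs2 : s ≤ 2) :
    (1 - phi s ^ 2) ^ 2 * s ≤ 2 * |2 * s ^ 2 - s| := by
  rcases le_total (1 / 4) s with h | h
  · rw [t2lscalar_phi_one h]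
    have : (1 - (1 : ℝ) ^ 2) ^ 2 * s = 0 := by ring
    rw [this]
    positivity
  · rw [t2lscalar_f hs]
    have h0 := phi_nonneg s
    have h1 := phi_le_one s
    have h2 : phi s ^ 2 ≤ 1 := by nlinarith
    have h3 : 0 ≤ phi s ^ 2 := sq_nonneg _
    have h4 : (1 - phi s ^ 2) ^ 2 ≤ 1 := by nlinarith
    have h5 : |2 * s - 1| = 1 - 2 * s := by
      rw [abs_of_nonpos (by linarith)]
      ring
    rw [h5]
    nlinarith

theorem bd_phi (s : ℝ) (hs : 0 ≤ s) (hs2 : s ≤ 2) :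
    (1 - phi s) ^ 2 * s ≤ 2 * |2 * s ^ 2 - s| := by
  rcases le_total (1 / 4) s with h | h
  · rw [t2lscalar_phi_one h]
    have : (1 - (1 : ℝ)) ^ 2 * s = 0 := by ring
    rw [this]
    positivity
  · rw [t2lscalar_f hs]
    have h0 := phi_nonneg s
    have h1 := phi_le_one s
    have h4 : (1 - phi s) ^ 2 ≤ 1 := by nlinarith
    have h5 : |2 * s - 1| = 1 - 2 * s := by
      rw [abs_of_nonpos (by linarith)]
      ring
    rw [h5]
    nlinarith

theorem bd_G (s : ℝ) (hs : 0 ≤ s) (hs2 : s ≤ 2) :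
    |4 * (s - s ^ 2) - (1 - (1 - gg s) ^ 2)| ≤ 12 * |2 * s ^ 2 - s| := by
  rw [t2lscalar_f hs]
  rcases le_total s (1 / 8) with h | h
  · rw [t2lscalar_gg_low hs h]
    have h5 : |2 * s - 1| = 1 - 2 * s := by
      rw [abs_of_nonpos (by linarith)]
      ring
    rw [h5, abs_le]
    constructor <;> nlinarith
  · rw [t2lscalar_gg_one h]
    rcases le_total s (1 / 2) with h2 | h2
    · have h5 : |2 * s - 1| = 1 - 2 * s := by
        rw [abs_of_nonpos (by linarith)]
        ring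
      rw [h5, abs_le]
      constructor <;> nlinarith
    · have h5 : |2 * s - 1| = 2 * s - 1 := abs_of_nonneg (by linarith)
      rw [h5, abs_le]
      constructor <;> nlinarith

theorem bd_g (s : ℝ) (hs : 0 ≤ s) (hs2 : s ≤ 2) :
    |gg s - 4 * s ^ 2| ≤ 11 * |2 * s ^ 2 - s| := by
  rw [t2lscalar_f hs]
  rcases le_total s (1 / 8) with h | h
  · rw [t2lscalar_gg_low hs h]
    have h5 : |2 * s - 1| = 1 - 2 * s := by
      rw [abs_of_nonpos (by linarith)]
      ring
    rw [h5, abs_le]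
    constructor <;> nlinarith
  · rw [t2lscalar_gg_one h]
    rcases le_total s (1 / 2) with h2 | h2
    · have h5 : |2 * s - 1| = 1 - 2 * s := by
        rw [abs_of_nonpos (by linarith)]
        ring
      rw [h5, abs_le]
      constructor <;> nlinarith
    · have h5 : |2 * s - 1| = 2 * s - 1 := abs_of_nonneg (by linarith)
      rw [h5, abs_le]
      constructor <;> nlinarith

/-- with `f = |2s^2 - s| = s |2s - 1| ≤ 3s`: if `f ≥ c^2` then `f ≤ f^2/c^2`, else
`f ≤ c √f ≤ c √(3s) ≤ 2 c √s` -/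
theorem bd_sqrt (s : ℝ) (hs : 0 ≤ s) (hs2 : s ≤ 2) (c : ℝ) (hc : 0 < c) :
    |2 * s ^ 2 - s| ≤ 2 * c * √s + (2 * s ^ 2 - s) ^ 2 / c ^ 2 := by
  have hf0 : 0 ≤ |2 * s ^ 2 - s| := abs_nonneg _
  have hfs : |2 * s ^ 2 - s| ≤ 3 * s := by
    rw [t2lscalar_f hs]
    have : |2 * s - 1| ≤ 3 := by
      rw [abs_le]
      constructor <;> linarith
    nlinarith
  rw [← sq_abs (2 * s ^ 2 - s)]
  set f := |2 * s ^ 2 - s| with hf
  have hc2 : 0 < c ^ 2 := by positivity
  have hsq0 : 0 ≤ √s := Real.sqrt_nonneg s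
  rcases le_total (c ^ 2) f with h | h
  · have h1 : f ≤ f ^ 2 / c ^ 2 := by
      rw [le_div_iff₀ hc2]
      nlinarith
    have h2 : 0 ≤ 2 * c * √s := by positivity
    linarith
  · have h1 : f ≤ 2 * c * √s := by
      apply le_of_sq_le_sq _ (by positivity)
      have h3 : (2 * c * √s) ^ 2 = 4 * c ^ 2 * s := by
        rw [mul_pow, mul_pow, Real.sq_sqrt hs]
        ring
      rw [h3]
      nlinarith
    have h2 : 0 ≤ f ^ 2 / c ^ 2 := by positivity
    linarith

end P095F
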