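import Vale.Agent.Lib.P095F.T2LMat
import Vale.Agent.Lib.P095F.T2LScalar

/-!
# P095F, part T2L: `v = vv Q`, `k = kk Q`: algebra
-/

open scoped ENNReal Topology

namespace P095F

universe u

variable {E : Type u} [CStarAlgebra E] [PartialOrder E] [StarOrderedRing E] {Q : D2 E}

private theorem t2lvk_norm_le {x : E} (hx : IsSelfAdjoint x) {r : ℝ} (hr : 0 ≤ r)
    (h1 : algebraMap ℝ E (-r) ≤ x) (h2 : x ≤ algebraMap ℝ E r) : ‖x‖ ≤ r := by
  have h := norm_cfc_le (f := (id : ℝ → ℝ)) (a := x) hr (fun t ht => by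
    rw [Real.norm_eq_abs]
    exact abs_le.2 ⟨(algebraMap_le_iff_le_spectrum hx).1 h1 t ht,
      (le_algebraMap_iff_spectrum_le hx).1 h2 t ht⟩)
  rwa [cfc_id ℝ x] at h

theorem kk_sa : star (kk Q) = kk Q :=
  IsSelfAdjoint.star_eq (cfc_predicate gg (rr Q))

private theorem t2lvk_kk_nonneg : 0 ≤ kk Q := cfc_nonneg fun x _ => gg_nonneg x

private theorem t2lvk_kk_le_one : kk Q ≤ 1 := cfc_le_one _ _ fun x _ => gg_le_one x

theorem kk_norm : ‖kk Q‖ ≤ 1 :=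
  (CStarAlgebra.norm_le_one_iff_of_nonneg _ t2lvk_kk_nonneg).2 t2lvk_kk_le_one

theorem one_sub_kk_norm : ‖1 - kk Q‖ ≤ 1 :=
  (CStarAlgebra.norm_le_one_iff_of_nonneg _ (sub_nonneg.2 t2lvk_kk_le_one)).2
    (sub_le_self _ t2lvk_kk_nonneg)

theorem vv_norm (h0 : 0 ≤ Q) (h1 : Q ≤ 1) : ‖vv Q‖ ≤ 1 := by
  have hp : ‖cfc phi (rr Q)‖ ≤ 1 := norm_cfc_le zero_le_one fun x _ => by
    rw [Real.norm_eq_abs, abs_of_nonneg (phi_nonneg x)]
    exact phi_le_one x
  have hq := norm_off h0 h1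
  unfold vv
  calc ‖cfc phi (rr Q) * ((2 : ℂ) • ent Q 0 1) * cfc phi (rr Q)‖
      ≤ ‖cfc phi (rr Q)‖ * ‖(2 : ℂ) • ent Q 0 1‖ * ‖cfc phi (rr Q)‖ :=
        (norm_mul_le _ _).trans (mul_le_mul_of_nonneg_right (norm_mul_le _ _) (norm_nonneg _))
    _ ≤ 1 * 1 * 1 := by gcongr
    _ = 1 := by norm_num

private theorem t2lvk_gp : cfc gg (rr Q) * cfc phi (rr Q) = cfc phi (rr Q) := by
  rw [← cfc_mul gg phi (rr Q) gg_continuous.continuousOn phi_continuous.continuousOn]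
  congr 1
  funext s
  rw [mul_comm, phi_gg]

private theorem t2lvk_pg : cfc phi (rr Q) * cfc gg (rr Q) = cfc phi (rr Q) := by
  rw [← cfc_mul phi gg (rr Q) phi_continuous.continuousOn gg_continuous.continuousOn]
  congr 1
  funext s
  rw [phi_gg]

/-- `g φ = φ` on the real line (`phi_gg`) -/
theorem kk_mul_vv (h0 : 0 ≤ Q) : kk Q * vv Q = vv Q := by
  unfold kk vv
  rw [← mul_assoc, ← mul_assoc, t2lvk_gp]

theorem vv_mul_kk (h0 : 0 ≤ Q) : vv Q * kk Q = vv Q := by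
  unfold kk vv
  rw [mul_assoc, t2lvk_pg]

/-- change of sign -/
theorem vv_kk_sym {Q' : D2 E} (h00 : ent Q' 0 0 = ent Q 0 0) (h11 : ent Q' 1 1 = ent Q 1 1)
    (h01 : ent Q' 0 1 = -ent Q 0 1) : vv Q' = -vv Q ∧ kk Q' = kk Q := by
  have h : rr Q' = rr Q := by
    unfold rr
    rw [h00, h11]
  unfold vv kk
  rw [h, h01]
  refine ⟨?_, rfl⟩
  rw [smul_neg, mul_neg, neg_mul]

/-- `yy Q` is self-adjoint with norm at most `2` (`0 ≤ v^* v + v v^* ≤ 2`, `0 ≤ 1 - (1-k)^2 ≤ 1`) -/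
theorem yy_sa : star (yy Q) = yy Q := by
  unfold yy
  simp only [star_sub, star_add, star_mul, star_star, star_one, kk_sa]

theorem yy_norm (h0 : 0 ≤ Q) (h1 : Q ≤ 1) : ‖yy Q‖ ≤ 2 := by
  have hv := vv_norm h0 h1
  have a1 : 0 ≤ star (vv Q) * vv Q := star_mul_self_nonneg _
  have a2 : 0 ≤ vv Q * star (vv Q) := mul_star_self_nonneg _
  have b1 : star (vv Q) * vv Q ≤ 1 := by
    refine (CStarAlgebra.norm_le_one_iff_of_nonneg _ a1).1 ?_
    rw [CStarRing.norm_star_mul_self]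
    nlinarith [norm_nonneg (vv Q)]
  have b2 : vv Q * star (vv Q) ≤ 1 := by
    refine (CStarAlgebra.norm_le_one_iff_of_nonneg _ a2).1 ?_
    rw [CStarRing.norm_self_mul_star]
    nlinarith [norm_nonneg (vv Q)]
  have hs : star (1 - kk Q) = 1 - kk Q := by rw [star_sub, star_one, kk_sa]
  have c1 : 0 ≤ (1 - kk Q) * (1 - kk Q) := by
    have h := star_mul_self_nonneg (1 - kk Q)
    rwa [hs] at h
  have c2 : (1 - kk Q) * (1 - kk Q) ≤ 1 := by
    refine (CStarAlgebra.norm_le_one_iff_of_nonneg _ c1).1 ?_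
    refine (norm_mul_le _ _).trans ?_
    nlinarith [norm_nonneg (1 - kk Q), one_sub_kk_norm (Q := Q)]
  refine t2lvk_norm_le yy_sa (by norm_num) ?_ ?_
  · have e : algebraMap ℝ E (-2) = -1 - 1 := by
      rw [show (-2 : ℝ) = -1 - 1 from by norm_num, map_sub, map_neg, map_one]
    rw [e]
    unfold yy
    have h3 : (-1 : E) ≤ 0 := by
      have : (0 : E) ≤ 1 := zero_le_one
      exact neg_nonpos.2 this
    have h4 : (1 : E) - (1 - kk Q) * (1 - kk Q) ≤ 1 := sub_le_self _ c1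
    have h5 : (-1 : E) ≤ star (vv Q) * vv Q + vv Q * star (vv Q) :=
      h3.trans (add_nonneg a1 a2)
    exact sub_le_sub h5 h4
  · have e : algebraMap ℝ E 2 = 1 + 1 := by
      rw [show (2 : ℝ) = 1 + 1 from by norm_num, map_add, map_one]
    rw [e]
    unfold yy
    have h4 : (0 : E) ≤ 1 - (1 - kk Q) * (1 - kk Q) := sub_nonneg.2 c2
    exact (sub_le_self _ h4).trans (add_le_add b1 b2)

end P095F
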