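import Vale.Agent.Lib.P095F.T2RDefs

/-!
# P095F, part T2R, module 1: algebra of one round

Notation `c = 1 - k`; `c v = v c = 0`; `k`, `c` commute with everything in `B`, `v`, `star v` too.
-/

open scoped Topology

namespace P095F

universe u

variable {M : Type u} [CStarAlgebra M] [PartialOrder M] [StarOrderedRing M]

private theorem t2ralg_le_one {x : M} (hx : IsSelfAdjoint x) (hn : ‖x‖ ≤ 1) : x ≤ 1 := by
  refine hx.le_algebraMap_norm_self.trans ?_
  have h1 : algebraMap ℝ M ‖x‖ ≤ algebraMap ℝ M 1 := algebraMap_mono M hn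
  rwa [map_one] at h1

/-- `0 ≤ k` (`k` self-adjoint, `‖1 - k‖ ≤ 1`, so the spectrum of `k` is in `[0, 2]`). -/
theorem RoundAlg.k_nonneg {B : StarSubalgebra ℂ M} {v k : M} (h : RoundAlg B v k) : 0 ≤ k := by
  have h1 : IsSelfAdjoint (1 - k) := (IsSelfAdjoint.one M).sub h.sk
  have h2 := t2ralg_le_one h1 h.nc
  have h3 := sub_nonneg.2 h2
  rwa [sub_sub_cancel] at h3

/-- `k ≤ 1` (`IsSelfAdjoint.le_algebraMap_norm_self` or similar). -/
theorem RoundAlg.k_le_one {B : StarSubalgebra ℂ M} {v k : M} (h : RoundAlg B v k) : k ≤ 1 :=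
  t2ralg_le_one h.sk h.nk

/-- `k² ≤ k` (`k - k² = k^{1/2} (1 - k) k^{1/2}`, or commuting nonnegative elements have nonnegative
product: `Commute.mul_nonneg`) -/
theorem RoundAlg.kk_le {B : StarSubalgebra ℂ M} {v k : M} (h : RoundAlg B v k) : k * k ≤ k := by
  have h1 : Commute k (1 - k) := (Commute.one_right k).sub_right (Commute.refl k)
  have h2 := Commute.mul_nonneg h.k_nonneg (sub_nonneg.2 h.k_le_one) h1
  rw [mul_sub, mul_one] at h2
  exact sub_nonneg.1 h2

omit [PartialOrder M] [StarOrderedRing M] in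
private theorem t2ralg_sk {B : StarSubalgebra ℂ M} {v k : M} (h : RoundAlg B v k) :
    k * star v = star v := by
  have h1 := congrArg star h.vk
  rwa [star_mul, h.sk] at h1

omit [PartialOrder M] [StarOrderedRing M] in
private theorem t2ralg_ks {B : StarSubalgebra ℂ M} {v k : M} (h : RoundAlg B v k) :
    star v * k = star v := by
  have h1 := congrArg star h.kv
  rwa [star_mul, h.sk] at h1

private theorem t2ralg_conj {k x : M} (hk : star k = k) (hx : x ≤ 1) : k * x * k ≤ k * k := by
  have h1 := star_left_conjugate_le_conjugate hx k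
  rwa [hk, mul_one] at h1

/-- `v* v ≤ k²`: `v* v = k v* v k ≤ ‖v‖² k²` (take stars in `v k = v`). -/
theorem RoundAlg.vsv_le {B : StarSubalgebra ℂ M} {v k : M} (h : RoundAlg B v k) :
    star v * v ≤ k * k := by
  have h1 : star v * v = k * (star v * v) * k := by
    rw [← mul_assoc, t2ralg_sk h, mul_assoc, h.vk]
  have h2 : star v * v ≤ 1 := by
    refine t2ralg_le_one (IsSelfAdjoint.star_mul_self v) ?_
    rw [CStarRing.norm_star_mul_self]
    have := h.nv
    have h0 := norm_nonneg v
    nlinarith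
  rw [h1]
  exact t2ralg_conj h.sk h2

/-- `v v* ≤ k²`: `v v* = k v v* k` (`k v = v`). -/
theorem RoundAlg.vvs_le {B : StarSubalgebra ℂ M} {v k : M} (h : RoundAlg B v k) :
    v * star v ≤ k * k := by
  have h1 : v * star v = k * (v * star v) * k := by
    rw [← mul_assoc, h.kv, mul_assoc, t2ralg_ks h]
  have h2 : v * star v ≤ 1 := by
    refine t2ralg_le_one (IsSelfAdjoint.mul_star_self v) ?_
    rw [CStarRing.norm_self_mul_star]
    have := h.nv
    have h0 := norm_nonneg v
    nlinarith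
  rw [h1]
  exact t2ralg_conj h.sk h2

/-- `v* v ≤ 1 - (1 - k)²`: `v* v ≤ k² ≤ 2 k - k²`. -/
theorem RoundAlg.vsv_le' {B : StarSubalgebra ℂ M} {v k : M} (h : RoundAlg B v k) :
    star v * v ≤ 1 - (1 - k) * (1 - k) := by
  refine h.vsv_le.trans ?_
  have h1 := h.kk_le
  have h2 : 1 - (1 - k) * (1 - k) - k * k = (k - k * k) + (k - k * k) := by
    noncomm_ring
  rw [← sub_nonneg, h2]
  exact add_nonneg (sub_nonneg.2 h1) (sub_nonneg.2 h1)

/-- **One round.**  `E⁺ w⁺ = E c (w + E v) = E w c + E² c v = 0`, `w⁺ E⁺ = 0` similarly;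
`w⁺* w⁺ = w* w + w* E v + v* E w + v* E² v = w* w + E² v* v`, `w⁺ w⁺* = w w* + E² v v*`
(`w* E = (E w)* = 0`, `E w* = (w E)* = 0`; `v`, `v*` commute with `E`, `w`, `w*`);
`w⁺* w⁺ + w⁺ w⁺* = 1 - E² + Y + E² (y + 1 - c²) = 1 - E² c² + Y⁺`;
`w⁺* w⁺ ≤ 1 - E² + E² v* v = 1 - E² + E (v* v) E ≤ 1 - E² + E (1 - c²) E = 1 - E² c²`. -/
theorem St.step {B B' : StarSubalgebra ℂ M} {E w Y v k : M} (hs : St B E w Y)
    (h : RoundAlg B v k) (hBB' : B ≤ B') (hv : v ∈ B') (hk : k ∈ B') :
    St B' (E * (1 - k)) (w + E * v) (Y + E * E * yyR v k) := by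
  have hE' := hBB' hs.memE
  have hw' := hBB' hs.memw
  have hc' : (1 - k) ∈ B' := sub_mem (one_mem _) hk
  have vE : v * E = E * v := (h.vc E hs.memE).eq
  have sE : star v * E = E * star v := (h.vsc E hs.memE).eq
  have vw : v * w = w * v := (h.vc w hs.memw).eq
  have sw : star v * w = w * star v := (h.vsc w hs.memw).eq
  have vws : v * star w = star w * v := (h.vc _ (star_mem hs.memw)).eq
  have sws : star v * star w = star w * star v := (h.vsc _ (star_mem hs.memw)).eq
  have cE : (1 - k) * E = E * (1 - k) := by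
    rw [sub_mul, mul_sub, one_mul, mul_one, (h.kc E hs.memE).eq]
  have cw : (1 - k) * w = w * (1 - k) := by
    rw [sub_mul, mul_sub, one_mul, mul_one, (h.kc w hs.memw).eq]
  have cv : (1 - k) * v = 0 := by
    rw [sub_mul, one_mul, h.kv, sub_self]
  have vc : v * (1 - k) = 0 := by
    rw [mul_sub, mul_one, h.vk, sub_self]
  have Ews : E * star w = 0 := by
    have h1 := congrArg star hs.wE
    rwa [star_mul, hs.sE, star_zero] at h1
  have wsE : star w * E = 0 := by
    have h1 := congrArg star hs.Ew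
    rwa [star_mul, hs.sE, star_zero] at h1
  have sc : star (1 - k) = 1 - k := by
    rw [star_sub, star_one, h.sk]
  have w1 : star (w + E * v) * (w + E * v) = star w * w + E * (star v * v) * E := by
    have e1 : star w * (E * v) = 0 := by rw [← mul_assoc, wsE, zero_mul]
    have e2 : star v * E * w = 0 := by rw [mul_assoc, hs.Ew, mul_zero]
    have e3 : star v * E * (E * v) = E * (star v * v) * E := by
      rw [sE, mul_assoc, ← vE, mul_assoc, mul_assoc]
    rw [star_add, star_mul, hs.sE, add_mul, mul_add, mul_add, e1, e2, e3]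
    abel
  have w2 : (w + E * v) * star (w + E * v) = w * star w + E * (v * star v) * E := by
    have e1 : w * (star v * E) = 0 := by rw [sE, ← mul_assoc, hs.wE, zero_mul]
    have e2 : E * v * star w = 0 := by rw [mul_assoc, vws, ← mul_assoc, Ews, zero_mul]
    have e3 : E * v * (star v * E) = E * (v * star v) * E := by
      simp only [mul_assoc]
    rw [star_add, star_mul, hs.sE, add_mul, mul_add, mul_add, e1, e2, e3]
    abel
  have e4 : ∀ x : M, x * E = E * x → E * x * E = E * E * x := by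
    intro x hx
    rw [mul_assoc, hx, ← mul_assoc]
  have e5 : star v * v * E = E * (star v * v) := by
    rw [mul_assoc, vE, ← mul_assoc, sE, mul_assoc]
  have e6 : v * star v * E = E * (v * star v) := by
    rw [mul_assoc, sE, ← mul_assoc, vE, mul_assoc]
  have e7 : (1 - k) * (1 - k) * E = E * ((1 - k) * (1 - k)) := by
    rw [mul_assoc, cE, ← mul_assoc, cE, mul_assoc]
  have EE : E * (1 - k) * (E * (1 - k)) = E * E * ((1 - k) * (1 - k)) := by
    rw [mul_assoc, ← mul_assoc (1 - k), cE]
    simp only [mul_assoc]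
  refine ⟨mul_mem hE' hc', add_mem hw' (mul_mem hE' hv), ?_, ?_, ?_, ?_, ?_, ?_, ?_⟩
  · refine add_mem (hBB' hs.memY) (mul_mem (mul_mem hE' hE') ?_)
    unfold yyR
    exact sub_mem (add_mem (mul_mem (star_mem hv) hv) (mul_mem hv (star_mem hv)))
      (sub_mem (one_mem _) (mul_mem hc' hc'))
  · rw [star_mul, sc, hs.sE, cE]
  · calc ‖E * (1 - k)‖ ≤ ‖E‖ * ‖1 - k‖ := norm_mul_le _ _
      _ ≤ 1 * 1 := mul_le_mul hs.nE h.nc (norm_nonneg _) zero_le_one
      _ = 1 := one_mul 1
  · rw [mul_assoc, mul_add, cw, ← mul_assoc (1 - k), cE, mul_assoc E (1 - k) v, cv, mul_zero,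
      add_zero, ← mul_assoc, hs.Ew, zero_mul]
  · rw [add_mul, ← mul_assoc w, hs.wE, zero_mul, zero_add, mul_assoc, ← mul_assoc v, vE,
      mul_assoc E v, vc, mul_zero, mul_zero]
  · rw [w1, w2, e4 _ e5, e4 _ e6, EE]
    have h1 := hs.id
    have h2 : star w * w + E * E * (star v * v) + (w * star w + E * E * (v * star v)) =
        (star w * w + w * star w) + (E * E * (star v * v) + E * E * (v * star v)) := by abel
    rw [h2, h1]
    unfold yyR
    generalize (1 - k) * (1 - k) = c2
    noncomm_ring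
  · rw [w1, EE]
    have h1 := hs.le
    have h2 := star_left_conjugate_le_conjugate h.vsv_le' E
    rw [hs.sE] at h2
    have h3 := add_le_add h1 h2
    refine h3.trans (le_of_eq ?_)
    have h4 : (1 - (1 - k) * (1 - k)) * E = E * (1 - (1 - k) * (1 - k)) := by
      rw [sub_mul, e7, mul_sub E 1, one_mul, mul_one]
    rw [e4 _ h4]
    generalize (1 - k) * (1 - k) = c2
    noncomm_ring

/-- `‖w‖ ≤ 1` (from `w* w ≤ 1 - E² ≤ 1`, C*-identity). -/
theorem St.norm_le {B : StarSubalgebra ℂ M} {E w Y : M} (hs : St B E w Y) : ‖w‖ ≤ 1 := by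
  have h1 : star w * w ≤ 1 := by
    refine hs.le.trans ?_
    have h2 : 0 ≤ E * E := by
      have h3 := star_mul_self_nonneg E
      rwa [hs.sE] at h3
    exact sub_le_self 1 h2
  have h2 : ‖star w * w‖ ≤ 1 :=
    (CStarAlgebra.norm_le_one_iff_of_nonneg (star w * w) (star_mul_self_nonneg w)).2 h1
  rw [CStarRing.norm_star_mul_self] at h2
  nlinarith [norm_nonneg w]

/-- the initial state -/
theorem St.zero : St (⊥ : StarSubalgebra ℂ M) (1 : M) 0 0 := by
  refine ⟨one_mem _, zero_mem _, zero_mem _, star_one M, ?_, by simp, by simp, by simp, by simp⟩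
  rcases subsingleton_or_nontrivial M with h | h
  · rw [Subsingleton.elim (1 : M) 0, norm_zero]
    exact zero_le_one
  · rw [CStarRing.norm_one]

end P095F
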