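import Vale.Agent.Lib.P095F.PTrBasic
import Vale.Agent.Lib.P095F.AdmBasic

/-!
# P095F, part T2R: definitions for the iteration of rounds

State after some rounds: `(E, w, Y)` in an admissible `B`; one round gives `(v, k)` commuting with
`B`; new state `E (1 - k)`, `w + E v`, `Y + E² y` with `y = v* v + v v* - (1 - (1 - k)²)`.
-/

open scoped Topology

namespace P095F

universe u v

variable {G : Type v} [Group G] {M : Type u} [CStarAlgebra M]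

/-- the error `y = v* v + v v* - (1 - (1 - k)²)` -/
def yyR (v k : M) : M := star v * v + v * star v - (1 - (1 - k) * (1 - k))

/-- algebraic relations of the data of one round over `B` -/
structure RoundAlg (B : StarSubalgebra ℂ M) (v k : M) : Prop where
  vc : ∀ b ∈ B, Commute v b
  vsc : ∀ b ∈ B, Commute (star v) b
  kc : ∀ b ∈ B, Commute k b
  sk : star k = k
  nk : ‖k‖ ≤ 1
  nc : ‖1 - k‖ ≤ 1
  nv : ‖v‖ ≤ 1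
  kv : k * v = v
  vk : v * k = v

/-- the bounds satisfied by the data of one round over `B` -/
structure RoundBd (α : G →* (M ≃⋆ₐ[ℂ] M)) (T : Set (M →ₗ[ℂ] ℂ)) (K₀ : Finset G) (ρ t : ℝ)
    (B : StarSubalgebra ℂ M) (v k : M) : Prop where
  mean : ∀ τ ∈ T, ∀ z ∈ B, τ (z * v) = 0
  low : ∀ τ ∈ T, ∀ z ∈ B, sq2 τ z * t ≤ (τ (star z * z * (1 - (1 - k) * (1 - k)))).re
  up : ∀ τ ∈ T, ∀ z ∈ B, (τ (star z * z * k)).re ≤ 32 * t * sq2 τ z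
  vv : ∀ τ ∈ T, ∀ z ∈ B, (τ (star z * z * (star (v * v) * (v * v)))).re ≤ ρ * t * sq2 τ z
  y1 : ∀ τ ∈ T, ∀ z ∈ B, ‖τ (z * yyR v k)‖ ≤ ρ * t * √(sq2 τ z)
  y2 : ∀ τ ∈ T, ∀ z ∈ B, sq2 τ (z * yyR v k) ≤ ρ * t * sq2 τ z
  av : ∀ τ ∈ T, ∀ z ∈ B, ∀ h ∈ K₀, sq2 τ (z * (α h v - v)) ≤ ρ * t * sq2 τ z
  ak : ∀ τ ∈ T, ∀ z ∈ B, ∀ h ∈ K₀, sq2 τ (z * (α h k - k)) ≤ ρ * t * sq2 τ z
  ak1 : ∀ τ ∈ T, ∀ z ∈ B, ∀ h ∈ K₀, ‖τ (z * (α h k - k))‖ ≤ ρ * t * √(sq2 τ z)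

theorem RoundData.get {α : G →* (M ≃⋆ₐ[ℂ] M)} {T : Set (M →ₗ[ℂ] ℂ)} {K₀ : Finset G} {ρ t : ℝ}
    (h : RoundData α T K₀ ρ t) {B : StarSubalgebra ℂ M} (hB : Adm α B) :
    ∃ v k : M, RoundAlg B v k ∧ RoundBd α T K₀ ρ t B v k := by
  obtain ⟨v, k, h1, h2, h3, h4, h5, h6, h7, h8⟩ := h B hB
  refine ⟨v, k, ⟨fun b hb => (h1 b hb).1, fun b hb => (h1 b hb).2.1, fun b hb => (h1 b hb).2.2,
    h2, h3, h4, h5, h6, h7⟩, ?_⟩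
  exact ⟨fun τ hτ z hz => (h8 τ hτ z hz).1, fun τ hτ z hz => (h8 τ hτ z hz).2.1,
    fun τ hτ z hz => (h8 τ hτ z hz).2.2.1, fun τ hτ z hz => (h8 τ hτ z hz).2.2.2.1,
    fun τ hτ z hz => (h8 τ hτ z hz).2.2.2.2.1, fun τ hτ z hz => (h8 τ hτ z hz).2.2.2.2.2.1,
    fun τ hτ z hz h hh => ((h8 τ hτ z hz).2.2.2.2.2.2 h hh).1,
    fun τ hτ z hz h hh => ((h8 τ hτ z hz).2.2.2.2.2.2 h hh).2.1,
    fun τ hτ z hz h hh => ((h8 τ hτ z hz).2.2.2.2.2.2 h hh).2.2⟩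

/-- the state after some rounds (algebraic part) -/
structure St [PartialOrder M] (B : StarSubalgebra ℂ M) (E w Y : M) : Prop where
  memE : E ∈ B
  memw : w ∈ B
  memY : Y ∈ B
  sE : star E = E
  nE : ‖E‖ ≤ 1
  Ew : E * w = 0
  wE : w * E = 0
  id : star w * w + w * star w = 1 - E * E + Y
  le : star w * w ≤ 1 - E * E

/-- the bounds after some rounds -/
structure StBd (α : G →* (M ≃⋆ₐ[ℂ] M)) (T : Set (M →ₗ[ℂ] ℂ)) (K₀ : Finset G) (e y s d D : ℝ)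
    (E w Y : M) : Prop where
  hE : ∀ τ ∈ T, sq2 τ E ≤ e
  hY : ∀ τ ∈ T, sq2 τ Y ≤ y
  hw : ∀ τ ∈ T, sq2 τ (w * w) ≤ s
  hd : ∀ τ ∈ T, ∀ h ∈ K₀, sq2 τ (α h E - E) ≤ d
  hD : ∀ τ ∈ T, ∀ h ∈ K₀, sq2 τ (α h w - w) ≤ D

end P095F
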