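import Vale.Agent.Lib.P095F.T2REst

/-!
# P095F, part T2R, module 3: almost invariance of `E` in one round

`Δ = α_h E - E ∈ B`, `c = 1 - k`, `γ = α_h c - c = -(α_h k - k)`;
`Δ⁺ = α_h(E c) - E c = Δ c + α_h(E) γ`.
-/

open scoped Topology

namespace P095F

universe u v

variable {G : Type v} [Group G] {M : Type u} [CStarAlgebra M] [PartialOrder M] [StarOrderedRing M]
  {α : G →* (M ≃⋆ₐ[ℂ] M)} {T : Set (M →ₗ[ℂ] ℂ)} {K₀ : Finset G} {ρ t : ℝ}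
  {B : StarSubalgebra ℂ M} {v k E w Y : M}

/-- `sq2(x k) ≤ 32 t sq2(x)` for `x ∈ B` -/
private theorem t2rd_dk (hT : TrSys α T) (h : RoundAlg B v k)
    (hb : RoundBd α T K₀ ρ t B v k) {τ : M →ₗ[ℂ] ℂ} (hτ : τ ∈ T) {x : M} (hx : x ∈ B) :
    sq2 τ (x * k) ≤ 32 * t * sq2 τ x := by
  have hp := hT.ptr τ hτ
  have e : sq2 τ (x * k) = (τ (star x * x * (k * k))).re := by
    unfold sq2
    rw [star_mul, h.sk, mul_assoc k, hp.comm k]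
    simp only [mul_assoc]
  rw [e]
  exact (hp.wmono x h.kk_le).trans (hb.up τ hτ x hx)

/-- `sq2(Δ⁺) = sq2(Δ c) + 2 Re τ(c Δ* α_h(E) γ) + sq2(α_h(E) γ)`.
* `sq2(Δ c) = sq2(c Δ) ≤ sq2(Δ)` (`‖c‖ ≤ 1`).
* `sq2(α_h(E) γ) ≤ ρ t sq2(α_h E) ≤ ρ t` (`RoundBd.ak`, `z = α_h E ∈ B`).
* `τ(c Δ* α_h(E) γ) = τ(Z γ c) = τ(Z γ) - τ(Z γ k)`, `Z = Δ* α_h(E) ∈ B`;
  `|τ(Z γ)| ≤ ρ t √sq2(Z) ≤ 2 ρ t` (`RoundBd.ak1`; `‖Z‖ ≤ 2`);
  `|τ(Z γ k)| = |τ((k Δ*) (α_h(E) γ))| ≤ √sq2(Δ k) √sq2(α_h(E) γ)` (Cauchy-Schwarz `PTr.cs_mul`),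
  `sq2(Δ k) = τ(k Δ* Δ k) = τ(Δ* Δ k k) ≤ τ(Δ* Δ k) ≤ 32 t sq2(Δ) ≤ 128 t` (`kk_le`, `PTr.wmono`,
  `RoundBd.up`; `‖Δ‖ ≤ 2`), so `|τ(Z γ k)| ≤ √(128 t) √(ρ t) ≤ 12 √ρ t`.
Total: `sq2(Δ) + 2 (2 ρ t + 12 √ρ t) + ρ t ≤ sq2(Δ) + 29 √ρ t` as `ρ ≤ √ρ`. -/
theorem est_d (hT : TrSys α T) (hB : Adm α B) (hs : St B E w Y) (h : RoundAlg B v k)
    (hb : RoundBd α T K₀ ρ t B v k) (hρ : 0 < ρ) (hρ1 : ρ ≤ 1) (ht : 0 < t)
    {τ : M →ₗ[ℂ] ℂ} (hτ : τ ∈ T) {g : G} (hg : g ∈ K₀) :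
    sq2 τ (α g (E * (1 - k)) - E * (1 - k)) ≤ sq2 τ (α g E - E) + 29 * √ρ * t := by
  have hp := hT.ptr τ hτ
  have hgE : α g E ∈ B := hB.inv g E hs.memE
  have hΔ : α g E - E ∈ B := sub_mem hgE hs.memE
  have hgE1 : ‖α g E‖ ≤ 1 := by
    rw [aut_norm]
    exact hs.nE
  have hΔn : ‖α g E - E‖ ≤ 2 := by
    calc ‖α g E - E‖ ≤ ‖α g E‖ + ‖E‖ := norm_sub_le _ _
      _ ≤ 1 + 1 := add_le_add hgE1 hs.nE
      _ = 2 := by norm_num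
  have hsΔ : sq2 τ (α g E - E) ≤ 4 := by
    have h1 := hp.sq2_le (α g E - E)
    rw [hT.one τ hτ, Complex.one_re, mul_one] at h1
    nlinarith [norm_nonneg (α g E - E)]
  set Δ := α g E - E with hΔdef
  set γ := α g k - k with hγ
  have e1 : α g (E * (1 - k)) - E * (1 - k) = Δ * (1 - k) + α g E * (-γ) := by
    rw [map_mul, map_sub, map_one, hΔdef, hγ]
    noncomm_ring
  have hρt : 0 ≤ ρ * t := by positivity
  -- the three terms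
  have s1 : sq2 τ (Δ * (1 - k)) ≤ sq2 τ Δ := by
    have h1 := hp.sq2_mul_le_right Δ (1 - k)
    have h2 : ‖1 - k‖ ^ 2 ≤ 1 := pow_le_one₀ (norm_nonneg _) h.nc
    have h3 := hp.sq2_nonneg Δ
    nlinarith
  have s3 : sq2 τ (α g E * γ) ≤ ρ * t := by
    have h1 := hb.ak τ hτ (α g E) hgE g hg
    have h2 : sq2 τ (α g E) ≤ 1 := hT.sq2_le_one hτ hgE1
    have h3 := mul_le_mul_of_nonneg_left h2 hρt
    linarith
  have s3' : sq2 τ (α g E * (-γ)) ≤ ρ * t := by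
    rw [mul_neg, sq2_neg]
    exact s3
  -- the cross term
  set Z := star Δ * α g E with hZ
  have hZB : Z ∈ B := mul_mem (star_mem hΔ) hgE
  have sZ : √(sq2 τ Z) ≤ 2 := by
    have h1 : ‖Z‖ ≤ 2 := by
      calc ‖Z‖ ≤ ‖star Δ‖ * ‖α g E‖ := norm_mul_le _ _
        _ ≤ 2 * 1 := by
          rw [norm_star]
          exact mul_le_mul hΔn hgE1 (norm_nonneg _) (by norm_num)
        _ = 2 := by norm_num
    have h2 := hp.sq2_le Z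
    rw [hT.one τ hτ, Complex.one_re, mul_one] at h2
    apply Real.sqrt_le_iff.2
    exact ⟨by norm_num, h2.trans (pow_le_pow_left₀ (norm_nonneg _) h1 2)⟩
  have c1 : ‖τ (Z * γ)‖ ≤ ρ * t * 2 :=
    (hb.ak1 τ hτ Z hZB g hg).trans (mul_le_mul_of_nonneg_left sZ hρt)
  have c2 : ‖τ (Z * γ * k)‖ ≤ 12 * √ρ * t := by
    have h1 : τ (Z * γ * k) = τ (star (Δ * k) * (α g E * γ)) := by
      rw [hp.comm, star_mul, h.sk, hZ]
      simp only [mul_assoc]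
    rw [h1]
    refine (hp.cs (Δ * k) (α g E * γ)).trans ?_
    have h2 : sq2 τ (Δ * k) ≤ 128 * t := by
      have h3 := t2rd_dk hT h hb hτ hΔ
      nlinarith
    have h3 : √(sq2 τ (Δ * k)) * √(sq2 τ (α g E * γ)) ≤ √(128 * t) * √(ρ * t) :=
      mul_le_mul (Real.sqrt_le_sqrt h2) (Real.sqrt_le_sqrt s3) (Real.sqrt_nonneg _)
        (Real.sqrt_nonneg _)
    refine h3.trans ?_
    rw [← Real.sqrt_mul (by positivity)]
    apply Real.sqrt_le_iff.2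
    refine ⟨by positivity, ?_⟩
    have h4 := Real.sq_sqrt hρ.le
    have h5 : (12 * √ρ * t) ^ 2 = 144 * ((√ρ) ^ 2) * t ^ 2 := by ring
    rw [h5, h4]
    nlinarith [mul_pos hρ (pow_pos ht 2)]
  have c3 : τ (star (Δ * (1 - k)) * (α g E * (-γ))) = -(τ (Z * γ)) + τ (Z * γ * k) := by
    have h1 : star (Δ * (1 - k)) * (α g E * (-γ)) = (1 - k) * (star Δ * (α g E * (-γ))) := by
      rw [star_mul, star_sub, star_one, h.sk, mul_assoc]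
    rw [h1, hp.comm, mul_sub, mul_one, map_sub]
    have h2 : star Δ * (α g E * (-γ)) = -(Z * γ) := by
      rw [hZ, mul_neg, mul_neg, mul_assoc]
    rw [h2, map_neg, neg_mul, map_neg, sub_neg_eq_add]
  have c4 : (τ (star (Δ * (1 - k)) * (α g E * (-γ)))).re ≤ ρ * t * 2 + 12 * √ρ * t := by
    rw [c3]
    refine (Complex.re_le_norm _).trans ((norm_add_le _ _).trans ?_)
    rw [norm_neg]
    exact add_le_add c1 c2
  have hρs : ρ ≤ √ρ := by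
    have h4 := Real.sq_sqrt hρ.le
    have h5 : √ρ ≤ 1 := by
      have := Real.sqrt_le_sqrt hρ1
      rwa [Real.sqrt_one] at this
    have h6 := Real.sqrt_nonneg ρ
    nlinarith
  have hρs' : ρ * t ≤ √ρ * t := mul_le_mul_of_nonneg_right hρs ht.le
  rw [e1, hp.sq2_add]
  linarith

end P095F
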