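import Vale.Agent.Lib.P095F.V1P

/-!
# P095F, V1H: Hahn-Banach

`K = {algebraMap η + c : c ∈ V1Cone A}` is convex.  If `e` is not in the closure of `K`, then
(`RCLike.geometric_hahn_banach_closed_point` or the real version, see Mathlib) there are a continuous complex
linear `f` and a real `u` with `re f < u` on the closure of `K` and `u < re (f e)`.  The cone is
stable under multiplication by positive reals, so `re f ≤ 0` on the cone; `0` is in the cone, so
`η re (f 1) < u < re (f e)`; `V1_tstate` gives a contradiction.  So `e` is in the closure of `K`: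
`‖e - (η + ∑ (x* x - x x*) - p)‖ ≤ δ`, and the selfadjoint element inside the norm is `≤ δ`.
-/

open scoped Topology

namespace P095F

universe u

variable {A : Type u} [CStarAlgebra A] [PartialOrder A] [StarOrderedRing A]

theorem V1_zero_mem : (0 : A) ∈ V1Cone A :=
  ⟨Empty, inferInstance, Empty.elim, 0, le_rfl, by simp⟩

/-- `x i` is replaced by `sqrt t • x i` -/
theorem V1_cone_smul {c : A} (hc : c ∈ V1Cone A) {t : ℝ} (ht : 0 ≤ t) : t • c ∈ V1Cone A := by
  obtain ⟨ι, hι, x, p, hp, rfl⟩ := hc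
  refine ⟨ι, hι, fun i => √t • x i, t • p, smul_nonneg ht hp, ?_⟩
  have hs : √t * √t = t := Real.mul_self_sqrt ht
  rw [smul_sub, Finset.smul_sum]
  congr 1
  refine Finset.sum_congr rfl fun i _ => ?_
  simp only [star_smul, star_trivial, smul_mul_assoc, mul_smul_comm, smul_smul, hs, smul_sub]

/-- index type `ι ⊕ κ` -/
theorem V1_cone_add {c d : A} (hc : c ∈ V1Cone A) (hd : d ∈ V1Cone A) : c + d ∈ V1Cone A := by
  obtain ⟨ι, hι, x, p, hp, rfl⟩ := hc
  obtain ⟨κ, hκ, y, q, hq, rfl⟩ := hd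
  refine ⟨ι ⊕ κ, inferInstance, Sum.elim x y, p + q, add_nonneg hp hq, ?_⟩
  rw [Fintype.sum_sum_type]
  simp only [Sum.elim_inl, Sum.elim_inr]
  abel

theorem V1_cone_convex : Convex ℝ (V1Cone A) := by
  intro c hc d hd a b ha hb _
  exact V1_cone_add (V1_cone_smul hc ha) (V1_cone_smul hd hb)

/-- `e` is in the closure of `η + cone` -/
theorem V1_mem_closure {e : A} (he : 0 ≤ e) {η : ℝ} (h : ∀ τ ∈ TState A, (τ e).re ≤ η) :
    e ∈ closure ((fun c => algebraMap ℝ A η + c) '' V1Cone A) := by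
  by_contra hne
  have hconv : Convex ℝ (closure ((fun c => algebraMap ℝ A η + c) '' V1Cone A)) :=
    (V1_cone_convex.translate (algebraMap ℝ A η)).closure
  obtain ⟨f, u, hf1, hf2⟩ := RCLike.geometric_hahn_banach_closed_point (𝕜 := ℂ) hconv
    isClosed_closure hne
  have hf3 : ∀ c ∈ V1Cone A, (f (algebraMap ℝ A η)).re + (f c).re < u := by
    intro c hc
    have := hf1 _ (subset_closure ⟨c, hc, rfl⟩)
    simpa using this
  have hcone : ∀ c ∈ V1Cone A, (f c).re ≤ 0 := by
    intro c hc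
    by_contra hpos
    push Not at hpos
    obtain ⟨n, hn⟩ := exists_nat_gt ((u - (f (algebraMap ℝ A η)).re) / (f c).re)
    have h1 := hf3 _ (V1_cone_smul hc (Nat.cast_nonneg n))
    have h2 : (f (((n : ℕ) : ℝ) • c)).re = n * (f c).re := by
      have : (((n : ℕ) : ℝ) • c) = (((n : ℝ) : ℂ)) • c := by
        rw [Complex.coe_smul]
      rw [this, map_smul]
      simp
    rw [h2] at h1
    rw [div_lt_iff₀ hpos] at hn
    linarith
  have h0 := hf3 0 V1_zero_mem
  have h1 : (f (algebraMap ℝ A η)).re = η * (f 1).re := by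
    have : algebraMap ℝ A η = ((η : ℂ)) • (1 : A) := by
      rw [Complex.coe_smul, Algebra.algebraMap_eq_smul_one]
    rw [this, map_smul]
    simp
  have h2 : η * ((f : A →ₗ[ℂ] ℂ) 1).re < ((f : A →ₗ[ℂ] ℂ) e).re := by
    have h3 : u < (f e).re := hf2
    rw [h1] at h0
    simp at h0
    simp only [ContinuousLinearMap.coe_coe]
    linarith
  obtain ⟨τ, hτ, hτ2⟩ := V1_tstate (f := (f : A →ₗ[ℂ] ℂ)) hcone he h2
  exact absurd (h τ hτ) (not_le.2 hτ2)

theorem V1_hb {e : A} (he : 0 ≤ e) {η : ℝ} (h : ∀ τ ∈ TState A, (τ e).re ≤ η) {δ : ℝ}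
    (hδ : 0 < δ) : ∃ (ι : Type) (_ : Fintype ι) (x : ι → A),
      e + ∑ i, x i * star (x i) ≤ ∑ i, star (x i) * x i + algebraMap ℝ A (η + δ) := by
  obtain ⟨_, ⟨c, ⟨ι, hι, x, p, hp, rfl⟩, rfl⟩, hc⟩ := Metric.mem_closure_iff.1 (V1_mem_closure he h) δ hδ
  refine ⟨ι, hι, x, ?_⟩
  rw [dist_eq_norm] at hc
  set k : A := e - (algebraMap ℝ A η + (∑ i, (star (x i) * x i - x i * star (x i)) - p)) with hk
  have hsa : IsSelfAdjoint k := by
    have h1 : IsSelfAdjoint e := IsSelfAdjoint.of_nonneg he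
    have h2 : IsSelfAdjoint p := IsSelfAdjoint.of_nonneg hp
    have h3 : IsSelfAdjoint (algebraMap ℝ A η) := IsSelfAdjoint.algebraMap A (by simp [IsSelfAdjoint])
    have h4 : IsSelfAdjoint (∑ i, (star (x i) * x i - x i * star (x i))) := by
      unfold IsSelfAdjoint
      simp only [star_sum, star_sub, star_mul, star_star]
    exact h1.sub (h3.add (h4.sub h2))
  have hle : k ≤ algebraMap ℝ A δ :=
    hsa.le_algebraMap_norm_self.trans (algebraMap_mono A hc.le)
  have h5 : e + ∑ i, x i * star (x i) ≤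
      e + ∑ i, x i * star (x i) + p := le_add_of_nonneg_right hp
  refine h5.trans ?_
  have h6 : e + ∑ i, x i * star (x i) + p =
      k + (∑ i, star (x i) * x i + algebraMap ℝ A η) := by
    rw [hk, Finset.sum_sub_distrib]
    abel
  rw [h6, map_add]
  calc k + (∑ i, star (x i) * x i + algebraMap ℝ A η) ≤
      algebraMap ℝ A δ + (∑ i, star (x i) * x i + algebraMap ℝ A η) := add_le_add_left hle _
    _ = ∑ i, star (x i) * x i + (algebraMap ℝ A η + algebraMap ℝ A δ) := by abel

end P095F
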