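import Vale.Agent.Lib.P095F.V1T
import Vale.Agent.Lib.P095F.V1H

/-!
# P095F, V1: the Cuntz-Pedersen theorem

`V1_iter`: induction on `j`.  `(j+1) e + b ≪ (j+1) e + b' = j e + (e + b') ≤ j e + b + c ≪ b + j c + c`.

`cuntz_pedersen`: `δ' = δ/3`; `x` from `V1_hb` with `δ'`, `b = ∑ x* x`, `b' = ∑ x x*`, `c = η + δ'`;
`j e ≤ j e + b ≪ b + j c ≤ j (η + 2 δ')` for `j ≥ ‖b‖/δ'`, `j ≥ 1`; `CPle.of_nsmul`; take the witness for `δ'`
and transport it to `Fin N` (`Fintype.equivFin`).
-/

open scoped Topology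

namespace P095F

universe u

variable {A : Type u} [CStarAlgebra A] [PartialOrder A] [StarOrderedRing A]

theorem V1_iter {e b b' c : A} (he : 0 ≤ e) (hb : 0 ≤ b) (hb' : 0 ≤ b') (hc : 0 ≤ c)
    (h1 : CPle b b') (h2 : e + b' ≤ b + c) (j : ℕ) : CPle (j • e + b) (b + j • c) := by
  induction j with
  | zero =>
    rw [zero_smul, zero_smul, zero_add, add_zero]
    exact CPle.of_le hb le_rfl
  | succ j ih =>
    have hje : 0 ≤ j • e := nsmul_nonneg he j
    have hje' : 0 ≤ (j + 1) • e := nsmul_nonneg he (j + 1)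
    have s1 : CPle ((j + 1) • e + b) ((j + 1) • e + b') := (CPle.of_le hje' le_rfl).add h1
    have s2 : CPle ((j + 1) • e + b') (j • e + b + c) := by
      refine CPle.of_le (add_nonneg hje' hb') ?_
      have e1 : (j + 1) • e + b' = j • e + (e + b') := by
        rw [add_smul, one_smul, add_assoc]
      rw [e1, add_assoc]
      exact add_le_add le_rfl h2
    have s3 : CPle (j • e + b + c) (b + (j + 1) • c) := by
      have e2 : b + (j + 1) • c = b + j • c + c := by
        rw [add_smul, one_smul, add_assoc]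
      rw [e2]
      exact ih.add (CPle.of_le hc le_rfl)
    exact (s1.trans s2).trans s3

/-- Cuntz-Pedersen: if all tracial states are `≤ η` on `e` then `e ≪ η`. -/
theorem cuntz_pedersen {e : A} (he : 0 ≤ e) {η : ℝ} (hη : 0 ≤ η)
    (h : ∀ τ ∈ TState A, (τ e).re ≤ η) {δ : ℝ} (hδ : 0 < δ) :
    ∃ (N : ℕ) (x : Fin N → A), ‖∑ i, star (x i) * x i - e‖ ≤ δ ∧
      ∑ i, x i * star (x i) ≤ algebraMap ℝ A (η + δ) := by
  have hδ' : 0 < δ / 3 := by positivity
  obtain ⟨ι, _, x, hx⟩ := V1_hb he h hδ'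
  set b : A := ∑ i, star (x i) * x i with hbdef
  set b' : A := ∑ i, x i * star (x i) with hb'def
  have hb : 0 ≤ b := Finset.sum_nonneg fun i _ => star_mul_self_nonneg (x i)
  have hb' : 0 ≤ b' := Finset.sum_nonneg fun i _ => mul_star_self_nonneg (x i)
  have hc : 0 ≤ algebraMap ℝ A (η + δ / 3) := by
    rw [Algebra.algebraMap_eq_smul_one]
    exact smul_nonneg (by positivity) zero_le_one
  obtain ⟨j, hj⟩ := exists_nat_gt (‖b‖ / (δ / 3))
  have hj0 : 0 < j := by
    have h3 : (0 : ℝ) ≤ ‖b‖ / (δ / 3) := by positivity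
    exact_mod_cast h3.trans_lt hj
  have s1 := V1_iter he hb hb' hc (CPle.sum_swap x) hx j
  have s2 : CPle (j • e) (j • algebraMap ℝ A (η + 2 * (δ / 3))) := by
    have s3 : CPle (j • e) (j • e + b) :=
      CPle.of_le (nsmul_nonneg he j) (le_add_of_nonneg_right hb)
    refine (s3.trans s1).mono_right ?_
    have h4 : b ≤ algebraMap ℝ A (j * (δ / 3)) := by
      have h5 : b ≤ algebraMap ℝ A ‖b‖ := IsSelfAdjoint.le_algebraMap_norm_self (.of_nonneg hb)
      refine h5.trans ?_
      rw [div_lt_iff₀ hδ'] at hj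
      rw [Algebra.algebraMap_eq_smul_one, Algebra.algebraMap_eq_smul_one]
      exact smul_le_smul_of_nonneg_right hj.le zero_le_one
    have h6 : j • algebraMap ℝ A (η + 2 * (δ / 3)) =
        algebraMap ℝ A (j * (δ / 3)) + j • algebraMap ℝ A (η + δ / 3) := by
      rw [← map_nsmul, ← map_nsmul, ← map_add]
      congr 1
      rw [nsmul_eq_mul, nsmul_eq_mul]
      ring
    rw [h6]
    exact add_le_add h4 le_rfl
  obtain ⟨κ, _, y, hy1, hy2⟩ := (CPle.of_nsmul hj0 s2) (δ / 3) hδ'
  refine ⟨Fintype.card κ, fun i => y ((Fintype.equivFin κ).symm i), ?_, ?_⟩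
  · rw [Equiv.sum_comp (Fintype.equivFin κ).symm (fun i => star (y i) * y i)]
    linarith
  · rw [Equiv.sum_comp (Fintype.equivFin κ).symm (fun i => y i * star (y i))]
    refine hy2.trans ?_
    rw [← map_add]
    apply le_of_eq
    congr 1
    ring

end P095F
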