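import Vale.Agent.Lib.P095F.V1Defs

/-!
# P095F, V1A: elementary properties of `CPle`
-/

open scoped Topology

namespace P095F

universe u

variable {A : Type u} [CStarAlgebra A] [PartialOrder A] [StarOrderedRing A] {a b c a' b' : A}

theorem V1A_alg {δ : ℝ} (hδ : 0 ≤ δ) : (0 : A) ≤ algebraMap ℝ A δ := by
  rw [← map_zero (algebraMap ℝ A)]
  exact algebraMap_mono A hδ

/-- one element `x = sqrt a` (`CStarAlgebra.nonneg_iff_eq_star_mul_self` gives only `a = x* x`; use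
`CFC.sqrt a`, which is selfadjoint with square `a`) -/
theorem CPle.of_le (ha : 0 ≤ a) (h : a ≤ b) : CPle a b := by
  intro δ hδ
  have h1 : star (CFC.sqrt a) = CFC.sqrt a :=
    (IsSelfAdjoint.of_nonneg (CFC.sqrt_nonneg a)).star_eq
  have h2 : CFC.sqrt a * CFC.sqrt a = a := CFC.sqrt_mul_sqrt_self a ha
  refine ⟨Unit, inferInstance, fun _ => CFC.sqrt a, ?_, ?_⟩
  · simp only [h1, h2, Finset.univ_unique, Finset.sum_singleton, sub_self, norm_zero]
    exact hδ.le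
  · simp only [h1, h2, Finset.univ_unique, Finset.sum_singleton]
    exact h.trans (le_add_of_nonneg_right (V1A_alg hδ.le))

theorem CPle.mono_right (h : CPle a b) (hbc : b ≤ c) : CPle a c := by
  intro δ hδ
  obtain ⟨ι, hι, x, h1, h2⟩ := h δ hδ
  exact ⟨ι, hι, x, h1, h2.trans (add_le_add_left hbc _)⟩

/-- `0 ≤ a' ≤ a ≪ b` is a special case of transitivity; not here. Concatenation (index type `ι ⊕ κ`). -/
theorem CPle.add (h : CPle a b) (h' : CPle a' b') : CPle (a + a') (b + b') := by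
  intro δ hδ
  obtain ⟨ι, hι, x, h1, h2⟩ := h (δ / 2) (by positivity)
  obtain ⟨κ, hκ, y, h3, h4⟩ := h' (δ / 2) (by positivity)
  refine ⟨ι ⊕ κ, inferInstance, Sum.elim x y, ?_, ?_⟩
  · rw [Fintype.sum_sum_type]
    simp only [Sum.elim_inl, Sum.elim_inr]
    calc ‖∑ i, star (x i) * x i + ∑ i, star (y i) * y i - (a + a')‖
        = ‖(∑ i, star (x i) * x i - a) + (∑ i, star (y i) * y i - a')‖ := by
          congr 1
          abel
      _ ≤ ‖∑ i, star (x i) * x i - a‖ + ‖∑ i, star (y i) * y i - a'‖ := norm_add_le _ _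
      _ ≤ δ / 2 + δ / 2 := add_le_add h1 h3
      _ = δ := add_halves δ
  · rw [Fintype.sum_sum_type]
    simp only [Sum.elim_inl, Sum.elim_inr]
    calc ∑ i, x i * star (x i) + ∑ i, y i * star (y i)
        ≤ (b + algebraMap ℝ A (δ / 2)) + (b' + algebraMap ℝ A (δ / 2)) := add_le_add h2 h4
      _ = b + b' + (algebraMap ℝ A (δ / 2) + algebraMap ℝ A (δ / 2)) := by abel
      _ = b + b' + algebraMap ℝ A δ := by rw [← map_add, add_halves]

/-- `∑ x* x ≪ ∑ x x*` (the family itself, error zero) -/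
theorem CPle.sum_swap {ι : Type} [Fintype ι] (x : ι → A) :
    CPle (∑ i, star (x i) * x i) (∑ i, x i * star (x i)) := by
  intro δ hδ
  refine ⟨ι, inferInstance, x, ?_, le_add_of_nonneg_right (V1A_alg hδ.le)⟩
  rw [sub_self, norm_zero]
  exact hδ.le

/-- division by `j`: replace `x i` by `(sqrt j)⁻¹ • x i` (tolerance `j δ ≥ δ` is allowed, take `δ`) -/
theorem CPle.of_nsmul {j : ℕ} (hj : 0 < j) (h : CPle (j • a) (j • b)) : CPle a b := by
  intro δ hδ
  obtain ⟨ι, hι, x, h1, h2⟩ := h δ hδ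
  have hj0 : (0 : ℝ) < j := by exact_mod_cast hj
  have hj1 : (1 : ℝ) ≤ j := by exact_mod_cast hj
  have hinv : (j : ℝ)⁻¹ ≤ 1 := inv_le_one_of_one_le₀ hj1
  have hs : (Real.sqrt (j : ℝ))⁻¹ * (Real.sqrt (j : ℝ))⁻¹ = (j : ℝ)⁻¹ := by
    rw [← mul_inv, Real.mul_self_sqrt hj0.le]
  have e1 : ∀ u v : A, ((Real.sqrt (j : ℝ))⁻¹ • u) * ((Real.sqrt (j : ℝ))⁻¹ • v) =
      (j : ℝ)⁻¹ • (u * v) := fun u v => by
    rw [smul_mul_smul_comm, hs]
  have e2 : ∀ u : A, star ((Real.sqrt (j : ℝ))⁻¹ • u) = (Real.sqrt (j : ℝ))⁻¹ • star u := fun u => by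
    rw [star_smul]
    rfl
  have e3 : ∀ u : A, (j : ℝ)⁻¹ • (j • u) = u := fun u => by
    rw [← Nat.cast_smul_eq_nsmul ℝ, smul_smul, inv_mul_cancel₀ hj0.ne', one_smul]
  refine ⟨ι, hι, fun i => (Real.sqrt (j : ℝ))⁻¹ • x i, ?_, ?_⟩
  · have h3 : ∑ i, star ((Real.sqrt (j : ℝ))⁻¹ • x i) * ((Real.sqrt (j : ℝ))⁻¹ • x i) - a =
        (j : ℝ)⁻¹ • (∑ i, star (x i) * x i - j • a) := by
      rw [smul_sub, e3, Finset.smul_sum]
      congr 1
      refine Finset.sum_congr rfl fun i _ => ?_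
      rw [e2, e1]
    rw [h3, norm_smul, Real.norm_of_nonneg (inv_nonneg.2 hj0.le)]
    calc (j : ℝ)⁻¹ * ‖∑ i, star (x i) * x i - j • a‖ ≤ 1 * δ :=
          mul_le_mul hinv h1 (norm_nonneg _) zero_le_one
      _ = δ := one_mul δ
  · have h4 : ∑ i, ((Real.sqrt (j : ℝ))⁻¹ • x i) * star ((Real.sqrt (j : ℝ))⁻¹ • x i) =
        (j : ℝ)⁻¹ • ∑ i, x i * star (x i) := by
      rw [Finset.smul_sum]
      refine Finset.sum_congr rfl fun i _ => ?_
      rw [e2, e1]
    rw [h4]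
    calc (j : ℝ)⁻¹ • ∑ i, x i * star (x i) ≤ (j : ℝ)⁻¹ • (j • b + algebraMap ℝ A δ) :=
          smul_le_smul_of_nonneg_left h2 (inv_nonneg.2 hj0.le)
      _ = b + algebraMap ℝ A ((j : ℝ)⁻¹ * δ) := by
          rw [smul_add, e3, map_mul, ← Algebra.smul_def]
      _ ≤ b + algebraMap ℝ A δ := by
          refine add_le_add_right (algebraMap_mono A ?_) _
          calc (j : ℝ)⁻¹ * δ ≤ 1 * δ := mul_le_mul_of_nonneg_right hinv hδ.le
            _ = δ := one_mul δ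

end P095F
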