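import Vale.Agent.Lib.P095F.V1Defs

/-!
# P095F, V1B: functional calculus for the transitivity

`r = cfc (fun t => (sqrt (t + κ))⁻¹) q`, `s = cfc (fun t => sqrt (κ / (t + κ))) q` (real functional
calculus of the positive element `q`): `r q r = cfc (t/(t+κ))`, `1 - r q r = cfc (κ/(t+κ)) = s s`,
`s q s = cfc (κ t/(t+κ)) ≤ κ`.
-/

open scoped Topology

namespace P095F

universe u

variable {A : Type u} [CStarAlgebra A] [PartialOrder A] [StarOrderedRing A]

theorem V1_rs {q : A} (hq : 0 ≤ q) {κ : ℝ} (hκ : 0 < κ) :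
    ∃ r s : A, star r = r ∧ star s = s ∧ r * q * r ≤ 1 ∧ 1 - r * q * r = s * s ∧
      s * q * s ≤ algebraMap ℝ A κ := by
  have hsp : ∀ t ∈ spectrum ℝ q, 0 ≤ t := fun t ht => spectrum_nonneg_of_nonneg hq ht
  have hsa : IsSelfAdjoint q := IsSelfAdjoint.of_nonneg hq
  have hpos : ∀ t ∈ spectrum ℝ q, 0 < t + κ := fun t ht => by
    have := hsp t ht
    linarith
  obtain ⟨f, hf⟩ : ∃ f : ℝ → ℝ, f = fun t => (Real.sqrt (t + κ))⁻¹ := ⟨_, rfl⟩
  obtain ⟨g, hg⟩ : ∃ g : ℝ → ℝ, g = fun t => Real.sqrt (κ / (t + κ)) := ⟨_, rfl⟩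
  have cf : ContinuousOn f (spectrum ℝ q) := by
    rw [hf]
    refine ContinuousOn.inv₀ (Real.continuous_sqrt.comp_continuousOn
      (continuousOn_id.add continuousOn_const)) fun t ht => ?_
    exact (Real.sqrt_pos.2 (hpos t ht)).ne'
  have cg : ContinuousOn g (spectrum ℝ q) := by
    rw [hg]
    refine Real.continuous_sqrt.comp_continuousOn (ContinuousOn.div continuousOn_const
      (continuousOn_id.add continuousOn_const) fun t ht => ?_)
    exact (hpos t ht).ne'
  have cid : ContinuousOn (fun t : ℝ => t) (spectrum ℝ q) := continuousOn_id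
  have hid : cfc (fun t : ℝ => t) q = q := cfc_id' ℝ q
  have key : ∀ h : ℝ → ℝ, ContinuousOn h (spectrum ℝ q) →
      cfc h q * q * cfc h q = cfc (fun t => h t * t * h t) q := by
    intro h ch
    rw [cfc_mul (fun t => h t * t) h q (ch.mul cid) ch, cfc_mul h (fun t => t) q ch cid, hid]
  have ff : ∀ t ∈ spectrum ℝ q, f t * t * f t = t / (t + κ) := by
    intro t ht
    have h1 : Real.sqrt (t + κ) * Real.sqrt (t + κ) = t + κ := Real.mul_self_sqrt (hpos t ht).le
    have h2 : Real.sqrt (t + κ) ≠ 0 := (Real.sqrt_pos.2 (hpos t ht)).ne'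
    rw [hf]
    beta_reduce
    generalize Real.sqrt (t + κ) = S at h1 h2
    rw [← h1]
    field_simp
  have gg : ∀ t ∈ spectrum ℝ q, g t * g t = κ / (t + κ) := by
    intro t ht
    rw [hg]
    exact Real.mul_self_sqrt (div_nonneg hκ.le (hpos t ht).le)
  refine ⟨cfc f q, cfc g q, (cfc_predicate f q).star_eq, (cfc_predicate g q).star_eq, ?_, ?_, ?_⟩
  · rw [key f cf]
    refine cfc_le_one _ _ fun t ht => ?_
    rw [ff t ht, div_le_one (hpos t ht)]
    linarith
  · rw [key f cf, ← cfc_mul g g q cg cg]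
    have h1 : (1 : A) = cfc (fun _ : ℝ => (1 : ℝ)) q := by
      rw [cfc_const_one ℝ q]
    rw [h1, ← cfc_sub (fun _ => (1 : ℝ)) (fun t => f t * t * f t) q continuousOn_const
      ((cf.mul cid).mul cf)]
    refine cfc_congr fun t ht => ?_
    rw [ff t ht, gg t ht, eq_div_iff (hpos t ht).ne', sub_mul, div_mul_cancel₀ _ (hpos t ht).ne']
    ring
  · rw [key g cg]
    refine cfc_le_algebraMap _ _ _ fun t ht => ?_
    have h2 : g t * t * g t = κ * (t / (t + κ)) := by
      rw [mul_right_comm, gg t ht]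
      ring
    rw [h2]
    have h3 : t / (t + κ) ≤ 1 := by
      rw [div_le_one (hpos t ht)]
      linarith
    calc κ * (t / (t + κ)) ≤ κ * 1 := mul_le_mul_of_nonneg_left h3 hκ.le
      _ = κ := mul_one κ

end P095F
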