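import Vale.Agent.Lib.P095F.CDefs

/-!
# P095F, part V1 (Cuntz-Pedersen): the relation `a ≪ b`

Plan (PROOF2V.md, V1).  `CPle a b` for `a, b ≥ 0`: up to arbitrarily small errors there are finitely
many `x i` with `∑ x* x = a` and `∑ x x* ≤ b`.
-/

open scoped Topology

namespace P095F

universe u

variable {A : Type u} [CStarAlgebra A] [PartialOrder A] [StarOrderedRing A]

/-- Cuntz-Pedersen subequivalence (approximate form) -/
def CPle (a b : A) : Prop :=
  ∀ δ : ℝ, 0 < δ → ∃ (ι : Type) (_ : Fintype ι) (x : ι → A),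
    ‖∑ i, star (x i) * x i - a‖ ≤ δ ∧ ∑ i, x i * star (x i) ≤ b + algebraMap ℝ A δ

/-- the cone of the elements `∑ (x* x - x x*) - p`, `p ≥ 0` -/
def V1Cone (A : Type u) [CStarAlgebra A] [PartialOrder A] [StarOrderedRing A] : Set A :=
  {c | ∃ (ι : Type) (_ : Fintype ι) (x : ι → A) (p : A), 0 ≤ p ∧
    c = ∑ i, (star (x i) * x i - x i * star (x i)) - p}

end P095F
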