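import Vale.Agent.Lib.P095F.V1Defs

/-!
# P095F, V1P: a functional which is nonpositive on the cone gives a tracial state

`g a = (f a + conj (f (star a))) / 2` is complex linear, `g (star a) = conj (g a)`, and `g h = re (f h)` for
selfadjoint `h`.  `g (x* x) = g (x x*)` (both `x` and `x*`), `g p ≥ 0` for `p ≥ 0`.  Polarization:
`4 y* x = ∑_k i^k (x + i^k y)* (x + i^k y)`, `4 x y* = ∑_k i^k (x + i^k y) (x + i^k y)*` (`k < 4`), so
`g (y* x) = g (x y*)` for all `x, y`.  `g 1 ≥ 0`; if `g 1 = 0` then `g p = 0` for all `p ≥ 0` (`p ≤ ‖p‖ 1`), which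
contradicts `η re f 1 < re f e`.  `τ = g / g 1`.
-/

open scoped Topology ComplexConjugate

namespace P095F

universe u

variable {A : Type u} [CStarAlgebra A] [PartialOrder A] [StarOrderedRing A]

/-- polarization -/
theorem V1_comm_of {g : A →ₗ[ℂ] ℂ} (h : ∀ x : A, g (star x * x) = g (x * star x)) (x y : A) :
    g (x * y) = g (y * x) := by
  have h1 := h (star x + y)
  have h2 := h (star x + Complex.I • y)
  have h3 := h (star x)
  have h4 := h y
  simp only [star_add, star_star, star_smul, RCLike.star_def, Complex.conj_I, add_mul, mul_add,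
    smul_mul_assoc, mul_smul_comm, map_add, map_smul, smul_eq_mul, smul_add] at h1 h2 h3 h4
  have h5 : g (star y * star x) + g (x * y) = g (y * x) + g (star x * star y) := by
    linear_combination h1 - h3 - h4
  have h6 : Complex.I * (g (x * y) - g (star y * star x)) =
      Complex.I * (g (y * x) - g (star x * star y)) := by
    linear_combination h2 - h3 + Complex.I * Complex.I * h4
  have h7 := mul_left_cancel₀ Complex.I_ne_zero h6
  linear_combination (1 / 2) * h5 + (1 / 2) * h7

/-- the hermitian part of a functional -/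
theorem V1_herm (f : A →ₗ[ℂ] ℂ) : ∃ g : A →ₗ[ℂ] ℂ, ∀ a : A,
    g a = (f a + conj (f (star a))) / 2 := by
  refine ⟨{ toFun := fun a => (f a + conj (f (star a))) / 2, map_add' := fun a b => ?_,
            map_smul' := fun c a => ?_ }, fun a => rfl⟩
  · simp only [star_add, map_add]
    ring
  · simp only [star_smul, map_smul, smul_eq_mul, map_mul, RCLike.star_def, Complex.conj_conj,
      RingHom.id_apply]
    ring

theorem V1_tstate {f : A →ₗ[ℂ] ℂ} (hcone : ∀ c ∈ V1Cone A, (f c).re ≤ 0) {e : A} (he : 0 ≤ e)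
    {η : ℝ} (hη : η * (f 1).re < (f e).re) : ∃ τ ∈ TState A, η < (τ e).re := by
  have hpos : ∀ p : A, 0 ≤ p → 0 ≤ (f p).re := fun p hp => by
    have h1 := hcone (-p) ⟨Empty, inferInstance, fun i => i.elim, p, hp, by simp⟩
    rw [map_neg, Complex.neg_re] at h1
    linarith
  have hle : ∀ x : A, (f (star x * x)).re ≤ (f (x * star x)).re := fun x => by
    have h1 := hcone (star x * x - x * star x)
      ⟨Unit, inferInstance, fun _ => x, 0, le_rfl, by simp⟩
    rw [map_sub, Complex.sub_re] at h1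
    linarith
  have heq : ∀ x : A, (f (star x * x)).re = (f (x * star x)).re := fun x => by
    refine le_antisymm (hle x) ?_
    have h1 := hle (star x)
    rwa [star_star] at h1
  obtain ⟨g, hg⟩ := V1_herm f
  have hgs : ∀ a : A, star a = a → g a = ((f a).re : ℂ) := fun a ha => by
    rw [hg, ha, Complex.add_conj]
    push_cast
    ring
  have hgx : ∀ x : A, g (star x * x) = ((f (star x * x)).re : ℂ) := fun x =>
    hgs _ (by rw [star_mul, star_star])
  have hgx' : ∀ x : A, g (x * star x) = ((f (x * star x)).re : ℂ) := fun x =>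
    hgs _ (by rw [star_mul, star_star])
  have hcomm : ∀ x y : A, g (x * y) = g (y * x) :=
    V1_comm_of fun x => by rw [hgx, hgx', heq]
  have hg1 : g 1 = ((f 1).re : ℂ) := hgs 1 (star_one A)
  have hge : g e = ((f e).re : ℂ) := hgs e (IsSelfAdjoint.of_nonneg he).star_eq
  have h1 : 0 ≤ (f 1).re := hpos 1 zero_le_one
  have hr : 0 < (f 1).re := by
    refine lt_of_le_of_ne h1 fun h0 => ?_
    have h2 : e ≤ algebraMap ℝ A ‖e‖ :=
      IsSelfAdjoint.le_algebraMap_norm_self (IsSelfAdjoint.of_nonneg he)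
    have h3 := hpos _ (sub_nonneg.2 h2)
    have h4 : algebraMap ℝ A ‖e‖ = ((‖e‖ : ℝ) : ℂ) • (1 : A) := by
      rw [Algebra.algebraMap_eq_smul_one, Complex.coe_smul]
    rw [map_sub, h4, map_smul, smul_eq_mul, Complex.sub_re, Complex.re_ofReal_mul, ← h0,
      mul_zero] at h3
    rw [← h0, mul_zero] at hη
    linarith
  refine ⟨(((f 1).re : ℂ)⁻¹) • g, ⟨⟨fun x => ?_, fun x => ?_, fun x y => ?_⟩, ?_⟩, ?_⟩
  · rw [LinearMap.smul_apply, hgx, smul_eq_mul, ← Complex.ofReal_inv, ← Complex.ofReal_mul,
      Complex.ofReal_re]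
    exact mul_nonneg (inv_nonneg.2 h1) (hpos _ (star_mul_self_nonneg x))
  · rw [LinearMap.smul_apply, hgx, smul_eq_mul, ← Complex.ofReal_inv, ← Complex.ofReal_mul,
      Complex.ofReal_im]
  · rw [LinearMap.smul_apply, LinearMap.smul_apply, hcomm]
  · rw [LinearMap.smul_apply, hg1, smul_eq_mul, inv_mul_cancel₀]
    exact_mod_cast hr.ne'
  · rw [LinearMap.smul_apply, hge, smul_eq_mul, ← Complex.ofReal_inv, ← Complex.ofReal_mul,
      Complex.ofReal_re, inv_mul_eq_div, lt_div_iff₀ hr]
    exact hη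

end P095F
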