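import Vale.Agent.Lib.P095F.V1A
import Vale.Agent.Lib.P095F.V1B

/-!
# P095F, V1T: transitivity of `CPle`

Proof of `V1_comp`: `V1_rs` for `q = ∑ y* y` and `κ`; `z (i, j) = y j * r * x i`.
`∑ z* z = ∑_i x_i* r q r x_i = ∑_i x_i* x_i - ∑_i x_i* s s x_i`, and
`‖x_i* s s x_i‖ = ‖(s x_i)* (s x_i)‖ = ‖(s x_i) (s x_i)*‖ = ‖s x_i x_i* s‖ ≤ κ` since
`0 ≤ s x_i x_i* s ≤ s p s ≤ s q s ≤ κ` (`p = ∑ x x* ≤ q`).
`∑ z z* = ∑_j y_j r p r y_j* ≤ ∑_j y_j (r q r) y_j* ≤ ∑_j y_j y_j*`.

Proof of `CPle.trans`: given `δ`, take `δ' = δ/4`; `x` for `(a, b, δ')`, `y` for `(b, c, δ')`, add to the family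
`y` the element `y_0 = sqrt(2 δ') 1` (index type `Option ι`): `∑ y* y ≥ b - δ' + 2 δ' ≥ ∑ x x*` and
`∑ y y* ≤ c + 3 δ'`; then `V1_comp` with `κ = δ'/(card ι + 1)`.
-/

open scoped Topology

namespace P095F

universe u

variable {A : Type u} [CStarAlgebra A] [PartialOrder A] [StarOrderedRing A]

theorem V1T_le_sum {ι : Type} [Fintype ι] (x : ι → A) (i : ι) :
    x i * star (x i) ≤ ∑ i, x i * star (x i) :=
  Finset.single_le_sum (f := fun i => x i * star (x i))
    (fun i _ => mul_star_self_nonneg (x i)) (Finset.mem_univ i)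

theorem V1T_norm {q s : A} (hs : star s = s) {κ : ℝ} (hκ : 0 ≤ κ)
    (h3 : s * q * s ≤ algebraMap ℝ A κ) {x : A} (hx : x * star x ≤ q) :
    ‖star x * (s * s) * x‖ ≤ κ := by
  have e1 : star x * (s * s) * x = star (s * x) * (s * x) := by
    rw [star_mul, hs]
    simp only [mul_assoc]
  have e2 : (s * x) * star (s * x) = s * (x * star x) * s := by
    rw [star_mul, hs]
    simp only [mul_assoc]
  rw [e1, CStarRing.norm_star_mul_self, ← CStarRing.norm_self_mul_star, e2]
  have h4 : 0 ≤ s * (x * star x) * s := by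
    rw [← e2]
    exact mul_star_self_nonneg _
  rw [CStarAlgebra.norm_le_iff_le_algebraMap _ hκ h4]
  refine le_trans ?_ h3
  exact IsSelfAdjoint.conjugate_le_conjugate hx hs

theorem V1_comp {ι κ' : Type} [Fintype ι] [Fintype κ'] (x : ι → A) (y : κ' → A)
    (h : ∑ i, x i * star (x i) ≤ ∑ j, star (y j) * y j) {κ : ℝ} (hκ : 0 < κ) :
    ∃ z : ι × κ' → A,
      ‖∑ p, star (z p) * z p - ∑ i, star (x i) * x i‖ ≤ Fintype.card ι * κ ∧
      ∑ p, z p * star (z p) ≤ ∑ j, y j * star (y j) := by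
  set q : A := ∑ j, star (y j) * y j with hq
  have hq0 : 0 ≤ q := Finset.sum_nonneg fun j _ => star_mul_self_nonneg (y j)
  obtain ⟨r, s, hr, hs, h1, h2, h3⟩ := V1_rs hq0 hκ
  refine ⟨fun p => y p.2 * r * x p.1, ?_, ?_⟩
  · have e1 : ∑ p : ι × κ', star (y p.2 * r * x p.1) * (y p.2 * r * x p.1) =
        ∑ i, star (x i) * (r * q * r) * x i := by
      rw [Fintype.sum_prod_type]
      refine Finset.sum_congr rfl fun i _ => ?_
      rw [hq, Finset.mul_sum, Finset.sum_mul, Finset.mul_sum, Finset.sum_mul]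
      refine Finset.sum_congr rfl fun j _ => ?_
      simp only [star_mul, hr, mul_assoc]
    have e2 : ∑ p : ι × κ', star (y p.2 * r * x p.1) * (y p.2 * r * x p.1) -
        ∑ i, star (x i) * x i = -∑ i, star (x i) * (s * s) * x i := by
      rw [e1, ← Finset.sum_sub_distrib, ← Finset.sum_neg_distrib]
      refine Finset.sum_congr rfl fun i _ => ?_
      rw [← h2, mul_sub, mul_one, sub_mul]
      abel
    rw [e2, norm_neg]
    refine (norm_sum_le _ _).trans ?_
    have e3 : ∀ i ∈ Finset.univ, ‖star (x i) * (s * s) * x i‖ ≤ κ := fun i _ =>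
      V1T_norm hs hκ.le h3 ((V1T_le_sum x i).trans h)
    refine (Finset.sum_le_card_nsmul _ _ _ e3).trans ?_
    rw [nsmul_eq_mul, Finset.card_univ]
  · have e1 : ∑ p : ι × κ', (y p.2 * r * x p.1) * star (y p.2 * r * x p.1) =
        ∑ j, y j * (r * (∑ i, x i * star (x i)) * r) * star (y j) := by
      rw [Fintype.sum_prod_type_right]
      refine Finset.sum_congr rfl fun j _ => ?_
      rw [Finset.mul_sum, Finset.sum_mul, Finset.mul_sum, Finset.sum_mul]
      refine Finset.sum_congr rfl fun i _ => ?_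
      simp only [star_mul, hr, mul_assoc]
    rw [e1]
    refine Finset.sum_le_sum fun j _ => ?_
    have e2 : r * (∑ i, x i * star (x i)) * r ≤ 1 :=
      (IsSelfAdjoint.conjugate_le_conjugate h hr).trans h1
    have e3 := star_right_conjugate_le_conjugate e2 (y j)
    rwa [mul_one] at e3

theorem V1T_algebraMap_le {s t : ℝ} (h : s ≤ t) : algebraMap ℝ A s ≤ algebraMap ℝ A t := by
  rw [Algebra.algebraMap_eq_smul_one, Algebra.algebraMap_eq_smul_one]
  exact smul_le_smul_of_nonneg_right h zero_le_one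

/-- the left hand side of `CPle` is selfadjoint -/
theorem V1T_sa {b c : A} (h : CPle b c) : IsSelfAdjoint b := by
  have h1 : ∀ ε : ℝ, 0 < ε → ‖star b - b‖ ≤ ε := by
    intro ε hε
    obtain ⟨ι, _, x, hx, -⟩ := h (ε / 2) (by positivity)
    have hp : star (∑ i, star (x i) * x i) = ∑ i, star (x i) * x i :=
      (IsSelfAdjoint.of_nonneg (Finset.sum_nonneg fun i _ => star_mul_self_nonneg (x i))).star_eq
    have e1 : star b - b = -star (∑ i, star (x i) * x i - b) + (∑ i, star (x i) * x i - b) := by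
      rw [star_sub, hp]
      abel
    rw [e1]
    refine (norm_add_le _ _).trans ?_
    rw [norm_neg, norm_star]
    linarith
  have h2 : ‖star b - b‖ ≤ 0 := le_of_forall_pos_le_add fun ε hε => by
    rw [zero_add]
    exact h1 ε hε
  exact sub_eq_zero.1 (norm_le_zero_iff.1 h2)

theorem CPle.trans {a b c : A} (h : CPle a b) (h' : CPle b c) : CPle a c := by
  intro δ hδ
  have hδ' : 0 < δ / 4 := by positivity
  obtain ⟨ι, _, x, hx1, hx2⟩ := h (δ / 4) hδ'
  obtain ⟨κ', _, y, hy1, hy2⟩ := h' (δ / 4) hδ'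
  -- the additional element
  set t : A := algebraMap ℝ A (Real.sqrt (2 * (δ / 4))) with ht
  have hts : star t = t := by
    rw [ht, ← algebraMap_star_comm]
    simp
  have htt : t * t = algebraMap ℝ A (2 * (δ / 4)) := by
    rw [ht, ← map_mul, Real.mul_self_sqrt (by positivity)]
  let y' : Option κ' → A := fun o => o.elim t y
  have hy'1 : ∑ j, star (y' j) * y' j = algebraMap ℝ A (2 * (δ / 4)) + ∑ j, star (y j) * y j := by
    rw [Fintype.sum_option]
    simp only [y', Option.elim_none, Option.elim_some, hts, htt]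
  have hy'2 : ∑ j, y' j * star (y' j) = algebraMap ℝ A (2 * (δ / 4)) + ∑ j, y j * star (y j) := by
    rw [Fintype.sum_option]
    simp only [y', Option.elim_none, Option.elim_some, hts, htt]
  have hsa : IsSelfAdjoint (b - ∑ j, star (y j) * y j) :=
    (V1T_sa h').sub (IsSelfAdjoint.of_nonneg
      (Finset.sum_nonneg fun j _ => star_mul_self_nonneg (y j)))
  have hle : ∑ i, x i * star (x i) ≤ ∑ j, star (y' j) * y' j := by
    rw [hy'1]
    refine hx2.trans ?_
    have f1 : b - ∑ j, star (y j) * y j ≤ algebraMap ℝ A (δ / 4) := by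
      refine (IsSelfAdjoint.le_algebraMap_norm_self hsa).trans ?_
      rw [norm_sub_rev]
      exact V1T_algebraMap_le hy1
    have f2 : algebraMap ℝ A (2 * (δ / 4)) = algebraMap ℝ A (δ / 4) + algebraMap ℝ A (δ / 4) := by
      rw [two_mul, map_add]
    rw [f2]
    calc b + algebraMap ℝ A (δ / 4) ≤ algebraMap ℝ A (δ / 4) + ∑ j, star (y j) * y j +
          algebraMap ℝ A (δ / 4) := add_le_add (sub_le_iff_le_add.1 f1) le_rfl
      _ = _ := by abel
  have hcard : (0 : ℝ) < Fintype.card ι + 1 := by positivity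
  obtain ⟨z, hz1, hz2⟩ := V1_comp x y' hle (κ := δ / 4 / (Fintype.card ι + 1)) (by positivity)
  refine ⟨ι × Option κ', inferInstance, z, ?_, ?_⟩
  · have e1 : ∑ p, star (z p) * z p - a = (∑ p, star (z p) * z p - ∑ i, star (x i) * x i) +
        (∑ i, star (x i) * x i - a) := by abel
    rw [e1]
    refine (norm_add_le _ _).trans ((add_le_add hz1 hx1).trans ?_)
    have e2 : (Fintype.card ι : ℝ) * (δ / 4 / (Fintype.card ι + 1)) ≤ δ / 4 := by
      rw [mul_div_assoc', div_le_iff₀ hcard]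
      nlinarith
    linarith
  · refine hz2.trans ?_
    rw [hy'2]
    refine (add_le_add le_rfl hy2).trans ?_
    have e3 : algebraMap ℝ A (2 * (δ / 4)) + (c + algebraMap ℝ A (δ / 4)) =
        c + algebraMap ℝ A (3 * (δ / 4)) := by
      have e4 : (3 : ℝ) * (δ / 4) = 2 * (δ / 4) + δ / 4 := by ring
      rw [e4, map_add (algebraMap ℝ A)]
      abel
    rw [e3]
    exact add_le_add le_rfl (V1T_algebraMap_le (by linarith))

end P095F
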