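import Mathlib.GroupTheory.FreeGroup.Reduce
import Vale.Agent.Lib.P095F.VDefs

/-!
# P095F, part V, module V2d: free generators, pointwise estimates

* `V2d_head`: `FreeGroup.toWord_mul` / `FreeGroup.reduce.cons`: the reduced word of `of κ * v` is the tail of `v.toWord` if
  `v.toWord` starts with `(κ, false)` (and then the tail does not start with `(κ, true)`, since `v.toWord` is
  reduced), and `(κ, true) :: v.toWord` otherwise.
* `V2d_row`: Cauchy-Schwarz in the Hilbert C*-module `C⋆ᵐᵒᵈ(A, ι → A)` (`WithCStarModule`, inner product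
  `∑ star (v κ) * w κ`) for `v κ = star (X κ)`, `w κ = η κ`: `CStarModule.inner_mul_inner_swap_le` gives
  `⟪w, v⟫ * ⟪v, w⟫ ≤ ‖v‖ ^ 2 • ⟪w, w⟫`, and `‖v‖ ^ 2 = ‖⟪v, v⟫‖ = ‖∑ X κ * star (X κ)‖ ≤ b`.
  (Local instances: spectral order.)  Only `≤` is used; differences `≥ 0` are `star c * c`.
* `V2d_point`: `L = ∑ κ, if κ0 = some κ then X κ * η κ else 0` (at most one term, so `star L * L` is the first
  sum), `R = ∑ κ, if κ0 = some κ then 0 else X κ * η κ`, `L + R = ∑ κ, X κ * η κ`.
  `star (L + R) * (L + R) = (1 - t) star L * L - (1 / t - 1) star R * R + star (√t L + √t⁻¹ R) * (√t L + √t⁻¹ R)`,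
  `1 / t - 1 ≤ 1 / t` and `star R * R ≤ b ∑ κ, if κ0 = some κ then 0 else star (η κ) * η κ` by `V2d_row` for
  `X' κ = if κ0 = some κ then 0 else X κ` (`∑ X' κ * star (X' κ) ≤ ∑ X κ * star (X κ)`, so the norm is `≤ b`).
-/

open scoped Topology

namespace P095F

universe u

theorem V2d_head {ι : Type} [DecidableEq ι] (κ : ι) (v : FreeGroup ι) :
    (FreeGroup.of κ * v).toWord.head? = some (κ, true) ↔ v.toWord.head? ≠ some (κ, false) := by
  have h1 : (FreeGroup.of κ * v).toWord = FreeGroup.reduce ((κ, true) :: v.toWord) := by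
    rw [FreeGroup.toWord_mul, FreeGroup.toWord_of]
    rfl
  have h2 : FreeGroup.reduce v.toWord = v.toWord := FreeGroup.reduce_toWord v
  rw [h1, FreeGroup.reduce.cons, h2]
  rcases hv : v.toWord with _ | ⟨hd, tl⟩
  · simp
  · change (if (κ, true).1 = hd.1 ∧ (κ, true).2 = !hd.2 then tl else
      (κ, true) :: hd :: tl).head? = some (κ, true) ↔ (hd :: tl).head? ≠ some (κ, false)
    by_cases hc : (κ, true).1 = hd.1 ∧ (κ, true).2 = !hd.2
    · have hhd : hd = (κ, false) := by
        obtain ⟨a, b⟩ := hd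
        obtain ⟨h3, h4⟩ := hc
        simp only at h3 h4
        subst h3
        cases b
        · rfl
        · simp at h4
      rw [if_pos hc, List.head?_cons, hhd]
      refine iff_of_false ?_ (fun h => h rfl)
      intro h5
      rcases tl with _ | ⟨hd2, tl2⟩
      · simp at h5
      · simp only [List.head?_cons, Option.some.injEq] at h5
        rw [hv, hhd, h5] at h2
        exact FreeGroup.reduce.not (L₁ := (κ, false) :: (κ, true) :: tl2) (L₂ := []) (x := κ)
          (b := false) (L₃ := tl2) h2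
    · rw [if_neg hc]
      refine iff_of_true rfl ?_
      intro h3
      apply hc
      rw [List.head?_cons, Option.some.injEq] at h3
      rw [h3]
      simp

variable {A : Type u} [CStarAlgebra A]

private theorem V2d_rowO {ι : Type} [Fintype ι] [PartialOrder A] [StarOrderedRing A]
    (X η : ι → A) {b : ℝ} (hb0 : 0 < b) (hb : ‖∑ κ, X κ * star (X κ)‖ ≤ b) :
    star (∑ κ, X κ * η κ) * (∑ κ, X κ * η κ) ≤ b • (∑ κ, star (η κ) * η κ) := by
  set L := ∑ κ, X κ * η κ with hL
  set P := ∑ κ, X κ * star (X κ) with hP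
  set E := ∑ κ, star (η κ) * η κ with hE
  have hLs : star L = ∑ κ, star (η κ) * star (X κ) := by
    rw [hL, star_sum]
    exact Finset.sum_congr rfl fun κ _ => star_mul _ _
  have hPs : IsSelfAdjoint P := by
    rw [hP]
    exact isSelfAdjoint_sum _ fun κ _ => IsSelfAdjoint.mul_star_self (X κ)
  have hPb : P ≤ algebraMap ℝ A b :=
    hPs.le_algebraMap_norm_self.trans (algebraMap_mono A hb)
  have h1 : star L * P * L ≤ b • (star L * L) := by
    have h := star_left_conjugate_le_conjugate hPb L
    rw [Algebra.algebraMap_eq_smul_one, mul_smul_comm, mul_one, smul_mul_assoc] at h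
    exact h
  have h2 : 0 ≤ ∑ κ, star (b • η κ - star (X κ) * L) * (b • η κ - star (X κ) * L) :=
    Finset.sum_nonneg fun κ _ => star_mul_self_nonneg _
  have h3 : ∑ κ, star (b • η κ - star (X κ) * L) * (b • η κ - star (X κ) * L) =
      (b * b) • E - b • (star L * L) - b • (star L * L) + star L * P * L := by
    have e : ∀ κ, star (b • η κ - star (X κ) * L) * (b • η κ - star (X κ) * L) =
        (b * b) • (star (η κ) * η κ) - b • (star (η κ) * star (X κ) * L)
          - b • (star L * (X κ * η κ)) + star L * (X κ * star (X κ)) * L := by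
      intro κ
      rw [star_sub, star_smul, star_mul, star_star, star_trivial]
      simp only [sub_mul, mul_sub, smul_mul_assoc, mul_smul_comm, smul_sub, smul_smul, mul_assoc]
      abel
    rw [Finset.sum_congr rfl fun κ _ => e κ, Finset.sum_add_distrib, Finset.sum_sub_distrib,
      Finset.sum_sub_distrib, ← Finset.smul_sum, ← Finset.smul_sum, ← Finset.smul_sum,
      ← Finset.sum_mul, ← Finset.mul_sum, ← Finset.sum_mul, ← Finset.mul_sum, ← hLs]
  rw [h3] at h2
  have h4 : 0 ≤ (b * b) • E - b • (star L * L) := by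
    have h5 : (b * b) • E - b • (star L * L) - b • (star L * L) + star L * P * L ≤
        (b * b) • E - b • (star L * L) - b • (star L * L) + b • (star L * L) :=
      add_le_add_right h1 _
    rw [sub_add_cancel] at h5
    exact h2.trans h5
  have h6 : 0 ≤ b⁻¹ • ((b * b) • E - b • (star L * L)) := smul_nonneg (inv_nonneg.2 hb0.le) h4
  rw [smul_sub, smul_smul, smul_smul, inv_mul_cancel₀ hb0.ne', one_smul,
    inv_mul_cancel_left₀ hb0.ne'] at h6
  exact sub_nonneg.1 h6

theorem V2d_row {ι : Type} [Fintype ι] (X η : ι → A) {b : ℝ}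
    (hb : ‖∑ κ, X κ * star (X κ)‖ ≤ b) :
    ∃ c : A, (b : ℂ) • (∑ κ, star (η κ) * η κ) -
      star (∑ κ, X κ * η κ) * (∑ κ, X κ * η κ) = star c * c := by
  let _ := CStarAlgebra.spectralOrder A
  have _ := CStarAlgebra.spectralOrderedRing A
  rw [← CStarAlgebra.nonneg_iff_eq_star_mul_self, Complex.coe_smul, sub_nonneg]
  rcases ((norm_nonneg _).trans hb).eq_or_lt with h | h
  · subst h
    have h1 : ∑ κ, X κ * star (X κ) = 0 := norm_le_zero_iff.1 hb
    have h2 : ∀ κ, X κ = 0 := by
      intro κ
      have h3 := (Finset.sum_eq_zero_iff_of_nonneg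
        (fun κ _ => mul_star_self_nonneg (X κ))).1 h1 κ (Finset.mem_univ κ)
      exact CStarRing.mul_star_self_eq_zero_iff _ |>.1 h3
    simp [h2]
  · exact V2d_rowO X η h hb

theorem V2d_point {ι : Type} [Fintype ι] [DecidableEq ι] (X η : ι → A) {b t : ℝ}
    (hb : ‖∑ κ, X κ * star (X κ)‖ ≤ b) (ht : 0 < t) (ht1 : t ≤ 1) (κ0 : Option ι) :
    ∃ c : A, star (∑ κ, X κ * η κ) * (∑ κ, X κ * η κ) -
      ((1 - t : ℝ) : ℂ) • (∑ κ, if κ0 = some κ then star (X κ * η κ) * (X κ * η κ) else 0) +
      ((b / t : ℝ) : ℂ) • (∑ κ, if κ0 = some κ then 0 else star (η κ) * η κ) = star c * c := by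
  let _ := CStarAlgebra.spectralOrder A
  have _ := CStarAlgebra.spectralOrderedRing A
  set L : A := ∑ κ, if κ0 = some κ then X κ * η κ else 0 with hL
  set R : A := ∑ κ, if κ0 = some κ then 0 else X κ * η κ with hR
  set E : A := ∑ κ, if κ0 = some κ then 0 else star (η κ) * η κ with hE
  have hLR : ∑ κ, X κ * η κ = L + R := by
    rw [hL, hR, ← Finset.sum_add_distrib]
    refine Finset.sum_congr rfl fun κ _ => ?_
    split_ifs <;> simp
  have hLL : (∑ κ, if κ0 = some κ then star (X κ * η κ) * (X κ * η κ) else 0) = star L * L := by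
    rcases κ0 with _ | κ1
    · simp [hL]
    · simp only [Option.some.injEq] at hL ⊢
      rw [hL, Finset.sum_ite_eq, Finset.sum_ite_eq]
      simp
  have hX' : ‖∑ κ, (if κ0 = some κ then 0 else X κ) * star (if κ0 = some κ then 0 else X κ)‖ ≤
      b := by
    refine (CStarAlgebra.norm_le_norm_of_nonneg_of_le ?_ ?_).trans hb
    · exact Finset.sum_nonneg fun κ _ => mul_star_self_nonneg _
    · refine Finset.sum_le_sum fun κ _ => ?_
      split_ifs
      · simp
      · exact le_rfl
  obtain ⟨c1, hc1⟩ := V2d_row (fun κ => if κ0 = some κ then 0 else X κ)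
    (fun κ => if κ0 = some κ then 0 else η κ) hX'
  have hR' : (∑ κ, (if κ0 = some κ then 0 else X κ) * (if κ0 = some κ then 0 else η κ)) = R := by
    rw [hR]
    refine Finset.sum_congr rfl fun κ _ => ?_
    split_ifs <;> simp
  have hE' : (∑ κ, star (if κ0 = some κ then (0 : A) else η κ) *
      (if κ0 = some κ then 0 else η κ)) = E := by
    rw [hE]
    refine Finset.sum_congr rfl fun κ _ => ?_
    split_ifs <;> simp
  rw [hR', hE', Complex.coe_smul] at hc1
  have hRE : 0 ≤ b • E - star R * R := by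
    rw [hc1]
    exact star_mul_self_nonneg _
  rw [hLR, hLL, ← CStarAlgebra.nonneg_iff_eq_star_mul_self, Complex.coe_smul, Complex.coe_smul]
  set s := Real.sqrt t with hs
  have hs0 : 0 < s := Real.sqrt_pos.2 ht
  have hss : s * s = t := Real.mul_self_sqrt ht.le
  have key : star (L + R) * (L + R) - (1 - t) • (star L * L) + (b / t) • E =
      star (s • L + s⁻¹ • R) * (s • L + s⁻¹ • R) + t⁻¹ • (b • E - star R * R) + star R * R := by
    have e1 : star (s • L + s⁻¹ • R) * (s • L + s⁻¹ • R) =
        t • (star L * L) + star L * R + star R * L + t⁻¹ • (star R * R) := by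
      rw [star_add, star_smul, star_smul, star_trivial s, star_trivial s⁻¹]
      simp only [add_mul, mul_add, smul_mul_assoc, mul_smul_comm, smul_add, smul_smul]
      rw [hss, mul_inv_cancel₀ hs0.ne', inv_mul_cancel₀ hs0.ne', ← mul_inv, hss, one_smul,
        one_smul]
      abel
    rw [e1, star_add, smul_sub, smul_smul, sub_smul, one_smul, div_eq_inv_mul]
    simp only [add_mul, mul_add]
    abel
  rw [key]
  exact add_nonneg (add_nonneg (star_mul_self_nonneg _) (smul_nonneg (inv_nonneg.2 ht.le) hRE))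
    (star_mul_self_nonneg _)

end P095F
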