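import Vale.Agent.Lib.P095F.V2d

/-!
# P095F, part V, module V2e: free generators, the sum of the pointwise estimates

`V2e_sum`.  Write `κ = (i, a)`, `g κ = FreeGroup.of κ = gen N m i a`, `X κ = x i`,
`S u = ∑_κ X κ * η_κ(u)`, `η_κ(u) = ξ a ((g κ)⁻¹ * u)`.  Apply `V2d_point` at every `u ∈ U` with `b = m η`
(`∑_κ X κ X κ^* = m ∑_i x_i x_i^*`) and `κ0(u) = some κ` if `u.toWord.head? = some (κ, true)`, `none` if there is no such `κ`.
Sum over `u ∈ U`.  By `V2d_head` (with `v = (g κ)⁻¹ u`), `κ0(u) = some κ` iff `v.toWord.head? ≠ some (κ, false)`;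
reindexing `u = g κ * v` (`ξ a v = 0` for `v ∉ H`, `g κ * v ∈ U` for `v ∈ H`):
 first sum `F1 = ∑_κ ∑_{v ∈ H, head v ≠ (κ,false)} star (ξ a v) x_i^* x_i (ξ a v)
   = ∑_a ∑_{v ∈ H} star (ξ a v) (∑_i x_i^* x_i) (ξ a v) - ∑_a ∑_{v ∈ H} ∑_{i : head v = ((i,a),false)} star (ξ a v) x_i^* x_i (ξ a v)`;
 for every `v` and `a` there is at most one `i` in the last sum, and `x_i^* x_i ≤ d1`; so
 `F1 ≥ ∑_a ∑_{v ∈ H} star (ξ a v) (e - 2 d1) (ξ a v)`;
 second sum `F2 = ∑_κ ∑_{v ∈ H, head v = (κ,false)} star (ξ a v) (ξ a v) ≤ ∑_a ∑_{v ∈ H} star (ξ a v) (ξ a v)`.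
`∑_u star (S u) * S u ≥ (1 - t) F1 - (m η / t) F2`, and `(1 - t)(e - 2 d1) ≥ e - 2 d1 - t` (`e ≤ 1`, `d1 ≥ 0`).
(Spectral order on `A` as a local instance inside the proof; positive elements are `star c * c`.)
-/

open scoped Topology

namespace P095F

universe u

variable {A : Type u} [CStarAlgebra A]

section Aux

private theorem V2e_reindex {G : Type} [Group G] (k : G) (H U : Finset G)
    (hU : ∀ h ∈ H, k * h ∈ U) (φ : G → A) (hφ : ∀ u, k⁻¹ * u ∉ H → φ u = 0) :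
    ∑ u ∈ U, φ u = ∑ h ∈ H, φ (k * h) := by
  classical
  have h1 : ∑ h ∈ H, φ (k * h) = ∑ u ∈ H.image (fun h => k * h), φ u := by
    rw [Finset.sum_image]
    intro a _ b _ hab
    exact mul_left_cancel hab
  rw [h1]
  symm
  apply Finset.sum_subset
  · intro u hu
    obtain ⟨h, hh, rfl⟩ := Finset.mem_image.1 hu
    exact hU h hh
  · intro u _ hu
    apply hφ
    intro hk
    apply hu
    rw [Finset.mem_image]
    exact ⟨k⁻¹ * u, hk, by rw [mul_inv_cancel_left]⟩

private def V2e_opt {ι : Type} : Option (ι × Bool) → Option ι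
  | some (κ, true) => some κ
  | _ => none

private theorem V2e_opt_iff {ι : Type} (o : Option (ι × Bool)) (κ : ι) :
    V2e_opt o = some κ ↔ o = some (κ, true) := by
  rcases o with _ | ⟨κ', _ | _⟩ <;> simp [V2e_opt]

variable [PartialOrder A] [StarOrderedRing A]

omit [StarOrderedRing A] in
private theorem V2e_atmost {N : ℕ} (p : Fin N → Prop) [DecidablePred p]
    (hp : ∀ i j, p i → p j → i = j) (f : Fin N → A) (z : A) (hz : 0 ≤ z) (hf : ∀ i, f i ≤ z) :
    ∑ i, (if p i then f i else 0) ≤ z := by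
  by_cases h : ∃ i, p i
  · obtain ⟨i0, hi0⟩ := h
    rw [Finset.sum_eq_single i0]
    · rw [if_pos hi0]
      exact hf i0
    · intro j _ hj
      rw [if_neg]
      intro hpj
      exact hj (hp j i0 hpj hi0)
    · intro h
      exact absurd (Finset.mem_univ _) h
  · push Not at h
    rw [Finset.sum_eq_zero]
    · exact hz
    · intro j _
      rw [if_neg (h j)]

private theorem V2e_elem {e M : A} {d1 t b c : ℝ} (he1 : e ≤ 1) (hd1 : 0 ≤ d1) (ht : 0 < t)
    (ht1 : t ≤ 1) (hc : 2 * d1 + t + b / t ≤ c) (hM : e - (2 * d1) • (1 : A) ≤ M) :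
    e - c • (1 : A) ≤ (1 - t) • M - (b / t) • (1 : A) := by
  have h1 : (1 - t) • (e - (2 * d1) • (1 : A)) ≤ (1 - t) • M :=
    smul_le_smul_of_nonneg_left hM (by linarith)
  have h2 : t • e ≤ t • (1 : A) := smul_le_smul_of_nonneg_left he1 ht.le
  have h3 : (0 : A) ≤ (c - (1 - t) * (2 * d1) - b / t - t) • (1 : A) := by
    apply smul_nonneg _ zero_le_one
    nlinarith
  have h4 : (1 - t) • (e - (2 * d1) • (1 : A)) - (b / t) • (1 : A) - (e - c • (1 : A)) =
      (c - (1 - t) * (2 * d1) - b / t - t) • (1 : A) + (t • (1 : A) - t • e) := by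
    module
  have h5 : (0 : A) ≤ (1 - t) • (e - (2 * d1) • (1 : A)) - (b / t) • (1 : A) -
      (e - c • (1 : A)) := by
    rw [h4]
    exact add_nonneg h3 (sub_nonneg.2 h2)
  exact (sub_nonneg.1 h5).trans (sub_le_sub_right h1 _)

private theorem V2e_M {N : ℕ} (x : Fin N → A) (e : A) (he : IsSelfAdjoint e) {d1 : ℝ}
    (hd : ‖∑ i, star (x i) * x i - e‖ ≤ d1) (hx : ∀ i, ‖x i‖ ^ 2 ≤ d1)
    (p : Fin N → Prop) [DecidablePred p] (hp : ∀ i j, p i → p j → i = j) :
    e - (2 * d1) • (1 : A) ≤ ∑ i, (if p i then 0 else star (x i) * x i) := by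
  have hd1 : 0 ≤ d1 := (norm_nonneg _).trans hd
  have h1 : ∑ i, (if p i then star (x i) * x i else 0) ≤ d1 • (1 : A) := by
    apply V2e_atmost p hp _ _ (smul_nonneg hd1 zero_le_one)
    intro i
    refine CStarAlgebra.star_mul_le_algebraMap_norm_sq.trans ?_
    rw [Algebra.algebraMap_eq_smul_one]
    exact smul_le_smul_of_nonneg_right (hx i) zero_le_one
  have hsa : IsSelfAdjoint (∑ i, star (x i) * x i - e) := by
    refine IsSelfAdjoint.sub ?_ he
    rw [isSelfAdjoint_iff, star_sum]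
    exact Finset.sum_congr rfl fun i _ => by rw [star_mul, star_star]
  have h2 : -(d1 • (1 : A)) ≤ ∑ i, star (x i) * x i - e := by
    refine le_trans ?_ hsa.neg_algebraMap_norm_le_self
    rw [neg_le_neg_iff, Algebra.algebraMap_eq_smul_one]
    exact smul_le_smul_of_nonneg_right hd zero_le_one
  have h3 : ∑ i, (if p i then 0 else star (x i) * x i) =
      ∑ i, star (x i) * x i - ∑ i, (if p i then star (x i) * x i else 0) := by
    rw [← Finset.sum_sub_distrib]
    refine Finset.sum_congr rfl fun i _ => ?_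
    by_cases h : p i <;> simp [h]
  rw [h3]
  have h4 : e - (2 * d1) • (1 : A) = (e + -(d1 • (1 : A))) - d1 • (1 : A) := by module
  rw [h4]
  refine sub_le_sub ?_ h1
  have h6 : e + (∑ i, star (x i) * x i - e) = ∑ i, star (x i) * x i := by abel
  rw [← h6]
  exact add_le_add le_rfl h2

private theorem V2e_pt {N : ℕ} (x : Fin N → A) (e : A) (he0 : 0 ≤ e) (he1 : e ≤ 1)
    {d1 t b c : ℝ} (hd : ‖∑ i, star (x i) * x i - e‖ ≤ d1) (hx : ∀ i, ‖x i‖ ^ 2 ≤ d1)
    (ht : 0 < t) (ht1 : t ≤ 1) (hb : 0 ≤ b) (hc : 2 * d1 + t + b / t ≤ c)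
    (p : Fin N → Prop) [DecidablePred p] (hp : ∀ i j, p i → p j → i = j) (z : A) :
    star z * (e - c • (1 : A)) * z ≤
      ∑ i, ((1 - t) • (if p i then 0 else star (x i * z) * (x i * z)) -
        (b / t) • (if p i then star z * z else 0)) := by
  have hd1 : 0 ≤ d1 := (norm_nonneg _).trans hd
  have h1 := V2e_elem he1 hd1 ht ht1 hc (V2e_M x e (IsSelfAdjoint.of_nonneg he0) hd hx p hp)
  have h2 := star_left_conjugate_le_conjugate h1 z
  have h3 : ∑ i, (if p i then star z * z else 0) ≤ star z * z :=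
    V2e_atmost p hp _ _ (star_mul_self_nonneg z) fun _ => le_rfl
  have h4 : (b / t) • ∑ i, (if p i then star z * z else 0) ≤ (b / t) • (star z * z) :=
    smul_le_smul_of_nonneg_left h3 (by positivity)
  have h5 : ∑ i, (if p i then 0 else star (x i * z) * (x i * z)) =
      star z * (∑ i, (if p i then 0 else star (x i) * x i)) * z := by
    rw [Finset.mul_sum, Finset.sum_mul]
    refine Finset.sum_congr rfl fun i _ => ?_
    by_cases h : p i
    · simp [h]
    · rw [if_neg h, if_neg h, star_mul]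
      simp only [mul_assoc]
  refine h2.trans ?_
  rw [Finset.sum_sub_distrib, ← Finset.smul_sum, ← Finset.smul_sum, h5, mul_sub, sub_mul,
    mul_smul_comm, smul_mul_assoc, mul_smul_comm, smul_mul_assoc, mul_one]
  exact sub_le_sub_left h4 _

end Aux

theorem V2e_sum {N m : ℕ} (x : Fin N → A) (e : A) (he : ∃ y : A, e = star y * y) (he1 : ‖e‖ ≤ 1)
    {d1 η t c : ℝ} (hd : ‖∑ i, star (x i) * x i - e‖ ≤ d1) (hx : ∀ i, ‖x i‖ ^ 2 ≤ d1)
    (hη : ‖∑ i, x i * star (x i)‖ ≤ η) (ht : 0 < t) (ht1 : t ≤ 1)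
    (hc : 2 * d1 + t + m * η / t ≤ c) (H U : Finset (FreeGroup (Fin N × Fin m)))
    (hU : ∀ i a, ∀ h ∈ H, gen N m i a * h ∈ U) (ξ : Fin m → FreeGroup (Fin N × Fin m) → A)
    (hξ : ∀ a h, h ∉ H → ξ a h = 0) :
    ∃ y : A, (∑ u ∈ U, star (∑ i, ∑ a, x i * ξ a ((gen N m i a)⁻¹ * u)) *
        (∑ i, ∑ a, x i * ξ a ((gen N m i a)⁻¹ * u))) -
      ∑ a, ∑ h ∈ H, star (ξ a h) * (e - (c : ℂ) • 1) * ξ a h = star y * y := by
  classical
  let _ := CStarAlgebra.spectralOrder A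
  have _ := CStarAlgebra.spectralOrderedRing A
  have he0 : (0 : A) ≤ e := by
    obtain ⟨y, rfl⟩ := he
    exact star_mul_self_nonneg y
  have he1' : e ≤ 1 := (CStarAlgebra.norm_le_one_iff_of_nonneg e he0).1 he1
  have hη0 : 0 ≤ η := (norm_nonneg _).trans hη
  have hb0 : 0 ≤ (m : ℝ) * η := by positivity
  have hb : ‖∑ κ : Fin N × Fin m, x κ.1 * star (x κ.1)‖ ≤ m * η := by
    have h1 : ∑ κ : Fin N × Fin m, x κ.1 * star (x κ.1) = m • ∑ i, x i * star (x i) := by
      rw [Fintype.sum_prod_type, Finset.smul_sum]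
      refine Finset.sum_congr rfl fun i _ => ?_
      change ∑ _a : Fin m, x i * star (x i) = _
      rw [Finset.sum_const, Finset.card_univ, Fintype.card_fin]
    rw [h1]
    refine (norm_nsmul_le).trans ?_
    exact mul_le_mul_of_nonneg_left hη (by positivity)
  set Φ : (Fin N × Fin m) → FreeGroup (Fin N × Fin m) → A := fun κ u =>
    (1 - t) • (if V2e_opt u.toWord.head? = some κ then
        star (x κ.1 * ξ κ.2 ((FreeGroup.of κ)⁻¹ * u)) * (x κ.1 * ξ κ.2 ((FreeGroup.of κ)⁻¹ * u))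
        else 0) -
      (m * η / t) • (if V2e_opt u.toWord.head? = some κ then 0 else
        star (ξ κ.2 ((FreeGroup.of κ)⁻¹ * u)) * ξ κ.2 ((FreeGroup.of κ)⁻¹ * u)) with hΦ
  have hpt : ∀ u, ∑ κ, Φ κ u ≤ star (∑ i, ∑ a, x i * ξ a ((gen N m i a)⁻¹ * u)) *
        (∑ i, ∑ a, x i * ξ a ((gen N m i a)⁻¹ * u)) := by
    intro u
    obtain ⟨y, hy⟩ := V2d_point (fun κ : Fin N × Fin m => x κ.1)
      (fun κ => ξ κ.2 ((FreeGroup.of κ)⁻¹ * u)) hb ht ht1 (V2e_opt u.toWord.head?)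
    have h1 : ∑ κ : Fin N × Fin m, x κ.1 * ξ κ.2 ((FreeGroup.of κ)⁻¹ * u) =
        ∑ i, ∑ a, x i * ξ a ((gen N m i a)⁻¹ * u) := by
      rw [Fintype.sum_prod_type]
      rfl
    rw [h1] at hy
    rw [← sub_nonneg]
    have h2 : ∑ κ, Φ κ u = (1 - t) • (∑ κ : Fin N × Fin m,
        if V2e_opt u.toWord.head? = some κ then
        star (x κ.1 * ξ κ.2 ((FreeGroup.of κ)⁻¹ * u)) * (x κ.1 * ξ κ.2 ((FreeGroup.of κ)⁻¹ * u))
        else 0) - (m * η / t) • (∑ κ : Fin N × Fin m,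
        if V2e_opt u.toWord.head? = some κ then 0 else
        star (ξ κ.2 ((FreeGroup.of κ)⁻¹ * u)) * ξ κ.2 ((FreeGroup.of κ)⁻¹ * u)) := by
      rw [hΦ, Finset.sum_sub_distrib, ← Finset.smul_sum, ← Finset.smul_sum]
    rw [h2]
    have h3 := star_mul_self_nonneg y
    rw [← hy, Complex.coe_smul, Complex.coe_smul] at h3
    refine h3.trans (le_of_eq ?_)
    abel
  have hre : ∀ κ : Fin N × Fin m, ∑ u ∈ U, Φ κ u = ∑ h ∈ H, Φ κ (FreeGroup.of κ * h) := by
    intro κ
    apply V2e_reindex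
    · intro h hh
      exact hU κ.1 κ.2 h hh
    · intro u hu
      simp only [hΦ, hξ κ.2 _ hu, mul_zero, star_zero, ite_self, smul_zero, sub_zero]
  have hsum : ∑ a, ∑ h ∈ H, star (ξ a h) * (e - c • (1 : A)) * ξ a h ≤
      ∑ u ∈ U, ∑ κ, Φ κ u := by
    have hR : ∑ u ∈ U, ∑ κ, Φ κ u =
        ∑ a, ∑ h ∈ H, ∑ i, Φ (i, a) (FreeGroup.of (i, a) * h) := by
      rw [Finset.sum_comm, Finset.sum_congr rfl (fun κ _ => hre κ), Fintype.sum_prod_type,
        Finset.sum_comm]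
      exact Finset.sum_congr rfl fun a _ => Finset.sum_comm
    rw [hR]
    refine Finset.sum_le_sum fun a _ => ?_
    refine Finset.sum_le_sum fun h _ => ?_
    have h1 := V2e_pt x e he0 he1' hd hx ht ht1 hb0 hc
      (fun i => h.toWord.head? = some (((i, a) : Fin N × Fin m), false)) (by
        intro i j hi hj
        rw [hi] at hj
        simpa using hj) (ξ a h)
    refine h1.trans (le_of_eq (Finset.sum_congr rfl fun i _ => ?_))
    have h2 : V2e_opt (FreeGroup.of ((i, a) : Fin N × Fin m) * h).toWord.head? = some (i, a) ↔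
        ¬ h.toWord.head? = some (((i, a) : Fin N × Fin m), false) := by
      rw [V2e_opt_iff]
      exact V2d_head _ _
    simp only [hΦ, inv_mul_cancel_left, h2]
    by_cases h3 : h.toWord.head? = some (((i, a) : Fin N × Fin m), false) <;> simp [h3]
  have hfin := hsum.trans (Finset.sum_le_sum fun u _ => hpt u)
  have h6 : (c : ℂ) • (1 : A) = c • (1 : A) := Complex.coe_smul c 1
  rw [h6]
  exact CStarAlgebra.nonneg_iff_eq_star_mul_self.1 (sub_nonneg.2 hfin)

end P095F
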