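import Vale.Agent.Lib.P095F.V2b
import Vale.Agent.Lib.P095F.V2e

/-!
# P095F, part V, module V2f: the kernel of free generators is positive

`V2f_form` (any group): both sides are
`∑_{s,t} ∑_{i,j} [g i s.1 * s.2 = g j t.1 * t.2] star (ξ s.1 s.2) x_i^* x_j ξ t.1 t.2` (`s`, `t` in `Fin m × H`) minus
the diagonal part: in
`∑_{u ∈ U} star (S u) * S u` write `ξ a ((g i a)⁻¹ * u) = ∑_{h ∈ H} if g i a * h = u then ξ a h else 0` and
sum over `u` first (`g i a * h ∈ U`).

`V2_main`: `posM_of_form` with `S = Fin m × ↥H`; extend `ξ` by zero outside `H`;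
`U = (Finset.univ ×ˢ H).image fun p => FreeGroup.of p.1 * p.2`; `V2f_form` and `V2e_sum`.
-/

open scoped Topology

namespace P095F

universe u

variable {A : Type u} [CStarAlgebra A]

theorem V2f_form {G : Type} [Group G] {N m : ℕ} (x : Fin N → A) (g : Fin N → Fin m → G) (e' : A)
    (H U : Finset G) (hU : ∀ i a, ∀ h ∈ H, g i a * h ∈ U) (ξ : Fin m → G → A)
    (hξ : ∀ a h, h ∉ H → ξ a h = 0) :
    ∑ s : Fin m × ↥H, ∑ t : Fin m × ↥H, star (ξ s.1 s.2) *
        VKer x g e' (s.1, (s.2 : G)) (t.1, (t.2 : G)) * ξ t.1 t.2 =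
      (∑ u ∈ U, star (∑ i, ∑ a, x i * ξ a ((g i a)⁻¹ * u)) *
        (∑ i, ∑ a, x i * ξ a ((g i a)⁻¹ * u))) -
      ∑ a, ∑ h ∈ H, star (ξ a h) * e' * ξ a h := by
  classical
  set w : Fin N → Fin m × ↥H → G := fun i s => g i s.1 * (s.2 : G) with hw
  set P : G → Fin m × ↥H → A := fun u s => ∑ i, if w i s = u then x i else 0 with hP
  have hS : ∀ u, (∑ i, ∑ a, x i * ξ a ((g i a)⁻¹ * u)) =
      ∑ s : Fin m × ↥H, P u s * ξ s.1 s.2 := by
    intro u
    have h1 : ∀ i a, x i * ξ a ((g i a)⁻¹ * u) =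
        ∑ h : ↥H, (if w i (a, h) = u then x i else 0) * ξ a h := by
      intro i a
      by_cases hh : (g i a)⁻¹ * u ∈ H
      · rw [Finset.sum_eq_single (⟨(g i a)⁻¹ * u, hh⟩ : ↥H)]
        · rw [if_pos (mul_inv_cancel_left (g i a) u)]
        · intro h _ hne
          rw [if_neg, zero_mul]
          intro h2
          apply hne
          apply Subtype.ext
          have h3 : g i a * (h : G) = u := h2
          change (h : G) = (g i a)⁻¹ * u
          rw [← h3, inv_mul_cancel_left]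
        · intro h
          exact absurd (Finset.mem_univ _) h
      · rw [hξ a _ hh, mul_zero]
        symm
        apply Finset.sum_eq_zero
        intro h _
        rw [if_neg, zero_mul]
        intro h2
        apply hh
        have h3 : g i a * (h : G) = u := h2
        rw [← h3, inv_mul_cancel_left]
        exact h.2
    rw [Fintype.sum_prod_type, Finset.sum_comm]
    refine Finset.sum_congr rfl fun a _ => ?_
    rw [Finset.sum_congr rfl fun i _ => h1 i a, Finset.sum_comm]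
    refine Finset.sum_congr rfl fun h _ => ?_
    rw [hP]
    beta_reduce
    rw [Finset.sum_mul]
  have hK : ∀ s t : Fin m × ↥H, ∑ u ∈ U, star (P u s) * P u t =
      ∑ i, ∑ j, if w i s = w j t then star (x i) * x j else 0 := by
    intro s t
    have h2 : ∀ u, star (P u s) * P u t =
        ∑ i, ∑ j, if w i s = u ∧ w j t = u then star (x i) * x j else 0 := by
      intro u
      rw [hP]
      beta_reduce
      rw [star_sum, Finset.sum_mul]
      refine Finset.sum_congr rfl fun i _ => ?_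
      rw [Finset.mul_sum]
      refine Finset.sum_congr rfl fun j _ => ?_
      by_cases h3 : w i s = u
      · by_cases h4 : w j t = u
        · rw [if_pos h3, if_pos h4, if_pos ⟨h3, h4⟩]
        · rw [if_neg h4, mul_zero, if_neg (fun h => h4 h.2)]
      · rw [if_neg h3, star_zero, zero_mul, if_neg (fun h => h3 h.1)]
    rw [Finset.sum_congr rfl fun u _ => h2 u, Finset.sum_comm]
    refine Finset.sum_congr rfl fun i _ => ?_
    rw [Finset.sum_comm]
    refine Finset.sum_congr rfl fun j _ => ?_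
    rw [Finset.sum_eq_single (w i s)]
    · by_cases h5 : w i s = w j t
      · rw [if_pos ⟨rfl, h5.symm⟩, if_pos h5]
      · rw [if_neg (fun h => h5 h.2.symm), if_neg h5]
    · intro u _ hu
      rw [if_neg (fun h => hu h.1.symm)]
    · intro h
      exact absurd (hU i s.1 s.2 s.2.2) h
  have hV : ∀ s t : Fin m × ↥H, VKer x g e' (s.1, (s.2 : G)) (t.1, (t.2 : G)) =
      (∑ u ∈ U, star (P u s) * P u t) - if s = t then e' else 0 := by
    intro s t
    rw [hK]
    unfold VKer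
    congr 1
    by_cases h : s = t
    · rw [if_pos h, if_pos (by rw [h])]
    · rw [if_neg h, if_neg]
      intro h2
      apply h
      have h3 := (Prod.ext_iff.1 h2)
      exact Prod.ext h3.1 (Subtype.ext h3.2)
  have hT : ∀ s t : Fin m × ↥H, star (ξ s.1 s.2) *
      VKer x g e' (s.1, (s.2 : G)) (t.1, (t.2 : G)) * ξ t.1 t.2 =
      (∑ u ∈ U, star (P u s * ξ s.1 s.2) * (P u t * ξ t.1 t.2)) -
        if s = t then star (ξ s.1 s.2) * e' * ξ s.1 s.2 else 0 := by
    intro s t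
    rw [hV, mul_sub, sub_mul]
    congr 1
    · rw [Finset.mul_sum, Finset.sum_mul]
      refine Finset.sum_congr rfl fun u _ => ?_
      rw [star_mul]
      simp only [mul_assoc]
    · by_cases h : s = t
      · rw [if_pos h, if_pos h, h]
      · rw [if_neg h, if_neg h, mul_zero, zero_mul]
  have hD : ∑ s : Fin m × ↥H, ∑ t : Fin m × ↥H,
      (if s = t then star (ξ s.1 s.2) * e' * ξ s.1 s.2 else 0) =
      ∑ a, ∑ h ∈ H, star (ξ a h) * e' * ξ a h := by
    have h1 : ∀ s : Fin m × ↥H, ∑ t : Fin m × ↥H,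
        (if s = t then star (ξ s.1 s.2) * e' * ξ s.1 s.2 else 0) =
        star (ξ s.1 s.2) * e' * ξ s.1 s.2 := by
      intro s
      rw [Finset.sum_ite_eq, if_pos (Finset.mem_univ s)]
    rw [Finset.sum_congr rfl fun s _ => h1 s, Fintype.sum_prod_type]
    refine Finset.sum_congr rfl fun a _ => ?_
    exact Finset.sum_coe_sort H fun h => star (ξ a h) * e' * ξ a h
  rw [← hD]
  have hM : ∑ u ∈ U, star (∑ i, ∑ a, x i * ξ a ((g i a)⁻¹ * u)) *
        (∑ i, ∑ a, x i * ξ a ((g i a)⁻¹ * u)) =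
      ∑ s : Fin m × ↥H, ∑ t : Fin m × ↥H,
        ∑ u ∈ U, star (P u s * ξ s.1 s.2) * (P u t * ξ t.1 t.2) := by
    have h1 : ∀ u, star (∑ i, ∑ a, x i * ξ a ((g i a)⁻¹ * u)) *
        (∑ i, ∑ a, x i * ξ a ((g i a)⁻¹ * u)) =
        ∑ s : Fin m × ↥H, ∑ t : Fin m × ↥H, star (P u s * ξ s.1 s.2) * (P u t * ξ t.1 t.2) := by
      intro u
      rw [hS, star_sum, Finset.sum_mul]
      refine Finset.sum_congr rfl fun s _ => ?_
      rw [Finset.mul_sum]
    rw [Finset.sum_congr rfl fun u _ => h1 u, Finset.sum_comm]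
    refine Finset.sum_congr rfl fun s _ => ?_
    rw [Finset.sum_comm]
  rw [hM, ← Finset.sum_sub_distrib]
  refine Finset.sum_congr rfl fun s _ => ?_
  rw [← Finset.sum_sub_distrib]
  exact Finset.sum_congr rfl fun t _ => hT s t

theorem V2_main {N m : ℕ} (x : Fin N → A) (e : A) (he : ∃ y : A, e = star y * y) (he1 : ‖e‖ ≤ 1)
    {d1 η t c : ℝ} (hd : ‖∑ i, star (x i) * x i - e‖ ≤ d1) (hx : ∀ i, ‖x i‖ ^ 2 ≤ d1)
    (hη : ‖∑ i, x i * star (x i)‖ ≤ η) (ht : 0 < t) (ht1 : t ≤ 1)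
    (hc : 2 * d1 + t + m * η / t ≤ c) (H : Finset (FreeGroup (Fin N × Fin m))) :
    PosM (fun s t : Fin m × ↥H => VKer x (gen N m) (e - (c : ℂ) • 1)
      (s.1, (s.2 : FreeGroup (Fin N × Fin m))) (t.1, (t.2 : FreeGroup (Fin N × Fin m)))) := by
  classical
  apply posM_of_form
  intro ξ'
  set ξ : Fin m → FreeGroup (Fin N × Fin m) → A :=
    fun a h => if hh : h ∈ H then ξ' (a, ⟨h, hh⟩) else 0 with hξdef
  have hξ : ∀ a h, h ∉ H → ξ a h = 0 := by
    intro a h hh
    rw [hξdef]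
    beta_reduce
    rw [dif_neg hh]
  have hξ2 : ∀ s : Fin m × ↥H, ξ' s = ξ s.1 s.2 := by
    intro s
    rw [hξdef]
    beta_reduce
    rw [dif_pos s.2.2]
  set U : Finset (FreeGroup (Fin N × Fin m)) :=
    ((Finset.univ : Finset (Fin N × Fin m)) ×ˢ H).image
      (fun p => FreeGroup.of p.1 * p.2) with hUdef
  have hU : ∀ i a, ∀ h ∈ H, gen N m i a * h ∈ U := by
    intro i a h hh
    rw [hUdef, Finset.mem_image]
    exact ⟨((i, a), h), Finset.mem_product.2 ⟨Finset.mem_univ _, hh⟩, rfl⟩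
  obtain ⟨y, hy⟩ := V2e_sum x e he he1 hd hx hη ht ht1 hc H U hU ξ hξ
  refine ⟨y, ?_⟩
  rw [← hy, ← V2f_form x (gen N m) (e - (c : ℂ) • 1) H U hU ξ hξ]
  refine Finset.sum_congr rfl fun s _ => Finset.sum_congr rfl fun t _ => ?_
  rw [hξ2 s, hξ2 t]

end P095F
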