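import Vale.Agent.Lib.P095F.VDefs

/-!
# P095F, part V, module V3b1: a trace inequality in the group ring over matrices

`X = MonoidAlgebra (Matrix K K ℂ) G`.

* `V3b1_pow`: `(Z * W)(w⁻¹)^* = ∑_{ab = w⁻¹} W(b)^* Z(a)^* = ∑_{b⁻¹ a⁻¹ = w} W(b⁻¹) Z(a⁻¹) = (W * Z)(w)`; so powers of a
  hermitian element are hermitian (induction with `pow_succ`, `pow_succ'`), scalars
  `MonoidAlgebra.single 1 ((C : ℂ) • 1)` and sums too.
* `V3b1_trace`: `(y * T * y)(1) = ∑_{a b c = 1} y(a) T(b) y(c) = ∑_{g,h} y(g⁻¹) T(g h⁻¹) y(h) =`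
  `∑_{g,h} y(g)^* T(g h⁻¹) y(h)` (`a = g⁻¹`, `c = h`, `y` hermitian; `g, h` run over the support of `y`,
  which is symmetric).  Its trace is
  `∑_p ∑_{g,h} ∑_{q,r} conj (y(g)_{q p}) T(g h⁻¹)_{q r} y(h)_{r p}`, for every `p` it is the form of
  `NegK` with `H = y.coeff.support` and `v (q, g) = y.coeff g q p`.
-/

open scoped Topology

namespace P095F

variable {G K : Type} [Group G] [Fintype K] [DecidableEq K]

private theorem V3b1_supp {W : MonoidAlgebra (Matrix K K ℂ) G} (hW : HermK W) (h : G) :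
    h ∈ W.coeff.support ↔ h⁻¹ ∈ W.coeff.support := by
  rw [Finsupp.mem_support_iff, Finsupp.mem_support_iff, hW h, Ne, Ne,
    Matrix.conjTranspose_eq_zero]

private theorem V3b1_mul {Z W : MonoidAlgebra (Matrix K K ℂ) G} (hZ : HermK Z) (hW : HermK W)
    (w : G) : (Z * W).coeff w⁻¹ = ((W * Z).coeff w).conjTranspose := by
  rw [MonoidAlgebra.coeff_mul_apply_right, MonoidAlgebra.coeff_mul_apply_left, Finsupp.sum,
    Finsupp.sum, Matrix.conjTranspose_sum]
  refine Finset.sum_equiv (Equiv.inv G) (fun h => V3b1_supp hW h) fun h _ => ?_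
  rw [Matrix.conjTranspose_mul, Equiv.inv_apply, inv_inv, ← hW, inv_inv, ← mul_inv_rev, hZ]

private theorem V3b1_one : HermK (1 : MonoidAlgebra (Matrix K K ℂ) G) := by
  classical
  intro w
  rw [MonoidAlgebra.one_def, MonoidAlgebra.coeff_single, Finsupp.single_apply,
    Finsupp.single_apply]
  by_cases h : 1 = w
  · rw [if_pos h, if_pos (by rw [← h, inv_one]), Matrix.conjTranspose_one]
  · rw [if_neg h, if_neg, Matrix.conjTranspose_zero]
    intro h1
    exact h (inv_eq_one.1 h1.symm).symm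

theorem V3b1_pow {T : MonoidAlgebra (Matrix K K ℂ) G} (hT : HermK T) (C : ℝ) (j : ℕ) :
    HermK ((T + MonoidAlgebra.single 1 ((C : ℂ) • 1)) ^ j) := by
  classical
  have hZ : HermK (T + MonoidAlgebra.single 1 ((C : ℂ) • 1)) := by
    intro w
    rw [MonoidAlgebra.coeff_add, MonoidAlgebra.coeff_single, Finsupp.add_apply, Finsupp.add_apply,
      Matrix.conjTranspose_add, hT w, Finsupp.single_apply, Finsupp.single_apply]
    congr 1
    by_cases h : 1 = w
    · rw [if_pos h, if_pos (by rw [← h, inv_one]), Matrix.conjTranspose_smul,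
        Matrix.conjTranspose_one]
      congr 1
      exact (Complex.conj_ofReal C).symm
    · rw [if_neg h, if_neg, Matrix.conjTranspose_zero]
      intro h1
      exact h (inv_eq_one.1 h1.symm).symm
  induction j with
  | zero =>
    rw [pow_zero]
    exact V3b1_one
  | succ j ih =>
    intro w
    rw [pow_succ, V3b1_mul ih hZ, ← pow_succ', pow_succ]

theorem V3b1_trace {T y : MonoidAlgebra (Matrix K K ℂ) G} (hT : NegK T) (hy : HermK y) :
    (Matrix.trace ((y * T * y).coeff 1)).re ≤ 0 := by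
  have h1 : (y * T * y).coeff 1 = ∑ g ∈ y.coeff.support, ∑ h ∈ y.coeff.support,
      (y.coeff g).conjTranspose * T.coeff (g * h⁻¹) * y.coeff h := by
    rw [MonoidAlgebra.coeff_mul_apply_right, Finsupp.sum, Finset.sum_comm]
    refine Finset.sum_congr rfl fun h _ => ?_
    rw [MonoidAlgebra.coeff_mul_apply_left, Finsupp.sum, ← Finset.sum_mul]
    congr 1
    refine Finset.sum_equiv (Equiv.inv G) (fun g => V3b1_supp hy g) fun g _ => ?_
    rw [Equiv.inv_apply, ← hy, inv_inv, one_mul]
  have h2 : Matrix.trace ((y * T * y).coeff 1) = ∑ p, ∑ g ∈ y.coeff.support,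
      ∑ h ∈ y.coeff.support, ∑ q, ∑ r,
        star (y.coeff g q p) * kerM T (q, g) (r, h) * y.coeff h r p := by
    rw [h1, Matrix.trace]
    refine Finset.sum_congr rfl fun p _ => ?_
    rw [Matrix.diag_apply, Matrix.sum_apply]
    refine Finset.sum_congr rfl fun g _ => ?_
    rw [Matrix.sum_apply]
    refine Finset.sum_congr rfl fun h _ => ?_
    rw [Matrix.mul_apply]
    rw [Finset.sum_comm]
    refine Finset.sum_congr rfl fun r _ => ?_
    rw [Matrix.mul_apply, Finset.sum_mul]
    rfl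
  rw [h2, Complex.re_sum]
  refine Finset.sum_nonpos fun p _ => ?_
  exact hT y.coeff.support fun x => y.coeff x.2 x.1 p

end P095F
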