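import Vale.Agent.Lib.P095F.V2a
import Vale.Agent.Lib.P101.OZBasic

/-!
# P095F, part V, module V4a: the dimension drop comparison, algebraic part

`h = ψ(1)`, `0 ≤ h ≤ 1` (`1 - h = star r0 * r0`), `p = ψ(e_00)` (`star p = p`; `h` commutes with the range of `ψ`,
`OZ.one_mul_comm`), `z = p * p = h * p` (`OZ.map_mul`).
`u i = ψ(e_i0)`: `star (u i) * u k = ψ(e_0i) ψ(e_k0) = if i = k then z else 0`.
`w i = g(h) ψ(e_0i)` for `i < q` (`g : ℝ → ℝ` continuous on `[0,1]`, `g(t)² = t / (t⁴ + κ)`, `cfc`), `w q = r0`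
(index `Fin (q + 1)`: `Fin.lastCases` / `Fin.snoc`).
`star (w q) * z * w q = star r0 * r0 = 1 - h` (`p * r0 = r0`), and for `i < q`:
`star (w i) * z * w i = g(h)² ψ(e_i0) h ψ(e_00) ψ(e_0i) = g(h)² h³ ψ(e_ii)`, so
`∑_j star (w j) * z * w j = g(h)² h⁴ + 1 - h = 1 - err`, `err = (h - g(h)² h⁴) = κ h / (h⁴ + κ)`,
`0 ≤ err` and `‖err‖ ≤ sup_{[0,1]} κ t / (t⁴ + κ) ≤ √(√κ)` (or any bound tending to `0` with `κ`: for `t ≤ s` the
quotient is `≤ s`, for `t ≥ s` it is `≤ κ / s⁴`), which is as small as we want.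
`r = ∑_{i,j} u i * j(B i j) * w j`.  Since `j(A)` commutes with `u i`, `z` (and with their adjoints),
`star r * j f * r = ∑_{s,t} star (w s) * z * (∑_i j (star (B i s) * f * B i t)) * w t`.
Put `E s t = ∑_i star (B i s) * f * B i t - if s = t then a else 0` and `c s = p * w s` (`z = p * p`, and `p` commutes with
`j(A)`): `star r * j f * r = ∑_s star (c s) * j a * c s + ∑_{s,t} star (c s) * j (E s t) * c t`; the first sum is
`j a * ∑ star (c s) c s = j a * (1 - err)` (`j a` commutes with `c s`: `w i`, `r0`).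
The second sum `Σ` : from `PosM (ε ± E)`, `ε - E = ∑_l star (D l s) * D l t`:
`ε ∑ star (c s) c s - Σ = ∑_l star (∑_s j (D l s) * c s) * (∑ ...) ≥ 0`, the same with `+`; so
`-ε ≤ Σ ≤ ε` (`∑ star (c s) c s = 1 - err ≤ 1`), `‖Σ‖ ≤ ε`.
Total: `‖star r * j f * r - j a‖ ≤ ε + ‖a‖ ‖err‖ ≤ ε + δ`.
(Order: spectral order as local instance inside the proof.)
-/

open scoped Topology

namespace P095F

open P101

universe u v

variable {A : Type u} [CStarAlgebra A]

/-- the scalar function: `κ t / (t⁴ + κ)` is uniformly small on `[0, 1]` -/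
theorem V4a_scalar {δ : ℝ} (hδ : 0 < δ) : ∃ κ : ℝ, 0 < κ ∧ ∀ t : ℝ, 0 ≤ t → t ≤ 1 →
    κ * t / (t ^ 4 + κ) ≤ δ := by
  refine ⟨δ ^ 4, by positivity, fun t h0 _ => ?_⟩
  have hd : 0 < t ^ 4 + δ ^ 4 := by positivity
  rw [div_le_iff₀ hd]
  rcases le_total t δ with h | h
  · have h1 : δ ^ 4 * t ≤ δ ^ 4 * δ := mul_le_mul_of_nonneg_left h (by positivity)
    have h2 : 0 ≤ δ * t ^ 4 := by positivity
    linarith
  · have h1 : δ ^ 3 ≤ t ^ 3 := pow_le_pow_left₀ hδ.le h 3
    have h2 : δ * t * δ ^ 3 ≤ δ * t * t ^ 3 := mul_le_mul_of_nonneg_left h1 (by positivity)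
    have h3 : 0 ≤ δ * δ ^ 4 := by positivity
    nlinarith

/-- the scalar function `g` -/
noncomputable def V4a_g (κ t : ℝ) : ℝ := Real.sqrt (t / (t ^ 4 + κ))

theorem V4a_g_cont {κ : ℝ} (hκ : 0 < κ) : Continuous (V4a_g κ) := by
  unfold V4a_g
  refine Real.continuous_sqrt.comp (continuous_id.div (by fun_prop) fun t => ?_)
  positivity

theorem V4a_g_eq {κ t : ℝ} (hκ : 0 < κ) (ht : 0 ≤ t) :
    t - V4a_g κ t * t * (V4a_g κ t * t) * (t * t) = κ * t / (t ^ 4 + κ) := by
  have h1 : V4a_g κ t * V4a_g κ t = t / (t ^ 4 + κ) := by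
    unfold V4a_g
    exact Real.mul_self_sqrt (by positivity)
  have h2 : V4a_g κ t * t * (V4a_g κ t * t) * (t * t) =
      (V4a_g κ t * V4a_g κ t) * t ^ 4 := by ring
  rw [h2, h1]
  have h3 : t ^ 4 + κ ≠ 0 := by positivity
  field_simp
  ring

/-- the functional calculus identity -/
theorem V4a_cfc {U : Type v} [CStarAlgebra U] {h : U} (hsa : IsSelfAdjoint h)
    (hs : ∀ t ∈ spectrum ℝ h, 0 ≤ t) {κ : ℝ} (hκ : 0 < κ) :
    h - cfc (V4a_g κ) h * h * (cfc (V4a_g κ) h * h) * (h * h) =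
      cfc (fun t : ℝ => κ * t / (t ^ 4 + κ)) h := by
  have hg : Continuous (V4a_g κ) := V4a_g_cont hκ
  have hid : cfc (fun t : ℝ => t) h = h := cfc_id' ℝ h hsa
  have e1 : cfc (V4a_g κ) h * h = cfc (fun t : ℝ => V4a_g κ t * t) h := by
    rw [cfc_mul (V4a_g κ) (fun t : ℝ => t) h hg.continuousOn continuous_id.continuousOn, hid]
  have e2 : h * h = cfc (fun t : ℝ => t * t) h := by
    rw [cfc_mul (fun t : ℝ => t) (fun t : ℝ => t) h continuous_id.continuousOn
      continuous_id.continuousOn, hid]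
  have c1 : Continuous (fun t : ℝ => V4a_g κ t * t) := hg.mul continuous_id
  have c2 : Continuous (fun t : ℝ => t * t) := continuous_id.mul continuous_id
  have e3 : cfc (V4a_g κ) h * h * (cfc (V4a_g κ) h * h) * (h * h) =
      cfc (fun t : ℝ => V4a_g κ t * t * (V4a_g κ t * t) * (t * t)) h := by
    rw [e1, e2, ← cfc_mul (fun t : ℝ => V4a_g κ t * t) (fun t : ℝ => V4a_g κ t * t) h
      c1.continuousOn c1.continuousOn,
      ← cfc_mul (fun t : ℝ => V4a_g κ t * t * (V4a_g κ t * t)) (fun t : ℝ => t * t) h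
      (c1.mul c1).continuousOn c2.continuousOn]
  have c3 : Continuous (fun t : ℝ => V4a_g κ t * t * (V4a_g κ t * t) * (t * t)) :=
    (c1.mul c1).mul c2
  rw [e3]
  have e4 : h - cfc (fun t : ℝ => V4a_g κ t * t * (V4a_g κ t * t) * (t * t)) h =
      cfc (fun t : ℝ => t - V4a_g κ t * t * (V4a_g κ t * t) * (t * t)) h := by
    rw [cfc_sub (fun t : ℝ => t) (fun t : ℝ => V4a_g κ t * t * (V4a_g κ t * t) * (t * t)) h
      continuous_id.continuousOn c3.continuousOn, hid]
  rw [e4]
  exact cfc_congr fun t ht => V4a_g_eq hκ (hs t ht)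

/-- the elements `c s = p * w s` -/
theorem V4a_elts {U : Type v} [CStarAlgebra U] {q : ℕ} [NeZero q] (ψ : OZ (Fin q) U) (r0 : U)
    (h1 : star r0 * r0 = 1 - ψ.map 1) (h2 : ψ.map (Matrix.single 0 0 1) * r0 = r0)
    {δ : ℝ} (hδ : 0 < δ) :
    ∃ w : Fin (q + 1) → U,
      (∀ y : U, Commute y r0 → (∀ m, Commute y (ψ.map m)) → ∀ s, Commute y (w s)) ∧
      ∃ err : U, (∃ c, err = star c * c) ∧ ‖err‖ ≤ δ ∧
        ∑ s, star (ψ.map (Matrix.single 0 0 1) * w s) * (ψ.map (Matrix.single 0 0 1) * w s) =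
          1 - err := by
  let _ := CStarAlgebra.spectralOrder U
  have := CStarAlgebra.spectralOrderedRing U
  obtain ⟨κ, hκ, hκs⟩ := V4a_scalar hδ
  obtain ⟨h, hh⟩ : ∃ h : U, h = ψ.map 1 := ⟨_, rfl⟩
  have hsa : IsSelfAdjoint h := by
    rw [hh]
    exact ψ.one_isSelfAdjoint
  have h0 : 0 ≤ h := by
    rw [hh]
    exact ψ.one_nonneg
  have h1' : h ≤ 1 := by
    have h3 : 0 ≤ 1 - h := by
      rw [hh, ← h1]
      exact star_mul_self_nonneg r0
    exact sub_nonneg.1 h3
  have hs0 : ∀ t ∈ spectrum ℝ h, 0 ≤ t := fun t ht => spectrum_nonneg_of_nonneg h0 ht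
  have hs1 : ∀ t ∈ spectrum ℝ h, t ≤ 1 := by
    refine (le_algebraMap_iff_spectrum_le (r := (1 : ℝ)) (a := h) hsa).1 ?_
    rw [map_one]
    exact h1'
  have hcm : ∀ m, Commute h (ψ.map m) := fun m => by
    rw [hh]
    exact ψ.one_mul_comm m
  obtain ⟨G, hG⟩ : ∃ G : U, G = cfc (V4a_g κ) h := ⟨_, rfl⟩
  have hGsa : IsSelfAdjoint G := by
    rw [hG]
    exact cfc_predicate (V4a_g κ) h
  have hGy : ∀ y, Commute h y → Commute G y := fun y hy => by
    rw [hG]
    exact hy.cfc_real (V4a_g κ)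
  refine ⟨Fin.snoc (α := fun _ => U) (fun i : Fin q => G * ψ.map (Matrix.single 0 i 1)) r0,
    fun y hy hym s => ?_, cfc (fun t : ℝ => κ * t / (t ^ 4 + κ)) h, ?_, ?_, ?_⟩
  · refine Fin.lastCases ?_ (fun i => ?_) s
    · rw [Fin.snoc_last]
      exact hy
    · rw [Fin.snoc_castSucc]
      refine Commute.mul_right ?_ (hym _)
      exact (hGy y (by
        rw [hh]
        exact (hym 1).symm)).symm
  · exact CStarAlgebra.nonneg_iff_eq_star_mul_self.1 (cfc_nonneg fun t ht => by
      have := hs0 t ht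
      positivity)
  · refine norm_cfc_le hδ.le fun t ht => ?_
    have h3 := hs0 t ht
    rw [Real.norm_of_nonneg (by positivity)]
    exact hκs t h3 (hs1 t ht)
  · rw [Fin.sum_univ_castSucc]
    simp only [Fin.snoc_castSucc, Fin.snoc_last]
    rw [h2, h1, ← hh, ← V4a_cfc hsa hs0 hκ, ← hG]
    have key : ∀ i : Fin q, star (ψ.map (Matrix.single 0 0 1) *
        (G * ψ.map (Matrix.single 0 i 1))) * (ψ.map (Matrix.single 0 0 1) *
        (G * ψ.map (Matrix.single 0 i 1))) = G * h * (G * h) * h * ψ.map (Matrix.single i i 1) := by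
      intro i
      have k1 : ψ.map (Matrix.single 0 0 1) * (G * ψ.map (Matrix.single 0 i 1)) =
          G * h * ψ.map (Matrix.single 0 i 1) := by
        rw [← mul_assoc, ← (hGy _ (hcm (Matrix.single 0 0 1))).eq, mul_assoc, ψ.map_mul,
          Matrix.single_mul_single_same, mul_one, ← hh, mul_assoc]
      have k2 : star (ψ.map (Matrix.single 0 i 1)) = ψ.map (Matrix.single i 0 1) := by
        rw [← ψ.map_star]
        simp [Matrix.star_eq_conjTranspose]
      have k3 : Commute (G * h) (ψ.map (Matrix.single i 0 1)) :=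
        Commute.mul_left (hGy _ (hcm _)) (hcm _)
      have k4 : Commute G h := hGy h (Commute.refl h)
      have k5 : star (G * h) = G * h := by
        rw [star_mul, hsa.star_eq, hGsa.star_eq, k4.eq]
      have k6 : ψ.map (Matrix.single i 0 1) * ψ.map (Matrix.single 0 i 1) =
          h * ψ.map (Matrix.single i i 1) := by
        rw [ψ.map_mul, Matrix.single_mul_single_same, mul_one, ← hh]
      rw [k1, star_mul, k2, k5, ← k3.eq]
      calc G * h * ψ.map (Matrix.single i 0 1) * (G * h * ψ.map (Matrix.single 0 i 1))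
          = G * h * (ψ.map (Matrix.single i 0 1) * (G * h)) * ψ.map (Matrix.single 0 i 1) := by
            simp only [mul_assoc]
        _ = G * h * (G * h * ψ.map (Matrix.single i 0 1)) * ψ.map (Matrix.single 0 i 1) := by
            rw [← k3.eq]
        _ = G * h * (G * h) * (ψ.map (Matrix.single i 0 1) * ψ.map (Matrix.single 0 i 1)) := by
            simp only [mul_assoc]
        _ = G * h * (G * h) * h * ψ.map (Matrix.single i i 1) := by
            rw [k6]
            simp only [mul_assoc]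
    rw [Finset.sum_congr rfl fun i _ => key i, ← Finset.mul_sum, ← ψ.one_eq_sum, ← hh,
      mul_assoc (G * h * (G * h)) h h]
    abel

theorem V4a_norm {U : Type v} [CStarAlgebra U] {x : U} (hx : IsSelfAdjoint x) {ε : ℝ}
    (hε : 0 ≤ ε) (h1 : ∃ c, algebraMap ℝ U ε + x = star c * c)
    (h2 : ∃ c, algebraMap ℝ U ε - x = star c * c) : ‖x‖ ≤ ε := by
  let _ := CStarAlgebra.spectralOrder U
  have := CStarAlgebra.spectralOrderedRing U
  have h3 : x ≤ algebraMap ℝ U ε := by
    obtain ⟨c, hc⟩ := h2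
    rw [← sub_nonneg, hc]
    exact star_mul_self_nonneg c
  have h4 : algebraMap ℝ U (-ε) ≤ x := by
    obtain ⟨c, hc⟩ := h1
    rw [← sub_nonneg, map_neg, sub_neg_eq_add, add_comm, hc]
    exact star_mul_self_nonneg c
  have h5 := (le_algebraMap_iff_spectrum_le (r := ε) (a := x) hx).1 h3
  have h6 := (algebraMap_le_iff_le_spectrum (r := -ε) (a := x) hx).1 h4
  have h7 : ‖cfc (fun t : ℝ => t) x‖ ≤ ε := norm_cfc_le hε fun t ht => by
    rw [Real.norm_eq_abs, abs_le]
    exact ⟨h6 t ht, h5 t ht⟩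
  rwa [cfc_id' ℝ x hx] at h7

theorem V4a_posM_map {U : Type v} [CStarAlgebra U] (j : A →⋆ₐ[ℂ] U) {S : Type} {T : S → S → A}
    (h : PosM T) : PosM (fun s t => j (T s t)) := by
  obtain ⟨N, D, hD⟩ := h
  refine ⟨N, fun l s => j (D l s), fun s t => ?_⟩
  dsimp only
  rw [hD, map_sum]
  refine Finset.sum_congr rfl fun l _ => ?_
  rw [map_mul, map_star]

theorem V4a_nonneg_add {U : Type v} [CStarAlgebra U] {x y : U} (hx : ∃ c, x = star c * c)
    (hy : ∃ c, y = star c * c) : ∃ c, x + y = star c * c := by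
  let _ := CStarAlgebra.spectralOrder U
  have := CStarAlgebra.spectralOrderedRing U
  exact CStarAlgebra.nonneg_iff_eq_star_mul_self.1 (add_nonneg
    (CStarAlgebra.nonneg_iff_eq_star_mul_self.2 hx) (CStarAlgebra.nonneg_iff_eq_star_mul_self.2 hy))

theorem V4a_expand {U : Type v} [CStarAlgebra U] (j : A →⋆ₐ[ℂ] U) {q : ℕ} [NeZero q]
    (ψ : OZ (Fin q) U) (hψ : ∀ a m, Commute (j a) (ψ.map m)) (f : A)
    (B : Fin q → Fin (q + 1) → A) (w : Fin (q + 1) → U) :
    star (∑ i, ψ.map (Matrix.single i 0 1) * ∑ s, j (B i s) * w s) * j f *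
      (∑ i, ψ.map (Matrix.single i 0 1) * ∑ s, j (B i s) * w s) =
    ∑ s, ∑ t, star (ψ.map (Matrix.single 0 0 1) * w s) *
      j (∑ i, star (B i s) * f * B i t) * (ψ.map (Matrix.single 0 0 1) * w t) := by
  obtain ⟨v, hv⟩ : ∃ v : Fin q → U, ∀ i, v i = ∑ s, j (B i s) * w s := ⟨_, fun _ => rfl⟩
  obtain ⟨p, hp⟩ : ∃ p : U, p = ψ.map (Matrix.single 0 0 1) := ⟨_, rfl⟩
  simp only [← hv]
  rw [← hp]
  have hps : star p = p := by
    rw [hp, ← ψ.map_star]
    simp [Matrix.star_eq_conjTranspose]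
  have hstar : ∀ i : Fin q, star (ψ.map (Matrix.single i 0 1)) = ψ.map (Matrix.single 0 i 1) := by
    intro i
    rw [← ψ.map_star]
    simp [Matrix.star_eq_conjTranspose]
  have huu : ∀ i k : Fin q, ψ.map (Matrix.single 0 i 1) * ψ.map (Matrix.single k 0 1) =
      if i = k then p * p else 0 := by
    intro i k
    have e1 : p * p = ψ.map 1 * ψ.map (Matrix.single 0 0 1) := by
      rw [hp, ψ.map_mul, Matrix.single_mul_single_same, mul_one]
    split_ifs with h
    · subst h
      rw [ψ.map_mul, Matrix.single_mul_single_same, mul_one, e1]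
    · rw [ψ.map_mul, Matrix.single_mul_single_of_ne (h := h), map_zero, mul_zero]
  have h1 : star (∑ i, ψ.map (Matrix.single i 0 1) * v i) * j f *
      (∑ i, ψ.map (Matrix.single i 0 1) * v i) = ∑ i, star (p * v i) * j f * (p * v i) := by
    rw [star_sum, Finset.sum_mul, Finset.sum_mul]
    refine Finset.sum_congr rfl fun i _ => ?_
    rw [Finset.mul_sum, Finset.sum_eq_single i]
    · rw [star_mul, hstar, star_mul, hps]
      have e1 : star (v i) * ψ.map (Matrix.single 0 i 1) * j f *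
          (ψ.map (Matrix.single i 0 1) * v i) = star (v i) * ((ψ.map (Matrix.single 0 i 1) * j f) *
            ψ.map (Matrix.single i 0 1)) * v i := by
        simp only [mul_assoc]
      rw [e1, ← (hψ f (Matrix.single 0 i 1)).eq, mul_assoc (j f), huu, if_pos rfl, ← mul_assoc (j f),
        hp, (hψ f (Matrix.single 0 0 1)).eq]
      simp only [mul_assoc]
    · intro k _ hk
      rw [star_mul, hstar]
      have e1 : star (v i) * ψ.map (Matrix.single 0 i 1) * j f *
          (ψ.map (Matrix.single k 0 1) * v k) = star (v i) * ((ψ.map (Matrix.single 0 i 1) * j f) *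
            ψ.map (Matrix.single k 0 1)) * v k := by
        simp only [mul_assoc]
      rw [e1, ← (hψ f (Matrix.single 0 i 1)).eq, mul_assoc (j f), huu, if_neg (Ne.symm hk), mul_zero,
        mul_zero, zero_mul]
    · intro h
      exact absurd (Finset.mem_univ i) h
  rw [h1]
  have h2 : ∀ i, p * v i = ∑ s, j (B i s) * (p * w s) := by
    intro i
    rw [hv, Finset.mul_sum]
    refine Finset.sum_congr rfl fun s _ => ?_
    rw [← mul_assoc, ← mul_assoc, hp, (hψ (B i s) (Matrix.single 0 0 1)).eq]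
  have h3 : ∀ i, star (p * v i) * j f * (p * v i) = ∑ s, ∑ t, star (p * w s) *
      j (star (B i s) * f * B i t) * (p * w t) := by
    intro i
    rw [h2 i, star_sum, Finset.sum_mul, Finset.sum_mul]
    refine Finset.sum_congr rfl fun s _ => ?_
    rw [Finset.mul_sum]
    refine Finset.sum_congr rfl fun t _ => ?_
    rw [star_mul, map_mul, map_mul, map_star]
    simp only [mul_assoc]
  rw [Finset.sum_congr rfl fun i _ => h3 i, Finset.sum_comm]
  refine Finset.sum_congr rfl fun s _ => ?_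
  rw [Finset.sum_comm]
  refine Finset.sum_congr rfl fun t _ => ?_
  rw [map_sum, Finset.mul_sum, Finset.sum_mul]

theorem V4a_main {U : Type v} [CStarAlgebra U] (j : A →⋆ₐ[ℂ] U) {q : ℕ} [NeZero q]
    (ψ : OZ (Fin q) U) (r0 : U) (h1 : star r0 * r0 = 1 - ψ.map 1)
    (h2 : ψ.map (Matrix.single 0 0 1) * r0 = r0) (hψ : ∀ a m, Commute (j a) (ψ.map m))
    (hr0 : ∀ a, Commute (j a) r0) (a f : A) (B : Fin q → Fin (q + 1) → A) {ε : ℝ} (hε : 0 ≤ ε)
    (hp : PosM (fun s t => (if s = t then (ε : ℂ) • (1 : A) else 0) +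
      ((∑ i, star (B i s) * f * B i t) - if s = t then a else 0)))
    (hm : PosM (fun s t => (if s = t then (ε : ℂ) • (1 : A) else 0) -
      ((∑ i, star (B i s) * f * B i t) - if s = t then a else 0)))
    {δ : ℝ} (hδ : 0 < δ) :
    ∃ r : U, ‖star r * j f * r - j a‖ ≤ ε + δ := by
  have hna : 0 < ‖a‖ + 1 := by positivity
  obtain ⟨w, hw, err, herr, hne, hsum⟩ := V4a_elts ψ r0 h1 h2 (div_pos hδ hna)
  refine ⟨∑ i, ψ.map (Matrix.single i 0 1) * ∑ s, j (B i s) * w s, ?_⟩
  rw [V4a_expand j ψ hψ f B w]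
  obtain ⟨p, hpd⟩ : ∃ p : U, p = ψ.map (Matrix.single 0 0 1) := ⟨_, rfl⟩
  rw [← hpd] at hsum ⊢
  obtain ⟨c, hc⟩ : ∃ c : Fin (q + 1) → U, ∀ s, c s = p * w s := ⟨_, fun _ => rfl⟩
  simp only [← hc] at hsum ⊢
  obtain ⟨E, hE⟩ : ∃ E : Fin (q + 1) → Fin (q + 1) → A, ∀ s t, E s t =
    (∑ i, star (B i s) * f * B i t) - if s = t then a else 0 := ⟨_, fun _ _ => rfl⟩
  simp only [← hE] at hp hm
  have hca : ∀ b s, Commute (j b) (c s) := fun b s => by
    rw [hc, hpd]
    exact Commute.mul_right (hψ b _) (hw (j b) (hr0 b) (hψ b) s)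
  have hdiag : ∀ y : U, ∑ s, ∑ t, star (c s) * (if s = t then y else 0) * c t =
      ∑ s, star (c s) * y * c s := by
    intro y
    refine Finset.sum_congr rfl fun s _ => ?_
    rw [Finset.sum_eq_single s]
    · rw [if_pos rfl]
    · intro t _ ht
      rw [if_neg (Ne.symm ht), mul_zero, zero_mul]
    · intro h
      exact absurd (Finset.mem_univ s) h
  obtain ⟨X, hX⟩ : ∃ X : U, X = ∑ s, ∑ t, star (c s) * j (E s t) * c t := ⟨_, rfl⟩
  have hmain : ∑ s, ∑ t, star (c s) * j (∑ i, star (B i s) * f * B i t) * c t =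
      X + (1 - err) * j a := by
    have e1 : ∑ s, star (c s) * j a * c s = (1 - err) * j a := by
      rw [← hsum, Finset.sum_mul]
      refine Finset.sum_congr rfl fun s _ => ?_
      rw [mul_assoc, (hca a s).eq, ← mul_assoc]
    rw [← e1, ← hdiag, hX, ← Finset.sum_add_distrib]
    refine Finset.sum_congr rfl fun s _ => ?_
    rw [← Finset.sum_add_distrib]
    refine Finset.sum_congr rfl fun t _ => ?_
    have e2 : j (∑ i, star (B i s) * f * B i t) = j (E s t) + if s = t then j a else 0 := by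
      rw [hE, map_sub]
      split_ifs
      · rw [sub_add_cancel]
      · rw [map_zero, sub_zero, add_zero]
    rw [e2, mul_add, add_mul]
  have hεd : ∑ s, ∑ t, star (c s) * j (if s = t then (ε : ℂ) • (1 : A) else 0) * c t =
      algebraMap ℝ U ε * (1 - err) := by
    have e1 : ∀ s t : Fin (q + 1), j (if s = t then (ε : ℂ) • (1 : A) else 0) =
        if s = t then algebraMap ℝ U ε else 0 := by
      intro s t
      split_ifs
      · rw [map_smul, map_one, real_smul_one]
      · rw [map_zero]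
    simp only [e1]
    rw [hdiag, ← hsum, Finset.mul_sum]
    refine Finset.sum_congr rfl fun s _ => ?_
    rw [← Algebra.commutes, mul_assoc]
  have herrP : ∃ c', algebraMap ℝ U ε * err = star c' * c' := by
    obtain ⟨c0, hc0⟩ := herr
    refine ⟨algebraMap ℝ U (Real.sqrt ε) * c0, ?_⟩
    have e1 : star (algebraMap ℝ U (Real.sqrt ε)) = algebraMap ℝ U (Real.sqrt ε) := by
      rw [← algebraMap_star_comm]
      simp
    rw [hc0, star_mul, e1]
    have e2 : algebraMap ℝ U ε = algebraMap ℝ U (Real.sqrt ε) * algebraMap ℝ U (Real.sqrt ε) := by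
      rw [← map_mul, Real.mul_self_sqrt hε]
    rw [e2]
    have e3 : star c0 * algebraMap ℝ U (Real.sqrt ε) = algebraMap ℝ U (Real.sqrt ε) * star c0 :=
      (Algebra.commutes _ _).symm
    have e4 : algebraMap ℝ U (Real.sqrt ε) * (algebraMap ℝ U (Real.sqrt ε) * c0) =
      algebraMap ℝ U (Real.sqrt ε) * algebraMap ℝ U (Real.sqrt ε) * c0 := by rw [mul_assoc]
    calc algebraMap ℝ U (Real.sqrt ε) * algebraMap ℝ U (Real.sqrt ε) * (star c0 * c0)
        = algebraMap ℝ U (Real.sqrt ε) * (algebraMap ℝ U (Real.sqrt ε) * star c0) * c0 := by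
          simp only [mul_assoc]
      _ = algebraMap ℝ U (Real.sqrt ε) * (star c0 * algebraMap ℝ U (Real.sqrt ε)) * c0 := by
          rw [e3]
      _ = (algebraMap ℝ U (Real.sqrt ε) * star c0) * algebraMap ℝ U (Real.sqrt ε) * c0 := by
          simp only [mul_assoc]
      _ = (star c0 * algebraMap ℝ U (Real.sqrt ε)) * (algebraMap ℝ U (Real.sqrt ε) * c0) := by
          rw [← e3]
          simp only [mul_assoc]
  have hP : ∃ c', algebraMap ℝ U ε * (1 - err) + X = star c' * c' := by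
    obtain ⟨c', hc'⟩ := posM_form (V4a_posM_map j hp) c
    refine ⟨c', ?_⟩
    rw [← hc', ← hεd, hX, ← Finset.sum_add_distrib]
    refine Finset.sum_congr rfl fun s _ => ?_
    rw [← Finset.sum_add_distrib]
    refine Finset.sum_congr rfl fun t _ => ?_
    rw [map_add, mul_add, add_mul]
  have hM : ∃ c', algebraMap ℝ U ε * (1 - err) - X = star c' * c' := by
    obtain ⟨c', hc'⟩ := posM_form (V4a_posM_map j hm) c
    refine ⟨c', ?_⟩
    rw [← hc', ← hεd, hX, ← Finset.sum_sub_distrib]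
    refine Finset.sum_congr rfl fun s _ => ?_
    rw [← Finset.sum_sub_distrib]
    refine Finset.sum_congr rfl fun t _ => ?_
    rw [map_sub, mul_sub, sub_mul]
  have hsplit : algebraMap ℝ U ε * (1 - err) + algebraMap ℝ U ε * err = algebraMap ℝ U ε := by
    rw [← mul_add, sub_add_cancel, mul_one]
  have hPP : ∃ c', algebraMap ℝ U ε + X = star c' * c' := by
    obtain ⟨c', hc'⟩ := V4a_nonneg_add hP herrP
    refine ⟨c', ?_⟩
    rw [← hc', add_right_comm, hsplit]
  have hMM : ∃ c', algebraMap ℝ U ε - X = star c' * c' := by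
    obtain ⟨c', hc'⟩ := V4a_nonneg_add hM herrP
    refine ⟨c', ?_⟩
    rw [← hc', sub_add_eq_add_sub, hsplit]
  have hXsa : IsSelfAdjoint X := by
    obtain ⟨c', hc'⟩ := hPP
    have e1 : X = star c' * c' - algebraMap ℝ U ε := by
      rw [← hc', add_sub_cancel_left]
    rw [e1]
    refine IsSelfAdjoint.sub (IsSelfAdjoint.star_mul_self c') ?_
    rw [isSelfAdjoint_iff, ← algebraMap_star_comm]
    simp
  have hXn := V4a_norm hXsa hε hPP hMM
  rw [hmain, sub_mul, one_mul]
  have e5 : X + (j a - err * j a) - j a = X - err * j a := by abel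
  rw [e5]
  have e6 : ‖err * j a‖ ≤ δ := by
    have e7 : ‖j a‖ ≤ ‖a‖ := NonUnitalStarAlgHom.norm_apply_le j a
    calc ‖err * j a‖ ≤ ‖err‖ * ‖j a‖ := norm_mul_le _ _
      _ ≤ δ / (‖a‖ + 1) * (‖a‖ + 1) := mul_le_mul hne (by linarith) (norm_nonneg _)
          (div_pos hδ hna).le
      _ = δ := div_mul_cancel₀ _ hna.ne'
  exact (norm_sub_le _ _).trans (add_le_add hXn e6)

end P095F
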